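import Vale.Agent.P217.Deform

/-!
# Universality: lifting a formal group law with the given special fibre
-/

noncomputable section

namespace Vale.Agent.P217

open MvPowerSeries Finsupp

set_option linter.unusedSectionVars false

variable {p : ℕ} [Fact p.Prime] {n : ℕ} {k : Type} [Field k] [CharP k p] [Finite k]
variable {A : Type*} [CommRing A] [Algebra (WittVector p k) A] {π : A →+* k}
  {F : FormalGroup (E0 p n k)} [F.IsComm] {F' : FormalGroup A} [F'.IsComm] {t N : ℕ}

theorem sub_pair {R : Type*} [AddCommGroup R] (a b c : R) : a - c = (a - b) + (b - c) :=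
  (sub_add_sub_cancel a b c).symm

theorem IsBase.exists_limit (hB : IsBase (p := p) π) (f : ℕ → A)
    (h : ∀ s, f (s + 1) - f s ∈ RingHom.ker π ^ s) :
    ∃ L, ∀ s, L - f s ∈ RingHom.ker π ^ s := by
  have := hB.complete
  have hle : ∀ {a b : ℕ}, a ≤ b → f b - f a ∈ RingHom.ker π ^ a := by
    intro a b hab
    induction b, hab using Nat.le_induction with
    | base => simp
    | succ b hab ih =>
      rw [sub_pair (f (b + 1)) (f b) (f a)]
      exact Ideal.add_mem _ (Ideal.pow_le_pow_right hab (h b)) ih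
  obtain ⟨L, hL⟩ := IsPrecomplete.prec (I := RingHom.ker π) (M := A) inferInstance (f := f)
    (fun {a b} hab => by
      rw [SModEq.sub_mem, smul_eq_mul, Ideal.mul_top, ← neg_sub]
      exact (RingHom.ker π ^ a).neg_mem (hle hab))
  refine ⟨L, fun s => ?_⟩
  have := hL s
  rw [SModEq.sub_mem, smul_eq_mul, Ideal.mul_top] at this
  rw [← neg_sub]
  exact Submodule.neg_mem _ this

theorem map_eq_X_of_sub_mem {G : PowerSeries A}
    (h : ∀ D, G - PowerSeries.X ∈ cI (RingHom.ker π) D) :
    PowerSeries.map π G = PowerSeries.X := by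
  have e : MvPowerSeries.map π G = MvPowerSeries.map π PowerSeries.X := mem_cI_ker_iff.mp h
  change PowerSeries.map π G = PowerSeries.map π PowerSeries.X at e
  rwa [PowerSeries.map_X] at e

theorem sub_X_mem_of_map_eq {G : PowerSeries A} (h : PowerSeries.map π G = PowerSeries.X) (D : ℕ) :
    G - PowerSeries.X ∈ cI (RingHom.ker π) D := by
  refine mem_cI_ker_iff.mpr ?_ D
  show PowerSeries.map π G = PowerSeries.map π PowerSeries.X
  rw [h, PowerSeries.map_X]

theorem cc_of_sub_mem {G G' : PowerSeries A} (h : G - G' ∈ cI (⊥ : Ideal A) 1)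
    (h' : PowerSeries.constantCoeff G' = 0) : PowerSeries.constantCoeff G = 0 := by
  have h := (mem_cI_ps.mp h) 0 one_pos
  rwa [Ideal.mem_bot, PowerSeries.coeff_zero_eq_constantCoeff_apply, map_sub, h', sub_zero] at h

theorem le_nu_mul (J j : ℕ) (hj : J * p ^ n ≤ nu p n j) : J ≤ j := by
  have := hj.trans (nu_le (p := p) (n := n) j)
  rw [mul_comm (p ^ n)] at this
  exact Nat.le_of_mul_le_mul_right this (pow_pos (Fact.out : p.Prime).pos _)

variable (F F') in
/-- A solution to precision `M^t`, improved to precision `M^(t+1)` below degree `N`. -/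
structure Approx (π : A →+* k) (t N : ℕ) (α₀ : E0 p n k →ₐ[WittVector p k] A) (G₀ : PowerSeries A)
    (α : E0 p n k →ₐ[WittVector p k] A) (G : PowerSeries A) : Prop where
  cc : PowerSeries.constantCoeff G = 0
  alg : ∀ i, α (X i) - α₀ (X i) ∈ RingHom.ker π ^ t
  ser : ∀ D, G - G₀ ∈ cI (RingHom.ker π ^ t) D
  old : ∀ D, lawDefect F' (F.map α.toRingHom) G ∈ cI (RingHom.ker π ^ t) D
  new : lawDefect F' (F.map α.toRingHom) G ∈ cI (RingHom.ker π ^ (t + 1)) N

variable {α₀ α : E0 p n k →ₐ[WittVector p k] A} {G₀ G : PowerSeries A}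

theorem Approx.map_eq (h : Approx F F' π t N α₀ G₀ α G) (ht : 1 ≤ t)
    (hG₀ : PowerSeries.map π G₀ = PowerSeries.X) : PowerSeries.map π G = PowerSeries.X :=
  map_eq_X_of_sub_mem fun D => by
    rw [sub_pair G G₀ PowerSeries.X]
    exact Ideal.add_mem _ (cI_le (Ideal.pow_le_self (by omega)) (h.ser D))
      (sub_X_mem_of_map_eq hG₀ D)

/-- One correction improves the approximation by one degree. -/
theorem Approx.correct (hB : IsBase (p := p) π)
    (hF' : F'.map π = special p n k F) (ht : 1 ≤ t) (hG₀ : PowerSeries.map π G₀ = PowerSeries.X)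
    (h : Approx F F' π t N α₀ G₀ α G) (hN : 2 ≤ N) {β : E0 p n k →ₐ[WittVector p k] A}
    (ha : ∀ i, β (X i) - α (X i) ∈ RingHom.ker π ^ t) {e : PowerSeries A}
    (he0 : PowerSeries.constantCoeff e = 0) (he : ∀ D, e ∈ cI (RingHom.ker π ^ t) D)
    (hlow : lop F α (fun i => β (X i) - α (X i)) e ∈ cI (RingHom.ker π ^ (t + 1)) N)
    (htop : coeff (xy (lazIdx p N) (N - lazIdx p N)) (lawDefect F' (F.map α.toRingHom) G +
      lop F α (fun i => β (X i) - α (X i)) e) ∈ RingHom.ker π ^ (t + 1)) :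
    Approx F F' π t (N + 1) α₀ G₀ β (adj (F.map β.toRingHom) G e) := by
  have hP : ∀ D, lawDefect F' (F.map β.toRingHom) (adj (F.map β.toRingHom) G e) -
      (lawDefect F' (F.map α.toRingHom) G + lop F α (fun i => β (X i) - α (X i)) e) ∈
      cI (RingHom.ker π ^ (t + 1)) D := fun D => by
    rw [← sub_sub]
    exact perturb hB hF' ht ha h.cc he0 (sub_X_mem_of_map_eq (h.map_eq ht hG₀) D) (he D)
  have hcc := constantCoeff_adj (F.map β.toRingHom) h.cc he0
  have hser : ∀ D, adj (F.map β.toRingHom) G e - G₀ ∈ cI (RingHom.ker π ^ t) D := fun D => by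
    rw [sub_pair _ G G₀]
    exact Ideal.add_mem _ (adj_sub_mem _ h.cc he0 (he D)) (h.ser D)
  have hold : ∀ D, lawDefect F' (F.map β.toRingHom) (adj (F.map β.toRingHom) G e) ∈
      cI (RingHom.ker π ^ t) D := fun D => by
    simpa using Ideal.add_mem _ (cI_le (Ideal.pow_le_pow_right (Nat.le_succ t)) (hP D))
      (Ideal.add_mem _ (h.old D) (lop_mem (F := F) ha (he D)))
  have hnew : lawDefect F' (F.map β.toRingHom) (adj (F.map β.toRingHom) G e) ∈
      cI (RingHom.ker π ^ (t + 1)) N := by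
    simpa using Ideal.add_mem _ (hP N) (Ideal.add_mem _ h.new hlow)
  refine ⟨hcc, fun i => ?_, hser, hold, defect_degree hB hN hcc
    (map_eq_X_of_sub_mem fun D => ?_) (hold _) hnew ?_⟩
  · rw [sub_pair _ (α (X i)) (α₀ (X i))]
    exact Ideal.add_mem _ (ha i) (h.alg i)
  · rw [sub_pair _ G₀ PowerSeries.X]
    exact Ideal.add_mem _ (cI_le (Ideal.pow_le_self (by omega)) (hser D))
      (sub_X_mem_of_map_eq hG₀ D)
  · have hl := lazIdx_lt (p := p) Fact.out hN
    have := Ideal.add_mem _ (hP (N + 1) (xy (lazIdx p N) (N - lazIdx p N))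
      (by rw [degree_xy]; omega)) htop
    rwa [map_sub, sub_add_cancel] at this

theorem Approx.step (hB : IsBase (p := p) π) (hS : IsShape F)
    (hF' : F'.map π = special p n k F) (ht : 1 ≤ t) (hG₀ : PowerSeries.map π G₀ = PowerSeries.X)
    (h : Approx F F' π t N α₀ G₀ α G) :
    ∃ β G', Approx F F' π t (N + 1) α₀ G₀ β G' ∧ (p ^ n ≤ N → β = α) ∧
      ∀ J, J * p ^ n ≤ N → G' - G ∈ cI (⊥ : Ideal A) J := by
  classical
  rcases Nat.lt_or_ge N 2 with hN | hN
  · exact ⟨α, G, ⟨h.cc, h.alg, h.ser, h.old,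
      cI_mono bot_le (by omega) (defect_mem_two F' _ h.cc)⟩, fun _ => rfl, fun _ _ => by simp⟩
  set d := xy (lazIdx p N) (N - lazIdx p N)
  set c := coeff d (lawDefect F' (F.map α.toRingHom) G)
  have hl := lazIdx_lt (p := p) Fact.out hN
  have hc : c ∈ RingHom.ker π ^ t := h.old (N + 1) d (by rw [degree_xy]; omega)
  rcases exists_index (p := p) (n := n) hN with ⟨j₀, hj₀, hnu⟩ | ⟨i₀, hi₀⟩
  · obtain ⟨u, hu⟩ := (isUnit_cob (α := α) hB hS hN hnu).exists_left_inv
    set e : PowerSeries A := PowerSeries.C (-(c * u)) * PowerSeries.X ^ j₀ with he_def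
    have hco : ∀ j, PowerSeries.coeff j e = if j = j₀ then -(c * u) else 0 := fun j => by
      simp only [e, PowerSeries.coeff_C_mul_X_pow]
    have he0 : PowerSeries.constantCoeff e = 0 := by
      rw [← PowerSeries.coeff_zero_eq_constantCoeff_apply, hco, if_neg (by omega)]
    have he : ∀ D, e ∈ cI (RingHom.ker π ^ t) D := fun D => mem_cI_ps.mpr fun j _ => by
      rw [hco]
      split_ifs
      · exact Submodule.neg_mem _ (Ideal.mul_mem_right _ _ hc)
      · exact Submodule.zero_mem _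
    have ha : ∀ i, α (X i) - α (X i) ∈ RingHom.ker π ^ t := fun i => by simp
    have hz : ∀ i : Fin (n - 1), p ^ ((i : ℕ) + 1) < N →
        α (X i) - α (X i) ∈ RingHom.ker π ^ (t + 1) := fun i _ => by simp
    have hlt : ∀ j < N, nu p n j < N → PowerSeries.coeff j e ∈ RingHom.ker π ^ (t + 1) :=
      fun j _ hj => by
        rw [hco, if_neg (by rintro rfl; omega)]
        exact Submodule.zero_mem _
    refine ⟨α, adj (F.map α.toRingHom) G e,
      h.correct hB hF' ht hG₀ hN ha he0 he (lop_low hB hS ha (he N) hlt hz) ?_,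
      fun _ => rfl, fun J hJ => ?_⟩
    · have := lop_top_e (α := α) (a := fun i => α (X i) - α (X i)) hB hS hN hnu ha (he _) hlt hz
      rw [hco, if_pos rfl] at this
      convert this using 1
      rw [map_add]
      linear_combination -(c : A) * hu
    · exact adj_sub_mem _ h.cc he0 (mem_cI_ps.mpr fun j hj => by
        rw [Ideal.mem_bot, hco, if_neg]
        rintro rfl
        have := le_nu_mul (p := p) (n := n) J j (by omega)
        omega)
  · obtain ⟨u, hu⟩ := (isUnit_linPart (A := A) hB hS hi₀).exists_left_inv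
    have hc1 : c * u ∈ RingHom.ker π := Ideal.pow_le_self (by omega) (Ideal.mul_mem_right _ _ hc)
    obtain ⟨β, hβ⟩ := exists_algHom hB (fun i => α (X i) + if i = i₀ then c * u else 0)
      (fun i => Ideal.add_mem _ (algHom_X_mem hB α i) (by split_ifs <;> simp [hc1]))
    have hd : ∀ i, β (X i) - α (X i) = if i = i₀ then c * u else 0 := fun i => by rw [hβ]; ring
    have ha : ∀ i, β (X i) - α (X i) ∈ RingHom.ker π ^ t := fun i => by
      rw [hd]
      split_ifs
      · exact Ideal.mul_mem_right _ _ hc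
      · exact Submodule.zero_mem _
    have he : ∀ D, (0 : PowerSeries A) ∈ cI (RingHom.ker π ^ t) D := fun D => Submodule.zero_mem _
    have hlt : ∀ j < N, nu p n j < N →
        PowerSeries.coeff j (0 : PowerSeries A) ∈ RingHom.ker π ^ (t + 1) := fun j _ _ => by simp
    have hz : ∀ i : Fin (n - 1), p ^ ((i : ℕ) + 1) < N →
        β (X i) - α (X i) ∈ RingHom.ker π ^ (t + 1) := fun i hi => by
      rw [hd, if_neg (by rintro rfl; omega)]
      exact Submodule.zero_mem _
    refine ⟨β, adj (F.map β.toRingHom) G 0,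
      h.correct hB hF' ht hG₀ hN ha (map_zero _) he (lop_low hB hS ha (he N) hlt hz) ?_,
      fun hq => ?_, fun J _ => ?_⟩
    · have := lop_top_a (α := α) (a := fun i => β (X i) - α (X i)) (e := (0 : PowerSeries A))
        hB hS hi₀ ha (he _) hlt hz
      rw [hd, if_pos rfl] at this
      convert this using 1
      rw [map_add]
      linear_combination -(c : A) * hu
    · exfalso
      have := Nat.pow_lt_pow_right (Fact.out : p.Prime).one_lt
        (show (i₀ : ℕ) + 1 < n by omega)
      omega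
    · rw [adj_zero _ h.cc, sub_self]
      exact Submodule.zero_mem _

/-- A solution to precision `M^t` can be improved to precision `M^(t+1)`. -/
theorem exists_improve (hB : IsBase (p := p) π) (hS : IsShape F)
    (hF' : F'.map π = special p n k F) (ht : 1 ≤ t) (hG₀ : PowerSeries.map π G₀ = PowerSeries.X)
    (hcc : PowerSeries.constantCoeff G₀ = 0)
    (h₀ : ∀ D, lawDefect F' (F.map α₀.toRingHom) G₀ ∈ cI (RingHom.ker π ^ t) D) :
    ∃ (β : E0 p n k →ₐ[WittVector p k] A) (G : PowerSeries A),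
      (∀ i, β (X i) - α₀ (X i) ∈ RingHom.ker π ^ t) ∧
      (∀ D, G - G₀ ∈ cI (RingHom.ker π ^ t) D) ∧ PowerSeries.constantCoeff G = 0 ∧
      ∀ D, lawDefect F' (F.map β.toRingHom) G ∈ cI (RingHom.ker π ^ (t + 1)) D := by
  have h0 : Approx F F' π t 0 α₀ G₀ α₀ G₀ :=
    ⟨hcc, fun i => by simp, fun D => by simp, h₀, mem_cI_zero⟩
  choose b g hg hb hJ using
    fun N β G (h : Approx F F' π t N α₀ G₀ β G) => h.step hB hS hF' ht hG₀
  let σ : ∀ N, {x : (E0 p n k →ₐ[WittVector p k] A) × PowerSeries A //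
      Approx F F' π t N α₀ G₀ x.1 x.2} :=
    fun N => Nat.rec ⟨(α₀, G₀), h0⟩ (fun N x => ⟨(b N _ _ x.2, g N _ _ x.2), hg N _ _ x.2⟩) N
  set q := p ^ n
  have hq : 0 < q := pow_pos (Fact.out : p.Prime).pos _
  have hα : ∀ N, q ≤ N → (σ N).1.1 = (σ q).1.1 := by
    intro N hN
    induction N, hN using Nat.le_induction with
    | base => rfl
    | succ N hN ih => exact (hb N _ _ (σ N).2 hN).trans ih
  have hGs : ∀ J N N', J * q ≤ N → N ≤ N' → (σ N').1.2 - (σ N).1.2 ∈ cI (⊥ : Ideal A) J := by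
    intro J N N' h1 h2
    induction N', h2 using Nat.le_induction with
    | base => simp
    | succ N' h2 ih =>
      rw [sub_pair _ (σ N').1.2]
      exact Ideal.add_mem _ (hJ N' _ _ (σ N').2 J (by omega)) ih
  let G : PowerSeries A := PowerSeries.mk fun j => PowerSeries.coeff j (σ ((j + 1) * q)).1.2
  have hlim : ∀ J N, J * q ≤ N → G - (σ N).1.2 ∈ cI (⊥ : Ideal A) J := fun J N hN =>
    mem_cI_ps.mpr fun j hj => by
      have hle : (j + 1) * q ≤ N := (Nat.mul_le_mul_right q hj).trans hN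
      have := (mem_cI_ps.mp (hGs (j + 1) ((j + 1) * q) N le_rfl hle)) j (by omega)
      simp only [map_sub, G, PowerSeries.coeff_mk, Ideal.mem_bot, sub_eq_zero] at this ⊢
      exact this.symm
  have hG : PowerSeries.constantCoeff G = 0 := cc_of_sub_mem (hlim 1 q (by omega)) (σ q).2.cc
  refine ⟨(σ q).1.1, G, (σ q).2.alg, fun D => ?_, hG, fun D => ?_⟩
  · rw [sub_pair _ (σ (D * q)).1.2]
    exact Ideal.add_mem _ (cI_le bot_le (hlim D _ le_rfl)) ((σ (D * q)).2.ser D)
  · set N := (D + 1) * q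
    have hqN : q ≤ N := Nat.le_mul_of_pos_left q (by omega)
    have hDN : D ≤ N := le_trans (by omega) (Nat.le_mul_of_pos_right (D + 1) hq)
    have h1 := defect_congr (F' := F') (Φ := F.map (σ q).1.1.toRingHom)
      (Φ' := F.map (σ q).1.1.toRingHom) hG (σ N).2.cc
      (hlim D N (Nat.mul_le_mul_right q (by omega))) (by simp)
    have h2 := (σ N).2.new
    rw [hα N hqN] at h2
    simpa using Ideal.add_mem _ (cI_le bot_le h1) (cI_anti hDN h2)

/-- Existence in Lubin-Tate's theorem. -/
theorem exists_lift (hB : IsBase (p := p) π) (hS : IsShape F)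
    (hF' : F'.map π = special p n k F) :
    ∃ (α : E0 p n k →ₐ[WittVector p k] A) (G : PowerSeries A),
      PowerSeries.map π G = PowerSeries.X ∧ IsHom G F' (F.map α.toRingHom) := by
  let P : ℕ → (E0 p n k →ₐ[WittVector p k] A) × PowerSeries A → Prop := fun s x =>
    PowerSeries.constantCoeff x.2 = 0 ∧ PowerSeries.map π x.2 = PowerSeries.X ∧
      ∀ D, lawDefect F' (F.map x.1.toRingHom) x.2 ∈ cI (RingHom.ker π ^ (s + 1)) D
  obtain ⟨a₀, -⟩ := exists_algHom (n := n) hB (fun _ => 0) (fun _ => Submodule.zero_mem _)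
  have h0 : P 0 (a₀, PowerSeries.X) := by
    refine ⟨PowerSeries.constantCoeff_X, PowerSeries.map_X _, fun D => ?_⟩
    rw [zero_add, pow_one]
    show PowerSeries.subst _ _ - _ ∈ _
    rw [ps_subst_X F'.zero_constantCoeff, ps_subst_X cc_X, ps_subst_X cc_X, subst_pair_XX]
    exact base_sub_law_mem hB hF'
  have hstep : ∀ s x, P s x → ∃ y, P (s + 1) y ∧
      (∀ i, y.1 (X i) - x.1 (X i) ∈ RingHom.ker π ^ (s + 1)) ∧
      ∀ D, y.2 - x.2 ∈ cI (RingHom.ker π ^ (s + 1)) D := fun s x hx => by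
    obtain ⟨β, G, h1, h2, h3, h4⟩ :=
      exists_improve hB hS hF' (by omega : 1 ≤ s + 1) hx.2.1 hx.1 hx.2.2
    refine ⟨(β, G), ⟨h3, map_eq_X_of_sub_mem fun D => ?_, h4⟩, h1, h2⟩
    rw [sub_pair _ x.2]
    exact Ideal.add_mem _ (cI_le (Ideal.pow_le_self (by omega)) (h2 D))
      (sub_X_mem_of_map_eq hx.2.1 D)
  choose f hf hfa hfg using hstep
  let σ : ∀ s, {x // P s x} :=
    fun s => Nat.rec ⟨_, h0⟩ (fun s x => ⟨f s x.1 x.2, hf s x.1 x.2⟩) s
  have hlow : ∀ s, RingHom.ker π ^ (s + 1) ≤ RingHom.ker π ^ s := fun s =>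
    Ideal.pow_le_pow_right (Nat.le_succ s)
  choose a ha using fun i => hB.exists_limit (fun s => (σ s).1.1 (X i))
    (fun s => hlow s (hfa s _ (σ s).2 i))
  choose c hc using fun j => hB.exists_limit (fun s => PowerSeries.coeff j (σ s).1.2) (fun s => by
    rw [← map_sub]
    exact hlow s ((mem_cI_ps.mp (hfg s _ (σ s).2 (j + 1))) j (by omega)))
  have hmem : ∀ i, a i ∈ RingHom.ker π := fun i => by
    have := Ideal.add_mem _ (pow_one (RingHom.ker π) ▸ ha i 1) (algHom_X_mem hB (σ 1).1.1 i)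
    simpa using this
  obtain ⟨α, hα⟩ := exists_algHom hB a hmem
  let G : PowerSeries A := PowerSeries.mk c
  have hGs : ∀ s D, G - (σ s).1.2 ∈ cI (RingHom.ker π ^ s) D := fun s D =>
    mem_cI_ps.mpr fun j _ => by simpa [G] using hc j s
  have hcc : PowerSeries.constantCoeff G = 0 := hB.eq_of_forall_sub_mem fun s => by
    have h := (mem_cI_ps.mp (hGs s 1)) 0 one_pos
    rwa [PowerSeries.coeff_zero_eq_constantCoeff_apply, map_sub, (σ s).2.1] at h
  refine ⟨α, G, map_eq_X_of_sub_mem fun D => ?_, (isHom_iff_defect hcc).mpr ?_⟩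
  · rw [sub_pair _ (σ 1).1.2]
    exact Ideal.add_mem _ (cI_le (pow_one _).le (hGs 1 D)) (sub_X_mem_of_map_eq (σ 1).2.2.1 D)
  · ext d
    refine hB.eq_of_forall_sub_mem fun s => ?_
    have hΦ : (F.map α.toRingHom).toPowerSeries - (F.map (σ s).1.1.toRingHom).toPowerSeries ∈
        cI (RingHom.ker π ^ s) (d.degree + 1) := law_sub_mem hB fun i => by rw [hα]; exact ha i s
    have h := Ideal.add_mem _ (defect_congr (F' := F') hcc (σ s).2.1 (hGs s _) hΦ)
      (cI_le (hlow s) ((σ s).2.2.2 (d.degree + 1)))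
    rw [sub_add_cancel] at h
    simpa using h d (by omega)

/-- Two approximate solutions congruent modulo `M^t` are congruent modulo `M^(t+1)`, in the
parameters owning a degree below `N`. -/
theorem unique_step (hB : IsBase (p := p) π) (hS : IsShape F)
    (hF' : F'.map π = special p n k F) (ht : 1 ≤ t) {β : E0 p n k →ₐ[WittVector p k] A}
    {G G' : PowerSeries A} (hG0 : PowerSeries.constantCoeff G = 0)
    (hG0' : PowerSeries.constantCoeff G' = 0) (hG : G - PowerSeries.X ∈ cI (RingHom.ker π) N)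
    (h : lawDefect F' (F.map α.toRingHom) G ∈ cI (RingHom.ker π ^ (t + 1)) N)
    (h' : lawDefect F' (F.map β.toRingHom) G' ∈ cI (RingHom.ker π ^ (t + 1)) N)
    (ha : ∀ i, β (X i) - α (X i) ∈ RingHom.ker π ^ t)
    (hGG : G' - G ∈ cI (RingHom.ker π ^ t) N) :
    (∀ i : Fin (n - 1), p ^ ((i : ℕ) + 1) < N →
      β (X i) - α (X i) ∈ RingHom.ker π ^ (t + 1)) ∧
    ∀ J, J * p ^ n ≤ N → G' - G ∈ cI (RingHom.ker π ^ (t + 1)) J := by
  set M := RingHom.ker π
  set Ψ := F.map β.toRingHom
  set a := fun i => β (X i) - α (X i) with ha_def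
  have hMM : M ^ t * M ^ t ≤ M ^ (t + 1) := by
    rw [← pow_add]; exact Ideal.pow_le_pow_right (by omega)
  set H : PowerSeries A := subst ![G, 0] (quotY Ψ.toPowerSeries) with hH
  have cH : PowerSeries.constantCoeff H = 1 := by
    show constantCoeff H = 1
    have h0 : subst ![G, 0] (quotY Ψ.toPowerSeries) - C (constantCoeff (quotY Ψ.toPowerSeries)) ∈
        cI (⊥ : Ideal A) 1 :=
      subst_sub_C_mem (σ := Fin 2) (τ := Unit) (cc2 hG0 (map_zero _))
        (fun s => mem_cI_bot_one_iff.mpr (cc2 hG0 (map_zero _) s)) _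
    rwa [mem_cI_bot_one_iff, map_sub, constantCoeff_C, constantCoeff_quotY, sub_eq_zero] at h0
  obtain ⟨v, hv⟩ :=
    ((PowerSeries.isUnit_iff_constantCoeff.mpr (cH ▸ isUnit_one)) : IsUnit H).exists_left_inv
  set e := (G' - G) * v with he_def
  have he0 : PowerSeries.constantCoeff e = 0 := by simp [e, hG0, hG0']
  have he : e ∈ cI (M ^ t) N := Ideal.mul_mem_right _ _ hGG
  have hadj : adj Ψ G e - G' ∈ cI (M ^ (t + 1)) N := by
    have h1 : subst ![G, e] (quotY Ψ.toPowerSeries) - H ∈ cI (M ^ t) N :=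
      subst_congr_arg (cc2 hG0 he0) (cc2 hG0 (map_zero _)) _ (fun s => by
        fin_cases s
        · simp
        · simpa using he)
    convert cI_le hMM (mul_mem_cI_mul he h1) using 1
    rw [adj_eq_add Ψ hG0 he0, mul_sub]
    linear_combination (G' - G) * hv
  have hlop : lop F α a e ∈ cI (M ^ (t + 1)) N := by
    have h1 := perturb hB hF' ht ha hG0 he0 hG he
    have h2 := defect_congr (F' := F') (Φ := Ψ) (Φ' := Ψ) (constantCoeff_adj Ψ hG0 he0) hG0' hadj
      (by simp)
    convert Ideal.sub_mem _ (Ideal.sub_mem _ (Ideal.add_mem _ h2 h') h) h1 using 1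
    ring
  have key : ∀ K < N, (∀ j, nu p n j = K → PowerSeries.coeff j e ∈ M ^ (t + 1)) ∧
      ∀ i : Fin (n - 1), p ^ ((i : ℕ) + 1) = K → a i ∈ M ^ (t + 1) := by
    intro K
    induction K using Nat.strong_induction_on with
    | _ K ih =>
      intro hK
      have hlt : ∀ j < K, nu p n j < K → PowerSeries.coeff j e ∈ M ^ (t + 1) :=
        fun j _ hj => (ih _ hj (by omega)).1 j rfl
      have hz : ∀ i : Fin (n - 1), p ^ ((i : ℕ) + 1) < K → a i ∈ M ^ (t + 1) :=
        fun i hi => (ih _ hi (by omega)).2 i rfl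
      refine ⟨fun j hj => ?_, fun i hi => ?_⟩
      · rcases Nat.eq_zero_or_pos j with rfl | hj0
        · simp [he0]
        have h2 : 2 ≤ K := by
          rcases Nat.lt_or_ge j 2 with hj2 | hj2
          · have hj1 : j = p ^ 0 := by simp; omega
            rw [hj1, nu_pow, add_zero] at hj
            exact hj ▸ two_le_q hS
          · exact hj ▸ hj2.trans (le_nu j)
        have hl := lazIdx_lt (p := p) Fact.out h2
        set d := xy (lazIdx p K) (K - lazIdx p K)
        have h1 := Ideal.sub_mem _ (hlop d (by rw [degree_xy]; omega))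
          (lop_top_e (α := α) (a := a) hB hS h2 hj ha (cI_anti (by omega) he) hlt hz)
        rw [sub_sub_cancel] at h1
        exact (Ideal.mul_unit_mem_iff_mem _ (isUnit_cob (α := α) hB hS h2 hj)).mp h1
      · have h2 : 2 ≤ K := hi ▸ (Fact.out : p.Prime).two_le.trans (Nat.le_self_pow (by omega) p)
        have hl := lazIdx_lt (p := p) Fact.out h2
        set d := xy (lazIdx p K) (K - lazIdx p K)
        have h1 := Ideal.sub_mem _ (lop_top_a (α := α) (a := a) hB hS hi ha
          (cI_anti (by omega) he) hlt hz) (hlop d (by rw [degree_xy]; omega))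
        rw [add_sub_cancel_left] at h1
        exact (Ideal.mul_unit_mem_iff_mem _ (isUnit_linPart (A := A) hB hS hi)).mp h1
  refine ⟨fun i hi => (key _ hi).2 i rfl, fun J hJ => ?_⟩
  have hmem : e * H ∈ cI (M ^ (t + 1)) J := Ideal.mul_mem_right _ _ (mem_cI_ps.mpr fun j hj => by
    refine (key (nu p n j) ?_).1 j rfl
    calc nu p n j ≤ p ^ n * j := nu_le j
      _ < p ^ n * J := Nat.mul_lt_mul_of_pos_left hj (pow_pos (Fact.out : p.Prime).pos _)
      _ ≤ N := by rw [mul_comm]; exact hJ)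
  rwa [he_def, mul_assoc, hv, mul_one] at hmem

/-- Uniqueness in Lubin-Tate's theorem. -/
theorem unique_lift (hB : IsBase (p := p) π) (hS : IsShape F)
    (hF' : F'.map π = special p n k F) {β : E0 p n k →ₐ[WittVector p k] A} {G G' : PowerSeries A}
    (h : IsHom G F' (F.map α.toRingHom)) (hG : PowerSeries.map π G = PowerSeries.X)
    (h' : IsHom G' F' (F.map β.toRingHom)) (hG' : PowerSeries.map π G' = PowerSeries.X) :
    β = α ∧ G' = G := by
  have key : ∀ s, (∀ i, β (X i) - α (X i) ∈ RingHom.ker π ^ (s + 1)) ∧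
      ∀ D, G' - G ∈ cI (RingHom.ker π ^ (s + 1)) D := by
    intro s
    induction s with
    | zero =>
      simp only [zero_add, pow_one]
      refine ⟨fun i => Ideal.sub_mem _ (algHom_X_mem hB β i) (algHom_X_mem hB α i), fun D => ?_⟩
      convert Ideal.sub_mem _ (sub_X_mem_of_map_eq hG' D) (sub_X_mem_of_map_eq hG D) using 1
      ring
    | succ s ih =>
      have hstep := fun N => unique_step (N := N) (t := s + 1) hB hS hF' (by omega) h.1 h'.1
        (sub_X_mem_of_map_eq hG N) (by rw [(isHom_iff_defect h.1).mp h]; exact Submodule.zero_mem _)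
        (by rw [(isHom_iff_defect h'.1).mp h']; exact Submodule.zero_mem _) ih.1 (ih.2 N)
      exact ⟨fun i => (hstep (p ^ ((i : ℕ) + 1) + 1)).1 i (by omega),
        fun D => (hstep (D * p ^ n)).2 D le_rfl⟩
  refine ⟨algHom_ext hB fun i => hB.eq_of_forall_sub_mem fun s =>
    Ideal.pow_le_pow_right (Nat.le_succ s) ((key s).1 i), ?_⟩
  ext j
  refine hB.eq_of_forall_sub_mem fun s => ?_
  rw [← map_sub]
  exact Ideal.pow_le_pow_right (Nat.le_succ s) ((mem_cI_ps.mp ((key s).2 (j + 1))) j (by omega))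

end Vale.Agent.P217
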