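import Mathlib.RingTheory.FormalGroup.Basic
import Mathlib.RingTheory.WittVector.Complete
import Mathlib.RingTheory.WittVector.DiscreteValuationRing
import Mathlib.RingTheory.Localization.FractionRing

/-!
# P217 Q1: basic definitions

The Lubin-Tate ring `E0`, the height ideals `hIdeal`, the logarithm of the Hazewinkel
universal `p`-typical formal group law, and the action of automorphisms of the special fibre
by change of marking.
-/

noncomputable section

namespace Vale.Agent.P217

open MvPowerSeries

variable (p : ℕ) [Fact p.Prime] (n : ℕ) (k : Type) [Field k] [CharP k p]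

/-- `W(k)[[u_1, ..., u_{n-1}]]`. -/
abbrev E0 := MvPowerSeries (Fin (n - 1)) (WittVector p k)

/-- `W(k)[1/p][[u_1, ..., u_{n-1}]]`, home of the coefficients of the logarithm. -/
abbrev E0Q := MvPowerSeries (Fin (n - 1)) (FractionRing (WittVector p k))

/-- `u_0 = p`, `u_i` the variables for `1 ≤ i < n`, `u_n = 1`, and `0` afterwards. -/
def uE (i : ℕ) : E0 p n k :=
  if i = 0 then (p : E0 p n k)
  else if h : i - 1 < n - 1 then X ⟨i - 1, h⟩
  else if i = n then 1 else 0

/-- The height ideal `I_h = (u_0, ..., u_{h-1})`; in particular `I_0 = 0`. -/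
def hIdeal (h : ℕ) : Ideal (E0 p n k) :=
  Ideal.span (uE p n k '' Set.Iio h)

/-- The coefficient inclusion `E0 → E0Q`. -/
def toQ : E0 p n k →+* E0Q p n k :=
  MvPowerSeries.map (algebraMap (WittVector p k) (FractionRing (WittVector p k)))

/-- Hazewinkel recursion: `a_0 = 1`, `p a_(j+1) = Σ_(i ≤ j) a_(j-i) u_(i+1)^(p^(j-i))`. -/
def hazA : ℕ → E0Q p n k
  | 0 => 1
  | j + 1 =>
    C ((p : FractionRing (WittVector p k))⁻¹) *
      ∑ i : Fin (j + 1), hazA (j - i) * toQ p n k (uE p n k (i + 1)) ^ p ^ (j - (i : ℕ))
  decreasing_by omega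

/-- The logarithm `Σ_j a_j X^(p^j)`. -/
def hazLog : PowerSeries (E0Q p n k) :=
  PowerSeries.mk fun d => ∑ j ∈ Finset.range (d + 1), if p ^ j = d then hazA p n k j else 0

/-- `F` is the formal group law with logarithm `hazLog`. -/
def IsHazewinkel (F : FormalGroup (E0 p n k)) : Prop :=
  PowerSeries.subst (F.toPowerSeries.map (toQ p n k)) (hazLog p n k) =
    PowerSeries.subst (X 0 : MvPowerSeries (Fin 2) (E0Q p n k)) (hazLog p n k) +
      PowerSeries.subst (X 1 : MvPowerSeries (Fin 2) (E0Q p n k)) (hazLog p n k)

/-- Reduction to the residue field. -/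
def res : E0 p n k →+* k :=
  WittVector.constantCoeff.comp MvPowerSeries.constantCoeff

/-- The coefficient Frobenius, generator of the Galois part of the extended stabiliser group. -/
def coeffFrob : E0 p n k →+* E0 p n k :=
  MvPowerSeries.map WittVector.frobenius

section Hom

variable {A : Type*} [CommRing A]

/-- `g` is a homomorphism of formal group laws from `F` to `G`. -/
def IsHom (g : PowerSeries A) (F G : FormalGroup A) : Prop :=
  PowerSeries.constantCoeff g = 0 ∧
    PowerSeries.subst F.toPowerSeries g =
      G.toPowerSeries.subst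
        ![PowerSeries.subst (X 0 : MvPowerSeries (Fin 2) A) g,
          PowerSeries.subst (X 1 : MvPowerSeries (Fin 2) A) g]

/-- `g` is an automorphism of the formal group law `F`. -/
def IsAut (g : PowerSeries A) (F : FormalGroup A) : Prop :=
  IsHom g F F ∧ IsUnit (PowerSeries.coeff 1 g)

/-- The multiplication series `[j](X)` of a formal group law. -/
def mulSeries (F : FormalGroup A) : ℕ → PowerSeries A
  | 0 => 0
  | j + 1 => F.toPowerSeries.subst ![mulSeries F j, PowerSeries.X]

end Hom

/-- The special fibre of a formal group law over `E0`. -/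
abbrev special (F : FormalGroup (E0 p n k)) : FormalGroup k := F.map (res p n k)

/-- The endomorphism `α` of `E0` is the change of marking by `g`: some series lifting `g`
is an isomorphism from `F` to `α_* F`. -/
def IsMarkingChange (F : FormalGroup (E0 p n k)) (g : PowerSeries k)
    (α : E0 p n k →ₐ[WittVector p k] E0 p n k) : Prop :=
  ∃ G : PowerSeries (E0 p n k),
    G.map (res p n k) = g ∧ IsHom G F (F.map α.toRingHom)

/-- Stability under the Morava stabiliser group (all automorphisms of the special fibre). -/
def Stable (F : FormalGroup (E0 p n k)) (P : Ideal (E0 p n k)) : Prop :=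
  ∀ g α, IsAut g (special p n k F) → IsMarkingChange p n k F g α → ∀ f ∈ P, α f ∈ P

/-- Stability under the extended stabiliser group. -/
def GStable (F : FormalGroup (E0 p n k)) (P : Ideal (E0 p n k)) : Prop :=
  Stable p n k F P ∧ ∀ f ∈ P, coeffFrob p n k f ∈ P

end Vale.Agent.P217
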