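import Vale.Agent.P217.FEq
import Vale.Agent.P217.Defs

/-!
The formal group law of a functional equation: multiplication series, functoriality and the
coefficients in the first nonlinear degree.
-/

namespace Vale.Agent.P217

open MvPowerSeries Finsupp

theorem Agree.pow_add_degree {τ B : Type*} [CommRing B] {d : ℕ} {a a' : MvPowerSeries τ B}
    (ha : Agree d a a') (a0 : constantCoeff a = 0) (a0' : constantCoeff a' = 0) (m : ℕ) :
    Agree (d + m) (a ^ (m + 1)) (a' ^ (m + 1)) := by
  classical
  induction m with
  | zero => simpa using ha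
  | succ m ih =>
    intro e he
    rw [pow_succ a, pow_succ a', coeff_mul, coeff_mul]
    refine Finset.sum_congr rfl fun x hx => ?_
    have hsum := Finset.HasAntidiagonal.mem_antidiagonal.mp hx
    have hd : x.1.degree + x.2.degree = e.degree := by rw [← map_add, hsum]
    by_cases h2 : x.2 = 0
    · simp [h2, a0, a0']
    by_cases h1 : x.1.degree < m + 1
    · rw [coeff_pow_eq_zero a0 h1, coeff_pow_eq_zero a0' h1, zero_mul, zero_mul]
    have g2 : x.2.degree ≠ 0 := fun h => h2 ((degree_eq_zero_iff _).mp h)
    rw [ih x.1 (by omega), ha x.2 (by omega)]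

theorem map_mulSeries {A A' : Type*} [CommRing A] [CommRing A'] (F : FormalGroup A) (φ : A →+* A')
    (m : ℕ) : mulSeries (F.map φ) m = PowerSeries.map φ (mulSeries F m) := by
  have hc : ∀ j, PowerSeries.constantCoeff (mulSeries F j) = 0 := by
    intro j
    induction j with
    | zero => simp [mulSeries]
    | succ j ih =>
      refine MvPowerSeries.constantCoeff_subst_eq_zero (hasSubst_of_constantCoeff_zero ?_) ?_
        F.zero_constantCoeff
      all_goals
        intro i
        fin_cases i
        · exact ih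
        · exact PowerSeries.constantCoeff_X
  induction m with
  | zero => simp [mulSeries]
  | succ m ih =>
    change MvPowerSeries.subst ![mulSeries (F.map φ) m, PowerSeries.X]
        (MvPowerSeries.map φ F.toPowerSeries) = MvPowerSeries.map φ
          (MvPowerSeries.subst ![mulSeries F m, PowerSeries.X] F.toPowerSeries)
    have hs : HasSubst ![mulSeries F m, (PowerSeries.X : PowerSeries A)] :=
      hasSubst_of_constantCoeff_zero fun i => by
        fin_cases i
        · exact hc m
        · exact PowerSeries.constantCoeff_X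
    rw [MvPowerSeries.map_subst hs, ih]
    congr 1
    funext i
    fin_cases i
    · rfl
    · exact (MvPowerSeries.map_X φ ()).symm

namespace FEData

set_option linter.unusedSectionVars false

variable {p : ℕ} [hp : Fact p.Prime] {A : Type*} [CommRing A] (D : FEData p A) {τ : Type*}

theorem subst_logAt {ρ : Type*} {a : τ → MvPowerSeries ρ (Kp p A)} (ha : HasSubst a)
    {y : MvPowerSeries τ (Kp p A)} (y0 : constantCoeff y = 0) :
    subst a (D.logAt y) = D.logAt (subst a y) := by
  rw [logAt, logAt, PowerSeries.subst, PowerSeries.subst,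
    subst_comp_subst_apply (PowerSeries.HasSubst.of_constantCoeff_zero y0).const ha]

theorem exists_lawSeries : ∃ G : MvPowerSeries (Fin 2) A, constantCoeff G = 0 ∧
    D.logAt (map D.ι G) = D.logAt (X 0) + D.logAt (X 1) :=
  D.exists_of_isFE (by rw [map_add, D.constantCoeff_logAt (constantCoeff_X _),
      D.constantCoeff_logAt (constantCoeff_X _), add_zero])
    ((D.isFE_logAt_X 0).add (D.isFE_logAt_X 1))

/-- The power series of the formal group law. -/
noncomputable def lawSeries : MvPowerSeries (Fin 2) A := D.exists_lawSeries.choose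

theorem constantCoeff_lawSeries : constantCoeff D.lawSeries = 0 :=
  D.exists_lawSeries.choose_spec.1

theorem logAt_lawSeries : D.logAt (map D.ι D.lawSeries) = D.logAt (X 0) + D.logAt (X 1) :=
  D.exists_lawSeries.choose_spec.2

theorem logAt_subst_lawSeries {a b : MvPowerSeries τ A} (a0 : constantCoeff a = 0)
    (b0 : constantCoeff b = 0) :
    D.logAt (map D.ι (subst ![a, b] D.lawSeries)) = D.logAt (map D.ι a) + D.logAt (map D.ι b) := by
  have hab : HasSubst ![a, b] := hasSubst_of_constantCoeff_zero fun i => by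
    fin_cases i <;> simp [a0, b0]
  have hab' : HasSubst (fun i => map D.ι (![a, b] i)) := hab.map D.ι
  rw [map_subst hab, ← D.subst_logAt hab' (by rw [constantCoeff_map, D.constantCoeff_lawSeries,
    map_zero]), logAt_lawSeries, subst_add hab', D.subst_logAt hab' (constantCoeff_X _),
    D.subst_logAt hab' (constantCoeff_X _), subst_X hab', subst_X hab']
  simp

theorem coeff_single_lawSeries (t : Fin 2) : coeff (single t 1) D.lawSeries = 1 := by
  classical
  have h := congrArg (coeff (single t 1)) D.logAt_lawSeries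
  rw [map_add, D.coeff_logAt (by rw [constantCoeff_map, D.constantCoeff_lawSeries, map_zero]),
    D.coeff_logAt (constantCoeff_X _), D.coeff_logAt (constantCoeff_X _), degree_single] at h
  simp only [Finset.sum_range_succ, Finset.sum_range_zero, c_zero, pow_zero, pow_one, one_mul,
    zero_add] at h
  rw [coeff_pow_eq_zero (by rw [constantCoeff_map, D.constantCoeff_lawSeries, map_zero])
      (by rw [degree_single]; exact hp.out.one_lt),
    coeff_pow_eq_zero (constantCoeff_X _) (by rw [degree_single]; exact hp.out.one_lt),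
    coeff_pow_eq_zero (constantCoeff_X _) (by rw [degree_single]; exact hp.out.one_lt)] at h
  apply D.ι_injective
  rw [map_one, ← coeff_map]
  simp only [mul_zero, add_zero] at h
  rw [h, coeff_X, coeff_X]
  fin_cases t <;> simp [single_eq_single_iff]

/-- The formal group law. -/
noncomputable def law : FormalGroup A where
  toPowerSeries := D.lawSeries
  zero_constantCoeff := D.constantCoeff_lawSeries
  lin_coeff_X := D.coeff_single_lawSeries 0
  lin_coeff_Y := D.coeff_single_lawSeries 1
  assoc := by
    have h0 : ∀ i : Fin 3, constantCoeff (X i : MvPowerSeries (Fin 3) A) = 0 := constantCoeff_X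
    have h1 : ∀ i j : Fin 3,
        constantCoeff (subst ![(X i : MvPowerSeries (Fin 3) A), X j] D.lawSeries) = 0 := fun i j =>
      constantCoeff_subst_eq_zero HasSubst.X_X (fun s => by fin_cases s <;> simp)
        D.constantCoeff_lawSeries
    refine D.eq_of_logAt_map ?_ ?_ ?_
    · exact constantCoeff_subst_eq_zero
        (HasSubst.cons_subst_zero_left _ _ _ D.constantCoeff_lawSeries)
        (fun s => by fin_cases s <;> simp [h0, h1]) D.constantCoeff_lawSeries
    · exact constantCoeff_subst_eq_zero
        (HasSubst.cons_subst_zero_right _ _ _ D.constantCoeff_lawSeries)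
        (fun s => by fin_cases s <;> simp [h0, h1]) D.constantCoeff_lawSeries
    · rw [D.logAt_subst_lawSeries (h1 _ _) (h0 _), D.logAt_subst_lawSeries (h0 _) (h1 _ _),
        D.logAt_subst_lawSeries (h0 _) (h0 _), D.logAt_subst_lawSeries (h0 _) (h0 _), add_assoc]

theorem law_toPowerSeries : D.law.toPowerSeries = D.lawSeries := rfl

instance law_isComm : D.law.IsComm where
  comm := by
    refine D.eq_of_logAt_map D.law.zero_constantCoeff ?_ ?_
    · exact constantCoeff_subst_eq_zero HasSubst.X_X (fun s => by fin_cases s <;> simp)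
        D.constantCoeff_lawSeries
    · rw [law_toPowerSeries, D.logAt_subst_lawSeries (constantCoeff_X _) (constantCoeff_X _),
        D.logAt_lawSeries, map_X, map_X, add_comm]

theorem law_unique (F : FormalGroup A)
    (h : D.logAt (map D.ι F.toPowerSeries) = D.logAt (X 0) + D.logAt (X 1)) : F = D.law :=
  FormalGroup.ext (D.eq_of_logAt_map F.zero_constantCoeff D.law.zero_constantCoeff
    (h.trans D.logAt_lawSeries.symm))

theorem constantCoeff_mulSeries (m : ℕ) :
    constantCoeff (mulSeries D.law m : MvPowerSeries Unit A) = 0 := by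
  induction m with
  | zero => simp [mulSeries]
  | succ m ih =>
    refine constantCoeff_subst_eq_zero (hasSubst_of_constantCoeff_zero ?_) ?_
      D.constantCoeff_lawSeries
    all_goals
      intro i
      fin_cases i
      · exact ih
      · exact constantCoeff_X ()

theorem logAt_mulSeries (m : ℕ) :
    D.logAt (map D.ι (mulSeries D.law m : MvPowerSeries Unit A)) = m • D.logAt (X ()) := by
  induction m with
  | zero =>
    rw [mulSeries, map_zero, zero_smul]
    exact PowerSeries.subst_zero_of_constantCoeff_zero D.constantCoeff_log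
  | succ m ih =>
    rw [mulSeries, succ_nsmul]
    refine (D.logAt_subst_lawSeries (D.constantCoeff_mulSeries m) (constantCoeff_X ())).trans ?_
    rw [ih, map_X]

omit hp in
theorem frobIter_add (a b : ℕ) (x : A) :
    D.frobIter (a + b) x = D.frobIter a (D.frobIter b x) := by
  induction a with
  | zero => simp [frobIter]
  | succ a ih => rw [Nat.succ_add]; simp [frobIter, ih]

omit hp in
theorem frobK_add (a b : ℕ) (x : Kp p A) :
    D.frobK (a + b) x = D.frobK a (D.frobK b x) := by
  have h : D.frobK (a + b) = (D.frobK a).comp (D.frobK b) :=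
    IsLocalization.ringHom_ext (Submonoid.powers (p : A)) (RingHom.ext fun y => by
      simp [frobK_ι, frobIter_add])
  rw [h]; rfl

omit hp in
theorem frobK_zero (x : Kp p A) : D.frobK 0 x = x := by
  have h : D.frobK 0 = RingHom.id _ :=
    IsLocalization.ringHom_ext (Submonoid.powers (p : A)) (RingHom.ext fun y => by
      simp [frobK_ι, frobIter])
  rw [h]; rfl

/-- The recursion on the last step. -/
theorem c_succ' (j : ℕ) :
    D.c (j + 1) = ∑ i ∈ Finset.range (j + 1), D.c (j - i) * D.frobK (j - i) (D.s (i + 1)) := by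
  induction j using Nat.strong_induction_on with
  | _ j ih =>
  let g : ℕ → ℕ → Kp p A := fun i l =>
    D.s (i + 1) * (D.frobK (i + 1) (D.c (j - 1 - i - l)) * D.frobK (j - l) (D.s (l + 1)))
  have hL : D.c (j + 1) = (∑ i ∈ Finset.range j, ∑ l ∈ Finset.range (j - i), g i l)
      + D.s (j + 1) := by
    rw [D.c_succ, Finset.sum_range_succ, Nat.sub_self, c_zero, map_one, mul_one]
    congr 1
    refine Finset.sum_congr rfl fun i hi => ?_
    rw [Finset.mem_range] at hi
    rw [show j - i = (j - 1 - i) + 1 by omega, ih (j - 1 - i) (by omega), map_sum, Finset.mul_sum]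
    refine Finset.sum_congr rfl fun l hl => ?_
    rw [Finset.mem_range] at hl
    simp only [g, map_mul, ← frobK_add, show i + 1 + (j - 1 - i - l) = j - l by omega]
  have hR : (∑ i ∈ Finset.range (j + 1), D.c (j - i) * D.frobK (j - i) (D.s (i + 1)))
      = (∑ l ∈ Finset.range j, ∑ i ∈ Finset.range (j - l), g i l) + D.s (j + 1) := by
    rw [Finset.sum_range_succ, Nat.sub_self, c_zero, frobK_zero, one_mul]
    congr 1
    refine Finset.sum_congr rfl fun l hl => ?_
    rw [Finset.mem_range] at hl
    rw [show D.c (j - l) = D.c ((j - 1 - l) + 1) by congr 1; omega, D.c_succ, Finset.sum_mul,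
      show j - 1 - l + 1 = j - l by omega]
    refine Finset.sum_congr rfl fun i hi => ?_
    rw [Finset.mem_range] at hi
    simp only [g, show j - 1 - l - i = j - 1 - i - l by omega]
    ring
  rw [hL, hR]
  congr 1
  exact Finset.sum_comm' fun a b => by simp only [Finset.mem_range]; omega

/-! ### First nonlinear degree -/

variable {h : ℕ} (hh : 1 ≤ h) (hu : ∀ i, 1 ≤ i → i < h → D.u i = 0)

include hu in
theorem c_eq_zero {j : ℕ} (hj0 : 1 ≤ j) (hj : j < h) : D.c j = 0 := by
  obtain ⟨j, rfl⟩ : ∃ i, j = i + 1 := ⟨j - 1, by omega⟩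
  rw [D.c_succ]
  refine Finset.sum_eq_zero fun i hi => ?_
  rw [Finset.mem_range] at hi
  rw [s, hu (i + 1) (by omega) (by omega), map_zero, zero_mul, zero_mul]

include hh hu in
theorem c_first : D.c h = D.s h := by
  obtain ⟨h', rfl⟩ : ∃ i, h = i + 1 := ⟨h - 1, by omega⟩
  rw [D.c_succ, Finset.sum_range_succ, Nat.sub_self, c_zero, map_one, mul_one,
    Finset.sum_eq_zero, zero_add]
  intro i hi
  rw [Finset.mem_range] at hi
  rw [s, hu (i + 1) (by omega) (by omega), map_zero, zero_mul, zero_mul]

include hh hu in
theorem coeff_logAt_low {a : MvPowerSeries τ (Kp p A)} (a0 : constantCoeff a = 0) {e : τ →₀ ℕ}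
    (he : e.degree < p ^ (h + 1)) :
    coeff e (D.logAt a) = coeff e a + D.s h * coeff e (a ^ (p ^ h)) := by
  rw [D.coeff_logAt a0, ← D.c_first hh hu,
    ← Finset.sum_subset (Finset.inter_subset_left (s₂ := ({0, h} : Finset ℕ))) (fun j hj hj2 => ?_)]
  · by_cases hle : h ≤ e.degree
    · rw [show Finset.range (e.degree + 1) ∩ {0, h} = {0, h} by
        ext j; simp only [Finset.mem_inter, Finset.mem_range, Finset.mem_insert,
          Finset.mem_singleton]; omega, Finset.sum_pair (by omega)]
      simp
    · rw [show Finset.range (e.degree + 1) ∩ {0, h} = {0} by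
        ext j; simp only [Finset.mem_inter, Finset.mem_range, Finset.mem_insert,
          Finset.mem_singleton]; omega, Finset.sum_singleton]
      rw [coeff_pow_eq_zero a0 (lt_trans (Nat.lt_of_not_le hle) (h.lt_pow_self hp.out.one_lt))]
      simp
  · simp only [Finset.mem_inter, Finset.mem_insert, Finset.mem_singleton, hj, true_and,
      not_or] at hj2
    by_cases hjh : j < h
    · rw [D.c_eq_zero hu (by omega) hjh, zero_mul]
    · have : p ^ (h + 1) ≤ p ^ j := Nat.pow_le_pow_right hp.out.pos (by omega)
      rw [coeff_pow_eq_zero a0 (by omega), mul_zero]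

include hh hu in
theorem coeff_mulSeries_p {d : ℕ} (hd : d ≤ p ^ h) :
    PowerSeries.coeff d (mulSeries D.law p) =
      if d = p ^ h then D.u h * (1 - (p : A) ^ (p ^ h - 1)) else if d = 1 then (p : A) else 0 := by
  classical
  set P : MvPowerSeries Unit A := mulSeries D.law p with hP
  have hcoe : ∀ m, PowerSeries.coeff m (mulSeries D.law p) = coeff (single () m) P := fun m => rfl
  have hlt : p ^ h < p ^ (h + 1) := Nat.pow_lt_pow_right hp.out.one_lt (by omega)
  have hq : 2 ≤ p ^ h := le_trans hp.out.two_le (Nat.le_self_pow (by omega) p)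
  have P0 : constantCoeff (map D.ι P) = 0 := by
    rw [constantCoeff_map, hP, D.constantCoeff_mulSeries, map_zero]
  have key : ∀ m, m ≤ p ^ h → D.ι (coeff (single () m) P) =
      (p : Kp p A) * (if m = 1 then 1 else 0) + D.s h * ((p : Kp p A) * (if m = p ^ h then 1 else 0)
        - coeff (single () m) (map D.ι P ^ (p ^ h))) := by
    intro m hm
    have h2 := congrArg (coeff (single () m)) (D.logAt_mulSeries p)
    rw [← hP, map_nsmul, D.coeff_logAt_low hh hu P0 (by rw [degree_single]; omega),
      D.coeff_logAt_low hh hu (constantCoeff_X _) (by rw [degree_single]; omega), coeff_map,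
      coeff_X, coeff_X_pow, nsmul_eq_mul] at h2
    simp only [single_eq_single_iff, true_and, one_ne_zero, and_false, or_false,
      show p ^ h ≠ 0 by omega] at h2
    linear_combination h2
  have hag : Agree 2 (map D.ι P) (C (p : Kp p A) * X ()) := by
    intro e he
    obtain ⟨m, rfl⟩ : ∃ m, e = single () m := ⟨e (), Finsupp.unique_single e⟩
    rw [degree_single] at he
    rw [coeff_map, key _ (by omega), coeff_C_mul, coeff_X,
      coeff_pow_eq_zero P0 (by rw [degree_single]; omega)]
    simp only [single_eq_single_iff, true_and, one_ne_zero, and_false, or_false]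
    rw [if_neg (show m ≠ p ^ h by omega)]
    ring
  apply D.ι_injective
  rw [hcoe, key d hd]
  by_cases hdq : d = p ^ h
  · subst hdq
    have hpow : coeff (single () (p ^ h)) (map D.ι P ^ (p ^ h)) = (p : Kp p A) ^ (p ^ h) := by
      have h2 := hag.pow_add_degree P0 (by simp) (p ^ h - 1) (single () (p ^ h))
        (by rw [degree_single]; omega)
      rw [show p ^ h - 1 + 1 = p ^ h by omega] at h2
      rw [h2, mul_pow, ← map_pow, coeff_C_mul, coeff_X_pow, if_pos rfl, mul_one]
    rw [hpow, if_pos rfl, if_neg (by omega), if_pos rfl, map_mul, map_sub, map_one, map_pow,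
      map_natCast, s]
    have e1 : (p : Kp p A) ^ (p ^ h) = (p : Kp p A) ^ (p ^ h - 1) * (p : Kp p A) := by
      rw [← pow_succ]; congr 1; omega
    rw [e1]
    linear_combination (D.ι (D.u h) * (1 - (p : Kp p A) ^ (p ^ h - 1))) * D.natCast_mul_invp
  · rw [coeff_pow_eq_zero P0 (by rw [degree_single]; omega), if_neg hdq, if_neg hdq]
    split_ifs <;> simp

include hh hu in
theorem coeff_law_low {e : Fin 2 →₀ ℕ} (he : e.degree < p ^ h) :
    coeff e D.lawSeries = coeff e (X 0 + X 1 : MvPowerSeries (Fin 2) A) := by
  have hlt : p ^ h < p ^ (h + 1) := Nat.pow_lt_pow_right hp.out.one_lt (by omega)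
  have F0 : constantCoeff (map D.ι D.lawSeries) = 0 := by
    rw [constantCoeff_map, D.constantCoeff_lawSeries, map_zero]
  have h2 := congrArg (coeff e) D.logAt_lawSeries
  rw [map_add, D.coeff_logAt_low hh hu F0 (by omega), D.coeff_logAt_low hh hu (constantCoeff_X _)
    (by omega), D.coeff_logAt_low hh hu (constantCoeff_X _) (by omega), coeff_pow_eq_zero F0 he,
    coeff_pow_eq_zero (constantCoeff_X _) he, coeff_pow_eq_zero (constantCoeff_X _) he] at h2
  apply D.ι_injective
  rw [← coeff_map, ← coeff_map (f := D.ι) (φ := X 0 + X 1)]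
  simp only [mul_zero, add_zero] at h2
  rw [h2, map_add, map_X, map_X, map_add]

include hh hu in
theorem mul_coeff_law_first {e : Fin 2 →₀ ℕ} (he : e.degree = p ^ h) :
    (p : A) * coeff e D.lawSeries = D.u h * (coeff e ((X 0 : MvPowerSeries (Fin 2) A) ^ (p ^ h))
      + coeff e ((X 1 : MvPowerSeries (Fin 2) A) ^ (p ^ h)) - coeff e ((X 0 + X 1) ^ (p ^ h))) := by
  classical
  have hlt : p ^ h < p ^ (h + 1) := Nat.pow_lt_pow_right hp.out.one_lt (by omega)
  have hq : 2 ≤ p ^ h := le_trans hp.out.two_le (Nat.le_self_pow (by omega) p)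
  have F0 : constantCoeff (map D.ι D.lawSeries) = 0 := by
    rw [constantCoeff_map, D.constantCoeff_lawSeries, map_zero]
  have h2 := congrArg (coeff e) D.logAt_lawSeries
  have hag : Agree 2 (map D.ι D.lawSeries) (map D.ι (X 0 + X 1)) := fun e' he' => by
    rw [coeff_map, coeff_map, D.coeff_law_low hh hu (by omega)]
  have hpow := hag.pow_add_degree F0 (by simp) (p ^ h - 1) e (by omega)
  rw [show p ^ h - 1 + 1 = p ^ h by omega, ← map_pow (map D.ι) (X 0 + X 1), coeff_map] at hpow
  have hX : ∀ t : Fin 2, coeff e (X t : MvPowerSeries (Fin 2) (Kp p A)) = 0 := fun t => by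
    rw [coeff_X, if_neg]
    rintro rfl
    rw [degree_single] at he
    omega
  have hXp : ∀ t : Fin 2, coeff e ((X t : MvPowerSeries (Fin 2) (Kp p A)) ^ (p ^ h)) =
      D.ι (coeff e ((X t : MvPowerSeries (Fin 2) A) ^ (p ^ h))) := fun t => by
    rw [← coeff_map, map_pow (map D.ι), map_X]
  rw [map_add, D.coeff_logAt_low hh hu F0 (by omega), D.coeff_logAt_low hh hu (constantCoeff_X _)
    (by omega), D.coeff_logAt_low hh hu (constantCoeff_X _) (by omega), hpow, hX, hX, hXp, hXp,
    zero_add, zero_add, coeff_map] at h2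
  apply D.ι_injective
  rw [map_mul, map_natCast, map_mul, map_sub, map_add]
  simp only [s] at h2
  linear_combination (p : Kp p A) * h2 + (D.ι (D.u h) *
    (D.ι (coeff e ((X 0 : MvPowerSeries (Fin 2) A) ^ (p ^ h)))
      + D.ι (coeff e ((X 1 : MvPowerSeries (Fin 2) A) ^ (p ^ h)))
      - D.ι (coeff e ((X 0 + X 1) ^ (p ^ h))))) * D.natCast_mul_invp

include hu in
theorem dvd_coeff_mulSeries_of_not_dvd :
    ∀ d, ¬ p ^ h ∣ d → (p : A) ∣ PowerSeries.coeff d (mulSeries D.law p) := by
  classical
  intro d
  set P : MvPowerSeries Unit A := mulSeries D.law p with hP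
  change ¬ p ^ h ∣ d → (p : A) ∣ coeff (single () d) P
  induction d using Nat.strong_induction_on with
  | _ d ih =>
  intro hd
  have P0 : constantCoeff (map D.ι P) = 0 := by
    rw [constantCoeff_map, hP, D.constantCoeff_mulSeries, map_zero]
  have P0' : constantCoeff P = 0 := by rw [hP, D.constantCoeff_mulSeries]
  obtain ⟨Q, hQ⟩ : ∃ Q : MvPowerSeries Unit A, ∀ e, coeff e Q =
      if e.degree < d ∧ p ^ h ∣ e.degree then coeff e P else 0 :=
    ⟨fun e => if e.degree < d ∧ p ^ h ∣ e.degree then coeff e P else 0, fun e => rfl⟩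
  obtain ⟨P', hP'⟩ : ∃ Q : MvPowerSeries Unit A, ∀ e, coeff e Q =
      if e.degree < d then coeff e P else 0 :=
    ⟨fun e => if e.degree < d then coeff e P else 0, fun e => rfl⟩
  have P'0 : constantCoeff P' = 0 := by
    rw [← coeff_zero_eq_constantCoeff_apply, hP', coeff_zero_eq_constantCoeff_apply, P0', ite_self]
  have hag : Agree d P P' := fun e he => by rw [hP', if_pos he]
  have hdvd : (p : MvPowerSeries Unit A) ∣ P' - Q := by
    refine dvd_of_dvd_coeff fun e => ?_
    rw [map_sub, hP', hQ]
    obtain ⟨m, rfl⟩ : ∃ m, e = single () m := ⟨e (), Finsupp.unique_single e⟩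
    rw [degree_single]
    split_ifs with h1 h2 <;> try simp_all
  have hQpow : ∀ j, coeff (single () d) (Q ^ j) = 0 := by
    intro j
    suffices ∀ e : Unit →₀ ℕ, ¬ p ^ h ∣ e.degree → coeff e (Q ^ j) = 0 from
      this _ (by rwa [degree_single])
    induction j with
    | zero =>
      intro e he
      rw [pow_zero, coeff_one, if_neg]
      rintro rfl
      simp at he
    | succ j ihj =>
      intro e he
      rw [pow_succ, coeff_mul]
      refine Finset.sum_eq_zero fun x hx => ?_
      have hsum := Finset.HasAntidiagonal.mem_antidiagonal.mp hx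
      by_cases h1 : p ^ h ∣ x.2.degree
      · rw [ihj x.1 fun h2 => he (by rw [← hsum, map_add]; exact dvd_add h2 h1), zero_mul]
      · rw [hQ, if_neg (fun h2 => h1 h2.2), mul_zero]
  have hsum := congrArg (coeff (single () d)) (D.logAt_mulSeries p)
  rw [← hP, map_nsmul, D.coeff_logAt P0, D.coeff_logAt (constantCoeff_X _), degree_single,
    nsmul_eq_mul, Finset.sum_range_succ', Finset.sum_range_succ'] at hsum
  have hX : ∀ j, D.c (j + 1) *
      coeff (single () d) ((X () : MvPowerSeries Unit (Kp p A)) ^ (p ^ (j + 1))) = 0 := by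
    intro j
    by_cases hj : j + 1 < h
    · rw [D.c_eq_zero hu (by omega) hj, zero_mul]
    · rw [coeff_X_pow, if_neg, mul_zero]
      rw [single_eq_single_iff]
      rintro (⟨-, rfl⟩ | ⟨rfl, -⟩)
      · exact hd (pow_dvd_pow p (by omega))
      · exact hd (dvd_zero _)
  have hterm : ∀ j, ∃ z : A, D.ι ((p : A) * z) =
      D.c (j + 1) * coeff (single () d) (map D.ι P ^ (p ^ (j + 1))) := by
    intro j
    have h1 : coeff (single () d) (P ^ (p ^ (j + 1))) = coeff (single () d) (P' ^ (p ^ (j + 1))) :=
      hag.pow_succ_degree P0' P'0 (le_trans hp.out.two_le (Nat.le_self_pow (by omega) p)) _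
        (by rw [degree_single]; omega)
    obtain ⟨z, hz⟩ := dvd_coeff_of_dvd (m := p ^ (j + 2))
      (by exact_mod_cast dvd_sub_pow_of_dvd_sub hdvd (j + 1)) (single () d)
    rw [map_sub, hQpow, sub_zero] at hz
    refine ⟨D.bcoef (j + 1) * z, ?_⟩
    rw [← map_pow (map D.ι), coeff_map, h1, hz, c]
    simp only [map_mul, map_pow, Nat.cast_pow, map_natCast]
    calc (p : Kp p A) * (D.ι (D.bcoef (j + 1)) * D.ι z)
        = (p : Kp p A) * (D.ι (D.bcoef (j + 1)) * D.ι z) *
            ((p : Kp p A) * D.invp) ^ (j + 1) := by rw [D.natCast_mul_invp, one_pow, mul_one]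
      _ = _ := by ring
  choose z hz using hterm
  refine ⟨(if d = 1 then 1 else 0) - ∑ j ∈ Finset.range d, z j, D.ι_injective ?_⟩
  have hz' : (∑ j ∈ Finset.range d, D.ι ((p : A) * z j)) = ∑ j ∈ Finset.range d,
      D.c (j + 1) * coeff (single () d) (map D.ι P ^ (p ^ (j + 1))) :=
    Finset.sum_congr rfl fun j _ => hz j
  simp only [map_mul, map_natCast, ← Finset.mul_sum] at hz'
  simp only [hX, Finset.sum_const_zero, zero_add, c_zero, pow_zero, pow_one, one_mul,
    coeff_map, coeff_X, single_eq_single_iff, true_and, one_ne_zero, and_false, or_false] at hsum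
  rw [map_mul, map_natCast, map_sub, map_sum]
  split_ifs at hsum ⊢ <;> simp only [map_one, map_zero] <;> linear_combination hsum + hz'

/-! ### Functoriality -/

variable {A' : Type*} [CommRing A'] {D} {D' : FEData p A'} (φ : A →+* A')
  (hf : ∀ a, φ (D.frob a) = D'.frob (φ a)) (hφu : ∀ i, 1 ≤ i → φ (D.u i) = D'.u i)

omit hp in
include hf in
theorem map_frobIter (i : ℕ) (a : A) : φ (D.frobIter i a) = D'.frobIter i (φ a) := by
  induction i with
  | zero => simp [frobIter]
  | succ i ih => simp [frobIter, hf, ih]

omit hp in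
include hf hφu in
theorem map_bcoef (j : ℕ) : φ (D.bcoef j) = D'.bcoef j := by
  induction j using Nat.strong_induction_on with
  | _ j ih =>
  cases j with
  | zero => simp [bcoef]
  | succ j =>
    rw [bcoef, bcoef, map_sum]
    refine Finset.sum_congr rfl fun i _ => ?_
    rw [map_mul, map_mul, map_pow, map_natCast, map_frobIter φ hf, hφu _ (by omega),
      ih _ (by omega)]

/-- The induced map on `A[1/p]`. -/
noncomputable def mapK (φ : A →+* A') (D' : FEData p A') : Kp p A →+* Kp p A' :=
  IsLocalization.lift (M := Submonoid.powers (p : A)) (g := D'.ι.comp φ) fun y => by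
    obtain ⟨y, m, rfl⟩ := y
    simp only [map_pow, map_natCast]
    exact (IsUnit.of_mul_eq_one _ D'.natCast_mul_invp).pow m

omit hp in
theorem mapK_ι (a : A) : mapK φ D' (D.ι a) = D'.ι (φ a) := IsLocalization.lift_eq _ a

omit hp in
theorem mapK_invp : mapK φ D' D.invp = D'.invp := by
  have h := congrArg (mapK φ D') D.natCast_mul_invp
  rw [map_mul, map_natCast, map_one] at h
  calc mapK φ D' D.invp = mapK φ D' D.invp * ((p : Kp p A') * D'.invp) := by
        rw [D'.natCast_mul_invp, mul_one]
    _ = ((p : Kp p A') * mapK φ D' D.invp) * D'.invp := by ring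
    _ = D'.invp := by rw [h, one_mul]

include hf hφu in
theorem map_log : PowerSeries.map (mapK φ D') D.log = D'.log := by
  rw [log, map_ppow, log]
  congr 1
  funext j
  rw [c, c, map_mul, map_pow, mapK_ι, mapK_invp, map_bcoef φ hf hφu]

include hf hφu in
theorem map_logAt {a : MvPowerSeries τ (Kp p A)} (a0 : constantCoeff a = 0) :
    map (mapK φ D') (D.logAt a) = D'.logAt (map (mapK φ D') a) := by
  rw [logAt, logAt, PowerSeries.map_subst (PowerSeries.HasSubst.of_constantCoeff_zero a0),
    map_log φ hf hφu]

include hf hφu in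
theorem map_law : D.law.map φ = D'.law := by
  refine D'.law_unique _ ?_
  have hm : map D'.ι (map φ D.lawSeries) = map (mapK φ D') (map D.ι D.lawSeries) := by
    ext e
    simp only [coeff_map, mapK_ι]
  rw [FormalGroup.map_toPowerSeries, law_toPowerSeries, hm, ← map_logAt φ hf hφu
    (by rw [constantCoeff_map, D.constantCoeff_lawSeries, map_zero]), D.logAt_lawSeries, map_add,
    map_logAt φ hf hφu (constantCoeff_X _), map_logAt φ hf hφu (constantCoeff_X _), map_X, map_X]

/-! ### The Honda case -/

variable (D) {n : ℕ} (hn : 1 ≤ n) (hu1 : ∀ i, 1 ≤ i → D.u i = if i = n then 1 else 0)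

include hu1 in
theorem frobIter_bcoef (i j : ℕ) : D.frobIter i (D.bcoef j) = D.bcoef j := by
  induction j using Nat.strong_induction_on with
  | _ j ih =>
  cases j with
  | zero => simp [bcoef]
  | succ j =>
    rw [bcoef, map_sum]
    refine Finset.sum_congr rfl fun l _ => ?_
    simp only [map_mul, map_pow, map_natCast, hu1 _ (Nat.succ_pos _)]
    rw [← frobIter_add, add_comm i, frobIter_add, ih (j - l) (by omega)]
    split_ifs <;> simp

include hn hu1 in
theorem p_mul_c_succ (j : ℕ) :
    (p : Kp p A) * D.c (j + 1) = if n ≤ j + 1 then D.c (j + 1 - n) else 0 := by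
  rw [D.c_succ, Finset.mul_sum]
  have hterm : ∀ i, (p : Kp p A) * (D.s (i + 1) * D.frobK (i + 1) (D.c (j - i))) =
      if i + 1 = n then D.c (j - i) else 0 := fun i => by
    have hc : D.frobK (i + 1) (D.c (j - i)) = D.c (j - i) := by
      rw [c, map_mul, map_pow, frobK_ι, frobK_invp, D.frobIter_bcoef hu1]
    rw [hc, s, hu1 _ (by omega)]
    split_ifs
    · rw [map_one, one_mul, ← mul_assoc, D.natCast_mul_invp, one_mul]
    · simp
  simp only [hterm]
  split_ifs with h1
  · rw [Finset.sum_eq_single (n - 1)]
    · rw [if_pos (by omega), show j - (n - 1) = j + 1 - n by omega]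
    · exact fun b _ hb => if_neg (by omega)
    · exact fun hb => absurd (Finset.mem_range.mpr (by omega)) hb
  · exact Finset.sum_eq_zero fun b hb => if_neg (by rw [Finset.mem_range] at hb; omega)

include hn hu1 in
theorem dvd_mulSeries_sub_X_pow :
    ∀ d, (p : A) ∣ PowerSeries.coeff d (mulSeries D.law p) -
      PowerSeries.coeff d ((PowerSeries.X : PowerSeries A) ^ (p ^ n)) := by
  classical
  intro d
  set P : MvPowerSeries Unit A := mulSeries D.law p with hP
  change (p : A) ∣ coeff (single () d) P -
    coeff (single () d) ((X () : MvPowerSeries Unit A) ^ (p ^ n))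
  induction d using Nat.strong_induction_on with
  | _ d ih =>
  have hq : 2 ≤ p ^ n := le_trans hp.out.two_le (Nat.le_self_pow (by omega) p)
  have P0 : constantCoeff (map D.ι P) = 0 := by
    rw [constantCoeff_map, hP, D.constantCoeff_mulSeries, map_zero]
  obtain ⟨Q, hQ⟩ : ∃ Q : MvPowerSeries Unit A, ∀ e, coeff e Q =
      if e.degree < d then coeff e P else coeff e ((X () : MvPowerSeries Unit A) ^ (p ^ n)) :=
    ⟨fun e => if e.degree < d then coeff e P else coeff e ((X () : MvPowerSeries Unit A) ^ (p ^ n)),
      fun e => rfl⟩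
  have Q0 : constantCoeff Q = 0 := by
    rw [← coeff_zero_eq_constantCoeff_apply, hQ]
    split_ifs
    · rw [coeff_zero_eq_constantCoeff_apply, hP, D.constantCoeff_mulSeries]
    · exact coeff_pow_eq_zero (constantCoeff_X _) (by rw [map_zero]; omega)
  have hag : Agree d P Q := fun e he => by rw [hQ, if_pos he]
  have hdvd : (p : MvPowerSeries Unit A) ∣ (X () : MvPowerSeries Unit A) ^ (p ^ n) - Q := by
    refine dvd_of_dvd_coeff fun e => ?_
    rw [map_sub, hQ]
    split_ifs with he
    · obtain ⟨m, rfl⟩ : ∃ m, e = single () m := ⟨e (), Finsupp.unique_single e⟩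
      rw [degree_single] at he
      rw [← dvd_neg, neg_sub]
      exact ih _ he
    · simp
  have hsum := congrArg (coeff (single () d)) (D.logAt_mulSeries p)
  rw [← hP, map_nsmul, D.coeff_logAt P0, D.coeff_logAt (constantCoeff_X _), degree_single,
    nsmul_eq_mul, Finset.mul_sum] at hsum
  have hhonda : (∑ j ∈ Finset.range (d + 1), (p : Kp p A) *
        (D.c j * coeff (single () d) ((X () : MvPowerSeries Unit (Kp p A)) ^ (p ^ j)))) =
      (p : Kp p A) * (if d = 1 then 1 else 0) + ∑ j ∈ Finset.range (d + 1),
        D.c j * coeff (single () d) (((X () : MvPowerSeries Unit (Kp p A)) ^ (p ^ n)) ^ (p ^ j)) := by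
    rw [Finset.sum_range_succ', add_comm]
    congr 1
    · rw [c_zero, pow_zero, pow_one, one_mul, coeff_X]
      simp
    · simp only [← mul_assoc, D.p_mul_c_succ hn hu1, ← pow_mul, ← pow_add, ite_mul, zero_mul]
      rw [← Finset.sum_filter, show (Finset.range d).filter (fun j => n ≤ j + 1) =
        Finset.Ico (n - 1) d by
          ext
          simp only [Finset.mem_filter, Finset.mem_range, Finset.mem_Ico]
          omega,
        Finset.sum_Ico_eq_sum_range]
      trans ∑ j ∈ Finset.range (d - (n - 1)),
          D.c j * coeff (single () d) ((X () : MvPowerSeries Unit (Kp p A)) ^ (p ^ (n + j)))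
      · refine Finset.sum_congr rfl fun j _ => ?_
        rw [show n - 1 + j + 1 - n = j by omega, show n - 1 + j + 1 = n + j by omega]
      · refine Finset.sum_subset (Finset.range_subset_range.mpr (by omega)) fun j hj hj2 => ?_
        rw [Finset.mem_range] at hj2
        have h1 : n + j < p ^ (n + j) := (n + j).lt_pow_self hp.out.one_lt
        rw [coeff_pow_eq_zero (constantCoeff_X _) (by rw [degree_single]; omega), mul_zero]
  rw [hhonda] at hsum
  have hterm : ∀ j, ∃ z : A, D.ι ((p : A) * z) = D.c (j + 1) *
      (coeff (single () d) (((X () : MvPowerSeries Unit (Kp p A)) ^ (p ^ n)) ^ (p ^ (j + 1)))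
        - coeff (single () d) (map D.ι P ^ (p ^ (j + 1)))) := by
    intro j
    have h1 : coeff (single () d) (P ^ (p ^ (j + 1))) = coeff (single () d) (Q ^ (p ^ (j + 1))) :=
      hag.pow_succ_degree (by rw [hP, D.constantCoeff_mulSeries]) Q0
        (le_trans hp.out.two_le (Nat.le_self_pow (by omega) p)) _ (by rw [degree_single]; omega)
    obtain ⟨z, hz⟩ := dvd_coeff_of_dvd (m := p ^ (j + 2))
      (by exact_mod_cast dvd_sub_pow_of_dvd_sub hdvd (j + 1)) (single () d)
    refine ⟨D.bcoef (j + 1) * z, ?_⟩
    rw [← map_X D.ι (), ← map_pow, ← map_pow, ← map_pow, coeff_map, coeff_map, ← map_sub, h1,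
      ← map_sub, hz, c]
    simp only [map_mul, map_pow, Nat.cast_pow, map_natCast]
    calc (p : Kp p A) * (D.ι (D.bcoef (j + 1)) * D.ι z)
        = (p : Kp p A) * (D.ι (D.bcoef (j + 1)) * D.ι z) *
            ((p : Kp p A) * D.invp) ^ (j + 1) := by rw [D.natCast_mul_invp, one_pow, mul_one]
      _ = _ := by ring
  choose z hz using hterm
  refine ⟨(if d = 1 then 1 else 0) + ∑ j ∈ Finset.range d, z j, D.ι_injective ?_⟩
  have hz' : (∑ j ∈ Finset.range d, D.ι ((p : A) * z j)) = ∑ j ∈ Finset.range d, D.c (j + 1) *
      (coeff (single () d) (((X () : MvPowerSeries Unit (Kp p A)) ^ (p ^ n)) ^ (p ^ (j + 1)))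
        - coeff (single () d) (map D.ι P ^ (p ^ (j + 1)))) :=
    Finset.sum_congr rfl fun j _ => hz j
  simp only [mul_sub, Finset.sum_sub_distrib, map_mul, map_natCast, ← Finset.mul_sum] at hz'
  rw [Finset.sum_range_succ', Finset.sum_range_succ'] at hsum
  simp only [c_zero, pow_zero, pow_one, one_mul, coeff_map] at hsum
  rw [map_sub, map_mul, map_natCast, map_add, map_sum,
    ← coeff_map D.ι (single () d) (X () ^ (p ^ n)), map_pow (map D.ι), map_X]
  split_ifs at hsum ⊢ <;> simp only [map_one, map_zero] <;> linear_combination hsum - hz'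

end FEData

end Vale.Agent.P217
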