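import Vale.Agent.P217.Cocycle
import Vale.Agent.P217.FEqLaw

/-!
The Hazewinkel law over the Lubin-Tate ring, the height ideals, the `[p]` congruences, the Honda
special fibre and the first order variation of the law in each coordinate.
-/

noncomputable section

namespace Vale.Agent.P217

open MvPowerSeries Finsupp

set_option linter.unusedSectionVars false

variable (p : ℕ) [hp : Fact p.Prime] (n : ℕ) (k : Type) [Field k] [CharP k p] [Finite k]

instance isDomain_E0 : IsDomain (E0 p n k) := NoZeroDivisors.to_isDomain _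

instance isDomain_E0k : IsDomain (MvPowerSeries (Fin (n - 1)) k) := NoZeroDivisors.to_isDomain _

theorem coeff_X_zero_add_X_one_pow {A : Type*} [CommRing A] (q a b : ℕ) :
    coeff (xy a b) ((X 0 + X 1 : MvPowerSeries (Fin 2) A) ^ q) =
      if a + b = q then (q.choose a : A) else 0 := by
  classical
  have hm : ∀ m r : ℕ, (X 0 : MvPowerSeries (Fin 2) A) ^ m * X 1 ^ r = monomial (xy m r) 1 := by
    intro m r
    rw [X_pow_eq, X_pow_eq, monomial_mul_monomial, one_mul]
    rfl
  have hC : ∀ c : ℕ, (c : MvPowerSeries (Fin 2) A) = C (c : A) := fun c => (map_natCast _ c).symm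
  rw [add_pow, map_sum]
  simp only [hm, hC, coeff_mul_C, coeff_monomial]
  split_ifs with h
  · rw [Finset.sum_eq_single a]
    · rw [if_pos (by congr 1; omega), one_mul]
    · intro m _ hne
      rw [if_neg (fun h' => hne (by simpa [xy] using (DFunLike.congr_fun h' 0).symm)), zero_mul]
    · intro hna
      exact absurd (Finset.mem_range.mpr (by omega)) hna
  · refine Finset.sum_eq_zero fun m hm' => ?_
    rw [Finset.mem_range] at hm'
    rw [if_neg, zero_mul]
    intro h'
    have e0 : a = m := by simpa [xy] using DFunLike.congr_fun h' 0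
    have e1 : b = q - m := by simpa [xy] using DFunLike.congr_fun h' 1
    omega

/-- The bracket in the first nonlinear coefficient of the law. -/
theorem coeff_first_bracket {A : Type*} [CommRing A] {a b q : ℕ} (hq : a + b = q) :
    coeff (xy a b) ((X 0 : MvPowerSeries (Fin 2) A) ^ q)
      + coeff (xy a b) ((X 1 : MvPowerSeries (Fin 2) A) ^ q)
      - coeff (xy a b) ((X 0 + X 1) ^ q) =
      if a = 0 ∨ b = 0 then (if a = 0 ∧ b = 0 then 1 else 0) else -(q.choose a : A) := by
  classical
  have h0 : (xy a b = single 0 q) ↔ (a = q ∧ b = 0) := by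
    constructor
    · intro h
      have e0 : xy a b 0 = (single (0 : Fin 2) q) 0 := by rw [h]
      have e1 : xy a b 1 = (single (0 : Fin 2) q) 1 := by rw [h]
      rw [xy_zero, single_eq_same] at e0
      rw [xy_one, single_eq_of_ne (by decide)] at e1
      exact ⟨e0, e1⟩
    · rintro ⟨rfl, rfl⟩; simp [xy]
  have h1 : (xy a b = single 1 q) ↔ (a = 0 ∧ b = q) := by
    constructor
    · intro h
      have e0 : xy a b 0 = (single (1 : Fin 2) q) 0 := by rw [h]
      have e1 : xy a b 1 = (single (1 : Fin 2) q) 1 := by rw [h]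
      rw [xy_zero, single_eq_of_ne (by decide)] at e0
      rw [xy_one, single_eq_same] at e1
      exact ⟨e0, e1⟩
    · rintro ⟨rfl, rfl⟩; simp [xy]
  rw [coeff_X_zero_add_X_one_pow, if_pos hq, coeff_X_pow, coeff_X_pow]
  simp only [h0, h1]
  by_cases ha : a = 0
  · subst ha
    simp only [zero_add] at hq
    subst hq
    simp only [Nat.choose_zero_right, Nat.cast_one, and_self, true_and, true_or, if_true]
    by_cases hb : b = 0
    · simp [hb]
    · simp [hb, Ne.symm hb]
  · by_cases hb : b = 0
    · subst hb
      simp only [add_zero] at hq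
      subst hq
      simp [ha]
    · simp [ha, hb]

theorem dvd_choose_div {q a : ℕ} {h : ℕ} (hq : q = p ^ h) (ha : a ≠ 0) (ha' : a ≠ q) :
    p * (q.choose a / p) = q.choose a := by
  subst hq
  exact Nat.mul_div_cancel' (hp.out.dvd_choose_pow ha ha')

theorem not_dvd_choose_div {h : ℕ} (hh : 1 ≤ h) :
    ¬ p ∣ (p ^ h).choose (p ^ (h - 1)) / p := by
  intro hdvd
  have hlt : p ^ (h - 1) < p ^ h := Nat.pow_lt_pow_right hp.out.one_lt (by omega)
  have hne : p ^ (h - 1) ≠ 0 := pow_ne_zero _ hp.out.ne_zero
  have h2 : p ^ 2 ∣ (p ^ h).choose (p ^ (h - 1)) := by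
    rw [← dvd_choose_div p rfl hne hlt.ne, pow_two]
    exact mul_dvd_mul_left p hdvd
  have hfac := Nat.factorization_choose_prime_pow hp.out hlt.le hne
  rw [Nat.Prime.factorization_pow hp.out, Finsupp.single_eq_same] at hfac
  have := (Nat.Prime.pow_dvd_iff_le_factorization hp.out (Nat.choose_pos hlt.le).ne').mp h2
  omega

/-! ### Frobenius lifts -/

theorem natCast_dvd_witt_iff (x : WittVector p k) :
    (p : WittVector p k) ∣ x ↔ WittVector.constantCoeff x = 0 := by
  rw [← Ideal.mem_span_singleton, ← WittVector.ker_constantCoeff, RingHom.mem_ker]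

theorem natCast_dvd_E0_iff (f : E0 p n k) :
    (p : E0 p n k) ∣ f ↔ MvPowerSeries.map (WittVector.constantCoeff (p := p) (R := k)) f = 0 := by
  constructor
  · intro h
    ext d
    rw [coeff_map, map_zero]
    exact (natCast_dvd_witt_iff p k _).mp (dvd_coeff_of_dvd h d)
  · intro h
    refine dvd_of_dvd_coeff fun d => (natCast_dvd_witt_iff p k _).mpr ?_
    rw [← coeff_map, h, map_zero]

theorem constantCoeff_witt_frobenius (x : WittVector p k) :
    WittVector.constantCoeff (WittVector.frobenius x) = WittVector.constantCoeff x ^ p :=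
  WittVector.coeff_frobenius_charP p x 0

theorem natCast_ne_zero_witt : (p : WittVector p k) ≠ 0 := WittVector.p_nonzero p k

theorem natCast_ne_zero_E0 : (p : E0 p n k) ≠ 0 := by
  intro h
  have h2 := congrArg MvPowerSeries.constantCoeff h
  rw [map_natCast, map_zero] at h2
  exact natCast_ne_zero_witt p k h2

/-- The Frobenius lift of `E0`: Witt Frobenius on constants and `u_i ↦ u_i ^ p`. -/
def frobE0 : E0 p n k →+* E0 p n k :=
  (expand p hp.out.ne_zero).toRingHom.comp (coeffFrob p n k)

theorem constantCoeff_frobE0 (f : E0 p n k) :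
    MvPowerSeries.constantCoeff (frobE0 p n k f) =
      WittVector.frobenius (MvPowerSeries.constantCoeff f) := by
  simp [frobE0, coeffFrob, constantCoeff_map]

/-- The functional equation data of the Hazewinkel law. -/
def hazData : FEData p (E0 p n k) where
  frob := frobE0 p n k
  frob_congr f := by
    rw [natCast_dvd_E0_iff]
    have : ExpChar k p := ExpChar.prime hp.out
    have hc : (WittVector.constantCoeff (p := p) (R := k)).comp WittVector.frobenius =
        (frobenius k p).comp WittVector.constantCoeff :=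
      RingHom.ext fun x => constantCoeff_witt_frobenius p k x
    simp only [frobE0, coeffFrob, RingHom.comp_apply, AlgHom.toRingHom_eq_coe, RingHom.coe_coe,
      map_sub, map_pow, map_expand, map_map, hc]
    rw [← map_map, ← map_expand, map_frobenius_expand p hp.out.ne_zero, sub_self]
  reg f hf := (mul_eq_zero.mp hf).resolve_left (natCast_ne_zero_E0 p n k)
  u := uE p n k

/-- The functional equation data of the Honda law. -/
def hondaData : FEData p (WittVector p k) where
  frob := WittVector.frobenius
  frob_congr x := by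
    rw [natCast_dvd_witt_iff, map_sub, map_pow, constantCoeff_witt_frobenius, sub_self]
  reg f hf := (mul_eq_zero.mp hf).resolve_left (natCast_ne_zero_witt p k)
  u i := if i = n then 1 else 0

/-- The Hazewinkel law. -/
def hazF : FormalGroup (E0 p n k) := (hazData p n k).law

instance hazF_isComm : (hazF p n k).IsComm := FEData.law_isComm (hazData p n k)

/-! ### The coordinates -/

theorem uE_zero : uE p n k 0 = (p : E0 p n k) := by simp [uE]

theorem uE_var {i : ℕ} (hi : 1 ≤ i) (h : i - 1 < n - 1) :
    uE p n k i = X ⟨i - 1, h⟩ := by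
  simp [uE, show i ≠ 0 by omega, h]

theorem uE_top (hn : 1 ≤ n) : uE p n k n = 1 := by
  simp [uE, show n ≠ 0 by omega]

theorem uE_gt {i : ℕ} (hi : n < i) : uE p n k i = 0 := by
  simp [uE, show i ≠ 0 by omega, show ¬ i - 1 < n - 1 by omega, show i ≠ n by omega]

theorem constantCoeff_uE {i : ℕ} (hi : 1 ≤ i) :
    MvPowerSeries.constantCoeff (uE p n k i) = if i = n then 1 else 0 := by
  by_cases h : i - 1 < n - 1
  · rw [uE_var p n k hi h, constantCoeff_X, if_neg (by omega)]
  · by_cases h2 : i = n
    · subst h2; rw [uE_top p i k hi, map_one, if_pos rfl]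
    · rw [uE_gt p n k (by omega), map_zero, if_neg h2]

theorem coeffFrob_uE (i : ℕ) : coeffFrob p n k (uE p n k i) = uE p n k i := by
  unfold uE
  split_ifs <;> simp [coeffFrob]

theorem frobE0_uE {i : ℕ} (hi : 1 ≤ i) : frobE0 p n k (uE p n k i) = uE p n k i ^ p := by
  rw [frobE0, RingHom.comp_apply, coeffFrob_uE]
  by_cases h : i - 1 < n - 1
  · simp [uE_var p n k hi h]
  · by_cases h2 : i = n
    · subst h2; simp [uE_top p i k hi]
    · simp [uE_gt p n k (show n < i by omega), hp.out.ne_zero]

theorem frobIter_uE {i : ℕ} (hi : 1 ≤ i) (m : ℕ) :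
    (hazData p n k).frobIter m (uE p n k i) = uE p n k i ^ p ^ m := by
  induction m with
  | zero => simp [FEData.frobIter]
  | succ m ih =>
    simp only [FEData.frobIter, RingHom.comp_apply, ih, map_pow]
    rw [show (hazData p n k).frob = frobE0 p n k from rfl, frobE0_uE p n k hi, ← pow_mul,
      pow_succ']

/-! ### Comparison with the logarithm of `Defs` -/

theorem isUnit_natCast_E0Q : IsUnit (p : E0Q p n k) := by
  rw [← map_natCast (MvPowerSeries.C (σ := Fin (n - 1)) (R := FractionRing (WittVector p k)))]
  refine (isUnit_iff_ne_zero.mpr ?_).map _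
  rw [← map_natCast (algebraMap (WittVector p k) (FractionRing (WittVector p k)))]
  exact (map_ne_zero_iff _ (IsFractionRing.injective _ _)).mpr (natCast_ne_zero_witt p k)

/-- `E0[1/p] → E0Q`. -/
def locToQ : Kp p (E0 p n k) →+* E0Q p n k :=
  IsLocalization.lift (M := Submonoid.powers (p : E0 p n k)) (g := toQ p n k) fun y => by
    obtain ⟨y, m, rfl⟩ := y
    simp only [map_pow, map_natCast]
    exact (isUnit_natCast_E0Q p n k).pow m

theorem locToQ_ι (f : E0 p n k) : locToQ p n k ((hazData p n k).ι f) = toQ p n k f :=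
  IsLocalization.lift_eq _ f

theorem locToQ_invp : locToQ p n k (hazData p n k).invp =
    C ((p : FractionRing (WittVector p k))⁻¹) := by
  have h := congrArg (locToQ p n k) (hazData p n k).natCast_mul_invp
  rw [map_mul, map_natCast, map_one] at h
  have hp0 : (p : FractionRing (WittVector p k)) ≠ 0 := by
    rw [← map_natCast (algebraMap (WittVector p k) (FractionRing (WittVector p k)))]
    exact (map_ne_zero_iff _ (IsFractionRing.injective _ _)).mpr (natCast_ne_zero_witt p k)
  refine (isUnit_natCast_E0Q p n k).mul_left_cancel ?_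
  rw [h, ← map_natCast (MvPowerSeries.C (σ := Fin (n - 1)) (R := FractionRing (WittVector p k))),
    ← map_mul, mul_inv_cancel₀ hp0, map_one]

theorem toQ_injective : Function.Injective (toQ p n k) := fun a b h => by
  ext1 d
  apply IsFractionRing.injective (WittVector p k) (FractionRing (WittVector p k))
  simpa [toQ] using congrArg (coeff d) h

theorem locToQ_injective : Function.Injective (locToQ p n k) := by
  rw [locToQ, IsLocalization.lift_injective_iff]
  intro a b
  rw [(hazData p n k).ι_injective.eq_iff, (toQ_injective p n k).eq_iff]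

theorem hazA_eq (j : ℕ) : hazA p n k j = locToQ p n k ((hazData p n k).c j) := by
  induction j using Nat.strong_induction_on with
  | _ j ih =>
  cases j with
  | zero => rw [hazA, FEData.c_zero, map_one]
  | succ j =>
    rw [hazA, Finset.mul_sum, (hazData p n k).c_succ', map_sum, ← Fin.sum_univ_eq_sum_range
      (fun i => locToQ p n k ((hazData p n k).c (j - i) *
        (hazData p n k).frobK (j - i) ((hazData p n k).s (i + 1))))]
    refine Finset.sum_congr rfl fun i _ => ?_
    rw [ih _ (by omega), map_mul, FEData.s, map_mul, FEData.frobK_ι, FEData.frobK_invp, map_mul,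
      locToQ_ι, locToQ_invp, show (hazData p n k).u = uE p n k from rfl,
      frobIter_uE p n k (show 1 ≤ (i : ℕ) + 1 by omega), map_pow]
    ring

theorem hazLog_eq : hazLog p n k = PowerSeries.map (locToQ p n k) (hazData p n k).log := by
  rw [FEData.log, map_ppow]
  ext d
  simp only [hazLog, PowerSeries.coeff_mk]
  by_cases hd : ∃ j, d = p ^ j
  · obtain ⟨j, rfl⟩ := hd
    rw [coeff_ppow_pow hp.out.one_lt, Finset.sum_eq_single j]
    · rw [if_pos rfl, hazA_eq]
    · exact fun b _ hb => if_neg fun h => hb (Nat.pow_right_injective hp.out.two_le h)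
    · intro hj
      exact absurd (Finset.mem_range.mpr (Nat.lt_succ_of_lt (j.lt_pow_self hp.out.one_lt))) hj
  · push Not at hd
    rw [coeff_ppow_of_ne _ hd]
    congr 1
    refine Finset.sum_eq_zero fun j _ => ?_
    rw [if_neg]
    exact fun h => hd j h.symm

theorem subst_hazLog {τ : Type*} {a : MvPowerSeries τ (Kp p (E0 p n k))}
    (a0 : constantCoeff a = 0) :
    PowerSeries.subst (MvPowerSeries.map (locToQ p n k) a) (hazLog p n k) =
      MvPowerSeries.map (locToQ p n k) ((hazData p n k).logAt a) := by
  rw [FEData.logAt, PowerSeries.map_subst (PowerSeries.HasSubst.of_constantCoeff_zero a0),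
    hazLog_eq]

theorem map_toQ_eq {τ : Type*} (a : MvPowerSeries τ (E0 p n k)) :
    MvPowerSeries.map (toQ p n k) a =
      MvPowerSeries.map (locToQ p n k) (MvPowerSeries.map (hazData p n k).ι a) := by
  ext d
  simp only [coeff_map, locToQ_ι]

theorem isHazewinkel_iff (F : FormalGroup (E0 p n k)) :
    IsHazewinkel p n k F ↔ F = hazF p n k := by
  have F0 : constantCoeff (MvPowerSeries.map (hazData p n k).ι F.toPowerSeries) = 0 := by
    rw [constantCoeff_map, F.zero_constantCoeff, map_zero]
  rw [IsHazewinkel, map_toQ_eq, subst_hazLog p n k F0, ← map_X (locToQ p n k) (0 : Fin 2),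
    ← map_X (locToQ p n k) (1 : Fin 2), subst_hazLog p n k (constantCoeff_X _),
    subst_hazLog p n k (constantCoeff_X _), ← map_add]
  constructor
  · intro h
    refine (hazData p n k).law_unique F (MvPowerSeries.ext fun d => locToQ_injective p n k ?_)
    rw [← coeff_map, ← coeff_map, h]
  · rintro rfl
    exact congrArg _ (hazData p n k).logAt_lawSeries

theorem exists_hazewinkel : ∃ F : FormalGroup (E0 p n k), F.IsComm ∧ IsHazewinkel p n k F :=
  ⟨hazF p n k, inferInstance, (isHazewinkel_iff p n k _).mpr rfl⟩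

variable {F : FormalGroup (E0 p n k)}

theorem isComm_of_isHazewinkel (hF : IsHazewinkel p n k F) : F.IsComm := by
  rw [(isHazewinkel_iff p n k F).mp hF]; infer_instance

/-- The law is fixed by the coefficient Frobenius. -/
theorem map_coeffFrob_of_isHazewinkel (hF : IsHazewinkel p n k F) :
    F.map (coeffFrob p n k) = F := by
  rw [(isHazewinkel_iff p n k F).mp hF]
  refine FEData.map_law (D := hazData p n k) (D' := hazData p n k) (coeffFrob p n k) ?_ ?_
  · intro f
    simp only [hazData, frobE0, coeffFrob, RingHom.comp_apply, AlgHom.toRingHom_eq_coe,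
      RingHom.coe_coe, map_expand]
  · intro i _
    exact coeffFrob_uE p n k i

/-! ### The special fibre -/

theorem special_eq (hF : IsHazewinkel p n k F) :
    special p n k F = (hondaData p n k).law.map WittVector.constantCoeff := by
  have h := FEData.map_law (D := hazData p n k) (D' := hondaData p n k)
    MvPowerSeries.constantCoeff (constantCoeff_frobE0 p n k)
    (fun i hi => constantCoeff_uE p n k hi)
  rw [(isHazewinkel_iff p n k F).mp hF]
  ext1
  change MvPowerSeries.map (res p n k) (hazData p n k).law.toPowerSeries =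
    MvPowerSeries.map WittVector.constantCoeff (hondaData p n k).law.toPowerSeries
  rw [← h, FormalGroup.map_toPowerSeries, map_map]
  rfl

theorem coeff_special (hF : IsHazewinkel p n k F) (d : Fin 2 →₀ ℕ) :
    res p n k (coeff d F.toPowerSeries) =
      WittVector.constantCoeff (coeff d (hondaData p n k).lawSeries) := by
  have h := congrArg (fun G : FormalGroup k => coeff d G.toPowerSeries) (special_eq p n k hF)
  simpa [FormalGroup.map_toPowerSeries, FEData.law_toPowerSeries] using h

theorem mulSeries_special (hn : 1 ≤ n) (hF : IsHazewinkel p n k F) :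
    mulSeries (special p n k F) p = PowerSeries.X ^ p ^ n := by
  rw [special_eq p n k hF, map_mulSeries]
  ext d
  have h := (hondaData p n k).dvd_mulSeries_sub_X_pow hn (fun i _ => rfl) d
  rw [natCast_dvd_witt_iff, map_sub, sub_eq_zero] at h
  rw [PowerSeries.coeff_map, h, ← PowerSeries.coeff_map, map_pow, PowerSeries.map_X]

theorem coeff_special_pow (hF : IsHazewinkel p n k F) (d : Fin 2 →₀ ℕ) :
    coeff d (special p n k F).toPowerSeries ^ p = coeff d (special p n k F).toPowerSeries := by
  have h := FEData.map_law (D := hondaData p n k) (D' := hondaData p n k)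
    WittVector.frobenius (fun x => rfl)
    (fun i _ => by simp only [hondaData]; split_ifs <;> simp)
  rw [special_eq p n k hF, FormalGroup.map_toPowerSeries, coeff_map,
    ← constantCoeff_witt_frobenius, ← coeff_map]
  exact congrArg (fun G : FormalGroup (WittVector p k) =>
    WittVector.constantCoeff (coeff d G.toPowerSeries)) h

theorem hondaData_u_eq_zero {i : ℕ} (hi : i < n) : (hondaData p n k).u i = 0 := by
  simp [hondaData, hi.ne]

theorem res_coeff_low (hn : 1 ≤ n) (hF : IsHazewinkel p n k F) {d : Fin 2 →₀ ℕ}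
    (h2 : 2 ≤ d.degree) (hd : d.degree < p ^ n) :
    res p n k (coeff d F.toPowerSeries) = 0 := by
  classical
  rw [coeff_special p n k hF, (hondaData p n k).coeff_law_low hn
    (fun i _ hi => hondaData_u_eq_zero p n k hi) hd, map_add, coeff_X, coeff_X, if_neg, if_neg,
    add_zero, map_zero]
  all_goals
    rintro rfl
    rw [degree_single] at h2
    omega

theorem res_coeff_first (hn : 1 ≤ n) (hF : IsHazewinkel p n k F) {a b : ℕ} (ha : a ≠ 0)
    (hb : b ≠ 0) (hab : a + b = p ^ n) :
    res p n k (coeff (xy a b) F.toPowerSeries) = -(((p ^ n).choose a / p : ℕ) : k) := by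
  have h := (hondaData p n k).mul_coeff_law_first hn
    (fun i _ hi => hondaData_u_eq_zero p n k hi) (e := xy a b) (by rw [degree_xy, hab])
  rw [coeff_first_bracket hab, if_neg (by tauto)] at h
  simp only [hondaData, if_true, one_mul] at h
  rw [coeff_special p n k hF, show coeff (xy a b) (hondaData p n k).lawSeries =
    -(((p ^ n).choose a / p : ℕ) : WittVector p k) from ?_, map_neg, map_natCast]
  refine mul_left_cancel₀ (natCast_ne_zero_witt p k) ?_
  rw [mul_neg, ← Nat.cast_mul, dvd_choose_div p rfl ha (by omega)]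
  exact h

theorem res_coeff_first_ne_zero (hn : 1 ≤ n) (hF : IsHazewinkel p n k F) :
    res p n k (coeff (xy (p ^ (n - 1)) (p ^ n - p ^ (n - 1))) F.toPowerSeries) ≠ 0 := by
  have hlt : p ^ (n - 1) < p ^ n := Nat.pow_lt_pow_right hp.out.one_lt (by omega)
  have hpos : 0 < p ^ (n - 1) := pow_pos hp.out.pos _
  rw [res_coeff_first p n k hn hF (by omega) (by omega) (by omega), neg_ne_zero, Ne,
    CharP.cast_eq_zero_iff k p]
  exact not_dvd_choose_div p hn

/-! ### The height ideals -/

/-- The endomorphism of `E0` killing `u_i` for `1 ≤ i < h`. -/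
def kill (h : ℕ) : E0 p n k →+* E0 p n k :=
  rescale fun i : Fin (n - 1) => if (i : ℕ) + 1 < h then 0 else 1

theorem coeff_kill (h : ℕ) (f : E0 p n k) (d : Fin (n - 1) →₀ ℕ)
    [Decidable (∀ i : Fin (n - 1), (i : ℕ) + 1 < h → d i = 0)] :
    coeff d (kill p n k h f) =
      if (∀ i : Fin (n - 1), (i : ℕ) + 1 < h → d i = 0) then coeff d f else 0 := by
  rw [kill, coeff_rescale]
  split_ifs with hd
  · rw [Finsupp.prod, Finset.prod_eq_one, one_mul]
    intro i hi
    rw [Finsupp.mem_support_iff] at hi
    rw [if_neg (fun h2 => hi (hd i h2)), one_pow]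
  · push Not at hd
    obtain ⟨i, h1, h2⟩ := hd
    rw [Finsupp.prod, Finset.prod_eq_zero (Finsupp.mem_support_iff.mpr h2)
      (by rw [if_pos h1, zero_pow h2]), zero_mul]

theorem kill_frobE0 (h : ℕ) (f : E0 p n k) :
    kill p n k h (frobE0 p n k f) = frobE0 p n k (kill p n k h f) := by
  classical
  ext1 e
  simp only [frobE0, coeffFrob, RingHom.comp_apply, AlgHom.toRingHom_eq_coe, RingHom.coe_coe,
    coeff_kill]
  by_cases hd : ∀ t, p ∣ e t
  · obtain ⟨m, rfl⟩ : ∃ m : Fin (n - 1) →₀ ℕ, e = p • m :=
      ⟨e.mapRange (· / p) (by simp), Finsupp.ext fun t => by simp [Nat.mul_div_cancel' (hd t)]⟩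
    simp only [coeff_expand_smul, coeff_map, coeff_kill, Finsupp.smul_apply, smul_eq_mul,
      mul_eq_zero, hp.out.ne_zero, false_or]
    split_ifs <;> simp
  · push Not at hd
    obtain ⟨t, ht⟩ := hd
    rw [coeff_expand_of_not_dvd _ _ _ ht, coeff_expand_of_not_dvd _ _ _ ht, ite_self]

theorem kill_X (h : ℕ) (i : Fin (n - 1)) :
    kill p n k h (X i) = if (i : ℕ) + 1 < h then 0 else X i := by
  classical
  ext1 d
  rw [coeff_kill, coeff_X]
  by_cases hd : d = single i 1
  · subst hd
    by_cases hi : (i : ℕ) + 1 < h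
    · rw [if_neg (fun h' => by simpa using h' i hi), if_pos hi, map_zero]
    · rw [if_pos, if_neg hi, coeff_X]
      intro j hj
      rw [single_apply, if_neg]
      rintro rfl
      exact hi hj
  · rw [if_neg hd, ite_self]
    split_ifs
    · rw [map_zero]
    · rw [coeff_X, if_neg hd]

theorem kill_uE_lt {h i : ℕ} (hh : h ≤ n) (hi : 1 ≤ i) (hih : i < h) :
    kill p n k h (uE p n k i) = 0 := by
  rw [uE_var p n k hi (by omega), kill_X, if_pos (by dsimp only; omega)]

theorem kill_uE_ge {h i : ℕ} (hi : 1 ≤ i) (hih : h ≤ i) :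
    kill p n k h (uE p n k i) = uE p n k i := by
  by_cases h1 : i - 1 < n - 1
  · rw [uE_var p n k hi h1, kill_X, if_neg (by dsimp only; omega)]
  · by_cases h2 : i = n
    · subst h2; rw [uE_top p i k hi, map_one]
    · rw [uE_gt p n k (by omega), map_zero]

/-- The data of the law pushed along `kill h`. -/
def killData (h : ℕ) : FEData p (E0 p n k) :=
  { hazData p n k with u := fun i => kill p n k h (uE p n k i) }

theorem killData_u_eq_zero {h : ℕ} (hh : h ≤ n) :
    ∀ i, 1 ≤ i → i < h → (killData p n k h).u i = 0 :=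
  fun _ h1 h2 => kill_uE_lt p n k hh h1 h2

theorem map_kill_hazF (h : ℕ) : (hazF p n k).map (kill p n k h) = (killData p n k h).law :=
  FEData.map_law (D := hazData p n k) (D' := killData p n k h) (kill p n k h)
    (fun f => kill_frobE0 p n k h f) (fun _ _ => rfl)

theorem kill_coeff_mulSeries (hF : IsHazewinkel p n k F) (h j : ℕ) :
    kill p n k h (PowerSeries.coeff j (mulSeries F p)) =
      PowerSeries.coeff j (mulSeries (killData p n k h).law p) := by
  rw [(isHazewinkel_iff p n k F).mp hF, ← map_kill_hazF, map_mulSeries, PowerSeries.coeff_map]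

theorem kill_coeff_law (hF : IsHazewinkel p n k F) (h : ℕ) (d : Fin 2 →₀ ℕ) :
    kill p n k h (coeff d F.toPowerSeries) = coeff d (killData p n k h).lawSeries := by
  rw [(isHazewinkel_iff p n k F).mp hF]
  have h2 := congrArg (fun G : FormalGroup (E0 p n k) => coeff d G.toPowerSeries)
    (map_kill_hazF p n k h)
  simpa [FormalGroup.map_toPowerSeries, FEData.law_toPowerSeries] using h2

theorem uE_mem_hIdeal {i h : ℕ} (hi : i < h) : uE p n k i ∈ hIdeal p n k h :=
  Ideal.subset_span ⟨i, hi, rfl⟩

theorem hIdeal_zero : hIdeal p n k 0 = ⊥ := by simp [hIdeal]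

theorem sub_kill_mem {h : ℕ} (hh : h ≤ n) (f : E0 p n k) :
    f - kill p n k h f ∈ hIdeal p n k h := by
  classical
  induction h with
  | zero =>
    have : kill p n k 0 f = f := by ext1 d; simp [coeff_kill]
    simp [this]
  | succ h ih =>
    have h1 := Ideal.span_mono (Set.image_mono (Set.Iio_subset_Iio (Nat.le_succ h)))
      (ih (by omega))
    have h2 : kill p n k h f - kill p n k (h + 1) f ∈ hIdeal p n k (h + 1) := by
      by_cases h0 : h = 0
      · subst h0
        have : kill p n k 0 f = kill p n k 1 f := by ext1 d; simp [coeff_kill]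
        simp [this]
      · have ht : h - 1 < n - 1 := by omega
        have hdvd : X (⟨h - 1, ht⟩ : Fin (n - 1)) ∣ kill p n k h f - kill p n k (h + 1) f := by
          rw [X_dvd_iff]
          intro m hm
          rw [map_sub, coeff_kill, coeff_kill]
          have : (∀ i : Fin (n - 1), (i : ℕ) + 1 < h + 1 → m i = 0) ↔
              (∀ i : Fin (n - 1), (i : ℕ) + 1 < h → m i = 0) := by
            refine ⟨fun H i hi => H i (by omega), fun H i hi => ?_⟩
            by_cases he : (i : ℕ) + 1 < h
            · exact H i he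
            · rw [show i = ⟨h - 1, ht⟩ from Fin.ext (by dsimp only; omega)]
              exact hm
          simp only [this, sub_self]
        obtain ⟨g, hg⟩ := hdvd
        rw [hg]
        refine Ideal.mul_mem_right _ _ ?_
        rw [← uE_var p n k (by omega) ht]
        exact uE_mem_hIdeal p n k (Nat.lt_succ_self h)
    have := add_mem h1 h2
    rwa [sub_add_sub_cancel] at this

theorem mem_hIdeal_iff {h : ℕ} (h1 : 1 ≤ h) (hh : h ≤ n) (f : E0 p n k) :
    f ∈ hIdeal p n k h ↔ (p : E0 p n k) ∣ kill p n k h f := by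
  constructor
  · intro hf
    have hle : hIdeal p n k h ≤ Ideal.comap (kill p n k h) (Ideal.span {(p : E0 p n k)}) := by
      refine Ideal.span_le.mpr ?_
      rintro _ ⟨i, hi, rfl⟩
      rw [SetLike.mem_coe, Ideal.mem_comap, Ideal.mem_span_singleton]
      by_cases h0 : i = 0
      · subst h0; rw [uE_zero, map_natCast]
      · rw [kill_uE_lt p n k hh (by omega) hi]; exact dvd_zero _
    exact Ideal.mem_span_singleton.mp (hle hf)
  · rintro ⟨g, hg⟩
    have := sub_kill_mem p n k hh f
    rw [hg] at this
    have h2 : (p : E0 p n k) * g ∈ hIdeal p n k h := by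
      rw [← uE_zero]; exact Ideal.mul_mem_right _ _ (uE_mem_hIdeal p n k h1)
    simpa using add_mem this h2

theorem hIdeal_eq_ker {h : ℕ} (h1 : 1 ≤ h) (hh : h ≤ n) :
    hIdeal p n k h = RingHom.ker ((MvPowerSeries.map
      (WittVector.constantCoeff (p := p) (R := k))).comp (kill p n k h)) := by
  ext f
  rw [mem_hIdeal_iff p n k h1 hh, natCast_dvd_E0_iff]
  rfl

theorem hIdeal_isPrime {h : ℕ} (hh : h ≤ n) : (hIdeal p n k h).IsPrime := by
  by_cases h1 : 1 ≤ h
  · rw [hIdeal_eq_ker p n k h1 hh]
    exact RingHom.ker_isPrime _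
  · rw [show h = 0 by omega, hIdeal_zero]
    exact Ideal.isPrime_bot

theorem hIdeal_top_eq_ker_res (hn : 1 ≤ n) : hIdeal p n k n = RingHom.ker (res p n k) := by
  classical
  rw [hIdeal_eq_ker p n k hn le_rfl]
  ext f
  rw [RingHom.mem_ker, RingHom.mem_ker]
  have hd : ∀ d : Fin (n - 1) →₀ ℕ,
      (∀ i : Fin (n - 1), (i : ℕ) + 1 < n → d i = 0) ↔ d = 0 :=
    fun d => ⟨fun H => Finsupp.ext fun i => H i (by omega), fun H => by simp [H]⟩
  constructor
  · intro h
    have h2 := congrArg (coeff 0) h
    rw [RingHom.comp_apply, coeff_map, coeff_kill, if_pos (by simp), map_zero] at h2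
    rw [res, RingHom.comp_apply]
    exact h2
  · intro h
    ext d
    rw [RingHom.comp_apply, coeff_map, coeff_kill, map_zero]
    simp only [hd]
    split_ifs with h0
    · subst h0
      rw [coeff_zero_eq_constantCoeff_apply]
      exact h
    · exact map_zero _

theorem uE_notMem_hIdeal {h : ℕ} (hn : 1 ≤ n) (hh : h ≤ n) :
    uE p n k h ∉ hIdeal p n k h := by
  classical
  by_cases h0 : h = 0
  · subst h0
    rw [hIdeal_zero, Ideal.mem_bot, uE_zero]
    exact natCast_ne_zero_E0 p n k
  by_cases hhn : h = n
  · subst hhn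
    rw [uE_top p h k hn]
    exact fun H => (hIdeal_isPrime p h k le_rfl).ne_top ((Ideal.eq_top_iff_one _).mpr H)
  rw [mem_hIdeal_iff p n k (by omega) hh, kill_uE_ge p n k (by omega) le_rfl,
    uE_var p n k (by omega) (by omega), natCast_dvd_E0_iff, map_X]
  intro H
  have h2 := congrArg (coeff (single ⟨h - 1, by omega⟩ 1)) H
  rw [coeff_X, if_pos rfl, map_zero] at h2
  exact one_ne_zero h2

theorem coeffFrob_mem_hIdeal (h : ℕ) {f : E0 p n k} (hf : f ∈ hIdeal p n k h) :
    coeffFrob p n k f ∈ hIdeal p n k h := by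
  have hle : hIdeal p n k h ≤ Ideal.comap (coeffFrob p n k) (hIdeal p n k h) := by
    refine Ideal.span_le.mpr ?_
    rintro _ ⟨i, hi, rfl⟩
    rw [SetLike.mem_coe, Ideal.mem_comap, coeffFrob_uE]
    exact uE_mem_hIdeal p n k hi
  exact hle hf

/-! ### Congruences for multiplication by `p` -/

theorem coeff_mulSeries_mem_hIdeal (hF : IsHazewinkel p n k F) {h : ℕ} (hh : h ≤ n) {j : ℕ}
    (hj : ¬ p ^ h ∣ j) : PowerSeries.coeff j (mulSeries F p) ∈ hIdeal p n k h := by
  have h1 : 1 ≤ h := by
    by_contra h0
    rw [show h = 0 by omega] at hj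
    exact hj (one_dvd _)
  rw [mem_hIdeal_iff p n k h1 hh, kill_coeff_mulSeries p n k hF]
  exact (killData p n k h).dvd_coeff_mulSeries_of_not_dvd (killData_u_eq_zero p n k hh) j hj

theorem coeff_one_mulSeries (hF : IsHazewinkel p n k F) :
    PowerSeries.coeff 1 (mulSeries F p) = (p : E0 p n k) := by
  rw [(isHazewinkel_iff p n k F).mp hF, hazF, (hazData p n k).coeff_mulSeries_p le_rfl
    (fun i h1 h2 => absurd h2 (by omega)) (by rw [pow_one]; exact hp.out.pos), pow_one,
    if_neg (Ne.symm hp.out.ne_one), if_pos rfl]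

theorem coeff_mulSeries_sub_uE_mem (hF : IsHazewinkel p n k F) {h : ℕ} (hh : h ≤ n) :
    PowerSeries.coeff (p ^ h) (mulSeries F p) - uE p n k h ∈ hIdeal p n k h := by
  by_cases h1 : 1 ≤ h
  · rw [mem_hIdeal_iff p n k h1 hh, map_sub, kill_coeff_mulSeries p n k hF,
      (killData p n k h).coeff_mulSeries_p h1 (killData_u_eq_zero p n k hh) le_rfl, if_pos rfl,
      kill_uE_ge p n k h1 le_rfl,
      show (killData p n k h).u h = uE p n k h from kill_uE_ge p n k h1 le_rfl,
      mul_sub, mul_one, sub_sub_cancel_left, dvd_neg]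
    have : 2 ≤ p ^ h := le_trans hp.out.two_le (Nat.le_self_pow (by omega) p)
    exact dvd_mul_of_dvd_right (dvd_pow_self _ (by omega)) _
  · rw [show h = 0 by omega, pow_zero, coeff_one_mulSeries p n k hF, uE_zero, sub_self]
    exact zero_mem _

/-! ### First order variation in the coordinates -/

/-- The coefficient of `u_(i+1)` modulo `p`. -/
def resLin (i : Fin (n - 1)) (f : E0 p n k) : k :=
  WittVector.constantCoeff (coeff (single i 1) f)

theorem resLin_kill (i : Fin (n - 1)) (f : E0 p n k) :
    resLin p n k i (kill p n k ((i : ℕ) + 1) f) = resLin p n k i f := by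
  classical
  rw [resLin, resLin, coeff_kill, if_pos]
  intro j hj
  rw [single_apply, if_neg]
  rintro rfl
  omega

theorem resLin_natCast (i : Fin (n - 1)) (m : ℕ) : resLin p n k i (m : E0 p n k) = 0 := by
  classical
  rw [resLin, show (m : E0 p n k) = C (m : WittVector p k) from (map_natCast C m).symm,
    coeff_C, if_neg (by simp), map_zero]

theorem killData_u_self (i : Fin (n - 1)) :
    (killData p n k ((i : ℕ) + 1)).u ((i : ℕ) + 1) = X i := by
  refine (kill_uE_ge p n k (h := (i : ℕ) + 1) (by omega) le_rfl).trans ?_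
  rw [uE_var p n k (by omega) (by omega)]
  congr 1

theorem resLin_coeff_mulSeries (hF : IsHazewinkel p n k F) (i : Fin (n - 1)) {j : ℕ}
    (hj : j ≤ p ^ ((i : ℕ) + 1)) :
    resLin p n k i (PowerSeries.coeff j (mulSeries F p)) =
      if j = p ^ ((i : ℕ) + 1) then 1 else 0 := by
  classical
  rw [← resLin_kill, kill_coeff_mulSeries p n k hF, (killData p n k _).coeff_mulSeries_p
    (by omega) (killData_u_eq_zero p n k (by omega)) hj, killData_u_self]
  have h2 : 2 ≤ p ^ ((i : ℕ) + 1) := le_trans hp.out.two_le (Nat.le_self_pow (by omega) p)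
  split_ifs with hjq hj1
  · have hC : (1 : E0 p n k) - (p : E0 p n k) ^ (p ^ ((i : ℕ) + 1) - 1) =
        C (1 - (p : WittVector p k) ^ (p ^ ((i : ℕ) + 1) - 1)) := by
      rw [map_sub, map_one, map_pow, map_natCast]
    rw [resLin, hC, coeff_mul_C, coeff_X, if_pos rfl, one_mul, map_sub, map_one, map_pow,
      map_natCast, CharP.cast_eq_zero, zero_pow (by omega), sub_zero]
  · exact resLin_natCast p n k i p
  · rw [resLin, map_zero, map_zero]

theorem resLin_coeff_low (hF : IsHazewinkel p n k F) (i : Fin (n - 1)) {d : Fin 2 →₀ ℕ}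
    (hd : d.degree < p ^ ((i : ℕ) + 1)) :
    resLin p n k i (coeff d F.toPowerSeries) = 0 := by
  classical
  rw [← resLin_kill, kill_coeff_law p n k hF, (killData p n k _).coeff_law_low (by omega)
    (killData_u_eq_zero p n k (by omega)) hd, map_add, coeff_X, coeff_X]
  have h1 : resLin p n k i (1 : E0 p n k) = 0 := by simpa using resLin_natCast p n k i 1
  have h0 : resLin p n k i (0 : E0 p n k) = 0 := by simp [resLin]
  have h2 : resLin p n k i (1 + 1 : E0 p n k) = 0 := by
    simpa [one_add_one_eq_two] using resLin_natCast p n k i 2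
  split_ifs <;> simp only [add_zero, zero_add, h0, h1, h2]

/-- The variation of the law in `u_(i+1)` in degree `p ^ (i+1)`. -/
theorem resLin_coeff_first (hF : IsHazewinkel p n k F) (i : Fin (n - 1)) {a b : ℕ}
    (hab : a + b = p ^ ((i : ℕ) + 1)) :
    resLin p n k i (coeff (xy a b) F.toPowerSeries) =
      if a = 0 ∨ b = 0 then 0 else -(((p ^ ((i : ℕ) + 1)).choose a / p : ℕ) : k) := by
  classical
  have h := (killData p n k ((i : ℕ) + 1)).mul_coeff_law_first (h := (i : ℕ) + 1) (by omega)
    (killData_u_eq_zero p n k (by omega)) (e := xy a b) (by rw [degree_xy, hab])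
  rw [← kill_coeff_law p n k hF, killData_u_self, coeff_first_bracket hab] at h
  rw [← resLin_kill, resLin]
  have h' := congrArg (coeff (single i 1)) h
  rw [show (p : E0 p n k) = C (p : WittVector p k) from (map_natCast C p).symm,
    coeff_C_mul] at h'
  have hpos : 0 < p ^ ((i : ℕ) + 1) := pow_pos hp.out.pos _
  split_ifs at h' ⊢ with hpure hboth
  · omega
  · rw [mul_zero, map_zero] at h'
    rw [(mul_eq_zero.mp h').resolve_left (natCast_ne_zero_witt p k), map_zero]
  · rw [mul_neg, map_neg, show (((p ^ ((i : ℕ) + 1)).choose a : ℕ) : E0 p n k) =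
      C (((p ^ ((i : ℕ) + 1)).choose a : ℕ) : WittVector p k) from (map_natCast C _).symm,
      coeff_mul_C, coeff_X, if_pos rfl, one_mul,
      ← dvd_choose_div p rfl (show a ≠ 0 by tauto) (by omega), Nat.cast_mul, ← mul_neg] at h'
    rw [mul_left_cancel₀ (natCast_ne_zero_witt p k) h', map_neg, map_natCast]

theorem resLin_coeff_first_ne_zero (hF : IsHazewinkel p n k F) (i : Fin (n - 1)) :
    resLin p n k i (coeff (xy (p ^ (i : ℕ)) (p ^ ((i : ℕ) + 1) - p ^ (i : ℕ))) F.toPowerSeries)
      ≠ 0 := by
  have hlt : p ^ (i : ℕ) < p ^ ((i : ℕ) + 1) := Nat.pow_lt_pow_right hp.out.one_lt (by omega)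
  have hpos : 0 < p ^ (i : ℕ) := pow_pos hp.out.pos _
  rw [resLin_coeff_first p n k hF i (by omega), if_neg (by omega), neg_ne_zero, Ne,
    CharP.cast_eq_zero_iff k p]
  exact not_dvd_choose_div p (h := (i : ℕ) + 1) (by omega)

/-- The coefficient of the first nonlinear term of the law modulo the height ideal. -/
def firstCoeff (h : ℕ) (d : Fin 2 →₀ ℕ) : WittVector p k :=
  if d 0 = 0 ∨ d 1 = 0 ∨ d.degree ≠ p ^ h then 0 else -(((p ^ h).choose (d 0) / p : ℕ))

theorem coeff_law_sub_mem (hF : IsHazewinkel p n k F) {h : ℕ} (h1 : 1 ≤ h) (hh : h ≤ n)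
    {d : Fin 2 →₀ ℕ} (hd2 : 2 ≤ d.degree) (hd : d.degree ≤ p ^ h) :
    coeff d F.toPowerSeries - uE p n k h * C (firstCoeff p k h d) ∈ hIdeal p n k h := by
  classical
  have hmem := sub_kill_mem p n k hh (coeff d F.toPowerSeries)
  suffices hs : kill p n k h (coeff d F.toPowerSeries) = uE p n k h * C (firstCoeff p k h d) by
    rwa [hs] at hmem
  rw [kill_coeff_law p n k hF]
  by_cases hlt : d.degree < p ^ h
  · rw [(killData p n k h).coeff_law_low h1 (killData_u_eq_zero p n k hh) hlt, firstCoeff,
      if_pos (Or.inr (Or.inr hlt.ne)), map_zero, mul_zero, map_add, coeff_X, coeff_X,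
      if_neg, if_neg, add_zero]
    · rintro rfl; simp [degree_single] at hd2
    · rintro rfl; simp [degree_single] at hd2
  · have hdq : d.degree = p ^ h := by omega
    have hd01 : d 0 + d 1 = p ^ h := by rw [← hdq, degree_two]
    have hm := (killData p n k h).mul_coeff_law_first h1 (killData_u_eq_zero p n k hh) hdq
    rw [show (killData p n k h).u h = uE p n k h from kill_uE_ge p n k h1 le_rfl, eq_xy d,
      coeff_first_bracket hd01] at hm
    rw [← eq_xy d] at hm
    apply mul_left_cancel₀ (natCast_ne_zero_E0 p n k)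
    rw [hm]
    by_cases hp0 : d 0 = 0 ∨ d 1 = 0
    · rw [if_pos hp0, if_neg (by omega), firstCoeff, if_pos (by tauto), map_zero, mul_zero, mul_zero]
    · have hc := congrArg (Nat.cast : ℕ → E0 p n k)
        (dvd_choose_div p (q := p ^ h) rfl (show d 0 ≠ 0 by tauto) (by omega))
      rw [Nat.cast_mul] at hc
      rw [if_neg hp0, firstCoeff, if_neg (by tauto), map_neg, map_natCast]
      linear_combination uE p n k h * hc

/-! ### Residue field scalings -/

theorem hondaData_c_eq_zero (hn : 1 ≤ n) :
    ∀ j, ¬ n ∣ j → (hondaData p n k).c j = 0 := by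
  intro j
  induction j using Nat.strong_induction_on with
  | _ j ih =>
  intro hj
  cases j with
  | zero => exact absurd (dvd_zero n) hj
  | succ j =>
    have h0 : (p : Kp p (WittVector p k)) * (hondaData p n k).c (j + 1) = 0 := by
      rw [(hondaData p n k).p_mul_c_succ hn (fun i _ => rfl)]
      split_ifs with h
      · exact ih _ (by omega) fun h2 => hj (by
          have := dvd_add h2 (dvd_refl n)
          rwa [Nat.sub_add_cancel h] at this)
      · rfl
    calc (hondaData p n k).c (j + 1)
        = ((p : Kp p (WittVector p k)) * (hondaData p n k).invp) * (hondaData p n k).c (j + 1) := by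
          rw [(hondaData p n k).natCast_mul_invp, one_mul]
      _ = (hondaData p n k).invp * ((p : Kp p (WittVector p k)) * (hondaData p n k).c (j + 1)) := by
          ring
      _ = 0 := by rw [h0, mul_zero]

theorem logAt_C_mul (hn : 1 ≤ n) {τ : Type*} {T : WittVector p k} (hT : T ^ p ^ n = T)
    {a : MvPowerSeries τ (Kp p (WittVector p k))} (a0 : constantCoeff a = 0) :
    (hondaData p n k).logAt (C ((hondaData p n k).ι T) * a) =
      C ((hondaData p n k).ι T) * (hondaData p n k).logAt a := by
  ext e
  rw [(hondaData p n k).coeff_logAt (by rw [map_mul, a0, mul_zero]), coeff_C_mul,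
    (hondaData p n k).coeff_logAt a0, Finset.mul_sum]
  refine Finset.sum_congr rfl fun j _ => ?_
  by_cases hj : n ∣ j
  · obtain ⟨i, rfl⟩ := hj
    have hTi : T ^ p ^ (n * i) = T := by
      clear * - hT
      induction i with
      | zero => simp
      | succ i ih => rw [mul_add, mul_one, pow_add, pow_mul, ih, hT]
    rw [mul_pow, ← map_pow, coeff_C_mul, ← map_pow, hTi]
    ring
  · rw [hondaData_c_eq_zero p n k hn j hj]
    simp

theorem isHom_C_mul_X (hn : 1 ≤ n) (hF : IsHazewinkel p n k F) (hk : Nat.card k = p ^ n)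
    (ζ : k) :
    IsHom (PowerSeries.C ζ * PowerSeries.X) (special p n k F) (special p n k F) := by
  let T : WittVector p k := WittVector.teichmuller p ζ
  have hT : T ^ p ^ n = T := by
    rw [← map_pow]
    congr 1
    have := Fintype.ofFinite k
    rw [← hk, Nat.card_eq_fintype_card, FiniteField.pow_card]
  have hsub : ∀ (f : MvPowerSeries (Fin 2) k), constantCoeff f = 0 →
      PowerSeries.subst f (PowerSeries.C ζ * PowerSeries.X) = C ζ * f := fun f f0 => by
    rw [PowerSeries.subst_mul (PowerSeries.HasSubst.of_constantCoeff_zero f0),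
      PowerSeries.subst_C, PowerSeries.subst_X (PowerSeries.HasSubst.of_constantCoeff_zero f0)]
  refine ⟨by simp, ?_⟩
  rw [hsub _ (special p n k F).zero_constantCoeff, hsub _ (constantCoeff_X _),
    hsub _ (constantCoeff_X _)]
  have hab : HasSubst ![C T * X (0 : Fin 2), C T * X (1 : Fin 2)] :=
    hasSubst_of_constantCoeff_zero fun i => by fin_cases i <;> simp
  have hmain : C T * (hondaData p n k).lawSeries =
      subst ![C T * X (0 : Fin 2), C T * X (1 : Fin 2)] (hondaData p n k).lawSeries := by
    refine (hondaData p n k).eq_of_logAt_map ?_ ?_ ?_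
    · simp [FEData.constantCoeff_lawSeries]
    · exact constantCoeff_subst_eq_zero hab (fun i => by fin_cases i <;> simp)
        (FEData.constantCoeff_lawSeries _)
    · rw [(hondaData p n k).logAt_subst_lawSeries (by simp) (by simp), map_mul, map_mul, map_mul,
        map_C, map_X, map_X, logAt_C_mul p n k hn hT
        (by rw [constantCoeff_map, FEData.constantCoeff_lawSeries, map_zero]),
        logAt_C_mul p n k hn hT (constantCoeff_X _), logAt_C_mul p n k hn hT (constantCoeff_X _),
        FEData.logAt_lawSeries, mul_add]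
  have hres := congrArg (MvPowerSeries.map (WittVector.constantCoeff (p := p) (R := k))) hmain
  rw [map_mul, map_C, MvPowerSeries.map_subst hab] at hres
  have hζ : WittVector.constantCoeff T = ζ := WittVector.teichmuller_coeff_zero p ζ
  rw [special_eq p n k hF, FormalGroup.map_toPowerSeries, FEData.law_toPowerSeries]
  rw [hζ] at hres
  refine hres.trans ?_
  congr 1
  funext i
  fin_cases i <;> simp [hζ]

end Vale.Agent.P217
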