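import Mathlib.RingTheory.MvPowerSeries.Equiv
import Mathlib.RingTheory.Ideal.MinimalPrime.Noetherian
import Mathlib.RingTheory.Filtration
import Mathlib.RingTheory.MvPowerSeries.Inverse
import Vale.Agent.P217.Lift
import Vale.Agent.P217.Universal

/-!
# The action of the stabiliser group on the Lubin-Tate ring

Universality of the Hazewinkel law, the change of marking attached to each automorphism of the
special fibre, invariance of the height ideals, continuity, and minimal primes of stable ideals.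
-/

noncomputable section

namespace Vale.Agent.P217

open MvPowerSeries Finsupp

set_option linter.unusedSectionVars false

/-! ### Homomorphisms -/

section Hom

variable {A B : Type*} [CommRing A] [CommRing B]

theorem ps_map_subst (f : A →+* B) {g h : PowerSeries A} (hg : PowerSeries.constantCoeff g = 0) :
    PowerSeries.map f (PowerSeries.subst g h) =
      PowerSeries.subst (PowerSeries.map f g) (PowerSeries.map f h) :=
  PowerSeries.map_subst (PowerSeries.HasSubst.of_constantCoeff_zero' hg) h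

theorem isUnit_coeff_one_inv {g gi : PowerSeries A} (hgi : PowerSeries.constantCoeff gi = 0)
    (hg : PowerSeries.constantCoeff g = 0) (h₁ : PowerSeries.subst gi g = PowerSeries.X) :
    IsUnit (PowerSeries.coeff 1 gi) := by
  have e := congrArg (PowerSeries.coeff 1) h₁
  rw [PowerSeries.coeff_one_X] at e
  have h := ps_subst_linear_mem (σ := Unit) hg (x := gi) hgi
  have h1 := (mem_cI_ps.mp h) 1 (by omega)
  rw [Ideal.mem_bot, map_sub, sub_eq_zero] at h1
  change PowerSeries.coeff 1 (PowerSeries.subst gi g) =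
    PowerSeries.coeff 1 (PowerSeries.C (PowerSeries.coeff 1 g) * gi) at h1
  rw [PowerSeries.coeff_C_mul, e] at h1
  exact IsUnit.of_mul_eq_one_right _ h1.symm

theorem IsHom.inverse {g gi : PowerSeries A} {F G : FormalGroup A} (h : IsHom g F G)
    (hgi : PowerSeries.constantCoeff gi = 0) (h₁ : PowerSeries.subst gi g = PowerSeries.X)
    (h₂ : PowerSeries.subst g gi = PowerSeries.X) : IsHom gi G F := by
  refine ⟨hgi, ?_⟩
  have e := h.apply (cc_ps (σ := Fin 2) (x := X 0) hgi cc_X) (cc_ps (σ := Fin 2) (x := X 1) hgi cc_X)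
  rw [← ps_subst_ps g gi hgi cc_X, ← ps_subst_ps g gi hgi cc_X, h₁, ps_subst_X cc_X,
    ps_subst_X cc_X, subst_pair_XX] at e
  have hS := constantCoeff_subst2 F (cc_ps (σ := Fin 2) (x := X 0) hgi cc_X)
    (cc_ps (σ := Fin 2) (x := X 1) hgi cc_X)
  rw [← e, ← ps_subst_ps gi g h.1 hS, h₂, ps_subst_X hS]

theorem IsHom.exists_inverse {g : PowerSeries A} {F G : FormalGroup A} (h : IsHom g F G)
    (hu : IsUnit (PowerSeries.coeff 1 g)) :
    ∃ gi, IsHom gi G F ∧ PowerSeries.subst gi g = PowerSeries.X ∧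
      PowerSeries.subst g gi = PowerSeries.X ∧ IsUnit (PowerSeries.coeff 1 gi) := by
  have h0 : PowerSeries.constantCoeff (g.substInvOfIsUnit hu) = 0 :=
    PowerSeries.constantCoeff_substInvOfIsUnit _ hu
  have h₁ := PowerSeries.subst_substInvOfIsUnit_right g h.1 hu
  have h₂ := PowerSeries.subst_substInvOfIsUnit_left g h.1 hu
  exact ⟨_, h.inverse h0 h₁ h₂, h₁, h₂, isUnit_coeff_one_inv h0 h.1 h₁⟩

/-- Sums of homomorphisms are homomorphisms. -/
theorem IsHom.add {a b : PowerSeries A} {F G : FormalGroup A} [G.IsComm] (ha : IsHom a F G)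
    (hb : IsHom b F G) : IsHom (adj G a b) F G := by
  refine ⟨constantCoeff_adj G ha.1 hb.1, ?_⟩
  simp only [adj, ps_subst_law G ha.1 hb.1 F.zero_constantCoeff, ps_subst_law G ha.1 hb.1 cc_X]
  rw [ha.2, hb.2, law_four G (cc_ps ha.1 cc_X) (cc_ps ha.1 cc_X) (cc_ps hb.1 cc_X)
    (cc_ps hb.1 cc_X)]

/-- `X ^ (p ^ m)` is an endomorphism of a law with Frobenius fixed coefficients. -/
theorem isHom_X_pow (p : ℕ) [Fact p.Prime] [CharP A p] {F : FormalGroup A}
    (hF : ∀ d, coeff d F.toPowerSeries ^ p = coeff d F.toPowerSeries) (m : ℕ) :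
    IsHom (PowerSeries.X ^ p ^ m) F F := by
  have hp : p.Prime := Fact.out
  have : ExpChar A p := ExpChar.prime hp
  induction m with
  | zero =>
    rw [pow_zero, pow_one]
    exact isHom_X F
  | succ m ih =>
    have h1 : IsHom (PowerSeries.X ^ p) F F := by
      refine ⟨by simp [hp.ne_zero], ?_⟩
      simp only [PowerSeries.subst_pow (PowerSeries.HasSubst.of_constantCoeff_zero
          F.zero_constantCoeff), PowerSeries.subst_pow
          (PowerSeries.HasSubst.of_constantCoeff_zero cc_X), ps_subst_X F.zero_constantCoeff,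
        ps_subst_X cc_X]
      rw [← map_frobenius_expand p hp.ne_zero, map_expand]
      have hfix : MvPowerSeries.map (frobenius A p) F.toPowerSeries = F.toPowerSeries := by
        ext d
        rw [coeff_map, frobenius_def, hF]
      rw [hfix, expand, substAlgHom_apply]
      congr 1
      funext s
      fin_cases s <;> rfl
    have h2 := h1.comp ih
    rwa [PowerSeries.subst_pow (PowerSeries.HasSubst.of_constantCoeff_zero' (by simp [hp.ne_zero])),
      ps_subst_X (x := (PowerSeries.X ^ p : PowerSeries A)) h1.1, ← pow_mul, ← pow_succ'] at h2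

theorem IsAut.refl (F : FormalGroup A) : IsAut PowerSeries.X F :=
  ⟨isHom_X F, by rw [PowerSeries.coeff_one_X]; exact isUnit_one⟩

theorem IsAut.comp {g h : PowerSeries A} {F : FormalGroup A} (hg : IsAut g F) (hh : IsAut h F) :
    IsAut (PowerSeries.subst g h) F := by
  refine ⟨hg.1.comp hh.1, ?_⟩
  have e := (mem_cI_ps.mp (ps_subst_linear_mem (σ := Unit) hh.1.1 (x := g) hg.1.1)) 1 (by omega)
  rw [Ideal.mem_bot, map_sub, sub_eq_zero] at e
  change PowerSeries.coeff 1 (PowerSeries.subst g h) =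
    PowerSeries.coeff 1 (PowerSeries.C (PowerSeries.coeff 1 h) * g) at e
  rw [e, PowerSeries.coeff_C_mul]
  exact hh.2.mul hg.2

/-- `X +_F c` is an automorphism close to the identity for an endomorphism `c` of high order. -/
theorem isAut_adj_X {c : PowerSeries A} {F : FormalGroup A} [F.IsComm] {N : ℕ} (hN : 2 ≤ N)
    (hc : IsHom c F F) (hcN : c ∈ cI (⊥ : Ideal A) N) :
    IsAut (adj F PowerSeries.X c) F ∧ adj F PowerSeries.X c - PowerSeries.X ∈ cI (⊥ : Ideal A) N := by
  have hmem := adj_sub_mem F (G := PowerSeries.X) cc_PX hc.1 hcN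
  refine ⟨⟨(isHom_X F).add hc, ?_⟩, hmem⟩
  have h1 := (mem_cI_ps.mp hmem) 1 (by omega)
  rw [Ideal.mem_bot, map_sub, sub_eq_zero, PowerSeries.coeff_one_X] at h1
  rw [h1]
  exact isUnit_one

/-- `b(X ^ M)` has order at least `M`. -/
theorem subst_X_pow_mem {b : PowerSeries A} (hb : PowerSeries.constantCoeff b = 0) (M : ℕ) :
    PowerSeries.subst (PowerSeries.X ^ M : PowerSeries A) b ∈ cI (⊥ : Ideal A) M := by
  rcases Nat.eq_zero_or_pos M with rfl | hM
  · exact mem_cI_zero
  have hx : PowerSeries.constantCoeff (PowerSeries.X ^ M : PowerSeries A) = 0 := by simp [hM.ne']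
  have hmem : (PowerSeries.X ^ M : PowerSeries A) ∈ cI (σ := Unit) (⊥ : Ideal A) M :=
    mem_cI_ps.mpr fun j hj => by
      rw [Ideal.mem_bot, PowerSeries.coeff_X_pow, if_neg (by omega)]
  have h := ps_subst_congr (J := (⊥ : Ideal A)) (N := M) (G := b) (H := b) (σ := Unit)
    (x := (PowerSeries.X ^ M : PowerSeries A)) (y := 0) hx (map_zero _) (by simp)
    (by simpa using hmem)
  simpa [ps_subst_zero hb] using h

/-- `X +_F b ^ (p ^ m)` for an endomorphism `b`. -/
theorem isAut_add_pow (p : ℕ) [Fact p.Prime] [CharP A p] {F : FormalGroup A} [F.IsComm]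
    (hF : ∀ d, coeff d F.toPowerSeries ^ p = coeff d F.toPowerSeries) {b : PowerSeries A}
    (hb : IsHom b F F) {m : ℕ} (hm : 1 ≤ m) :
    IsHom (b ^ p ^ m) F F ∧ IsAut (adj F PowerSeries.X (b ^ p ^ m)) F ∧
      adj F PowerSeries.X (b ^ p ^ m) - PowerSeries.X ∈ cI (⊥ : Ideal A) (p ^ m) := by
  have h1 := hb.comp (isHom_X_pow p hF m)
  rw [PowerSeries.subst_pow (PowerSeries.HasSubst.of_constantCoeff_zero' hb.1),
    ps_subst_X (x := b) hb.1] at h1
  have h2 : (2 : ℕ) ≤ p ^ m :=
    (Fact.out : p.Prime).two_le.trans (Nat.le_self_pow (by omega) p)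
  exact ⟨h1, isAut_adj_X h2 h1 (pow_mem_cI_bot (f := b) hb.1 _)⟩

end Hom

variable {p : ℕ} [Fact p.Prime] {n : ℕ} {k : Type} [Field k] [CharP k p] [Finite k]
variable {F : FormalGroup (E0 p n k)}

theorem isShape_of_isHazewinkel (hn : 1 ≤ n) (hF : IsHazewinkel p n k F) : IsShape F where
  pos := hn
  low _ h2 hd := res_coeff_low p n k hn hF h2 hd
  top := res_coeff_first_ne_zero p n k hn hF
  dlow i _ hd := resLin_coeff_low p n k hF i hd
  dtop i := resLin_coeff_first_ne_zero p n k hF i

/-! ### Universality -/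

section Base

variable {A : Type*} [CommRing A] [Algebra (WittVector p k) A] {π : A →+* k}
  {F' : FormalGroup A} [F'.IsComm]

/-- Universality, existence: every deformation of the special fibre is pulled back from `F`. -/
theorem exists_universal [F.IsComm] (hB : IsBase (p := p) π) (hS : IsShape F) {g : PowerSeries k}
    (hg : IsHom g (F'.map π) (special p n k F)) (hu : IsUnit (PowerSeries.coeff 1 g)) :
    ∃ (α : E0 p n k →ₐ[WittVector p k] A) (G : PowerSeries A),
      PowerSeries.map π G = g ∧ IsHom G F' (F.map α.toRingHom) := by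
  classical
  choose l hl using hB.surj
  set G₀ : PowerSeries A := PowerSeries.mk fun j => if j = 0 then 0 else l (PowerSeries.coeff j g)
    with hG₀
  have hres : PowerSeries.map π G₀ = g := by
    ext j
    rw [PowerSeries.coeff_map, hG₀, PowerSeries.coeff_mk]
    rcases Nat.eq_zero_or_pos j with rfl | hj
    · simp [hg.1]
    · rw [if_neg hj.ne', hl]
  have hcc : PowerSeries.constantCoeff G₀ = 0 := by simp [G₀]
  have hu₀ : IsUnit (PowerSeries.coeff 1 G₀) := hB.isUnit (by
    rw [← PowerSeries.coeff_map, hres]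
    exact hu.ne_zero)
  let F'' := conjLaw F' G₀ (G₀.substInvOfIsUnit hu₀) hcc
    (PowerSeries.constantCoeff_substInvOfIsUnit _ hu₀)
    (PowerSeries.subst_substInvOfIsUnit_right _ hcc hu₀)
    (PowerSeries.subst_substInvOfIsUnit_left _ hcc hu₀)
  obtain ⟨α, G, hG, hhom⟩ := exists_lift (F := F) (F' := F'') hB hS
    (conjLaw_map F' G₀ _ hcc _ _ _ (hres.symm ▸ hg))
  refine ⟨α, PowerSeries.subst G₀ G, ?_, (isHom_conjLaw F' G₀ _ hcc _ _ _).comp hhom⟩
  rw [ps_map_subst π hcc, hres, hG, ps_subst_X hg.1]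

/-- Universality, uniqueness. -/
theorem universal_unique [F.IsComm] (hB : IsBase (p := p) π) (hS : IsShape F)
    {α β : E0 p n k →ₐ[WittVector p k] A} {G G' : PowerSeries A}
    (hu : IsUnit (PowerSeries.coeff 1 (PowerSeries.map π G)))
    (h : IsHom G F' (F.map α.toRingHom)) (h' : IsHom G' F' (F.map β.toRingHom))
    (he : PowerSeries.map π G' = PowerSeries.map π G) : β = α ∧ G' = G := by
  have hu' : IsUnit (PowerSeries.coeff 1 G) := hB.isUnit (by
    rw [← PowerSeries.coeff_map]; exact hu.ne_zero)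
  obtain ⟨gi, hgi, h₁, h₂, -⟩ := h.exists_inverse hu'
  have hres : PowerSeries.map π (PowerSeries.subst gi G') = PowerSeries.X := by
    rw [ps_map_subst π hgi.1, he, ← ps_map_subst π hgi.1, h₁, PowerSeries.map_X]
  obtain ⟨e1, e2⟩ := unique_lift (α := α) hB hS (map_special hB F α) (isHom_X (F.map α.toRingHom))
    (PowerSeries.map_X _) (hgi.comp h') hres
  refine ⟨e1, ?_⟩
  have := congrArg (PowerSeries.subst G) e2
  rwa [ps_subst_ps G' gi hgi.1 h.1, h₂, PowerSeries.X_subst, ps_subst_X h.1] at this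

end Base

/-! ### Changes of marking -/

theorem existsUnique_markingChange [F.IsComm] (hS : IsShape F) {g : PowerSeries k}
    (hg : IsAut g (special p n k F)) : ∃! α, IsMarkingChange p n k F g α := by
  obtain ⟨α, G, hG, hhom⟩ := exists_universal (F' := F) isBase_res hS hg.1 hg.2
  refine ⟨α, ⟨G, hG, hhom⟩, fun β hβ => ?_⟩
  obtain ⟨G', hG', hhom'⟩ := hβ
  exact (universal_unique isBase_res hS (hG.symm ▸ hg.2) hhom hhom' (hG'.trans hG.symm)).1

theorem markingChange_series_unique [F.IsComm] (hS : IsShape F) {g : PowerSeries k}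
    (hg : IsAut g (special p n k F)) {α β : E0 p n k →ₐ[WittVector p k] E0 p n k}
    {G G' : PowerSeries (E0 p n k)} (hG : PowerSeries.map (res p n k) G = g)
    (hG' : PowerSeries.map (res p n k) G' = g) (h : IsHom G F (F.map α.toRingHom))
    (h' : IsHom G' F (F.map β.toRingHom)) : β = α ∧ G' = G :=
  universal_unique isBase_res hS (hG.symm ▸ hg.2) h h' (hG'.trans hG.symm)

theorem isMarkingChange_id (F : FormalGroup (E0 p n k)) :
    IsMarkingChange p n k F PowerSeries.X (AlgHom.id _ _) :=
  ⟨PowerSeries.X, PowerSeries.map_X _, by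
    have e : F.map (AlgHom.id (WittVector p k) (E0 p n k)).toRingHom = F := by ext1; ext1; simp
    rw [e]
    exact isHom_X F⟩

theorem IsMarkingChange.comp {g h : PowerSeries k}
    {α β : E0 p n k →ₐ[WittVector p k] E0 p n k} (hα : IsMarkingChange p n k F g α)
    (hβ : IsMarkingChange p n k F h β) :
    IsMarkingChange p n k F (PowerSeries.subst g h) (α.comp β) := by
  obtain ⟨G, hG, hGhom⟩ := hα
  obtain ⟨H, hH, hHhom⟩ := hβ
  refine ⟨PowerSeries.subst G (PowerSeries.map α.toRingHom H), ?_, ?_⟩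
  · rw [ps_map_subst _ hGhom.1, hG]
    congr 1
    rw [← hH]
    ext j
    simp [algHom_res isBase_res]
  · have := hGhom.comp (hHhom.map α.toRingHom)
    convert this using 1
    ext1
    simp [FormalGroup.map_toPowerSeries, MvPowerSeries.map_map]
    rfl

theorem markingChange_bijective [F.IsComm] (hS : IsShape F) {g : PowerSeries k}
    (hg : IsAut g (special p n k F)) {α : E0 p n k →ₐ[WittVector p k] E0 p n k}
    (hα : IsMarkingChange p n k F g α) : ∃ (gi : PowerSeries k)
      (β : E0 p n k →ₐ[WittVector p k] E0 p n k), IsAut gi (special p n k F) ∧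
      IsMarkingChange p n k F gi β ∧ (∀ f, α (β f) = f) ∧ ∀ f, β (α f) = f := by
  obtain ⟨gi, hgi, h₁, h₂, hgiu⟩ := hg.1.exists_inverse hg.2
  obtain ⟨β, hβ, -⟩ := existsUnique_markingChange (g := gi) hS ⟨hgi, hgiu⟩
  obtain ⟨_, -, huniq⟩ := existsUnique_markingChange hS (IsAut.refl (special p n k F))
  have e1 := (huniq _ (h₂ ▸ hα.comp hβ)).trans (huniq _ (isMarkingChange_id F)).symm
  have e2 := (huniq _ (h₁ ▸ hβ.comp hα)).trans (huniq _ (isMarkingChange_id F)).symm
  exact ⟨gi, β, ⟨hgi, hgiu⟩, hβ, fun f => DFunLike.congr_fun e1 f,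
    fun f => DFunLike.congr_fun e2 f⟩

/-! ### The height ideals -/

theorem markingChange_mem_hIdeal (hn : 1 ≤ n) (hF : IsHazewinkel p n k F)
    {g : PowerSeries k} (hg : IsAut g (special p n k F))
    {α : E0 p n k →ₐ[WittVector p k] E0 p n k} (hα : IsMarkingChange p n k F g α) :
    ∀ h ≤ n, ∀ f ∈ hIdeal p n k h, α f ∈ hIdeal p n k h := by
  intro h
  induction h with
  | zero =>
    intro _ f hf
    rw [hIdeal_zero, Ideal.mem_bot] at hf ⊢
    rw [hf, map_zero]
  | succ h ih =>
    intro hh
    have hp : p.Prime := Fact.out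
    set J := hIdeal p n k (h + 1) with hJ
    have hmono : hIdeal p n k h ≤ J :=
      Ideal.span_mono (Set.image_mono (Set.Iio_subset_Iio (Nat.le_succ h)))
    obtain ⟨G, hG, hhom⟩ := hα
    have hu : IsUnit (PowerSeries.coeff 1 G) := (isBase_res (p := p) (n := n)).isUnit (by
      rw [← PowerSeries.coeff_map, hG]; exact hg.2.ne_zero)
    have key := subst_mulSeries_comm hhom p
    have hq : p ^ h < p ^ (h + 1) := Nat.pow_lt_pow_right hp.one_lt (by omega)
    -- the left side
    have hP : mulSeries F p ∈ cI (σ := Unit) J (p ^ (h + 1)) := mem_cI_ps.mpr fun j hj => by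
      rcases Nat.eq_zero_or_pos j with rfl | hj0
      · rw [PowerSeries.coeff_zero_eq_constantCoeff_apply, constantCoeff_mulSeries]
        exact zero_mem _
      · exact coeff_mulSeries_mem_hIdeal p n k hF hh fun hd => by
          have := Nat.le_of_dvd hj0 hd
          omega
    have hL : PowerSeries.subst (mulSeries F p) G ∈ cI (σ := Unit) J (p ^ (h + 1)) := by
      have := ps_subst_congr (σ := Unit) (x := mulSeries F p) (y := 0) (G := G) (H := G)
        (J := J) (N := p ^ (h + 1)) (constantCoeff_mulSeries F p) (map_zero _) (by simp)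
        (by simpa using hP)
      simpa [ps_subst_zero hhom.1] using this
    have hc := (mem_cI_ps.mp hL) (p ^ h) hq
    rw [key, mulSeries_map] at hc
    -- the right side
    have hlow : ∀ j < p ^ h,
        PowerSeries.coeff j (PowerSeries.map α.toRingHom (mulSeries F p)) ∈ J := fun j hj => by
      rw [PowerSeries.coeff_map]
      refine hmono (ih (by omega) _ ?_)
      rcases Nat.eq_zero_or_pos j with rfl | hj0
      · rw [PowerSeries.coeff_zero_eq_constantCoeff_apply, constantCoeff_mulSeries]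
        exact zero_mem _
      · exact coeff_mulSeries_mem_hIdeal p n k hF (by omega) fun hd => by
          have := Nat.le_of_dvd hj0 hd
          omega
    have hpow : PowerSeries.coeff (p ^ h) (G ^ p ^ h) = PowerSeries.coeff 1 G ^ p ^ h := by
      obtain ⟨G₁, rfl⟩ := PowerSeries.X_dvd_iff.mpr hhom.1
      rw [mul_pow, PowerSeries.coeff_X_pow_mul', if_pos le_rfl, Nat.sub_self,
        PowerSeries.coeff_zero_eq_constantCoeff_apply, map_pow,
        show PowerSeries.coeff 1 (PowerSeries.X * G₁) = PowerSeries.constantCoeff G₁ by simp]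
    have hd : coeff (single () (p ^ h))
        (PowerSeries.subst G (PowerSeries.map α.toRingHom (mulSeries F p))) ∈ J := hc
    rw [coeff_ps_subst_eq_sum (x := G) hhom.1, degree_single, Finset.sum_range_succ] at hd
    have hsum := (Ideal.add_mem_iff_right _ (Ideal.sum_mem _ fun j hj =>
      Ideal.mul_mem_right _ _ (hlow j (Finset.mem_range.mp hj)))).mp hd
    change PowerSeries.coeff (p ^ h) (PowerSeries.map α.toRingHom (mulSeries F p)) *
      PowerSeries.coeff (p ^ h) (G ^ p ^ h) ∈ J at hsum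
    rw [hpow, Ideal.mul_unit_mem_iff_mem _ (hu.pow _), PowerSeries.coeff_map] at hsum
    have htop : α (uE p n k h) ∈ J := by
      have h2 := hmono (ih (by omega) _ (coeff_mulSeries_sub_uE_mem p n k hF (h := h) (by omega)))
      rw [map_sub] at h2
      have h3 := Ideal.sub_mem _ hsum h2
      rwa [show α.toRingHom (PowerSeries.coeff (p ^ h) (mulSeries F p)) =
        α (PowerSeries.coeff (p ^ h) (mulSeries F p)) from rfl, sub_sub_cancel] at h3
    intro f hf
    refine (Ideal.span_le.mpr ?_ : hIdeal p n k (h + 1) ≤ J.comap α) hf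
    rintro _ ⟨i, hi, rfl⟩
    rcases Nat.lt_succ_iff_lt_or_eq.mp hi with hi' | rfl
    · exact hmono (ih (by omega) _ (uE_mem_hIdeal p n k hi'))
    · exact htop

theorem stable_hIdeal (hn : 1 ≤ n) (hF : IsHazewinkel p n k F) {h : ℕ} (hh : h ≤ n) :
    Stable p n k F (hIdeal p n k h) :=
  fun _ _ hg hα => markingChange_mem_hIdeal hn hF hg hα h hh

theorem gStable_hIdeal (hn : 1 ≤ n) (hF : IsHazewinkel p n k F) {h : ℕ} (hh : h ≤ n) :
    GStable p n k F (hIdeal p n k h) :=
  ⟨stable_hIdeal hn hF hh, fun _ => coeffFrob_mem_hIdeal p n k h⟩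

/-! ### Continuity -/

theorem markingChange_close [F.IsComm] (hS : IsShape F) :
    ∀ t D : ℕ, 1 ≤ D → ∀ (g : PowerSeries k) (α : E0 p n k →ₐ[WittVector p k] E0 p n k)
      (G : PowerSeries (E0 p n k)), g - PowerSeries.X ∈ cI (⊥ : Ideal k) (D * (p ^ n) ^ t) →
      PowerSeries.map (res p n k) G = g → IsHom G F (F.map α.toRingHom) →
      (∀ i, α (X i) - X i ∈ RingHom.ker (res p n k) ^ (t + 1)) ∧
        G - PowerSeries.X ∈ cI (RingHom.ker (res p n k) ^ (t + 1)) D := by
  intro t
  induction t with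
  | zero =>
    intro D _ g α G hg hG _
    rw [zero_add, pow_one]
    refine ⟨fun i => Ideal.sub_mem _ (algHom_X_mem isBase_res α i) (by simp [res_X]), mem_cI_ps.mpr
      fun j hj => ?_⟩
    have := (mem_cI_ps.mp hg) j (by simpa using hj)
    rw [Ideal.mem_bot, ← hG, ← PowerSeries.map_X (res p n k), ← map_sub,
      PowerSeries.coeff_map] at this
    exact this
  | succ t ih =>
    intro D hD g α G hg hG hhom
    set q := p ^ n with hq
    have hqpos : 0 < q := pow_pos (Fact.out : p.Prime).pos _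
    rw [pow_succ', ← mul_assoc] at hg
    obtain ⟨h1, h2⟩ := ih (D * q) (Nat.one_le_iff_ne_zero.mpr (by positivity)) g α G hg hG hhom
    have hid : F.map (AlgHom.id (WittVector p k) (E0 p n k)).toRingHom = F := by ext1; ext1; simp
    have hdef : lawDefect F (F.map (AlgHom.id (WittVector p k) (E0 p n k)).toRingHom)
        PowerSeries.X = 0 := by
      rw [hid]
      exact (isHom_iff_defect cc_PX).mp (isHom_X F)
    obtain ⟨ha, hg'⟩ := unique_step (N := D * q) (t := t + 1) (α := AlgHom.id _ _) (β := α)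
      (G := PowerSeries.X) (G' := G) isBase_res hS (F' := F) rfl (by omega) cc_PX hhom.1 (by simp)
      (by rw [hdef]; exact zero_mem _)
      (by rw [(isHom_iff_defect hhom.1).mp hhom]; exact zero_mem _) h1 h2
    refine ⟨fun i => ha i ?_, hg' D le_rfl⟩
    calc p ^ ((i : ℕ) + 1) < q :=
          Nat.pow_lt_pow_right (Fact.out : p.Prime).one_lt (by omega)
      _ ≤ D * q := Nat.le_mul_of_pos_left q (by omega)

/-- The marking change is continuous at the identity. -/
theorem markingChange_continuous [F.IsComm] (hS : IsShape F) (s D : ℕ) :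
    ∃ N, ∀ (g : PowerSeries k) (α : E0 p n k →ₐ[WittVector p k] E0 p n k)
      (G : PowerSeries (E0 p n k)), g - PowerSeries.X ∈ cI (⊥ : Ideal k) N →
      PowerSeries.map (res p n k) G = g → IsHom G F (F.map α.toRingHom) →
      (∀ f, α f - f ∈ RingHom.ker (res p n k) ^ s) ∧
        ∀ j < D, PowerSeries.coeff j G - PowerSeries.coeff j PowerSeries.X ∈
          RingHom.ker (res p n k) ^ s := by
  refine ⟨(D + 1) * (p ^ n) ^ s, fun g α G hg hG hhom => ?_⟩
  obtain ⟨h1, h2⟩ := markingChange_close hS s (D + 1) (by omega) g α G hg hG hhom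
  have hle := Ideal.pow_le_pow_right (I := RingHom.ker (res p n k)) (Nat.le_succ s)
  refine ⟨fun f => ?_, fun j hj => ?_⟩
  · simpa using algHom_sub_mem isBase_res (AlgHom.id _ _) α (fun i => by simpa using hle (h1 i)) f
  · rw [← map_sub]
    exact hle ((mem_cI_ps.mp h2) j (by omega))

/-- Stability under all automorphisms sufficiently close to the identity. -/
def StableNear (F : FormalGroup (E0 p n k)) (P : Ideal (E0 p n k)) : Prop :=
  ∃ N : ℕ, ∀ g α, IsAut g (special p n k F) → IsMarkingChange p n k F g α →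
    g - PowerSeries.X ∈ cI (⊥ : Ideal k) N → ∀ f ∈ P, α f ∈ P

theorem Stable.stableNear {P : Ideal (E0 p n k)} (h : Stable p n k F P) : StableNear F P :=
  ⟨0, fun g α hg hα _ => h g α hg hα⟩

instance isNoetherianRing_E0 : IsNoetherianRing (E0 p n k) := inferInstance

/-- Minimal primes of a stable ideal are stable near the identity. -/
theorem stableNear_of_mem_minimalPrimes [F.IsComm] (hS : IsShape F) {I P : Ideal (E0 p n k)}
    (hI : Stable p n k F I) (hP : P ∈ I.minimalPrimes) : StableNear F P := by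
  classical
  set M := RingHom.ker (res p n k) with hM
  have hfin := Ideal.finite_minimalPrimes_of_isNoetherianRing (E0 p n k) I
  have hsep : ∀ Q ∈ I.minimalPrimes, ∃ s, Q ≠ P → ∃ f ∈ Q, f ∉ P ⊔ M ^ s := by
    intro Q hQ
    by_cases hne : Q = P
    · exact ⟨0, fun h => absurd hne h⟩
    obtain ⟨f, hfQ, hfP⟩ : ∃ f ∈ Q, f ∉ P :=
      Set.not_subset.mp fun hle => hne (le_antisymm hle (hP.2 hQ.1 hle))
    have : P.IsPrime := hP.1.1
    have : Nontrivial (E0 p n k ⧸ P) := Ideal.Quotient.nontrivial_iff.mpr this.ne_top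
    have hKrull := Ideal.iInf_pow_smul_eq_bot_of_isLocalRing (M := E0 p n k ⧸ P) M
      (RingHom.ker_ne_top _)
    have hnot : Ideal.Quotient.mk P f ∉ ⨅ i : ℕ, M ^ i • (⊤ : Submodule (E0 p n k) (E0 p n k ⧸ P)) := by
      rw [hKrull, Submodule.mem_bot, Ideal.Quotient.eq_zero_iff_mem]
      exact hfP
    rw [Submodule.mem_iInf, not_forall] at hnot
    obtain ⟨s, hs⟩ := hnot
    refine ⟨s, fun _ => ⟨f, hfQ, fun hmem => hs ?_⟩⟩
    obtain ⟨a, ha, b, hb, rfl⟩ := Submodule.mem_sup.mp hmem
    rw [map_add, Ideal.Quotient.eq_zero_iff_mem.mpr ha, zero_add,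
      show Ideal.Quotient.mk P b = b • (1 : E0 p n k ⧸ P) by
        rw [← Ideal.Quotient.algebraMap_eq]; exact Algebra.algebraMap_eq_smul_one b]
    exact Submodule.smul_mem_smul hb Submodule.mem_top
  choose! s hs using hsep
  obtain ⟨N, hN⟩ := markingChange_continuous hS (hfin.toFinset.sup s) 0
  refine ⟨N, fun g α hg hα hgN f hf => ?_⟩
  obtain ⟨gi, β, hgi, hβ, hαβ, hβα⟩ := markingChange_bijective hS hg hα
  obtain ⟨G, hG, hhom⟩ := hα
  have hclose := (hN g α G hgN hG hhom).1
  have : P.IsPrime := hP.1.1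
  have hQ : P.comap α ∈ I.minimalPrimes := by
    refine ⟨⟨inferInstance, fun x hx => hP.1.2 (hI g α hg ⟨G, hG, hhom⟩ x hx)⟩, fun R hR hle => ?_⟩
    have : R.IsPrime := hR.1
    intro x hx
    have hRb : R.comap β ≤ P := fun y hy => by
      have := hle hy
      rwa [Ideal.mem_comap, hαβ] at this
    have hPR : P ≤ R.comap β :=
      hP.2 ⟨inferInstance, fun y hy => hR.2 (hI gi β hgi hβ y hy)⟩ hRb
    have := hPR hx
    rwa [Ideal.mem_comap, hβα] at this
  by_cases hne : P.comap α = P
  · exact (hne.symm ▸ hf : f ∈ P.comap α)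
  · obtain ⟨x, hx, hxn⟩ := hs _ hQ hne
    refine absurd ?_ hxn
    rw [← sub_sub_self (α x) x]
    exact Ideal.sub_mem _ (Ideal.mem_sup_left hx) (Ideal.mem_sup_right
      (Ideal.pow_le_pow_right (Finset.le_sup (hfin.mem_toFinset.mpr hQ)) (hclose x)))

end Vale.Agent.P217
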