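import Mathlib.Analysis.Normed.Field.Basic
import Mathlib.Analysis.Normed.Group.Ultra
import Mathlib.Analysis.Normed.Field.Ultra
import Mathlib.Topology.Algebra.LinearTopology
import Mathlib.Topology.Algebra.TopologicallyNilpotent
import Mathlib.Analysis.SpecificLimits.Normed

/-!
# The closed unit ball of a complete nonarchimedean field, with its linear topology
-/

noncomputable section

namespace Vale.Agent.P217

open Filter Topology

variable (K : Type*) [NormedField K] [IsUltrametricDist K]

/-- The closed unit ball as a subring. -/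
def unitBall : Subring K where
  carrier := {x | ‖x‖ ≤ 1}
  zero_mem' := by simp
  one_mem' := by simp
  add_mem' {x y} hx hy := (IsUltrametricDist.norm_add_le_max x y).trans (max_le hx hy)
  neg_mem' {x} hx := by simpa using hx
  mul_mem' {x y} hx hy := by
    simpa [norm_mul] using mul_le_one₀ hx (norm_nonneg y) hy

variable {K}

theorem mem_unitBall {x : K} : x ∈ unitBall K ↔ ‖x‖ ≤ 1 := Iff.rfl

theorem norm_coe_le_one (x : unitBall K) : ‖(x : K)‖ ≤ 1 := x.2

/-- The ideal of elements of norm at most `r`. -/
def ballIdeal {r : ℝ} (hr : 0 ≤ r) : Ideal (unitBall K) where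
  carrier := {x | ‖(x : K)‖ ≤ r}
  zero_mem' := by simpa using hr
  add_mem' {x y} hx hy :=
    (IsUltrametricDist.norm_add_le_max (x : K) y).trans (max_le hx hy)
  smul_mem' c {x} hx := by
    simp only [Set.mem_ofPred_eq, smul_eq_mul, Subring.coe_mul, norm_mul]
    exact (mul_le_of_le_one_left (norm_nonneg _) c.2).trans hx

theorem mem_ballIdeal {r : ℝ} (hr : 0 ≤ r) {x : unitBall K} :
    x ∈ ballIdeal hr ↔ ‖(x : K)‖ ≤ r := Iff.rfl

theorem isOpen_ballIdeal {r : ℝ} (hr : 0 < r) :
    IsOpen (ballIdeal (K := K) hr.le : Set (unitBall K)) :=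
  AddSubgroup.isOpen_of_mem_nhds (ballIdeal (K := K) hr.le).toAddSubgroup (g := 0) <| by
    refine mem_of_superset (Metric.ball_mem_nhds (0 : unitBall K) hr) fun x hx => ?_
    rw [Metric.mem_ball, Subtype.dist_eq, dist_eq_norm] at hx
    show ‖(x : K)‖ ≤ r
    simpa using hx.le

instance : IsLinearTopology (unitBall K) (unitBall K) := by
  refine IsLinearTopology.mk_of_hasBasis (R := unitBall K) (M := unitBall K)
    (ι := ℝ) (S := Ideal (unitBall K)) (p := fun r => 0 < r)
    (s := fun r => if h : 0 < r then ballIdeal h.le else ⊥) ⟨fun U => ?_⟩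
  constructor
  · intro hU
    obtain ⟨r, hr, h⟩ := Metric.nhds_basis_closedBall.mem_iff.mp hU
    refine ⟨r, hr, fun x hx => h ?_⟩
    simp only [dif_pos hr, SetLike.mem_coe, mem_ballIdeal] at hx
    rw [Metric.mem_closedBall, Subtype.dist_eq, dist_eq_norm]
    simpa using hx
  · rintro ⟨r, hr, h⟩
    refine mem_of_superset ((isOpen_ballIdeal hr).mem_nhds (zero_mem _)) ?_
    simpa [hr] using h

instance [CompleteSpace K] : CompleteSpace (unitBall K) :=
  (isClosed_le continuous_norm continuous_const : IsClosed {x : K | ‖x‖ ≤ 1}).completeSpace_coe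

instance : IsUniformAddGroup (unitBall K) :=
  (unitBall K).toAddSubgroup.isUniformAddGroup

theorem isTopologicallyNilpotent_ball {x : unitBall K} :
    IsTopologicallyNilpotent x ↔ ‖(x : K)‖ < 1 := by
  rw [IsTopologicallyNilpotent, tendsto_subtype_rng]
  simp only [SubmonoidClass.coe_pow, ZeroMemClass.coe_zero]
  exact tendsto_pow_atTop_nhds_zero_iff_norm_lt_one

end Vale.Agent.P217
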