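import Mathlib.FieldTheory.Perfect
import Mathlib.RingTheory.MvPowerSeries.Equiv
import Mathlib.RingTheory.MvPowerSeries.Inverse
import Vale.Agent.P217.Defs

/-!
# The maximal ideal of `E0` and its adic topology
-/

noncomputable section

namespace Vale.Agent.P217

open MvPowerSeries Finsupp

set_option linter.unusedSectionVars false

variable (p : ℕ) [Fact p.Prime] (n : ℕ) (k : Type) [Field k] [CharP k p] [Finite k]

theorem res_apply (f : E0 p n k) :
    res p n k f = WittVector.constantCoeff (constantCoeff f) := rfl

theorem res_C (w : WittVector p k) :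
    res p n k (C w : E0 p n k) = WittVector.constantCoeff w := by simp [res_apply]

theorem res_X (i : Fin (n - 1)) : res p n k (X i : E0 p n k) = 0 := by simp [res_apply]

theorem res_p : res p n k (p : E0 p n k) = 0 := by simp [map_natCast]

theorem res_eq_zero_iff (f : E0 p n k) :
    res p n k f = 0 ↔ constantCoeff f ∈ Ideal.span {(p : WittVector p k)} := by
  rw [WittVector.mem_span_p_iff_coeff_zero_eq_zero]
  rfl

theorem res_surjective : Function.Surjective (res p n k) := fun x => by
  obtain ⟨w, hw⟩ := WittVector.constantCoeff_surjective (R := k) p x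
  exact ⟨C w, by rw [res_C, hw]⟩

variable {p n k}

/-- The part of `f` whose first variable is `X i`, divided by `X i`. -/
def divX (i : Fin (n - 1)) (f : E0 p n k) : E0 p n k :=
  fun d => if ∀ j < i, d j = 0 then coeff (d + single i 1) f else 0

theorem coeff_divX (i : Fin (n - 1)) (f : E0 p n k) (d : Fin (n - 1) →₀ ℕ) :
    coeff d (divX i f) = if ∀ j < i, d j = 0 then coeff (d + single i 1) f else 0 := rfl

theorem res_divX (i : Fin (n - 1)) (f : E0 p n k) :
    res p n k (divX i f) = WittVector.constantCoeff (coeff (single i 1) f) := by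
  rw [res_apply, ← coeff_zero_eq_constantCoeff_apply, coeff_divX]
  simp

theorem E0_decomp (f : E0 p n k) :
    f = C (constantCoeff f) + ∑ i, X i * divX i f := by
  classical
  ext1 d
  simp only [map_add, map_sum, coeff_C, X_def, coeff_monomial_mul, one_mul, coeff_divX]
  by_cases hd : d = 0
  · subst hd
    rw [if_pos rfl, Finset.sum_eq_zero, add_zero, coeff_zero_eq_constantCoeff_apply]
    intro i _
    rw [if_neg]
    intro h
    simpa using h i
  · rw [if_neg hd, zero_add]
    have hne := Finsupp.support_nonempty_iff.mpr hd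
    set i₀ := d.support.min' hne
    have h0 : d i₀ ≠ 0 := Finsupp.mem_support_iff.mp (Finset.min'_mem _ hne)
    have hmin : ∀ j < i₀, d j = 0 := fun j hj => by
      by_contra h
      exact not_lt.mpr (Finset.min'_le _ j (Finsupp.mem_support_iff.mpr h)) hj
    have hle : single i₀ 1 ≤ d := by simp; omega
    rw [Finset.sum_eq_single i₀]
    · rw [if_pos hle, if_pos, tsub_add_cancel_of_le hle]
      intro j hj
      simp [hmin j hj]
    · intro i _ hi
      by_cases hle' : single i 1 ≤ d
      · rw [if_pos hle', if_neg]
        intro h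
        have hi' : d i ≠ 0 := by have := hle' i; simp at this; omega
        rcases lt_or_gt_of_ne hi with hlt | hlt
        · exact hi' (hmin i hlt)
        · have := h i₀ hlt
          simp [hlt.ne'] at this
          exact h0 this
      · rw [if_neg hle']
    · simp

variable (p n k)

/-- Coefficient filtration. -/
theorem coeff_mem_of_mem_pow : ∀ (s : ℕ) (f : E0 p n k), f ∈ RingHom.ker (res p n k) ^ s →
    ∀ d, coeff d f ∈ Ideal.span {(p : WittVector p k)} ^ (s - d.degree) := by
  classical
  intro s
  induction s with
  | zero => intro f _ d; simp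
  | succ s ih =>
    intro f hf
    rw [pow_succ] at hf
    refine Submodule.mul_induction_on hf (fun a ha b hb d => ?_) (fun a b ha hb d => ?_)
    · rw [coeff_mul]
      refine Ideal.sum_mem _ fun x hx => ?_
      have hdeg := congrArg degree (Finset.mem_antidiagonal.mp hx)
      rw [map_add] at hdeg
      by_cases h : x.2 = 0
      · have h1 : coeff x.2 b ∈ Ideal.span {(p : WittVector p k)} ^ 1 := by
          rw [pow_one, h, coeff_zero_eq_constantCoeff_apply]
          exact (res_eq_zero_iff p n k b).mp hb
        rw [h, map_zero] at hdeg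
        refine Ideal.pow_le_pow_right (m := s + 1 - d.degree) (n := (s - x.1.degree) + 1)
          (by omega) ?_
        rw [pow_add]
        exact Ideal.mul_mem_mul (ih a ha x.1) h1
      · have : 0 < x.2.degree := Nat.pos_of_ne_zero fun h' =>
          h ((Finsupp.degree_eq_zero_iff _).mp h')
        exact Ideal.mul_mem_right _ _ (Ideal.pow_le_pow_right (by omega) (ih a ha x.1))
    · rw [map_add]
      exact Ideal.add_mem _ (ha d) (hb d)

theorem mem_pow_of_coeff_mem : ∀ (s : ℕ) (f : E0 p n k),
    (∀ d, coeff d f ∈ Ideal.span {(p : WittVector p k)} ^ (s - d.degree)) →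
      f ∈ RingHom.ker (res p n k) ^ s := by
  intro s
  induction s with
  | zero => intro f _; simp
  | succ s ih =>
    intro f hf
    rw [E0_decomp f]
    refine Ideal.add_mem _ ?_ (Ideal.sum_mem _ fun i _ => ?_)
    · have h0 : constantCoeff f ∈ Ideal.span {(p : WittVector p k)} ^ (s + 1) := by
        simpa [coeff_zero_eq_constantCoeff_apply] using hf 0
      rw [Ideal.span_singleton_pow, Ideal.mem_span_singleton'] at h0
      obtain ⟨w, hw⟩ := h0
      rw [← hw, map_mul, map_pow, map_natCast]
      exact Ideal.mul_mem_left _ _ (Ideal.pow_mem_pow (res_p p n k) _)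
    · rw [pow_succ']
      refine Ideal.mul_mem_mul (res_X p n k i) (ih _ fun d => ?_)
      rw [coeff_divX]
      split_ifs
      · have := hf (d + single i 1)
        rwa [map_add, Finsupp.degree_single, Nat.add_sub_add_right] at this
      · exact Ideal.zero_mem _

theorem mem_ker_pow_iff {s : ℕ} {f : E0 p n k} : f ∈ RingHom.ker (res p n k) ^ s ↔
    ∀ d, coeff d f ∈ Ideal.span {(p : WittVector p k)} ^ (s - d.degree) :=
  ⟨coeff_mem_of_mem_pow p n k s f, mem_pow_of_coeff_mem p n k s f⟩

instance isAdicComplete_E0 :
    IsAdicComplete (RingHom.ker (res p n k)) (E0 p n k) where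
  haus' f hf := by
    ext1 d
    refine IsHausdorff.haus (inferInstance :
      IsHausdorff (Ideal.span {(p : WittVector p k)}) (WittVector p k)) _ fun s => ?_
    rw [SModEq.zero, smul_eq_mul, Ideal.mul_top]
    have := hf (s + d.degree)
    rw [SModEq.zero, smul_eq_mul, Ideal.mul_top, mem_ker_pow_iff] at this
    simpa using this d
  prec' f hf := by
    simp only [smul_eq_mul, Ideal.mul_top, SModEq.sub_mem] at hf ⊢
    have hc : ∀ d : Fin (n - 1) →₀ ℕ, ∀ {a b : ℕ}, a ≤ b →
        coeff d (f (a + d.degree)) - coeff d (f (b + d.degree)) ∈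
          Ideal.span {(p : WittVector p k)} ^ a := fun d a b hab => by
      have := (mem_ker_pow_iff p n k).mp (hf (show a + d.degree ≤ b + d.degree by omega)) d
      rwa [map_sub, Nat.add_sub_cancel] at this
    have hL : ∀ d : Fin (n - 1) →₀ ℕ, ∃ L, ∀ a, coeff d (f (a + d.degree)) - L ∈
        Ideal.span {(p : WittVector p k)} ^ a := fun d => by
      obtain ⟨L, hL⟩ := IsPrecomplete.prec (inferInstance :
        IsPrecomplete (Ideal.span {(p : WittVector p k)}) (WittVector p k))
        (f := fun a => coeff d (f (a + d.degree))) (fun {a b} hab => by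
          rw [SModEq.sub_mem, smul_eq_mul, Ideal.mul_top]
          exact hc d hab)
      refine ⟨L, fun a => ?_⟩
      have := hL a
      rwa [SModEq.sub_mem, smul_eq_mul, Ideal.mul_top] at this
    choose L hL using hL
    let g : E0 p n k := fun d => L d
    have hg : ∀ d, coeff d g = L d := fun _ => rfl
    refine ⟨g, fun s => ?_⟩
    rw [mem_ker_pow_iff]
    intro d
    rw [map_sub, hg]
    by_cases hs : d.degree ≤ s
    · have := hL d (s - d.degree)
      rwa [Nat.sub_add_cancel hs] at this
    · simp [Nat.sub_eq_zero_of_le (le_of_not_ge hs)]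

theorem ker_res_eq_hIdeal (hn : 1 ≤ n) : RingHom.ker (res p n k) = hIdeal p n k n := by
  refine le_antisymm (fun f hf => ?_) (Ideal.span_le.mpr ?_)
  · rw [E0_decomp f]
    refine Ideal.add_mem _ ?_ (Ideal.sum_mem _ fun i _ => Ideal.mul_mem_right _ _ ?_)
    · obtain ⟨w, hw⟩ := Ideal.mem_span_singleton'.mp ((res_eq_zero_iff p n k f).mp hf)
      rw [← hw, map_mul, map_natCast]
      refine Ideal.mul_mem_left _ _ (Ideal.subset_span ⟨0, Set.mem_Iio.mpr hn, ?_⟩)
      simp [uE]
    · refine Ideal.subset_span ⟨i + 1, Set.mem_Iio.mpr (by omega), ?_⟩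
      simp [uE, i.isLt]
  · rintro _ ⟨i, hi, rfl⟩
    rw [SetLike.mem_coe, RingHom.mem_ker, uE]
    simp only [Set.mem_Iio] at hi
    split_ifs with h0 h1 h2
    · exact res_p p n k
    · exact res_X p n k _
    · omega
    · exact map_zero _

end Vale.Agent.P217
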