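import Mathlib.RingTheory.MvPowerSeries.Evaluation
import Mathlib.RingTheory.MvPowerSeries.Substitution
import Mathlib.RingTheory.PowerSeries.Substitution
import Mathlib.RingTheory.Ideal.Maps

/-!
# Evaluation of power series in complete rings with a linear topology

`ev φ a f` evaluates a power series with coefficients in a ring without topology at a family of
topologically nilpotent points; `ev1` is the one variable version.
-/

noncomputable section

namespace Vale.Agent.P217

open Filter Topology MvPowerSeries.WithPiTopology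

set_option linter.style.haveILetI false
set_option linter.unusedSectionVars false

variable {R : Type*} [CommRing R] {σ τ : Type*}
variable {O : Type*} [CommRing O] [UniformSpace O] [IsUniformAddGroup O] [IsTopologicalRing O]
  [CompleteSpace O] [T2Space O] [IsLinearTopology O O]

/-- Evaluation of `f` at `a`, coefficients through `φ`. -/
def ev (φ : R →+* O) (a : σ → O) (f : MvPowerSeries σ R) : O :=
  letI : UniformSpace R := ⊥
  MvPowerSeries.eval₂ φ a f

/-- Evaluation of a one variable series at `x`. -/
def ev1 (φ : R →+* O) (x : O) (f : PowerSeries R) : O :=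
  ev φ (fun _ : Unit => x) f

omit [IsUniformAddGroup O] [IsTopologicalRing O] [CompleteSpace O] [T2Space O]
  [IsLinearTopology O O] in
theorem hasEval_of_finite [Finite σ] {a : σ → O} (h : ∀ s, IsTopologicallyNilpotent (a s)) :
    MvPowerSeries.HasEval a :=
  ⟨h, by simp [cofinite_eq_bot]⟩

variable {φ : R →+* O} {a b : σ → O}

theorem hasSum_ev (ha : MvPowerSeries.HasEval a) (f : MvPowerSeries σ R) :
    HasSum (fun d : σ →₀ ℕ => φ (MvPowerSeries.coeff d f) * d.prod fun s e => a s ^ e)
      (ev φ a f) := by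
  letI : UniformSpace R := ⊥
  exact MvPowerSeries.hasSum_eval₂ continuous_of_discreteTopology ha f

/-- Evaluation as a ring homomorphism. -/
def evHom (φ : R →+* O) (ha : MvPowerSeries.HasEval a) : MvPowerSeries σ R →+* O :=
  letI : UniformSpace R := ⊥
  MvPowerSeries.eval₂Hom (φ := φ) continuous_of_discreteTopology ha

@[simp]
theorem evHom_apply (ha : MvPowerSeries.HasEval a) (f : MvPowerSeries σ R) :
    evHom φ ha f = ev φ a f := by
  letI : UniformSpace R := ⊥
  exact congrFun (MvPowerSeries.coe_eval₂Hom (φ := φ) continuous_of_discreteTopology ha) f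

theorem ev_add (ha : MvPowerSeries.HasEval a) (f g : MvPowerSeries σ R) :
    ev φ a (f + g) = ev φ a f + ev φ a g := by
  simp only [← evHom_apply ha, map_add]

theorem ev_sub (ha : MvPowerSeries.HasEval a) (f g : MvPowerSeries σ R) :
    ev φ a (f - g) = ev φ a f - ev φ a g := by
  simp only [← evHom_apply ha, map_sub]

theorem ev_mul (ha : MvPowerSeries.HasEval a) (f g : MvPowerSeries σ R) :
    ev φ a (f * g) = ev φ a f * ev φ a g := by
  simp only [← evHom_apply ha, map_mul]

theorem ev_pow (ha : MvPowerSeries.HasEval a) (f : MvPowerSeries σ R) (m : ℕ) :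
    ev φ a (f ^ m) = ev φ a f ^ m := by
  simp only [← evHom_apply ha, map_pow]

theorem ev_zero (ha : MvPowerSeries.HasEval a) : ev φ a (0 : MvPowerSeries σ R) = 0 := by
  simp only [← evHom_apply ha, map_zero]

@[simp]
theorem ev_C (r : R) : ev φ a (MvPowerSeries.C r) = φ r := by
  letI : UniformSpace R := ⊥
  exact MvPowerSeries.eval₂_C φ a r

@[simp]
theorem ev_X (s : σ) : ev φ a (MvPowerSeries.X s : MvPowerSeries σ R) = a s := by
  letI : UniformSpace R := ⊥
  exact MvPowerSeries.eval₂_X φ a s

/-- Change of coefficients. -/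
theorem ev_map {R' : Type*} [CommRing R'] (ψ : R' →+* R) (ha : MvPowerSeries.HasEval a)
    (f : MvPowerSeries σ R') : ev φ a (MvPowerSeries.map ψ f) = ev (φ.comp ψ) a f :=
  (hasSum_ev ha _).unique (by simpa using hasSum_ev (φ := φ.comp ψ) ha f)

/-- Naturality in continuous ring homomorphisms of the target. -/
theorem map_ev {O' : Type*} [CommRing O'] [UniformSpace O'] [IsUniformAddGroup O']
    [IsTopologicalRing O'] [CompleteSpace O'] [T2Space O'] [IsLinearTopology O' O']
    (ψ : O →+* O') (hψ : Continuous ψ) (ha : MvPowerSeries.HasEval a)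
    (f : MvPowerSeries σ R) : ψ (ev φ a f) = ev (ψ.comp φ) (fun s => ψ (a s)) f := by
  letI : UniformSpace R := ⊥
  exact congrFun (MvPowerSeries.comp_eval₂ (φ := φ) continuous_of_discreteTopology ha hψ) f

/-- Evaluation of a substitution. -/
theorem ev_subst {b : σ → MvPowerSeries τ R} {a : τ → O} (hb : MvPowerSeries.HasSubst b)
    (ha : MvPowerSeries.HasEval a) (f : MvPowerSeries σ R) :
    ev φ a (MvPowerSeries.subst b f) = ev φ (fun s => ev φ a (b s)) f := by
  letI : UniformSpace R := ⊥
  have hc : Continuous (evHom φ ha) := by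
    rw [show ⇑(evHom φ ha) = MvPowerSeries.eval₂ φ a from funext (evHom_apply ha)]
    exact MvPowerSeries.continuous_eval₂ continuous_of_discreteTopology ha
  have h := congrFun (MvPowerSeries.comp_eval₂
    (φ := algebraMap R (MvPowerSeries τ R)) continuous_of_discreteTopology hb.hasEval hc) f
  have h1 : (evHom φ ha).comp (algebraMap R (MvPowerSeries τ R)) = φ := by
    ext r
    rw [RingHom.comp_apply, evHom_apply, ← MvPowerSeries.c_eq_algebraMap, ev_C]
  simp only [Function.comp_apply, evHom_apply, h1] at h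
  rw [MvPowerSeries.subst_eq_eval₂, h]
  congr 1
  funext s
  exact evHom_apply ha (b s)

/-- An open ideal containing all terms contains the value. -/
theorem ev_mem {J : Ideal O} (hJ : IsOpen (J : Set O)) (ha : MvPowerSeries.HasEval a)
    (f : MvPowerSeries σ R)
    (h : ∀ d, φ (MvPowerSeries.coeff d f) * (d.prod fun s e => a s ^ e) ∈ J) :
    ev φ a f ∈ J :=
  (J.toAddSubgroup.isClosed_of_isOpen hJ).mem_of_tendsto (hasSum_ev ha f)
    (Eventually.of_forall fun _ => Ideal.sum_mem J fun d _ => h d)

theorem prod_pow_sub_mem {J : Ideal O} (hab : ∀ s, a s - b s ∈ J) (d : σ →₀ ℕ) :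
    (d.prod fun s e => a s ^ e) - (d.prod fun s e => b s ^ e) ∈ J := by
  rw [← Ideal.Quotient.eq, map_finsuppProd, map_finsuppProd]
  refine Finsupp.prod_congr fun s _ => ?_
  rw [map_pow, map_pow, Ideal.Quotient.eq.mpr (hab s)]

/-- Congruent coefficients and congruent points give congruent values. -/
theorem ev_sub_ev_mem {R' : Type*} [CommRing R'] {φ' : R' →+* O} {J : Ideal O}
    (hJ : IsOpen (J : Set O)) (ha : MvPowerSeries.HasEval a) (hb : MvPowerSeries.HasEval b)
    (hab : ∀ s, a s - b s ∈ J) {f : MvPowerSeries σ R} {g : MvPowerSeries σ R'}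
    (hfg : ∀ d, φ (MvPowerSeries.coeff d f) - φ' (MvPowerSeries.coeff d g) ∈ J) :
    ev φ a f - ev φ' b g ∈ J := by
  refine (J.toAddSubgroup.isClosed_of_isOpen hJ).mem_of_tendsto
    ((hasSum_ev ha f).sub (hasSum_ev hb g)) (Eventually.of_forall fun _ =>
      Ideal.sum_mem J fun d _ => ?_)
  have h1 := Ideal.mul_mem_right (d.prod fun s e => a s ^ e) J (hfg d)
  have h2 := Ideal.mul_mem_left J (φ' (MvPowerSeries.coeff d g)) (prod_pow_sub_mem hab d)
  convert J.add_mem h1 h2 using 1
  ring

theorem isTopologicallyNilpotent_ev (ha : MvPowerSeries.HasEval a) (f : MvPowerSeries σ R)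
    (hf : IsTopologicallyNilpotent (φ (MvPowerSeries.constantCoeff f))) :
    IsTopologicallyNilpotent (ev φ a f) := by
  rw [IsTopologicallyNilpotent, IsLinearTopology.hasBasis_ideal.tendsto_right_iff]
  intro J hJ
  obtain ⟨N, hN⟩ : ∃ N, ev φ a f ^ N ∈ J := by
    have hopen : IsOpen (J.radical : Set O) :=
      AddSubgroup.isOpen_mono (H₁ := J.toAddSubgroup) (H₂ := J.radical.toAddSubgroup)
        Ideal.le_radical ((J.toAddSubgroup.isOpen_of_mem_nhds hJ))
    refine ev_mem (J := J.radical) hopen ha f fun d => ?_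
    rcases eq_or_ne d 0 with rfl | hd
    · obtain ⟨N, hN⟩ := (hf.eventually_mem hJ).exists
      exact Ideal.mul_mem_right _ _ (Ideal.mem_radical_iff.mpr ⟨N, hN⟩)
    · obtain ⟨s, hs⟩ := Finsupp.support_nonempty_iff.mpr hd
      refine Ideal.mul_mem_left _ _ (Ideal.prod_mem _ hs ?_)
      obtain ⟨N, hN⟩ := ((ha.hpow s).eventually_mem hJ).exists
      exact Ideal.pow_mem_of_mem _ (Ideal.mem_radical_iff.mpr ⟨N, hN⟩) _ (Nat.pos_of_ne_zero (Finsupp.mem_support_iff.mp hs))
  filter_upwards [eventually_ge_atTop N] with i hi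
  exact J.pow_mem_of_pow_mem hN hi

section OneVar

variable {x y : O}

theorem hasEval1 (hx : IsTopologicallyNilpotent x) :
    MvPowerSeries.HasEval (fun _ : Unit => x) :=
  hasEval_of_finite fun _ => hx

theorem hasEval2 (hx : IsTopologicallyNilpotent x) (hy : IsTopologicallyNilpotent y) :
    MvPowerSeries.HasEval ![x, y] :=
  hasEval_of_finite fun s => by fin_cases s <;> assumption

theorem hasSum_ev1 (hx : IsTopologicallyNilpotent x) (f : PowerSeries R) :
    HasSum (fun i => φ (PowerSeries.coeff i f) * x ^ i) (ev1 φ x f) := by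
  let e : ℕ ≃ (Unit →₀ ℕ) := (Finsupp.uniqueEquiv ()).symm
  have h := (e.hasSum_iff).mpr (hasSum_ev (φ := φ) (hasEval1 hx) f)
  refine h.congr_fun fun i => ?_
  simp [e, PowerSeries.coeff]

/-- Evaluation of a substitution into a one variable series. -/
theorem ev_subst1 {b : MvPowerSeries τ R} {a : τ → O} (hb : PowerSeries.HasSubst b)
    (ha : MvPowerSeries.HasEval a) (f : PowerSeries R) :
    ev φ a (PowerSeries.subst b f) = ev1 φ (ev φ a b) f :=
  ev_subst hb.const ha f

end OneVar

end Vale.Agent.P217
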