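import Mathlib.RingTheory.MvPowerSeries.Substitution
import Mathlib.RingTheory.PowerSeries.Substitution
import Mathlib.RingTheory.Ideal.Quotient.Basic
import Mathlib.RingTheory.Ideal.Quotient.Operations

/-!
# Congruences of truncated power series

`cI J N` is the ideal of series whose coefficients of degree `< N` lie in `J`.
-/

noncomputable section

namespace Vale.Agent.P217

open MvPowerSeries Finsupp

set_option linter.unusedSectionVars false

variable {σ τ : Type*} {A B : Type*} [CommRing A] [CommRing B]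

/-- Series whose coefficients of degree `< N` lie in `J`. -/
def cI (J : Ideal A) (N : ℕ) : Ideal (MvPowerSeries σ A) where
  carrier := {f | ∀ d : σ →₀ ℕ, d.degree < N → coeff d f ∈ J}
  zero_mem' _ _ := by simp
  add_mem' {f g} hf hg d hd := by
    simpa using J.add_mem (hf d hd) (hg d hd)
  smul_mem' c {f} hf d hd := by
    classical
    rw [smul_eq_mul, coeff_mul]
    refine Ideal.sum_mem _ fun x hx => Ideal.mul_mem_left _ _ (hf _ ?_)
    have := congrArg degree (Finset.mem_antidiagonal.mp hx)
    rw [map_add] at this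
    omega

variable {I J K : Ideal A} {M N : ℕ} {f g u v : MvPowerSeries σ A}

theorem mem_cI : f ∈ cI J N ↔ ∀ d : σ →₀ ℕ, d.degree < N → coeff d f ∈ J := Iff.rfl

theorem cI_mono (h : J ≤ K) (hN : M ≤ N) : cI (σ := σ) J N ≤ cI K M :=
  fun _ hf d hd => h (hf d (hd.trans_le hN))

theorem cI_anti (hN : M ≤ N) (hf : f ∈ cI J N) : f ∈ cI J M := cI_mono le_rfl hN hf

theorem cI_le (h : J ≤ K) (hf : f ∈ cI J N) : f ∈ cI K N := cI_mono h le_rfl hf

theorem mem_cI_zero : f ∈ cI J 0 := fun d hd => absurd hd (Nat.not_lt_zero _)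

theorem cI_top : f ∈ cI (⊤ : Ideal A) N := fun _ _ => trivial


theorem eq_zero_of_forall_mem_cI (h : ∀ N, f ∈ cI (⊥ : Ideal A) N) : f = 0 := by
  ext d
  simpa using h (d.degree + 1) d (Nat.lt_succ_self _)

theorem C_mem_cI {a : A} (ha : a ∈ J) : (C a : MvPowerSeries σ A) ∈ cI J N := by
  intro d _
  classical
  rw [coeff_C]
  split_ifs <;> simp [ha]

theorem mem_cI_bot_one_iff : f ∈ cI (⊥ : Ideal A) 1 ↔ constantCoeff f = 0 := by
  constructor
  · intro h
    rw [← coeff_zero_eq_constantCoeff_apply]
    simpa using h 0 (by simp)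
  · intro h d hd
    have : d = 0 := Finsupp.degree_eq_zero_iff d |>.mp (by omega)
    subst this
    rw [coeff_zero_eq_constantCoeff_apply]
    simpa using h

theorem mem_cI_one_iff : f ∈ cI J 1 ↔ constantCoeff f ∈ J := by
  constructor
  · intro h
    rw [← coeff_zero_eq_constantCoeff_apply]
    simpa using h 0 (by simp)
  · intro h d hd
    have : d = 0 := Finsupp.degree_eq_zero_iff d |>.mp (by omega)
    subst this
    rw [coeff_zero_eq_constantCoeff_apply]
    simpa using h

theorem mul_mem_cI_mul (hu : u ∈ cI I N) (hv : v ∈ cI J N) : u * v ∈ cI (I * J) N := by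
  classical
  intro d hd
  rw [coeff_mul]
  refine Ideal.sum_mem _ fun x hx => ?_
  have := congrArg degree (Finset.mem_antidiagonal.mp hx)
  rw [map_add] at this
  exact Ideal.mul_mem_mul (hu _ (by omega)) (hv _ (by omega))

theorem mul_mem_cI_add (hu : u ∈ cI J M) (hv : v ∈ cI (⊥ : Ideal A) N) :
    u * v ∈ cI J (M + N) := by
  classical
  intro d hd
  rw [coeff_mul]
  refine Ideal.sum_mem _ fun x hx => ?_
  have := congrArg degree (Finset.mem_antidiagonal.mp hx)
  rw [map_add] at this
  by_cases h : x.1.degree < M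
  · exact Ideal.mul_mem_right _ _ (hu _ h)
  · have : coeff x.2 v = 0 := by simpa using hv _ (by omega)
    simp [this]

theorem mul_mem_cI_add' (hu : u ∈ cI (⊥ : Ideal A) M) (hv : v ∈ cI J N) :
    u * v ∈ cI J (M + N) := by
  rw [mul_comm, add_comm]
  exact mul_mem_cI_add hv hu

theorem map_mem_cI (φ : A →+* B) (hf : f ∈ cI J N) : MvPowerSeries.map φ f ∈ cI (J.map φ) N :=
  fun d hd => by simpa using Ideal.mem_map_of_mem φ (hf d hd)

theorem map_mem_cI_of {J' : Ideal B} (φ : A →+* B) (h : ∀ x ∈ J, φ x ∈ J') (hf : f ∈ cI J N) :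
    MvPowerSeries.map φ f ∈ cI J' N :=
  fun d hd => by simpa using h _ (hf d hd)

/-! ### Monomials of congruent families -/

theorem finsuppProd_sub_mem {R : Type*} [CommRing R] {L : Ideal R} {x y : σ → R}
    (h : ∀ s, x s - y s ∈ L) (d : σ →₀ ℕ) :
    (d.prod fun s e => x s ^ e) - (d.prod fun s e => y s ^ e) ∈ L := by
  rw [← Ideal.Quotient.eq, map_finsuppProd, map_finsuppProd]
  refine Finsupp.prod_congr fun s _ => ?_
  rw [map_pow, map_pow, Ideal.Quotient.eq.mpr (h s)]

variable {x y : σ → MvPowerSeries τ A}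

theorem pow_mem_cI_bot {f : MvPowerSeries τ A} (hf : constantCoeff f = 0) (e : ℕ) :
    f ^ e ∈ cI (⊥ : Ideal A) e := by
  induction e with
  | zero => exact mem_cI_zero
  | succ e ih =>
    rw [pow_succ]
    exact mul_mem_cI_add ih (mem_cI_bot_one_iff.mpr hf)

theorem prod_mem_cI_bot (hx : ∀ s, constantCoeff (x s) = 0) (d : σ →₀ ℕ) :
    (d.prod fun s e => x s ^ e) ∈ cI (⊥ : Ideal A) d.degree := by
  classical
  induction d using Finsupp.induction with
  | zero => simpa using mem_cI_zero
  | single_add s e d hs he ih =>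
    rw [Finsupp.prod_add_index' (fun _ => pow_zero _) (fun _ _ _ => pow_add _ _ _),
      Finsupp.prod_single_index (h := fun s e => x s ^ e) (pow_zero _), map_add,
      Finsupp.degree_single]
    exact mul_mem_cI_add (pow_mem_cI_bot (hx s) e) ih

/-- Arguments congruent modulo degree two give monomials congruent one degree further. -/
theorem prod_sub_prod_mem_high (hx : ∀ s, constantCoeff (x s) = 0)
    (hy : ∀ s, constantCoeff (y s) = 0) (h : ∀ s, x s - y s ∈ cI K 2) (d : σ →₀ ℕ) :
    (d.prod fun s e => x s ^ e) - (d.prod fun s e => y s ^ e) ∈ cI K (d.degree + 1) := by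
  classical
  have key : ∀ (a b a' b' : MvPowerSeries τ A) (m l : ℕ), a - b ∈ cI K (m + 1) →
      a' - b' ∈ cI K (l + 1) → b ∈ cI (⊥ : Ideal A) m → a' ∈ cI (⊥ : Ideal A) l →
      a * a' - b * b' ∈ cI K (m + l + 1) := by
    intro a b a' b' m l h1 h2 h3 h4
    have e1 := cI_anti (M := m + l + 1) (by omega) (mul_mem_cI_add h1 h4)
    have e2 := cI_anti (M := m + l + 1) (by omega) (mul_mem_cI_add' h3 h2)
    convert (cI K (m + l + 1)).add_mem e1 e2 using 1
    ring
  have hpow : ∀ (s : σ) (e : ℕ), x s ^ e - y s ^ e ∈ cI K (e + 1) := by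
    intro s e
    induction e with
    | zero => simpa using (cI K 1).zero_mem
    | succ e ih =>
      rw [pow_succ, pow_succ]
      exact key _ _ _ _ e 1 ih (h s) (pow_mem_cI_bot (hy s) e)
        (mem_cI_bot_one_iff.mpr (hx s))
  induction d using Finsupp.induction with
  | zero => simp
  | single_add s e d hs he ih =>
    simp only [Finsupp.prod_add_index' (fun _ => pow_zero _) (fun _ _ _ => pow_add _ _ _),
      Finsupp.prod_single_index (h := fun s e => x s ^ e) (pow_zero _),
      Finsupp.prod_single_index (h := fun s e => y s ^ e) (pow_zero _), map_add,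
      Finsupp.degree_single]
    exact key _ _ _ _ e d.degree (hpow s e) ih (pow_mem_cI_bot (hy s) e)
      (prod_mem_cI_bot hx d)

/-! ### Substitution -/

variable [Finite σ]

theorem hasSubst0 (hx : ∀ s, constantCoeff (x s) = 0) : HasSubst x :=
  hasSubst_of_constantCoeff_zero hx

theorem coeff_subst' (hx : ∀ s, constantCoeff (x s) = 0) (f : MvPowerSeries σ A) (e : τ →₀ ℕ) :
    coeff e (subst x f) = ∑ᶠ d, coeff d f * coeff e (d.prod fun s m => x s ^ m) := by
  simp [coeff_subst (hasSubst0 hx)]

theorem coeff_subst_mem (hx : ∀ s, constantCoeff (x s) = 0) {e : τ →₀ ℕ}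
    (h : ∀ d : σ →₀ ℕ, d.degree ≤ e.degree →
      coeff d f * coeff e (d.prod fun s m => x s ^ m) ∈ J) :
    coeff e (subst x f) ∈ J := by
  rw [coeff_subst' hx]
  refine finsum_induction (· ∈ J) J.zero_mem (fun _ _ => J.add_mem) fun d => ?_
  by_cases hd : d.degree ≤ e.degree
  · exact h d hd
  · have := prod_mem_cI_bot hx d e (by omega)
    simp only [Ideal.mem_bot] at this
    simp [this]

theorem subst_mem_cI (hx : ∀ s, constantCoeff (x s) = 0) (hf : f ∈ cI J N) :
    subst x f ∈ cI J N := fun _ he =>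
  coeff_subst_mem hx fun d hd => Ideal.mul_mem_right _ _ (hf d (by omega))

theorem subst_sub_subst_coeff (hx : ∀ s, constantCoeff (x s) = 0)
    (hy : ∀ s, constantCoeff (y s) = 0) {e : τ →₀ ℕ}
    (h : ∀ d : σ →₀ ℕ, d.degree ≤ e.degree → coeff d f *
      coeff e ((d.prod fun s m => x s ^ m) - d.prod fun s m => y s ^ m) ∈ J) :
    coeff e (subst x f - subst y f) ∈ J := by
  have h1 := coeff_subst_finite (R := A) (hasSubst0 hx) f e
  have h2 := coeff_subst_finite (R := A) (hasSubst0 hy) f e
  rw [map_sub, coeff_subst' hx, coeff_subst' hy,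
    ← finsum_sub_distrib (by simpa using h1) (by simpa using h2)]
  refine finsum_induction (· ∈ J) J.zero_mem (fun _ _ => J.add_mem) fun d => ?_
  by_cases hd : d.degree ≤ e.degree
  · rw [← mul_sub, ← map_sub]
    exact h d hd
  · have e1 := prod_mem_cI_bot hx d e (by omega)
    have e2 := prod_mem_cI_bot hy d e (by omega)
    simp only [Ideal.mem_bot] at e1 e2
    simp [e1, e2]

/-- Congruent arguments give congruent values. -/
theorem subst_sub_subst_mem (hx : ∀ s, constantCoeff (x s) = 0)
    (hy : ∀ s, constantCoeff (y s) = 0) (hf : f ∈ cI I N) (h : ∀ s, x s - y s ∈ cI J N) :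
    subst x f - subst y f ∈ cI (I * J) N := fun e he =>
  subst_sub_subst_coeff hx hy fun d hd =>
    Ideal.mul_mem_mul (hf d (by omega)) (finsuppProd_sub_mem h d e he)

theorem subst_congr_arg (hx : ∀ s, constantCoeff (x s) = 0)
    (hy : ∀ s, constantCoeff (y s) = 0) (f : MvPowerSeries σ A) (h : ∀ s, x s - y s ∈ cI J N) :
    subst x f - subst y f ∈ cI J N := by
  have h1 := subst_sub_subst_mem (I := ⊤) (f := f) (N := N) hx hy cI_top h
  rwa [Ideal.top_mul] at h1

theorem subst_congr (hx : ∀ s, constantCoeff (x s) = 0) (hy : ∀ s, constantCoeff (y s) = 0)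
    (hfg : f - g ∈ cI J N) (h : ∀ s, x s - y s ∈ cI J N) :
    subst x f - subst y g ∈ cI J N := by
  have h1 := subst_congr_arg hx hy f h
  have h2 := subst_mem_cI hy hfg
  rw [subst_sub (hasSubst0 hy)] at h2
  simpa using (cI J N).add_mem h1 h2

/-- The lowest degree of a composite only sees the linear parts of the arguments. -/
theorem subst_sub_subst_mem_high (hx : ∀ s, constantCoeff (x s) = 0)
    (hy : ∀ s, constantCoeff (y s) = 0) (h : ∀ s, x s - y s ∈ cI K 2) (hfJ : f ∈ cI J N)
    (hfI : f ∈ cI I (N + 1)) (hIK : I * K ≤ J) :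
    subst x f - subst y f ∈ cI J (N + 1) := fun e he =>
  subst_sub_subst_coeff hx hy fun d hd => by
    by_cases hdN : d.degree < N
    · exact Ideal.mul_mem_right _ _ (hfJ d hdN)
    · exact hIK (Ideal.mul_mem_mul (hfI d (by omega))
        (prod_sub_prod_mem_high hx hy h d e (by omega)))

/-- One variable series: coefficients below `N`. -/
theorem mem_cI_ps {f : PowerSeries A} :
    f ∈ cI (σ := Unit) J N ↔ ∀ j < N, PowerSeries.coeff j f ∈ J := by
  constructor
  · intro h j hj
    exact h (Finsupp.single () j) (by simpa using hj)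
  · intro h d hd
    have hd' : d = Finsupp.single () (d ()) := by ext; simp
    have := h (d ()) (by rw [hd', Finsupp.degree_single] at hd; simpa using hd)
    rw [hd']
    exact this

end Vale.Agent.P217
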