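import Mathlib.RingTheory.AdicCompletion.Topology
import Vale.Agent.P217.E0Adic
import Vale.Agent.P217.Ev
import Vale.Agent.P217.Trunc

/-!
# Deformation bases: complete local `W(k)`-algebras with residue field `k`
-/

noncomputable section

namespace Vale.Agent.P217

open MvPowerSeries Finsupp

set_option linter.unusedSectionVars false

variable {p : ℕ} [Fact p.Prime] {n : ℕ} {k : Type} [Field k] [CharP k p] [Finite k]
variable {A : Type*} [CommRing A] [Algebra (WittVector p k) A]

/-- `π : A → k` makes the `W(k)`-algebra `A` complete local with residue field `k`. -/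
structure IsBase (π : A →+* k) : Prop where
  comp : π.comp (algebraMap (WittVector p k) A) = WittVector.constantCoeff
  surj : Function.Surjective π
  complete : IsAdicComplete (RingHom.ker π) A

variable {π : A →+* k}

theorem IsBase.apply_algebraMap (hB : IsBase (p := p) π) (w : WittVector p k) :
    π (algebraMap (WittVector p k) A w) = WittVector.constantCoeff w :=
  RingHom.congr_fun hB.comp w

theorem IsBase.p_mem (_hB : IsBase (p := p) π) : (p : A) ∈ RingHom.ker π := by
  have := CharP.cast_eq_zero k p
  simp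

theorem IsBase.isUnit (hB : IsBase (p := p) π) {x : A} (hx : π x ≠ 0) : IsUnit x := by
  obtain ⟨y, hy⟩ := hB.surj (π x)⁻¹
  have := hB.complete
  have h : x * y - 1 ∈ RingHom.ker π := by
    simp [RingHom.mem_ker, hy, mul_inv_cancel₀ hx]
  have h1 : IsUnit ((x * y - 1) * 1 + 1) :=
    Ideal.mem_jacobson_bot.mp (IsAdicComplete.le_jacobson_bot _ h) 1
  rw [mul_one, sub_add_cancel] at h1
  exact isUnit_of_mul_isUnit_left h1

theorem IsBase.eq_of_forall_sub_mem (hB : IsBase (p := p) π) {x y : A}
    (h : ∀ s, x - y ∈ RingHom.ker π ^ s) : x = y := by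
  have := hB.complete
  rw [← sub_eq_zero]
  refine IsHausdorff.haus (inferInstance : IsHausdorff (RingHom.ker π) A) _ fun s => ?_
  rw [SModEq.zero, smul_eq_mul, Ideal.mul_top]
  exact h s

theorem isBase_res : IsBase (p := p) (res p n k) where
  comp := RingHom.ext fun w => res_C p n k w
  surj := res_surjective p n k
  complete := isAdicComplete_E0 p n k

theorem E0_algHom_C (α : E0 p n k →ₐ[WittVector p k] A) (w : WittVector p k) :
    α (C w) = algebraMap (WittVector p k) A w := α.commutes w

theorem algHom_X_mem (hB : IsBase (p := p) π) (α : E0 p n k →ₐ[WittVector p k] A)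
    (i : Fin (n - 1)) : α (X i) ∈ RingHom.ker π := by
  by_contra h
  rw [RingHom.mem_ker] at h
  obtain ⟨w, hw⟩ := WittVector.constantCoeff_surjective (R := k) p (π (α (X i)))
  have hu : IsUnit (X i - C w : E0 p n k) := by
    rw [MvPowerSeries.isUnit_iff_constantCoeff, map_sub, constantCoeff_X, constantCoeff_C, zero_sub]
    exact (WittVector.isUnit_of_coeff_zero_ne_zero w (by rw [← hw] at h; exact h)).neg
  have := ((hu.map α).map π).ne_zero
  rw [map_sub, map_sub, E0_algHom_C, hB.apply_algebraMap, hw, sub_self] at this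
  exact this rfl

theorem algHom_res (hB : IsBase (p := p) π) (α : E0 p n k →ₐ[WittVector p k] A) (f : E0 p n k) :
    π (α f) = res p n k f := by
  conv_lhs => rw [E0_decomp f]
  rw [map_add, map_add, map_sum, map_sum, E0_algHom_C, hB.apply_algebraMap, res_apply,
    Finset.sum_eq_zero, add_zero]
  intro i _
  rw [map_mul, map_mul, RingHom.mem_ker.mp (algHom_X_mem hB α i), zero_mul]

theorem algHom_comp_res (hB : IsBase (p := p) π) (α : E0 p n k →ₐ[WittVector p k] A) :
    π.comp α.toRingHom = res p n k :=
  RingHom.ext (algHom_res hB α)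

theorem algHom_sub_eq (α β : E0 p n k →ₐ[WittVector p k] A) (f : E0 p n k) :
    β f - α f = ∑ i, ((β (X i) - α (X i)) * β (divX i f) +
      α (X i) * (β (divX i f) - α (divX i f))) := by
  have e : ∀ γ : E0 p n k →ₐ[WittVector p k] A, γ f =
      algebraMap (WittVector p k) A (constantCoeff f) + ∑ i, γ (X i) * γ (divX i f) := fun γ => by
    conv_lhs => rw [E0_decomp f]
    rw [map_add, map_sum, E0_algHom_C]
    simp only [map_mul]
  rw [e α, e β, add_sub_add_left_eq_sub, ← Finset.sum_sub_distrib]
  exact Finset.sum_congr rfl fun i _ => by ring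

theorem algHom_sub_mem (hB : IsBase (p := p) π) {t : ℕ}
    (α β : E0 p n k →ₐ[WittVector p k] A)
    (h : ∀ i, β (X i) - α (X i) ∈ RingHom.ker π ^ t) (f : E0 p n k) :
    β f - α f ∈ RingHom.ker π ^ t := by
  suffices ∀ j ≤ t, ∀ f : E0 p n k, β f - α f ∈ RingHom.ker π ^ j from this t le_rfl f
  intro j
  induction j with
  | zero => intro _ f; simp
  | succ j ih =>
    intro hj f
    rw [algHom_sub_eq α β f]
    refine Ideal.sum_mem _ fun i _ => Ideal.add_mem _ ?_ ?_
    · exact Ideal.mul_mem_right _ _ (Ideal.pow_le_pow_right hj (h i))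
    · rw [pow_succ']
      exact Ideal.mul_mem_mul (algHom_X_mem hB α i) (ih (by omega) _)

/-- First order expansion of a change of parameters. -/
theorem algHom_linear (hB : IsBase (p := p) π) {t : ℕ}
    (α β : E0 p n k →ₐ[WittVector p k] A)
    (h : ∀ i, β (X i) - α (X i) ∈ RingHom.ker π ^ t) (f : E0 p n k) :
    β f - α f - ∑ i, (β (X i) - α (X i)) *
      algebraMap (WittVector p k) A (coeff (single i 1) f) ∈ RingHom.ker π ^ (t + 1) := by
  rw [algHom_sub_eq α β f, ← Finset.sum_sub_distrib]
  refine Ideal.sum_mem _ fun i _ => ?_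
  have h1 : (β (X i) - α (X i)) * (β (divX i f) -
      algebraMap (WittVector p k) A (coeff (single i 1) f)) ∈ RingHom.ker π ^ (t + 1) := by
    rw [pow_succ]
    refine Ideal.mul_mem_mul (h i) ?_
    rw [RingHom.mem_ker, map_sub, algHom_res hB, hB.apply_algebraMap, res_divX, sub_self]
  have h2 : α (X i) * (β (divX i f) - α (divX i f)) ∈ RingHom.ker π ^ (t + 1) := by
    rw [pow_succ']
    exact Ideal.mul_mem_mul (algHom_X_mem hB α i) (algHom_sub_mem hB α β h _)
  convert Ideal.add_mem _ h1 h2 using 1
  ring

theorem algHom_ext (hB : IsBase (p := p) π) {α β : E0 p n k →ₐ[WittVector p k] A}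
    (h : ∀ i, β (X i) = α (X i)) : β = α :=
  AlgHom.ext fun f => hB.eq_of_forall_sub_mem fun s =>
    algHom_sub_mem hB α β (fun i => by simp [h i]) f

theorem exists_algHom (hB : IsBase (p := p) π) (a : Fin (n - 1) → A)
    (ha : ∀ i, a i ∈ RingHom.ker π) :
    ∃ α : E0 p n k →ₐ[WittVector p k] A, ∀ i, α (X i) = a i := by
  let : WithIdeal A := ⟨RingHom.ker π⟩
  have hI : IsAdic (RingHom.ker π) := rfl
  have : IsLinearTopology A A := IsLinearTopology.mk_of_hasBasis (R := A) (M := A)
    (ι := ℕ) (S := Ideal A) (p := fun _ => True) (s := fun m => RingHom.ker π ^ m)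
    hI.hasBasis_nhds_zero
  obtain ⟨hc, ht⟩ := (hI.isAdicComplete_iff).mp hB.complete
  have hev : MvPowerSeries.HasEval a := hasEval_of_finite fun i => by
    rw [IsTopologicallyNilpotent, hI.hasBasis_nhds_zero.tendsto_right_iff]
    intro m _
    filter_upwards [Filter.eventually_ge_atTop m] with j hj
    exact Ideal.pow_le_pow_right hj (Ideal.pow_mem_pow (ha i) j)
  let φ : E0 p n k →+* A := evHom (algebraMap (WittVector p k) A) hev
  refine ⟨{ φ with commutes' := fun w => ?_ }, fun i => ?_⟩
  · show φ (algebraMap (WittVector p k) (E0 p n k) w) = _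
    rw [show algebraMap (WittVector p k) (E0 p n k) w = C w from rfl, evHom_apply, ev_C]
  · show φ (X i) = _
    rw [evHom_apply, ev_X]

end Vale.Agent.P217
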