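import Vale.Agent.P217.TwistSub
import Mathlib.LinearAlgebra.Dimension.OrzechProperty
import Mathlib.LinearAlgebra.FiniteDimensional.Basic

/-!
# A formal chart transports smallness

If `Φ` is a formal change of coordinates with invertible linear part and `f` is small at points
`δ` with `Φ(δ)` close to `λ`, then `f = G ∘ Φ` with `G` small at the `λ`.
-/

noncomputable section

namespace Vale.Agent.P217

open MvPolynomial Filter Topology

set_option linter.unusedSectionVars false

variable {L : Type*} [NormedField L] [IsUltrametricDist L] {m : ℕ}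

/-- The linear part of a tuple of series, as a linear map. -/
def linMap (Φ : Fin m → MvPowerSeries (Fin m) L) : (Fin m → L) →ₗ[L] (Fin m → L) where
  toFun v j := ∑ s, v s * MvPowerSeries.coeff (Finsupp.single s 1) (Φ j)
  map_add' v w := funext fun j => by simp [add_mul, Finset.sum_add_distrib]
  map_smul' c v := funext fun j => by simp [Finset.mul_sum, mul_assoc]

theorem linMap_apply (Φ : Fin m → MvPowerSeries (Fin m) L) (v : Fin m → L) (j : Fin m) :
    linMap Φ v j = ∑ s, v s * MvPowerSeries.coeff (Finsupp.single s 1) (Φ j) := rfl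

theorem exists_inverse_bound {Φ : Fin m → MvPowerSeries (Fin m) L}
    (hlin : ∀ v : Fin m → L, v ≠ 0 →
      ∃ j, ∑ s, v s * MvPowerSeries.coeff (Finsupp.single s 1) (Φ j) ≠ 0) :
    Function.Bijective (linMap Φ) ∧
      ∃ M : ℝ, 1 ≤ M ∧ ∀ v, ‖v‖ ≤ M * ‖linMap Φ v‖ := by
  classical
  have hinj : Function.Injective (linMap Φ) := (injective_iff_map_eq_zero _).mpr fun v hv => by
    by_contra hne
    obtain ⟨j, hj⟩ := hlin v hne
    exact hj (congrFun hv j)
  have hsurj : Function.Surjective (linMap Φ) := LinearMap.injective_iff_surjective.mp hinj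
  refine ⟨⟨hinj, hsurj⟩, ?_⟩
  choose e he using fun i : Fin m => hsurj (Pi.single i 1)
  refine ⟨1 + ∑ i, ‖e i‖, by simp [Finset.sum_nonneg], fun v => ?_⟩
  have hv : v = ∑ i, linMap Φ v i • e i := hinj (by
    rw [map_sum]
    simp only [map_smul, he]
    funext j
    simp [Finset.sum_apply, Pi.single_apply])
  conv_lhs => rw [hv]
  refine (pi_norm_le_iff_of_nonneg (by positivity)).mpr fun j => ?_
  rw [Finset.sum_apply]
  refine IsUltrametricDist.norm_sum_le_of_forall_le_of_nonneg (by positivity) fun i _ => ?_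
  rw [Pi.smul_apply, smul_eq_mul, norm_mul, mul_comm]
  refine mul_le_mul ((norm_le_pi_norm (e i) j).trans ?_) (norm_le_pi_norm _ i) (norm_nonneg _)
    (by positivity)
  have := Finset.single_le_sum (f := fun i => ‖e i‖) (fun _ _ => norm_nonneg _) (Finset.mem_univ i)
  linarith

theorem exists_linear_approx {Φ : Fin m → MvPowerSeries (Fin m) L}
    (hΦ0 : ∀ j, MvPowerSeries.constantCoeff (Φ j) = 0) (D : ℕ) :
    ∃ M : ℝ, 1 ≤ M ∧ ∀ δ : Fin m → L, ‖δ‖ ≤ 1 →
      ‖(fun j => eval δ ((Φ j).truncTotal (D + 2))) - linMap Φ δ‖ ≤ M * ‖δ‖ ^ 2 := by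
  classical
  set lp : Fin m → MvPolynomial (Fin m) L := fun j =>
    ∑ s, MvPolynomial.C (MvPowerSeries.coeff (Finsupp.single s 1) (Φ j)) * X s
  choose c hc1 hc using fun j => exists_coeff_bound ((Φ j).truncTotal (D + 2) - lp j)
  refine ⟨1 + ∑ j, c j, by
    have := Finset.sum_nonneg (s := Finset.univ) fun j _ => (zero_le_one.trans (hc1 j) : 0 ≤ c j)
    linarith, fun δ hδ => ?_⟩
  have hsum := Finset.sum_nonneg (s := Finset.univ) fun j _ => (zero_le_one.trans (hc1 j) : 0 ≤ c j)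
  refine (pi_norm_le_iff_of_nonneg (by positivity)).mpr fun j => ?_
  have hlp : eval δ (lp j) = linMap Φ δ j := by
    simp [lp, linMap_apply, mul_comm]
  rw [Pi.sub_apply, ← hlp, ← map_sub]
  refine (norm_eval_le_pow (zero_le_one.trans (hc1 j)) (hc j) (D := 2) (fun d hd => ?_) hδ).trans
    (mul_le_mul_of_nonneg_right ?_ (by positivity))
  · rw [coeff_sub, MvPowerSeries.coeff_truncTotal _ (by omega), coeff_sum]
    simp only [MvPolynomial.coeff_C_mul, MvPolynomial.coeff_X]
    interval_cases hh : d.degree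
    · obtain rfl := (Finsupp.degree_eq_zero_iff d).mp hh
      simp [Finsupp.single_eq_zero, MvPowerSeries.coeff_zero_eq_constantCoeff_apply, hΦ0]
    · obtain ⟨i, rfl⟩ : d ∈ Set.range fun a : Fin m => Finsupp.single a 1 := by
        rw [Finsupp.range_single_one]; exact hh
      simp [Finsupp.single_left_inj]
  · have := Finset.single_le_sum (f := c) (fun i _ => zero_le_one.trans (hc1 i)) (Finset.mem_univ j)
    linarith

theorem subst_injective_below {t : L} (ht0 : t ≠ 0) (ht : ‖t‖ < 1)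
    {Φ : Fin m → MvPowerSeries (Fin m) L} (hΦ0 : ∀ j, MvPowerSeries.constantCoeff (Φ j) = 0)
    (hlin : ∀ v : Fin m → L, v ≠ 0 →
      ∃ j, ∑ s, v s * MvPowerSeries.coeff (Finsupp.single s 1) (Φ j) ≠ 0)
    {Q : MvPowerSeries (Fin m) L} {D : ℕ}
    (hQ : ∀ d : Fin m →₀ ℕ, d.degree < D → MvPowerSeries.coeff d (MvPowerSeries.subst Φ Q) = 0) :
    ∀ d : Fin m →₀ ℕ, d.degree < D → MvPowerSeries.coeff d Q = 0 := by
  obtain ⟨hbij, Mi, hMi, hinv⟩ := exists_inverse_bound hlin
  suffices h : ∀ r, r < D → ∀ d : Fin m →₀ ℕ, d.degree = r → MvPowerSeries.coeff d Q = 0 by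
    exact fun d hd => h _ hd d rfl
  intro r
  induction r using Nat.strong_induction_on with
  | _ r ih =>
    intro hr d hd
    set T := Q.truncTotal (r + 1) with hT
    have hhom : ∀ e, T.coeff e ≠ 0 → e.degree = r := fun e he => by
      rw [hT, MvPowerSeries.coeff_truncTotal_eq_ite] at he
      split_ifs at he with hlt
      · rcases (Nat.lt_succ_iff.mp hlt).lt_or_eq with h | h
        · simp [ih _ h (h.trans hr) e rfl] at he
        · exact h
      · simp at he
    obtain ⟨M, hM, hlinapp⟩ := exists_linear_approx hΦ0 (r + 1)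
    set R := bind₁ (fun j => (Φ j).truncTotal (r + 3)) (Q.truncTotal (r + 3)) with hR
    obtain ⟨CR, hCR, hRC⟩ := exists_coeff_bound R
    obtain ⟨CQ, hCQ, hQC⟩ := exists_coeff_bound (Q.truncTotal (r + 3))
    obtain ⟨CT, hCT, hTC⟩ := exists_coeff_bound (Q.truncTotal (r + 3) - T)
    obtain ⟨CT', hCT', hTC'⟩ := exists_coeff_bound T
    have hzero : ∀ u : Fin m → L, ‖u‖ ≤ 1 → eval u T = 0 := by
      intro u hu
      obtain ⟨x, rfl⟩ := hbij.2 u
      set N := max 1 ‖x‖ with hN
      have hN1 : (1 : ℝ) ≤ N := le_max_left _ _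
      have hxN : ‖x‖ ≤ N := le_max_right _ _
      set K := max (max CR (max CT CT')) 1 * (M * N ^ 2) * N ^ (r + 1)
      -- it is enough to look at `s • x` for small `s`
      obtain ⟨n₀, hn₀⟩ := exists_pow_lt_of_lt_one
        (show 0 < 1 / (M * N ^ 2 * Mi) by positivity) ht
      refine eq_zero_of_norm_le_mul ht (C := K / ‖t ^ n₀‖) fun n => ?_
      set s := t ^ (n₀ + (n + 1)) with hs_def
      have hs0 : (0 : ℝ) < ‖s‖ := norm_pos_iff.mpr (pow_ne_zero _ ht0)
      have hsmall : ‖s‖ * (M * N ^ 2 * Mi) ≤ 1 := by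
        rw [← le_div_iff₀ (by positivity)]
        refine le_trans ?_ hn₀.le
        rw [hs_def, norm_pow]
        exact pow_le_pow_of_le_one (norm_nonneg _) ht.le (Nat.le_add_right _ _)
      have hMN : (1 : ℝ) ≤ M * N ^ 2 := one_le_mul_of_one_le_of_one_le hM (one_le_pow₀ hN1)
      have hsN : ‖s‖ * N ≤ 1 := by
        refine le_trans (mul_le_mul_of_nonneg_left ?_ hs0.le) hsmall
        calc N ≤ N ^ 2 := le_self_pow₀ hN1 two_ne_zero
          _ ≤ M * N ^ 2 := le_mul_of_one_le_left (by positivity) hM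
          _ ≤ M * N ^ 2 * Mi := le_mul_of_one_le_right (by positivity) hMi
      have hδ : ‖s • x‖ ≤ 1 := by
        rw [norm_smul]
        exact (mul_le_mul_of_nonneg_left hxN hs0.le).trans hsN
      set y := fun j => eval (s • x) ((Φ j).truncTotal (r + 3)) with hy
      have hyl : ‖y - s • linMap Φ x‖ ≤ ‖s‖ ^ 2 * (M * N ^ 2) := by
        refine (map_smul (linMap Φ) s x ▸ hlinapp _ hδ).trans ?_
        rw [norm_smul, mul_pow]
        calc M * (‖s‖ ^ 2 * ‖x‖ ^ 2) ≤ M * (‖s‖ ^ 2 * N ^ 2) := by gcongr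
          _ = _ := by ring
      set b := s⁻¹ • y with hb
      have hsne : s ≠ 0 := pow_ne_zero _ ht0
      have hyb : y = s • b := by rw [hb, smul_inv_smul₀ hsne]
      have hbu : ‖b - linMap Φ x‖ ≤ ‖s‖ * (M * N ^ 2) := by
        rw [hyb, ← smul_sub, norm_smul] at hyl
        refine le_of_mul_le_mul_left (hyl.trans_eq ?_) hs0
        ring
      have hsMN : ‖s‖ * (M * N ^ 2) ≤ 1 :=
        le_trans (mul_le_mul_of_nonneg_left (le_mul_of_one_le_right (by positivity) hMi) hs0.le) hsmall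
      have hb1 : ‖b‖ ≤ 1 := (pi_norm_le_iff_of_nonneg zero_le_one).mpr fun i => by
        have h1 := ((norm_le_pi_norm (b - linMap Φ x) i).trans hbu).trans hsMN
        simpa using ultra_add_le h1 ((norm_le_pi_norm _ i).trans hu)
      have hy1 : ‖y‖ ≤ ‖s‖ := by
        rw [hyb, norm_smul]; exact mul_le_of_le_one_right hs0.le hb1
      have hy2 : ‖y‖ ≤ 1 := hy1.trans (by rw [hs_def, norm_pow]; exact pow_le_one₀ (norm_nonneg _) ht.le)
      have hR0 : ‖eval y (Q.truncTotal (r + 3))‖ ≤ CR * ‖s • x‖ ^ (r + 1) := by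
        have h1 := norm_eval_le_pow (zero_le_one.trans hCR) hRC (D := r + 1) (fun e he => by
          rw [hR, ← coeff_subst_eq_bind hΦ0 Q (by omega)]
          exact hQ e (by omega)) hδ
        rwa [hR, show eval (s • x) (bind₁ (fun j => (Φ j).truncTotal (r + 3)) (Q.truncTotal (r + 3))) =
          eval y (Q.truncTotal (r + 3)) from eval₂Hom_bind₁ (RingHom.id L) _ _ _] at h1
      have hR1 := norm_eval_le_pow (zero_le_one.trans hCT) hTC (D := r + 1) (fun e he => by
        rw [coeff_sub, hT, MvPowerSeries.coeff_truncTotal _ (by omega),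
          MvPowerSeries.coeff_truncTotal _ he, sub_self]) hy2
      rw [map_sub] at hR1
      set K0 := max (max CR (max CT CT')) 1 with hK0
      have hK01 : (1 : ℝ) ≤ K0 := le_max_right _ _
      have hK0CR : CR ≤ K0 := (le_max_left _ _).trans (le_max_left _ _)
      have hK0CT : CT ≤ K0 := ((le_max_left _ _).trans (le_max_right _ _)).trans (le_max_left _ _)
      have hK0CT' : CT' ≤ K0 := ((le_max_right _ _).trans (le_max_right _ _)).trans (le_max_left _ _)
      have h3 : ‖eval y T‖ ≤ K0 * N ^ (r + 1) * ‖s‖ ^ (r + 1) := by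
        have hA : CR * ‖s • x‖ ^ (r + 1) ≤ K0 * N ^ (r + 1) * ‖s‖ ^ (r + 1) := by
          rw [norm_smul, mul_pow, mul_assoc K0, mul_comm (‖s‖ ^ (r + 1))]
          gcongr
        have hB : CT * ‖y‖ ^ (r + 1) ≤ K0 * N ^ (r + 1) * ‖s‖ ^ (r + 1) := by
          refine mul_le_mul (hK0CT.trans (le_mul_of_one_le_right (by positivity) (one_le_pow₀ hN1)))
            (pow_le_pow_left₀ (norm_nonneg _) hy1 _) (by positivity) (by positivity)
        simpa using ultra_sub_le (hR0.trans hA) (hR1.trans hB)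
      have h4 : ‖eval b T‖ ≤ K0 * N ^ (r + 1) * ‖s‖ := by
        rw [hyb, eval_smul_of_homogeneous hhom, norm_mul, norm_pow, pow_succ ‖s‖, ← mul_assoc,
          mul_comm (K0 * N ^ (r + 1)), mul_assoc] at h3
        exact le_of_mul_le_mul_left h3 (pow_pos hs0 r)
      have h5 := (norm_eval_sub_le (zero_le_one.trans hCT') hTC' hu hb1).trans
        (mul_le_mul hK0CT' ((norm_sub_rev _ _).le.trans hbu) (norm_nonneg _) (by positivity))
      have hK : K * ‖s‖ ≤ K / ‖t ^ n₀‖ * ‖t ^ (n + 1)‖ := by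
        have hK' : 0 ≤ K := by positivity
        rw [hs_def, pow_add, norm_mul, div_mul_eq_mul_div, le_div_iff₀ (by
          rw [norm_pow]; exact pow_pos (norm_pos_iff.mpr ht0) _)]
        have hle : ‖t ^ n₀‖ * ‖t ^ n₀‖ ≤ 1 := by
          rw [← norm_mul, ← pow_add, norm_pow]; exact pow_le_one₀ (norm_nonneg _) ht.le
        calc K * (‖t ^ n₀‖ * ‖t ^ (n + 1)‖) * ‖t ^ n₀‖
            = (K * ‖t ^ (n + 1)‖) * (‖t ^ n₀‖ * ‖t ^ n₀‖) := by ring
          _ ≤ K * ‖t ^ (n + 1)‖ := mul_le_of_le_one_right (by positivity) hle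
      refine le_trans ?_ hK
      have h6 : K0 * (‖s‖ * (M * N ^ 2)) ≤ K * ‖s‖ := by
        calc K0 * (‖s‖ * (M * N ^ 2)) = K0 * (M * N ^ 2) * ‖s‖ := by ring
          _ ≤ K0 * (M * N ^ 2) * N ^ (r + 1) * ‖s‖ := mul_le_mul_of_nonneg_right
              (le_mul_of_one_le_right (by positivity) (one_le_pow₀ hN1)) hs0.le
      have h7 : K0 * N ^ (r + 1) * ‖s‖ ≤ K * ‖s‖ :=
        mul_le_mul_of_nonneg_right (mul_le_mul_of_nonneg_right
          (le_mul_of_one_le_right (by positivity) hMN) (by positivity)) hs0.le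
      have h8 := ultra_add_le (h5.trans h6) (h4.trans h7)
      simpa using h8
    have := coeff_eq_zero_of_eval_eq_zero ht0 ht Set.univ (fun x hx _ => hzero x hx) (d := d)
      (by simp)
    rwa [hT, MvPowerSeries.coeff_truncTotal _ (by omega)] at this

theorem exists_subst_eq {t : L} (ht0 : t ≠ 0) (ht : ‖t‖ < 1)
    {Φ : Fin m → MvPowerSeries (Fin m) L} (hΦ0 : ∀ j, MvPowerSeries.constantCoeff (Φ j) = 0)
    (hlin : ∀ v : Fin m → L, v ≠ 0 →
      ∃ j, ∑ s, v s * MvPowerSeries.coeff (Finsupp.single s 1) (Φ j) ≠ 0)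
    (f : MvPowerSeries (Fin m) L) :
    ∃ G : MvPowerSeries (Fin m) L, MvPowerSeries.subst Φ G = f := by
  classical
  have hs : MvPowerSeries.HasSubst Φ := MvPowerSeries.hasSubst_of_constantCoeff_zero hΦ0
  have hD : ∀ D : ℕ, ∃ G : MvPowerSeries (Fin m) L, ∀ d : Fin m →₀ ℕ, d.degree < D →
      MvPowerSeries.coeff d (MvPowerSeries.subst Φ G) = MvPowerSeries.coeff d f := by
    intro D
    let I := (Finsupp.finite_of_degree_lt (σ := Fin m) D).toFinset
    let ser : (I → L) → MvPowerSeries (Fin m) L := fun v d => if h : d ∈ I then v ⟨d, h⟩ else 0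
    have hser : ∀ v d, MvPowerSeries.coeff d (ser v) = if h : d ∈ I then v ⟨d, h⟩ else 0 :=
      fun v d => rfl
    let A : (I → L) →ₗ[L] (I → L) :=
      { toFun := fun v d => MvPowerSeries.coeff d.1 (MvPowerSeries.subst Φ (ser v))
        map_add' := fun v w => funext fun d => by
          have : ser (v + w) = ser v + ser w := MvPowerSeries.ext fun e => by
            rw [map_add, hser, hser, hser]; split_ifs <;> simp
          rw [this, MvPowerSeries.subst_add hs, map_add]; rfl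
        map_smul' := fun c v => funext fun d => by
          have : ser (c • v) = c • ser v := MvPowerSeries.ext fun e => by
            rw [map_smul, hser, hser]; split_ifs <;> simp
          rw [this, MvPowerSeries.subst_smul hs, map_smul]; rfl }
    have hA : Function.Injective A := (injective_iff_map_eq_zero _).mpr fun v hv => funext fun d => by
      have hmem : ∀ e : Fin m →₀ ℕ, e ∈ I ↔ e.degree < D := fun e => by simp [I]
      have h := subst_injective_below ht0 ht hΦ0 hlin (Q := ser v) (D := D)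
        (fun e he => congrFun hv ⟨e, (hmem e).mpr he⟩) d.1 ((hmem d.1).mp d.2)
      rwa [hser, dif_pos d.2] at h
    obtain ⟨v, hv⟩ := LinearMap.injective_iff_surjective.mp hA fun d => MvPowerSeries.coeff d.1 f
    refine ⟨ser v, fun d hd => ?_⟩
    exact congrFun hv ⟨d, by simpa [I] using hd⟩
  choose g hg using hD
  let G : MvPowerSeries (Fin m) L := fun d => MvPowerSeries.coeff d (g (d.degree + 1))
  refine ⟨G, MvPowerSeries.ext fun d => ?_⟩
  have hagree : (G.truncTotal (d.degree + 1)) = (g (d.degree + 1)).truncTotal (d.degree + 1) :=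
    MvPolynomial.ext _ _ fun e => by
      rw [MvPowerSeries.coeff_truncTotal_eq_ite, MvPowerSeries.coeff_truncTotal_eq_ite]
      split_ifs with he
      · show MvPowerSeries.coeff e (g (e.degree + 1)) = _
        refine sub_eq_zero.mp ?_
        rw [← map_sub]
        refine subst_injective_below ht0 ht hΦ0 hlin (D := e.degree + 1) (fun q hq => ?_) e
          (Nat.lt_succ_self _)
        rw [← MvPowerSeries.coe_substAlgHom hs, map_sub, MvPowerSeries.coe_substAlgHom hs, map_sub,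
          hg _ q hq, hg _ q (by omega), sub_self]
      · rfl
  rw [coeff_subst_eq_bind hΦ0 G (Nat.lt_succ_self _), hagree,
    ← coeff_subst_eq_bind hΦ0 _ (Nat.lt_succ_self _), hg _ d (Nat.lt_succ_self _)]

variable [CompleteSpace L]

/-- A chart with invertible linear part turns smallness at nearby coordinates into `AV`. -/
theorem exists_chart_AV {Γ : FormalGroup (unitBall L)} {m : ℕ} (P : ℕ)
    (Λ : Set (Fin m → Pt Γ)) (ht : ∃ t : L, t ≠ 0 ∧ ‖t‖ < 1)
    (Φ : Fin m → MvPowerSeries (Fin m) L)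
    (hΦ0 : ∀ j, MvPowerSeries.constantCoeff (Φ j) = 0)
    (hlin : ∀ v : Fin m → L, v ≠ 0 →
      ∃ j, ∑ s, v s * MvPowerSeries.coeff (Finsupp.single s 1) (Φ j) ≠ 0)
    (f : MvPowerSeries (Fin m) L)
    (H : ∀ D : ℕ, ∃ C : ℝ, ∀ ε > (0 : ℝ), ∃ k : ℕ, ∀ z ∈ Λ, ∃ δ : Fin m → L, ‖δ‖ ≤ ε ∧
      ‖(fun i => (z i).co ^ P ^ k) - (fun j => eval δ ((Φ j).truncTotal D))‖ ≤ C * ‖δ‖ ^ D ∧
      ‖eval δ (f.truncTotal D)‖ ≤ C * ‖δ‖ ^ D) :
    ∃ G, MvPowerSeries.subst Φ G = f ∧ AV P Λ G := by
  obtain ⟨t, ht0, ht1⟩ := ht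
  obtain ⟨G, hG⟩ := exists_subst_eq ht0 ht1 hΦ0 hlin f
  refine ⟨G, hG, fun D => ?_⟩
  obtain ⟨-, Mi, hMi, hinv⟩ := exists_inverse_bound hlin
  obtain ⟨M, hM, hlinapp⟩ := exists_linear_approx hΦ0 D
  obtain ⟨C₀, hC⟩ := H (D + 2)
  set C := max C₀ 1 with hC_def
  set Q := G.truncTotal (D + 2) with hQ
  set R := bind₁ (fun j => (Φ j).truncTotal (D + 2)) Q with hR
  obtain ⟨CQ, hCQ, hQC⟩ := exists_coeff_bound Q
  obtain ⟨CR, hCR, hRC⟩ := exists_coeff_bound (R - f.truncTotal (D + 2))
  obtain ⟨CT, hCT, hTC⟩ := exists_coeff_bound (G.truncTotal D - Q)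
  set B := Mi * max C M with hB
  have hB1 : 1 ≤ B := one_le_mul_of_one_le_of_one_le hMi (hM.trans (le_max_right _ _))
  obtain ⟨k, hk⟩ := hC (1 / (2 * B)) (by positivity)
  set K := max (max CQ CR * C) CT * Mi ^ (D + 2) with hK
  refine ⟨k, K, fun z hz => ?_⟩
  obtain ⟨δ, hδε, hδ1', hδ2'⟩ := hk z hz
  set w : Fin m → L := fun i => (z i).co ^ P ^ k with hw
  have hw1 : ‖w‖ ≤ 1 := (pi_norm_le_iff_of_nonneg zero_le_one).mpr fun i => by
    rw [hw, norm_pow]; exact pow_le_one₀ (norm_nonneg _) (z i).norm_lt.le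
  have hε1 : (1 : ℝ) / (2 * B) ≤ 1 := by
    rw [div_le_one (by positivity)]; linarith
  have hδle : ‖δ‖ ≤ 1 := hδε.trans hε1
  have hC0 : C₀ * ‖δ‖ ^ (D + 2) ≤ C * ‖δ‖ ^ (D + 2) :=
    mul_le_mul_of_nonneg_right (le_max_left _ _) (by positivity)
  have hδ1 := hδ1'.trans hC0
  have hδ2 := hδ2'.trans hC0
  set y := fun j => eval δ ((Φ j).truncTotal (D + 2)) with hy
  have hBδ : B * ‖δ‖ ≤ 1 / 2 := by
    calc B * ‖δ‖ ≤ B * (1 / (2 * B)) := mul_le_mul_of_nonneg_left hδε (by positivity)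
      _ = 1 / 2 := by field_simp
  have hCδ : C * ‖δ‖ ^ (D + 2) ≤ 1 := by
    calc C * ‖δ‖ ^ (D + 2) ≤ B * ‖δ‖ := by
          refine mul_le_mul ((le_max_left C M).trans (le_mul_of_one_le_left (by positivity) hMi)) ?_
            (by positivity) (by positivity)
          exact pow_le_of_le_one (norm_nonneg _) hδle (by omega)
      _ ≤ 1 := hBδ.trans (by norm_num)
  have hy1 : ‖y‖ ≤ 1 := (pi_norm_le_iff_of_nonneg zero_le_one).mpr fun j => by
    have h1 := ((norm_le_pi_norm (w - y) j).trans hδ1).trans hCδ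
    simpa using ultra_sub_le ((norm_le_pi_norm w j).trans hw1) h1
  have hδw : ‖δ‖ ≤ Mi * ‖w‖ := by
    rcases (norm_nonneg δ).eq_or_lt with h0 | h0
    · rw [← h0]; positivity
    have h1 : ‖linMap Φ δ‖ ≤ max ‖w‖ (max C M * ‖δ‖ ^ 2) :=
      (pi_norm_le_iff_of_nonneg (by positivity)).mpr fun j => by
        have ha : ‖w j‖ ≤ max ‖w‖ (max C M * ‖δ‖ ^ 2) := (norm_le_pi_norm w j).trans (le_max_left _ _)
        have hb : ‖(w - y) j‖ ≤ max ‖w‖ (max C M * ‖δ‖ ^ 2) :=
          (((norm_le_pi_norm (w - y) j).trans hδ1).trans (mul_le_mul (le_max_left _ _)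
            (pow_le_pow_of_le_one (norm_nonneg _) hδle (by omega)) (by positivity)
            (by positivity))).trans (le_max_right _ _)
        have hc : ‖(y - linMap Φ δ) j‖ ≤ max ‖w‖ (max C M * ‖δ‖ ^ 2) :=
          (((norm_le_pi_norm (y - linMap Φ δ) j).trans (hlinapp δ hδle)).trans
            (mul_le_mul_of_nonneg_right (le_max_right C M) (by positivity))).trans (le_max_right _ _)
        simpa using ultra_sub_le (ultra_sub_le ha hb) hc
    have h2 := (hinv δ).trans (mul_le_mul_of_nonneg_left h1 (by positivity))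
    rw [mul_max_of_nonneg _ _ (by positivity), ← mul_assoc, ← hB, pow_two, ← mul_assoc] at h2
    rcases le_max_iff.mp h2 with h | h
    · exact h
    · nlinarith
  have hbind : eval δ R = eval y Q := eval₂Hom_bind₁ (RingHom.id L) _ _ _
  have h3 : ‖eval δ (R - f.truncTotal (D + 2))‖ ≤ CR * ‖δ‖ ^ (D + 2) :=
    norm_eval_le_pow (zero_le_one.trans hCR) hRC (fun e he => by
      rw [coeff_sub, hR, hQ, ← coeff_subst_eq_bind hΦ0 G he, hG,
        MvPowerSeries.coeff_truncTotal _ he, sub_self]) hδle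
  rw [map_sub, hbind] at h3
  set KD := max CQ CR * C * ‖δ‖ ^ (D + 2) with hKD
  have h4 : ‖eval y Q‖ ≤ KD := by
    have ha : CR * ‖δ‖ ^ (D + 2) ≤ KD := mul_le_mul_of_nonneg_right
      ((le_max_right _ _).trans (le_mul_of_one_le_right (by positivity) (le_max_right _ _))) (by positivity)
    have hb : C * ‖δ‖ ^ (D + 2) ≤ KD := mul_le_mul_of_nonneg_right
      (le_mul_of_one_le_left (by positivity) (hCQ.trans (le_max_left _ _))) (by positivity)
    simpa using ultra_add_le (h3.trans ha) (hδ2.trans hb)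
  have h5 : ‖eval w Q‖ ≤ KD := by
    have ha := (norm_eval_sub_le (zero_le_one.trans hCQ) hQC hw1 hy1).trans
      (mul_le_mul (le_max_left CQ CR) hδ1 (norm_nonneg _) (by positivity))
    rw [← mul_assoc, ← hKD] at ha
    simpa using ultra_add_le ha h4
  have hCT0 : (0 : ℝ) ≤ CT := zero_le_one.trans hCT
  have hK0 : (0 : ℝ) ≤ K := mul_nonneg (hCT0.trans (le_max_right _ _)) (by positivity)
  have h6 : KD ≤ K * ‖w‖ ^ D := by
    calc KD ≤ max CQ CR * C * (Mi * ‖w‖) ^ (D + 2) :=
          mul_le_mul_of_nonneg_left (pow_le_pow_left₀ (norm_nonneg _) hδw _) (by positivity)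
      _ ≤ max (max CQ CR * C) CT * (Mi * ‖w‖) ^ (D + 2) :=
          mul_le_mul_of_nonneg_right (le_max_left _ _) (by positivity)
      _ = K * ‖w‖ ^ (D + 2) := by rw [hK, mul_pow]; ring
      _ ≤ K * ‖w‖ ^ D := mul_le_mul_of_nonneg_left
          (pow_le_pow_of_le_one (norm_nonneg _) hw1 (by omega)) hK0
  have h7 : ‖eval w (G.truncTotal D - Q)‖ ≤ K * ‖w‖ ^ D :=
    (norm_eval_le_pow hCT0 hTC (fun e he => by
      rw [coeff_sub, hQ, MvPowerSeries.coeff_truncTotal _ he,
        MvPowerSeries.coeff_truncTotal _ (by omega), sub_self]) hw1).trans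
      (mul_le_mul_of_nonneg_right
        ((le_max_right (max CQ CR * C) CT).trans (le_mul_of_one_le_right
          (hCT0.trans (le_max_right _ _)) (one_le_pow₀ hMi))) (by positivity))
  rw [map_sub] at h7
  simpa using ultra_add_le h7 (h5.trans h6)

end Vale.Agent.P217
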