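import Vale.Agent.P217.Action

/-!
# From the primes stable near the identity to the stable prime and radical ideals

Given that every prime ideal which is stable near the identity is a height ideal, the prime
ideals stable under the stabiliser group (or the extended one) are exactly the height ideals,
and the stable radical ideals are these together with the unit ideal.
-/

noncomputable section

namespace Vale.Agent.P217

set_option linter.unusedSectionVars false

variable {p : ℕ} [Fact p.Prime] {n : ℕ} {k : Type} [Field k] [CharP k p] [Finite k]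
variable {F : FormalGroup (E0 p n k)}

theorem hIdeal_mono {a b : ℕ} (h : a ≤ b) : hIdeal p n k a ≤ hIdeal p n k b :=
  Ideal.span_mono (Set.image_mono (Set.Iio_subset_Iio h))

theorem hIdeal_strictMono {a b : ℕ} (h : a < b) (hb : b ≤ n) :
    hIdeal p n k a < hIdeal p n k b :=
  lt_of_le_not_ge (hIdeal_mono h.le) fun hle =>
    uE_notMem_hIdeal p n k (h := a) (by omega) (by omega) (hle (uE_mem_hIdeal p n k h))

theorem gStable_top : GStable p n k F ⊤ :=
  ⟨fun _ _ _ _ _ _ => Submodule.mem_top, fun _ _ => Submodule.mem_top⟩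

section

variable (hn : 1 ≤ n) (hF : IsHazewinkel p n k F)
  (H : ∀ P : Ideal (E0 p n k), P.IsPrime → StableNear F P → ∃ h ≤ n, P = hIdeal p n k h)

include hn hF H

theorem prime_stable_iff (P : Ideal (E0 p n k)) :
    P.IsPrime ∧ Stable p n k F P ↔ ∃ h ≤ n, P = hIdeal p n k h := by
  constructor
  · rintro ⟨hP, hS⟩
    exact H P hP hS.stableNear
  · rintro ⟨h, hh, rfl⟩
    exact ⟨hIdeal_isPrime p n k hh, stable_hIdeal hn hF hh⟩

theorem prime_gStable_iff (P : Ideal (E0 p n k)) :
    P.IsPrime ∧ GStable p n k F P ↔ ∃ h ≤ n, P = hIdeal p n k h := by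
  constructor
  · rintro ⟨hP, hS⟩
    exact H P hP hS.1.stableNear
  · rintro ⟨h, hh, rfl⟩
    exact ⟨hIdeal_isPrime p n k hh, gStable_hIdeal hn hF hh⟩

/-- A proper stable radical ideal is a height ideal. -/
theorem exists_eq_hIdeal_of_radical {I : Ideal (E0 p n k)} (hI : I.IsRadical)
    (hS : Stable p n k F I) (hne : I ≠ ⊤) : ∃ h ≤ n, I = hIdeal p n k h := by
  have : F.IsComm := isComm_of_isHazewinkel p n k hF
  have hmin : ∀ Q ∈ I.minimalPrimes, ∃ h ≤ n, Q = hIdeal p n k h := fun Q hQ =>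
    H Q hQ.1.1 (stableNear_of_mem_minimalPrimes (isShape_of_isHazewinkel hn hF) hS hQ)
  obtain ⟨P, hP⟩ := Ideal.nonempty_minimalPrimes hne
  obtain ⟨a, ha, rfl⟩ := hmin P hP
  have huniq : ∀ Q ∈ I.minimalPrimes, Q = hIdeal p n k a := fun Q hQ => by
    obtain ⟨b, -, rfl⟩ := hmin Q hQ
    rcases Nat.le_total a b with h | h
    · exact le_antisymm (hQ.2 hP.1 (hIdeal_mono h)) (hIdeal_mono h)
    · exact le_antisymm (hIdeal_mono h) (hP.2 hQ.1 (hIdeal_mono h))
  refine ⟨a, ha, le_antisymm hP.1.2 ?_⟩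
  rw [← hI.radical, ← Ideal.sInf_minimalPrimes]
  exact le_sInf fun Q hQ => (huniq Q hQ).ge

theorem radical_stable_iff (I : Ideal (E0 p n k)) :
    I.IsRadical ∧ Stable p n k F I ↔ I = ⊤ ∨ ∃ h ≤ n, I = hIdeal p n k h := by
  constructor
  · rintro ⟨hI, hS⟩
    by_cases hne : I = ⊤
    · exact Or.inl hne
    · exact Or.inr (exists_eq_hIdeal_of_radical hn hF H hI hS hne)
  · rintro (rfl | ⟨h, hh, rfl⟩)
    · exact ⟨fun _ _ => Submodule.mem_top, gStable_top.1⟩
    · exact ⟨(hIdeal_isPrime p n k hh).isRadical, stable_hIdeal hn hF hh⟩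

theorem radical_gStable_iff (I : Ideal (E0 p n k)) :
    I.IsRadical ∧ GStable p n k F I ↔ I = ⊤ ∨ ∃ h ≤ n, I = hIdeal p n k h := by
  constructor
  · rintro ⟨hI, hS⟩
    exact (radical_stable_iff hn hF H I).mp ⟨hI, hS.1⟩
  · rintro (rfl | ⟨h, hh, rfl⟩)
    · exact ⟨fun _ _ => Submodule.mem_top, gStable_top⟩
    · exact ⟨(hIdeal_isPrime p n k hh).isRadical, gStable_hIdeal hn hF hh⟩

end

end Vale.Agent.P217
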