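import Mathlib.RingTheory.FormalGroup.Basic
import Mathlib.Data.Nat.Choose.Lucas
import Mathlib.Data.Nat.Factorization.Basic
import Vale.Agent.P217.Trunc

/-!
# The symmetric cocycle lemma and differences of formal group laws

If two commutative formal group laws agree modulo `J` in degrees `< N`, their difference in
degree `N` is a symmetric additive cocycle; over a ring where `p` kills it, it is determined by
the single coefficient at `(lazIdx p N, N - lazIdx p N)`.
-/

noncomputable section

namespace Vale.Agent.P217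

open MvPowerSeries Finsupp

set_option linter.unusedSectionVars false

section Lazard

variable {p : ℕ}

theorem eq_zero_of_nsmul {V : Type*} [AddCommGroup V] (hp : p.Prime) {a : ℕ} {v : V}
    (hv : p • v = 0) (hav : a • v = 0) (ha : ¬p ∣ a) : v = 0 := by
  have h1 : addOrderOf v ∣ Nat.gcd p a :=
    Nat.dvd_gcd (addOrderOf_dvd_of_nsmul_eq_zero hv) (addOrderOf_dvd_of_nsmul_eq_zero hav)
  rw [(Nat.Prime.coprime_iff_not_dvd hp).mpr ha, Nat.dvd_one] at h1
  simpa using AddMonoid.addOrderOf_eq_one_iff.mp h1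

theorem not_dvd_choose_pow (hp : p.Prime) : ∀ (b i : ℕ), i / p ^ b % p ≠ 0 →
    ¬p ∣ i.choose (p ^ b) := by
  have := Fact.mk hp
  intro b
  induction b with
  | zero =>
    intro i hi h
    simp only [pow_zero, Nat.choose_one_right, Nat.div_one] at *
    exact hi (Nat.eq_zero_of_dvd_of_lt ((Nat.dvd_mod_iff dvd_rfl).mpr h) (Nat.mod_lt _ hp.pos))
  | succ b ih =>
    intro i hi h
    have h1 := Choose.choose_modEq_choose_mod_mul_choose_div_nat (n := i) (k := p ^ (b + 1))
      (p := p)
    rw [pow_succ, Nat.mul_mod_left, Nat.choose_zero_right, one_mul,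
      Nat.mul_div_cancel _ hp.pos] at h1
    refine ih (i / p) ?_ ((Nat.ModEq.dvd_iff h1 dvd_rfl).mp (by rwa [← pow_succ]))
    rwa [Nat.div_div_eq_div_mul, ← pow_succ']

/-- The index detecting a symmetric cocycle of degree `d`. -/
def lazIdx (p d : ℕ) : ℕ :=
  if d = p ^ d.factorization p then p ^ (d.factorization p - 1) else p ^ d.factorization p

theorem lazIdx_prime_pow (hp : p.Prime) (e : ℕ) : lazIdx p (p ^ e) = p ^ (e - 1) := by
  simp [lazIdx, hp.factorization_self]

theorem lazIdx_of_ne_pow (hp : p.Prime) {d : ℕ} (hd : d ≠ 0) (h : ∀ e, d ≠ p ^ e) :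
    ∃ v r, d = p ^ v * r ∧ ¬p ∣ r ∧ 1 < r ∧ lazIdx p d = p ^ v := by
  refine ⟨d.factorization p, d / p ^ d.factorization p,
    (Nat.ordProj_mul_ordCompl_eq_self d p).symm, Nat.not_dvd_ordCompl hp hd, ?_, ?_⟩
  · by_contra hr
    have h0 := Nat.ordCompl_pos p hd
    have h1 : d / p ^ d.factorization p = 1 := by omega
    have h2 := Nat.ordProj_mul_ordCompl_eq_self d p
    rw [h1, mul_one] at h2
    exact h _ h2.symm
  · simp [lazIdx, h (d.factorization p)]

theorem lazIdx_lt (hp : p.Prime) {d : ℕ} (hd : 2 ≤ d) : 0 < lazIdx p d ∧ lazIdx p d < d := by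
  by_cases h : ∃ e, d = p ^ e
  · obtain ⟨e, rfl⟩ := h
    rw [lazIdx_prime_pow hp]
    refine ⟨pow_pos hp.pos _, Nat.pow_lt_pow_right hp.one_lt ?_⟩
    cases e <;> simp at *
  · obtain ⟨v, r, hd', -, hr1, hw⟩ := lazIdx_of_ne_pow hp (by omega) (not_exists.mp h)
    rw [hw]
    refine ⟨pow_pos hp.pos _, ?_⟩
    calc p ^ v = p ^ v * 1 := (mul_one _).symm
      _ < p ^ v * r := Nat.mul_lt_mul_of_pos_left hr1 (pow_pos hp.pos _)
      _ = d := hd'.symm

/-- A symmetric additive cocycle of degree `d` killed by `p` vanishes as soon as its coefficient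
at `lazIdx p d` does. -/
theorem lazard_zero {V : Type*} [AddCommGroup V] (hp : p.Prime) {d : ℕ} (hd : 2 ≤ d)
    (c : ℕ → V) (hpc : ∀ i, 0 < i → i < d → p • c i = 0)
    (sym : ∀ i, 0 < i → i < d → c (d - i) = c i)
    (rel : ∀ i j, 0 < i → 0 < j → i + j < d →
      (i + j).choose i • c (i + j) = (d - i).choose j • c i)
    (h0 : c (lazIdx p d) = 0) : ∀ i, 0 < i → i < d → c i = 0 := by
  have hp1 := hp.one_lt
  have kill : ∀ b i, c (p ^ b) = 0 → 0 < i → i < d → i / p ^ b % p ≠ 0 → c i = 0 := by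
    intro b i hb hi hid hdig
    have hle : p ^ b ≤ i := by
      by_contra hlt
      rw [Nat.div_eq_of_lt (not_le.mp hlt), Nat.zero_mod] at hdig
      exact hdig rfl
    rcases hle.eq_or_lt with heq | hlt
    · exact heq ▸ hb
    · have h := rel (p ^ b) (i - p ^ b) (pow_pos hp.pos b) (by omega) (by omega)
      rw [Nat.add_sub_cancel' hle, hb, nsmul_zero] at h
      exact eq_zero_of_nsmul hp (hpc i hi hid) h (not_dvd_choose_pow hp b i hdig)
  have top : ∀ m, 0 < m → m / p ^ Nat.log p m % p ≠ 0 := by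
    intro m hm
    have h1 : 0 < m / p ^ Nat.log p m :=
      Nat.div_pos (Nat.pow_log_le_self p hm.ne') (pow_pos hp.pos _)
    have h2 : m / p ^ Nat.log p m < p := by
      rw [Nat.div_lt_iff_lt_mul (pow_pos hp.pos _), ← pow_succ']
      exact Nat.lt_pow_succ_log_self hp1 m
    rw [Nat.mod_eq_of_lt h2]
    omega
  obtain ⟨w, hw, h2w, hbig⟩ : ∃ w, lazIdx p d = p ^ w ∧ 2 * p ^ w ≤ d ∧
      ∀ b, w < b → p ^ b < d → (d - p ^ b) / p ^ w % p ≠ 0 := by
    by_cases h : ∃ e, d = p ^ e
    · obtain ⟨e, rfl⟩ := h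
      rcases e with _ | e
      · simp at hd
      refine ⟨e, lazIdx_prime_pow hp (e + 1), ?_, fun b hb hlt => ?_⟩
      · rw [pow_succ']
        exact Nat.mul_le_mul_right _ hp.two_le
      · have := (Nat.pow_lt_pow_iff_right hp1).mp hlt
        omega
    · obtain ⟨v, r, hd', hr, hr1, hw⟩ := lazIdx_of_ne_pow hp (by omega) (not_exists.mp h)
      refine ⟨v, hw, ?_, fun b hb hlt h0 => ?_⟩
      · rw [hd', mul_comm 2]
        exact Nat.mul_le_mul_left _ hr1
      · have e : d - p ^ b = p ^ v * (r - p ^ (b - v)) := by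
          rw [Nat.mul_sub, ← pow_add, Nat.add_sub_cancel' hb.le, ← hd']
        rw [e, Nat.mul_div_cancel_left _ (pow_pos hp.pos _)] at h0
        have hle : p ^ (b - v) ≤ r := by
          by_contra hlt'
          rw [Nat.sub_eq_zero_of_le (not_le.mp hlt').le, mul_zero] at e
          omega
        have h1 : p ∣ r - p ^ (b - v) := Nat.dvd_of_mod_eq_zero h0
        have h2 : p ∣ p ^ (b - v) := dvd_pow_self p (by omega)
        exact hr (by simpa [Nat.sub_add_cancel hle] using Nat.dvd_add h1 h2)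
  rw [hw] at h0
  have high : ∀ b, w ≤ b → p ^ b < d → c (p ^ b) = 0 := by
    intro b hb hlt
    rcases hb.eq_or_lt with rfl | hb'
    · exact h0
    · rw [← sym _ (pow_pos hp.pos b) hlt]
      exact kill w _ h0 (by omega) (by have := pow_pos hp.pos b; omega) (hbig b hb' hlt)
  have all : ∀ b, p ^ b < d → c (p ^ b) = 0 := by
    intro b hlt
    by_cases hb : w ≤ b
    · exact high b hb hlt
    · have hbw : p ^ b < p ^ w := Nat.pow_lt_pow_right hp1 (by omega)
      have hpos := pow_pos hp.pos b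
      rw [← sym _ hpos hlt]
      have hlog : w ≤ Nat.log p (d - p ^ b) := Nat.le_log_of_pow_le hp1 (by omega)
      have hle := Nat.pow_log_le_self p (x := d - p ^ b) (by omega)
      exact kill _ _ (high _ hlog (by omega)) (by omega) (by omega) (top _ (by omega))
  intro i hi hid
  exact kill _ i (all _ ((Nat.pow_log_le_self p hi.ne').trans_lt hid)) hi hid (top i hi)

end Lazard

/-! ### Coefficients of formal group laws -/

/-- The exponent `X₀^a X₁^b`. -/
def xy (a b : ℕ) : Fin 2 →₀ ℕ := single 0 a + single 1 b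

@[simp] theorem xy_zero (a b : ℕ) : xy a b 0 = a := by simp [xy]

@[simp] theorem xy_one (a b : ℕ) : xy a b 1 = b := by simp [xy]

@[simp] theorem degree_xy (a b : ℕ) : (xy a b).degree = a + b := by simp [xy, map_add]

theorem eq_xy (d : Fin 2 →₀ ℕ) : d = xy (d 0) (d 1) := by
  ext s; fin_cases s <;> simp

theorem degree_two (d : Fin 2 →₀ ℕ) : d.degree = d 0 + d 1 := by
  conv_lhs => rw [eq_xy d, degree_xy]

variable {A : Type*} [CommRing A] {σ : Type*}

theorem cc2 {a b : MvPowerSeries σ A} (ha : constantCoeff a = 0) (hb : constantCoeff b = 0) :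
    ∀ s, constantCoeff (![a, b] s) = 0 := fun s => by fin_cases s <;> simp [ha, hb]

theorem coeff_subst_swap (f : MvPowerSeries (Fin 2) A) (a b : ℕ) :
    coeff (xy a b) (subst ![X 1, X 0] f : MvPowerSeries (Fin 2) A) = coeff (xy b a) f := by
  classical
  rw [coeff_subst' (cc2 (constantCoeff_X 1) (constantCoeff_X 0)), finsum_eq_single _ (xy b a)]
  · simp [Finsupp.prod_fintype, Fin.prod_univ_two, X_pow_eq, monomial_mul_monomial,
      xy, add_comm]
  · intro d hd
    simp only [Finsupp.prod_fintype, pow_zero, implies_true, Fin.prod_univ_two, X_pow_eq,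
      monomial_mul_monomial, coeff_monomial, mul_one, Matrix.cons_val_zero, Matrix.cons_val_one,
      Matrix.cons_val_fin_one, mul_ite, mul_zero, ite_eq_right_iff]
    intro h
    refine absurd ?_ hd
    have h0 := DFunLike.congr_fun h 0
    have h1 := DFunLike.congr_fun h 1
    rw [eq_xy d]
    simp at h0 h1
    rw [h0, h1]

theorem FormalGroup.coeff_swap (F : FormalGroup A) [F.IsComm] (a b : ℕ) :
    coeff (xy a b) F.toPowerSeries = coeff (xy b a) F.toPowerSeries := by
  conv_lhs => rw [FormalGroup.IsComm.comm (F := F)]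
  exact coeff_subst_swap _ a b

/-- The axis `f(X, 0)`. -/
theorem coeff_subst_axis (f : MvPowerSeries (Fin 2) A) (m : ℕ) :
    PowerSeries.coeff m (subst ![PowerSeries.X, 0] f : PowerSeries A) = coeff (xy m 0) f := by
  classical
  rw [PowerSeries.coeff,
    coeff_subst' (cc2 (PowerSeries.constantCoeff_X) (map_zero _)), finsum_eq_single _ (xy m 0)]
  · simp [Finsupp.prod_fintype, Fin.prod_univ_two, ← PowerSeries.coeff_def rfl]
  · intro d hd
    simp only [Finsupp.prod_fintype, pow_zero, implies_true, Fin.prod_univ_two,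
      Matrix.cons_val_zero, Matrix.cons_val_one, Matrix.cons_val_fin_one]
    rcases Nat.eq_zero_or_pos (d 1) with h1 | h1
    · rw [h1, pow_zero, mul_one, ← PowerSeries.coeff_def rfl, PowerSeries.coeff_X_pow, if_neg,
        mul_zero]
      intro hh
      refine hd ?_
      rw [eq_xy d, h1, ← hh]
      simp
    · simp [zero_pow h1.ne']

theorem FormalGroup.coeff_axis (F : FormalGroup A) (m : ℕ) :
    coeff (xy m 0) F.toPowerSeries = if m = 1 then 1 else 0 := by
  rw [← coeff_subst_axis]
  exact (congrArg (PowerSeries.coeff m) (FormalGroup.Xzero_eq_X F)).trans (PowerSeries.coeff_X m)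

/-- The quotient `(f - f(X,0)) / Y`. -/
def quotY (f : MvPowerSeries (Fin 2) A) : MvPowerSeries (Fin 2) A :=
  fun d => coeff (d + single 1 1) f

theorem coeff_quotY (f : MvPowerSeries (Fin 2) A) (d : Fin 2 →₀ ℕ) :
    coeff d (quotY f) = coeff (d + single 1 1) f := rfl

theorem FormalGroup.eq_X_add (F : FormalGroup A) :
    F.toPowerSeries = X 0 + X 1 * quotY F.toPowerSeries := by
  classical
  ext d
  rw [map_add, coeff_X, X_def, coeff_monomial_mul]
  rcases Nat.eq_zero_or_pos (d 1) with h | h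
  · have hle : ¬single (1 : Fin 2) 1 ≤ d := fun hh => by
      have := hh 1
      simp [h] at this
    rw [if_neg hle, add_zero, eq_xy d, h, FormalGroup.coeff_axis]
    congr 1
    simp [Finsupp.ext_iff, Fin.forall_fin_two]
  · have hle : single (1 : Fin 2) 1 ≤ d := fun s => by fin_cases s <;> simp; omega
    have hne : d ≠ single 0 1 := fun hh => by simp [hh] at h
    rw [if_pos hle, if_neg hne, zero_add, one_mul, coeff_quotY, tsub_add_cancel_of_le hle]

theorem constantCoeff_quotY (F : FormalGroup A) :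
    constantCoeff (quotY F.toPowerSeries) = 1 := by
  rw [← coeff_zero_eq_constantCoeff_apply, coeff_quotY, zero_add, F.lin_coeff_Y]

/-- `F(a, b) = a + b · H(a, b)`. -/
theorem FormalGroup.subst_eq_add (F : FormalGroup A) {a b : MvPowerSeries σ A}
    (ha : constantCoeff a = 0) (hb : constantCoeff b = 0) :
    subst ![a, b] F.toPowerSeries = a + b * subst ![a, b] (quotY F.toPowerSeries) := by
  have h := hasSubst0 (cc2 ha hb)
  conv_lhs => rw [FormalGroup.eq_X_add F]
  simp [subst_add h, subst_mul h, subst_X h]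

theorem constantCoeff_subst2 (F : FormalGroup A) {a b : MvPowerSeries σ A}
    (ha : constantCoeff a = 0) (hb : constantCoeff b = 0) :
    constantCoeff (subst ![a, b] F.toPowerSeries) = 0 :=
  constantCoeff_subst_eq_zero (hasSubst0 (cc2 ha hb)) (cc2 ha hb) F.zero_constantCoeff

theorem subst_sub_linear_mem (F : FormalGroup A) {a b : MvPowerSeries σ A}
    (ha : constantCoeff a = 0) (hb : constantCoeff b = 0) :
    subst ![a, b] F.toPowerSeries - (a + b) ∈ cI (⊥ : Ideal A) 2 := by
  have h1 : subst ![a, b] (quotY F.toPowerSeries) - 1 ∈ cI (⊥ : Ideal A) 1 := by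
    rw [mem_cI_bot_one_iff, map_sub, constantCoeff_one,
      constantCoeff_subst (hasSubst0 (cc2 ha hb)), finsum_eq_single _ 0]
    · simp [coeff_zero_eq_constantCoeff_apply, constantCoeff_quotY]
    · intro d hd
      have := prod_mem_cI_bot (cc2 ha hb) d 0 (by
        simpa [Nat.pos_iff_ne_zero, Finsupp.degree_eq_zero_iff] using hd)
      simp only [Ideal.mem_bot, coeff_zero_eq_constantCoeff_apply] at this
      rw [this, smul_zero]
  have h2 := mul_mem_cI_add (mem_cI_bot_one_iff.mpr hb) h1
  rw [FormalGroup.subst_eq_add F ha hb]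
  convert h2 using 1
  ring

/-! ### The difference of two laws -/

theorem coeff_add_pow_mul_pow {a b c : Fin 3} (hab : a ≠ b) (hac : a ≠ c) (hbc : b ≠ c)
    (m r : ℕ) (e : Fin 3 →₀ ℕ) :
    coeff e ((X a + X b) ^ m * X c ^ r : MvPowerSeries (Fin 3) A) =
      if e a + e b = m ∧ e c = r then (m.choose (e a) : A) else 0 := by
  classical
  have key : ∀ t : ℕ, t ≤ m →
      ((single a t + single b (m - t) + single c r = e) ↔
        e a = t ∧ e a + e b = m ∧ e c = r) := fun t ht => by
    constructor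
    · rintro rfl
      simp [hab, hac, hbc, hab.symm, hac.symm, hbc.symm]
      omega
    · rintro ⟨rfl, h1, h2⟩
      ext s
      have : s = a ∨ s = b ∨ s = c := by
        clear * - hab hac hbc
        revert a b c s; decide
      rcases this with rfl | rfl | rfl <;>
        simp [hab, hac, hbc, hab.symm, hac.symm, hbc.symm] <;> omega
  rw [add_pow, Finset.sum_mul, map_sum]
  have hterm : ∀ t ∈ Finset.range (m + 1), coeff e ((X a ^ t * X b ^ (m - t) * (m.choose t :
      MvPowerSeries (Fin 3) A)) * X c ^ r) =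
      if e a = t ∧ e a + e b = m ∧ e c = r then (m.choose t : A) else 0 := fun t ht => by
    rw [mul_right_comm, X_pow_eq, X_pow_eq, X_pow_eq, monomial_mul_monomial, monomial_mul_monomial,
      ← map_natCast (C (σ := Fin 3) (R := A)), coeff_mul_C, coeff_monomial]
    simp only [mul_one, eq_comm (a := e), key t (Nat.lt_succ_iff.mp (Finset.mem_range.mp ht))]
    split_ifs <;> simp
  rw [Finset.sum_congr rfl hterm]
  by_cases h : e a + e b = m ∧ e c = r
  · rw [if_pos h, Finset.sum_eq_single (e a)]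
    · simp [h]
    · intro t _ ht
      rw [if_neg]
      exact fun hh => ht hh.1.symm
    · intro hh
      exact absurd (Finset.mem_range.mpr (by omega)) hh
  · rw [if_neg h]
    exact Finset.sum_eq_zero fun t _ => if_neg fun hh => h hh.2

theorem coeff_subst_lin (f : MvPowerSeries (Fin 2) A) {a b c : Fin 3} (hab : a ≠ b) (hac : a ≠ c)
    (hbc : b ≠ c) (e : Fin 3 →₀ ℕ) :
    coeff e (subst ![X a + X b, X c] f : MvPowerSeries (Fin 3) A) =
      coeff (xy (e a + e b) (e c)) f * ((e a + e b).choose (e a) : A) := by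
  rw [coeff_subst' (cc2 (by simp) (constantCoeff_X c)),
    finsum_eq_single _ (xy (e a + e b) (e c))]
  · simp [Finsupp.prod_fintype, Fin.prod_univ_two, coeff_add_pow_mul_pow hab hac hbc]
  · intro d hd
    have : ¬(e a + e b = d 0 ∧ e c = d 1) := fun h => hd (by rw [eq_xy d, h.1, h.2])
    simp [Finsupp.prod_fintype, Fin.prod_univ_two, coeff_add_pow_mul_pow hab hac hbc, this]

theorem coeff_subst_XX_eq_zero (f : MvPowerSeries (Fin 2) A) {a b c : Fin 3} (hca : c ≠ a)
    (hcb : c ≠ b) {e : Fin 3 →₀ ℕ} (he : e c ≠ 0) :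
    coeff e (subst ![X a, X b] f : MvPowerSeries (Fin 3) A) = 0 := by
  classical
  rw [coeff_subst' (cc2 (constantCoeff_X a) (constantCoeff_X b))]
  refine finsum_eq_zero_of_forall_eq_zero fun d => ?_
  simp only [Finsupp.prod_fintype, pow_zero, implies_true, Fin.prod_univ_two, X_pow_eq,
    monomial_mul_monomial, coeff_monomial, mul_one, Matrix.cons_val_zero, Matrix.cons_val_one,
    Matrix.cons_val_fin_one, mul_ite, mul_zero, ite_eq_right_iff]
  rintro rfl
  simp [hca, hcb] at he

theorem isComm_subst_left (F : FormalGroup A) [F.IsComm] {a b : MvPowerSeries σ A}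
    (ha : constantCoeff a = 0) (hb : constantCoeff b = 0) :
    subst ![a, b] F.toPowerSeries = subst ![b, a] F.toPowerSeries :=
  F.comm' (PowerSeries.HasSubst.of_constantCoeff_zero ha)
    (PowerSeries.HasSubst.of_constantCoeff_zero hb)

/-- Changing the first argument of a law changes its value linearly in the next degree. -/
theorem subst_sub_left_mem (F : FormalGroup A) {J : Ideal A} {N : ℕ}
    {x y z : MvPowerSeries σ A} (hx : constantCoeff x = 0) (hy : constantCoeff y = 0)
    (hz : constantCoeff z = 0) (h : x - y ∈ cI J N) :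
    subst ![x, z] F.toPowerSeries - subst ![y, z] F.toPowerSeries - (x - y) ∈ cI J (N + 1) := by
  have hq : subst ![x, z] (quotY F.toPowerSeries) - subst ![y, z] (quotY F.toPowerSeries) ∈
      cI J N := subst_congr_arg (cc2 hx hz) (cc2 hy hz) _ (fun s => by fin_cases s <;> simp [h])
  have h2 := mul_mem_cI_add' (mem_cI_bot_one_iff.mpr hz) hq
  rw [FormalGroup.subst_eq_add F hx hz, FormalGroup.subst_eq_add F hy hz]
  convert cI_anti (M := N + 1) (by omega) h2 using 1
  ring

/-- The associator of `Φ := F₁ - F₂` in degree `N`. -/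
theorem cocycle_rel_mem (F₁ F₂ : FormalGroup A) [F₁.IsComm] [F₂.IsComm] {J : Ideal A} {N : ℕ}
    (hJ : F₁.toPowerSeries - F₂.toPowerSeries ∈ cI J N) {i j : ℕ} (hi : 0 < i) (hj : 0 < j)
    (hij : i + j < N) :
    let c := fun a => coeff (xy a (N - a)) (F₁.toPowerSeries - F₂.toPowerSeries)
    ((i + j).choose i : A) * c (i + j) - ((N - i).choose j : A) * c i ∈ J := by
  intro c
  set P := F₁.toPowerSeries with hP
  set Q := F₂.toPowerSeries with hQ
  let Y : Fin 3 → MvPowerSeries (Fin 3) A := X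
  let P01 : MvPowerSeries (Fin 3) A := subst ![Y 0, Y 1] P
  let Q01 : MvPowerSeries (Fin 3) A := subst ![Y 0, Y 1] Q
  let P12 : MvPowerSeries (Fin 3) A := subst ![Y 1, Y 2] P
  let Q12 : MvPowerSeries (Fin 3) A := subst ![Y 1, Y 2] Q
  have hY : ∀ s, constantCoeff (Y s) = 0 := constantCoeff_X
  have hP01 : constantCoeff P01 = 0 := constantCoeff_subst2 F₁ (hY 0) (hY 1)
  have hQ01 : constantCoeff Q01 = 0 := constantCoeff_subst2 F₂ (hY 0) (hY 1)
  have hP12 : constantCoeff P12 = 0 := constantCoeff_subst2 F₁ (hY 1) (hY 2)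
  have hQ12 : constantCoeff Q12 = 0 := constantCoeff_subst2 F₂ (hY 1) (hY 2)
  -- left side
  have l1 : subst ![P01, Y 2] (P - Q) - subst ![Y 0 + Y 1, Y 2] (P - Q) ∈ cI J (N + 1) :=
    subst_sub_subst_mem_high (I := ⊤) (K := ⊥) (cc2 hP01 (hY 2))
      (cc2 (by simp [hY]) (hY 2)) (fun s => by
        fin_cases s
        · exact subst_sub_linear_mem F₁ (hY 0) (hY 1)
        · simp) hJ cI_top (by simp)
  have d01 : P01 - Q01 ∈ cI J N := by
    have := subst_mem_cI (x := ![Y 0, Y 1]) (cc2 (hY 0) (hY 1)) hJ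
    rwa [subst_sub (hasSubst0 (cc2 (hY 0) (hY 1)))] at this
  have d12 : P12 - Q12 ∈ cI J N := by
    have := subst_mem_cI (x := ![Y 1, Y 2]) (cc2 (hY 1) (hY 2)) hJ
    rwa [subst_sub (hasSubst0 (cc2 (hY 1) (hY 2)))] at this
  have l2 := subst_sub_left_mem F₂ hP01 hQ01 (hY 2) d01
  -- right side
  have r1 : subst ![Y 0, P12] (P - Q) - subst ![Y 0, Y 1 + Y 2] (P - Q) ∈ cI J (N + 1) :=
    subst_sub_subst_mem_high (I := ⊤) (K := ⊥) (cc2 (hY 0) hP12)
      (cc2 (hY 0) (by simp [hY])) (fun s => by
        fin_cases s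
        · simp
        · exact subst_sub_linear_mem F₁ (hY 1) (hY 2)) hJ cI_top (by simp)
  have r2 := subst_sub_left_mem F₂ hP12 hQ12 (hY 0) d12
  rw [isComm_subst_left F₂ hP12 (hY 0), isComm_subst_left F₂ hQ12 (hY 0)] at r2
  rw [← hQ] at l2 r2
  -- the exponent
  let e : Fin 3 →₀ ℕ := single 0 i + single 1 j + single 2 (N - i - j)
  have he0 : e 0 = i := by simp [e]
  have he1 : e 1 = j := by simp [e]
  have he2 : e 2 = N - i - j := by simp [e]
  have hdeg : e.degree < N + 1 := by
    simp only [e, map_add, Finsupp.degree_single]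
    omega
  have sum := J.sub_mem (J.add_mem (l1 e hdeg) (l2 e hdeg)) (J.add_mem (r1 e hdeg) (r2 e hdeg))
  rw [subst_sub (hasSubst0 (cc2 hP01 (hY 2))), subst_sub (hasSubst0 (cc2 (hY 0) hP12))] at sum
  have ha1 : subst ![P01, Y 2] P = subst ![Y 0, P12] P := F₁.assoc
  have ha2 : subst ![Q01, Y 2] Q = subst ![Y 0, Q12] Q := F₂.assoc
  have z1 : coeff e P01 = 0 := coeff_subst_XX_eq_zero P (c := 2) (by decide) (by decide) (by omega)
  have z2 : coeff e Q01 = 0 := coeff_subst_XX_eq_zero Q (c := 2) (by decide) (by decide) (by omega)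
  have z3 : coeff e P12 = 0 := coeff_subst_XX_eq_zero P (c := 0) (by decide) (by decide) (by omega)
  have z4 : coeff e Q12 = 0 := coeff_subst_XX_eq_zero Q (c := 0) (by decide) (by decide) (by omega)
  have cL : coeff e (subst ![Y 0 + Y 1, Y 2] (P - Q)) = ((i + j).choose i : A) * c (i + j) := by
    rw [coeff_subst_lin (P - Q) (by decide) (by decide) (by decide), he0, he1, he2, mul_comm,
      show N - i - j = N - (i + j) by omega]
  have cR : coeff e (subst ![Y 0, Y 1 + Y 2] (P - Q)) = ((N - i).choose j : A) * c i := by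
    have hs : subst ![Y 0, Y 1 + Y 2] (P - Q) = subst ![Y 1 + Y 2, Y 0] (P - Q) := by
      rw [subst_sub (hasSubst0 (cc2 (hY 0) (by simp [hY]))),
        subst_sub (hasSubst0 (cc2 (by simp [hY]) (hY 0))),
        isComm_subst_left F₁ (hY 0) (by simp [hY]), isComm_subst_left F₂ (hY 0) (by simp [hY])]
    rw [hs, coeff_subst_lin (P - Q) (by decide) (by decide) (by decide), he0, he1, he2,
      show j + (N - i - j) = N - i by omega, mul_comm]
    congr 1
    simp only [c, map_sub, hP, hQ]
    rw [FormalGroup.coeff_swap F₁, FormalGroup.coeff_swap F₂]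
  simp only [map_sub, ha1, ha2, z1, z2, z3, z4, sub_zero] at sum
  rw [← cL, ← cR]
  convert J.neg_mem sum using 1
  ring

/-- Two commutative laws agreeing modulo `J` below degree `N` agree in degree `N` as soon as they
agree at the single exponent `(lazIdx p N, N - lazIdx p N)`. -/
theorem law_diff_mem {p : ℕ} (hp : p.Prime) (F₁ F₂ : FormalGroup A) [F₁.IsComm] [F₂.IsComm]
    {J : Ideal A} {N : ℕ} (hN : 2 ≤ N)
    (hJ : F₁.toPowerSeries - F₂.toPowerSeries ∈ cI J N)
    (hpJ : ∀ d : Fin 2 →₀ ℕ, d.degree = N →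
      (p : A) * coeff d (F₁.toPowerSeries - F₂.toPowerSeries) ∈ J)
    (h0 : coeff (xy (lazIdx p N) (N - lazIdx p N)) (F₁.toPowerSeries - F₂.toPowerSeries) ∈ J) :
    F₁.toPowerSeries - F₂.toPowerSeries ∈ cI J (N + 1) := by
  intro d hd
  rcases Nat.lt_or_ge d.degree N with hlt | hge
  · exact hJ d hlt
  have hdN : d 0 + d 1 = N := by rw [← degree_two]; omega
  rw [eq_xy d]
  rcases Nat.eq_zero_or_pos (d 0) with h | h
  · rw [h, map_sub, FormalGroup.coeff_swap F₁, FormalGroup.coeff_swap F₂,
      FormalGroup.coeff_axis, FormalGroup.coeff_axis, sub_self]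
    exact J.zero_mem
  rcases Nat.eq_zero_or_pos (d 1) with h' | h'
  · rw [h', map_sub, FormalGroup.coeff_axis, FormalGroup.coeff_axis, sub_self]
    exact J.zero_mem
  let c : ℕ → A ⧸ J := fun a =>
    Ideal.Quotient.mk J (coeff (xy a (N - a)) (F₁.toPowerSeries - F₂.toPowerSeries))
  have key := lazard_zero hp hN c
    (fun a _ _ => by
      rw [nsmul_eq_mul, ← map_natCast (Ideal.Quotient.mk J), ← map_mul,
        Ideal.Quotient.eq_zero_iff_mem]
      exact hpJ _ (by rw [degree_xy]; omega))
    (fun a _ ha => by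
      simp only [c, map_sub, show N - (N - a) = a by omega]
      rw [FormalGroup.coeff_swap F₁, FormalGroup.coeff_swap F₂])
    (fun a b ha hb hab => by
      rw [nsmul_eq_mul, nsmul_eq_mul, ← map_natCast (Ideal.Quotient.mk J),
        ← map_natCast (Ideal.Quotient.mk J), ← map_mul, ← map_mul, Ideal.Quotient.eq]
      exact cocycle_rel_mem F₁ F₂ hJ ha hb hab)
    (Ideal.Quotient.eq_zero_iff_mem.mpr h0) (d 0) h (by omega)
  have := Ideal.Quotient.eq_zero_iff_mem.mp key
  rwa [show N - d 0 = d 1 by omega] at this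

end Vale.Agent.P217
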