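import Vale.Agent.P217.Pts
import Mathlib.Algebra.Ring.GeomSum
import Mathlib.Topology.Algebra.Nonarchimedean.AdicTopology

/-!
# The contraction property of multiplication by `p`

If `f ≡ X^q` modulo an ideal `J` containing `q`, then `f` improves congruences modulo powers of
`J` by one step.
-/

noncomputable section

namespace Vale.Agent.P217

set_option linter.unusedSectionVars false

open Filter Topology

variable {O : Type*} [CommRing O] [UniformSpace O] [IsUniformAddGroup O] [IsTopologicalRing O]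
  [CompleteSpace O] [T2Space O] [IsLinearTopology O O]

theorem isOpen_pow_of_isAdic {J : Ideal O} (hJ : IsAdic J) (m : ℕ) :
    IsOpen ((J ^ m : Ideal O) : Set O) :=
  (isAdic_iff.mp hJ).1 m

theorem isTopologicallyNilpotent_of_mem {J : Ideal O} (hJ : IsAdic J) {x : O} (hx : x ∈ J) :
    IsTopologicallyNilpotent x := by
  rw [IsTopologicallyNilpotent, hJ.hasBasis_nhds_zero.tendsto_right_iff]
  intro m _
  filter_upwards [eventually_ge_atTop m] with i hi
  exact Ideal.pow_le_pow_right hi (Ideal.pow_mem_pow hx i)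

theorem isTopologicallyNilpotent_of_sub_mem {J : Ideal O} (hJ : IsAdic J) {x y : O}
    (hxy : x - y ∈ J) (hy : IsTopologicallyNilpotent y) : IsTopologicallyNilpotent x := by
  simpa using (isTopologicallyNilpotent_of_mem hJ hxy).add hy

theorem eq_of_forall_sub_mem {J : Ideal O} (hJ : IsAdic J) {x y : O}
    (h : ∀ m, x - y ∈ J ^ m) : x = y := by
  have h0 : Tendsto (fun _ : ℕ => x - y) atTop (𝓝 0) := by
    rw [hJ.hasBasis_nhds_zero.tendsto_right_iff]
    exact fun m _ => Eventually.of_forall fun _ => h m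
  exact sub_eq_zero.mp (tendsto_nhds_unique tendsto_const_nhds h0)

/-- Congruent inputs give congruent values. -/
theorem fapp_sub_fapp_mem {I : Ideal O} (hI : IsOpen (I : Set O)) {f g : PowerSeries O} {x y : O}
    (hx : IsTopologicallyNilpotent x) (hy : IsTopologicallyNilpotent y) (hxy : x - y ∈ I)
    (hfg : ∀ j, PowerSeries.coeff j f - PowerSeries.coeff j g ∈ I) :
    fapp f x - fapp g y ∈ I := by
  refine ev_sub_ev_mem hI (hasEval1 hx) (hasEval1 hy) (fun _ => hxy) fun d => ?_
  have : d = Finsupp.single () (d ()) := by ext; simp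
  rw [this]
  exact hfg (d ())

theorem fadd_sub_fadd_mem {I : Ideal O} (hI : IsOpen (I : Set O)) (G : FormalGroup O)
    {x y x' y' : O} (hx : IsTopologicallyNilpotent x) (hy : IsTopologicallyNilpotent y)
    (hx' : IsTopologicallyNilpotent x') (hy' : IsTopologicallyNilpotent y')
    (h : x - x' ∈ I) (h' : y - y' ∈ I) : fadd G x y - fadd G x' y' ∈ I :=
  ev_sub_ev_mem hI (hasEval2 hx hy) (hasEval2 hx' hy')
    (fun s => by fin_cases s <;> simpa) fun _ => by simp

theorem fapp_mem {I : Ideal O} (hI : IsOpen (I : Set O)) {f : PowerSeries O} {x : O}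
    (hx : IsTopologicallyNilpotent x) (hf : PowerSeries.constantCoeff f = 0) (hxI : x ∈ I) :
    fapp f x ∈ I := by
  have h0 : fapp f (0 : O) = 0 :=
    (hasSum_ev1 (φ := RingHom.id O) IsTopologicallyNilpotent.zero f).unique <| by
      refine hasSum_zero.congr_fun fun i => ?_
      cases i <;> simp [hf]
  simpa [h0] using fapp_sub_fapp_mem hI hx .zero (by simpa) (f := f) (g := f) fun j => by simp

/-- `[p]` is congruent to the `q`-th power. -/
theorem fapp_sub_pow_mem {J : Ideal O} (hJ : IsAdic J) {f : PowerSeries O} {q : ℕ}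
    (hf : ∀ j, PowerSeries.coeff j f - PowerSeries.coeff j (PowerSeries.X ^ q : PowerSeries O) ∈ J)
    {x : O} (hx : IsTopologicallyNilpotent x) : fapp f x - x ^ q ∈ J := by
  have hopen : IsOpen (J : Set O) := by simpa using isOpen_pow_of_isAdic hJ 1
  have h : fapp (PowerSeries.X ^ q : PowerSeries O) x = x ^ q := by
    rw [fapp, ev1, ev_pow (hasEval1 hx)]
    exact congrArg (· ^ q) fapp_X
  rw [← h]
  exact fapp_sub_fapp_mem hopen hx hx (by simp) hf

/-- One step of contraction. -/
theorem fapp_contract {J : Ideal O} (hJ : IsAdic J) {f : PowerSeries O} {q : ℕ}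
    (hf : ∀ j, PowerSeries.coeff j f - PowerSeries.coeff j (PowerSeries.X ^ q : PowerSeries O) ∈ J)
    (hq : (q : O) ∈ J) {x y : O} (hx : IsTopologicallyNilpotent x)
    (hy : IsTopologicallyNilpotent y) {l : ℕ} (hl : 1 ≤ l) (hxy : x - y ∈ J ^ l) :
    fapp f x - fapp f y ∈ J ^ (l + 1) := by
  have hxy1 : x - y ∈ J := by simpa using Ideal.pow_le_pow_right hl hxy
  refine ((J ^ (l + 1)).toAddSubgroup.isClosed_of_isOpen
    (isOpen_pow_of_isAdic hJ (l + 1))).mem_of_tendsto
      ((hasSum_ev1 hx f).sub (hasSum_ev1 hy f))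
      (Eventually.of_forall fun _ => Ideal.sum_mem _ fun j _ => ?_)
  simp only [RingHom.id_apply, ← mul_sub]
  have hp : x ^ j - y ^ j ∈ J ^ l := by
    rw [← geom_sum₂_mul]
    exact Ideal.mul_mem_left _ _ hxy
  rcases eq_or_ne j q with rfl | hne
  · have h1 : (PowerSeries.coeff j f - 1) * (x ^ j - y ^ j) ∈ J ^ (l + 1) := by
      rw [pow_succ']
      exact Ideal.mul_mem_mul (by simpa [PowerSeries.coeff_X_pow] using hf j) hp
    have h2 : x ^ j - y ^ j ∈ J ^ (l + 1) := by
      rw [← geom_sum₂_mul, pow_succ']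
      refine Ideal.mul_mem_mul ?_ hxy
      have hxy' : Ideal.Quotient.mk J x = Ideal.Quotient.mk J y := Ideal.Quotient.eq.mpr hxy1
      rw [← Ideal.Quotient.eq_zero_iff_mem, map_sum]
      simp only [map_mul, map_pow, hxy', ← pow_add]
      rw [Finset.sum_congr rfl fun i hi => congrArg (Ideal.Quotient.mk J y ^ ·)
        (Nat.add_sub_cancel' (Nat.le_sub_one_of_lt (Finset.mem_range.mp hi)))]
      rw [Finset.sum_const, Finset.card_range, nsmul_eq_mul,
        ← map_natCast (Ideal.Quotient.mk J), Ideal.Quotient.eq_zero_iff_mem.mpr hq, zero_mul]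
    convert (J ^ (l + 1)).add_mem h1 h2 using 1
    ring
  · rw [pow_succ']
    exact Ideal.mul_mem_mul (by simpa [PowerSeries.coeff_X_pow, hne] using hf j) hp

end Vale.Agent.P217
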