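import Vale.Agent.P217.Ball
import Vale.Agent.P217.Ev
import Mathlib.LinearAlgebra.Lagrange
import Mathlib.RingTheory.PowerSeries.Derivative

/-!
# Series with many small values

If a series over the unit ball is smaller at `d + 1` nodes than the derivative of a series that
vanishes at these nodes, then its `d`-th coefficient has norm `< 1`.
-/

noncomputable section

namespace Vale.Agent.P217

set_option linter.unusedSectionVars false

open Filter Topology

variable {L : Type*} [NormedField L] [IsUltrametricDist L] [CompleteSpace L]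

/-- Evaluation at a node as a ring homomorphism. -/
def nodeHom {t : unitBall L} (ht : IsTopologicallyNilpotent t) :
    PowerSeries (unitBall L) →+* unitBall L :=
  evHom (RingHom.id _) (hasEval1 ht)

theorem nodeHom_apply {t : unitBall L} (ht : IsTopologicallyNilpotent t)
    (f : PowerSeries (unitBall L)) : nodeHom ht f = ev1 (RingHom.id _) t f :=
  evHom_apply (hasEval1 ht) f

@[simp]
theorem nodeHom_X {t : unitBall L} (ht : IsTopologicallyNilpotent t) :
    nodeHom ht PowerSeries.X = t := by
  rw [nodeHom_apply]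
  exact ev_X (φ := RingHom.id _) (a := fun _ : Unit => t) ()

@[simp]
theorem nodeHom_C {t : unitBall L} (ht : IsTopologicallyNilpotent t) (c : unitBall L) :
    nodeHom ht (PowerSeries.C c) = c := by
  rw [nodeHom_apply]
  exact ev_C (φ := RingHom.id _) (a := fun _ : Unit => t) c

theorem norm_nodeHom_le {t : unitBall L} (ht : IsTopologicallyNilpotent t)
    (f : PowerSeries (unitBall L)) : ‖((nodeHom ht f : unitBall L) : L)‖ ≤ 1 :=
  norm_coe_le_one _

/-- A node vanishing gives a factor `X - t`. -/
theorem exists_eq_X_sub_C_mul {t : unitBall L} (ht : IsTopologicallyNilpotent t)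
    {f : PowerSeries (unitBall L)} (hf : nodeHom ht f = 0) :
    ∃ g, f = (PowerSeries.X - PowerSeries.C t) * g ∧
      ∀ j, ‖((PowerSeries.coeff j g : unitBall L) : L) - ((PowerSeries.coeff (j + 1) f : unitBall L) : L)‖ < 1 := by
  have hsum : ∀ j, Summable fun i => PowerSeries.coeff (i + j + 1) f * t ^ i := fun j =>
    (hasSum_ev1 (φ := RingHom.id _) ht
      (PowerSeries.mk fun i => PowerSeries.coeff (i + j + 1) f)).summable.congr fun i => by simp
  let g : PowerSeries (unitBall L) :=
    PowerSeries.mk fun j => ∑' i, PowerSeries.coeff (i + j + 1) f * t ^ i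
  have hrec : ∀ j, PowerSeries.coeff j g =
      PowerSeries.coeff (j + 1) f + t * PowerSeries.coeff (j + 1) g := fun j => by
    simp only [g, PowerSeries.coeff_mk]
    rw [(hsum j).tsum_eq_zero_add, ← (hsum (j + 1)).tsum_mul_left]
    congr 1
    · simp
    · exact tsum_congr fun i => by
        rw [show i + 1 + j + 1 = i + (j + 1) + 1 by ring]
        ring
  have h0 : PowerSeries.coeff 0 f + t * PowerSeries.coeff 0 g = 0 := by
    have h := hasSum_ev1 (φ := RingHom.id _) ht f
    rw [← nodeHom_apply ht f, hf] at h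
    have h1 := h.summable.tsum_eq_zero_add
    rw [h.tsum_eq] at h1
    simp only [g, PowerSeries.coeff_mk]
    rw [← (hsum 0).tsum_mul_left]
    refine Eq.trans ?_ h1.symm
    simp only [RingHom.id_apply, pow_zero, mul_one]
    congr 1
    exact tsum_congr fun i => by ring_nf
  refine ⟨g, PowerSeries.ext fun j => ?_, fun j => ?_⟩
  · rw [sub_mul, map_sub, PowerSeries.coeff_C_mul]
    cases j with
    | zero =>
      rw [PowerSeries.coeff_zero_X_mul, zero_sub]
      exact eq_neg_of_add_eq_zero_left h0
    | succ j =>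
      rw [PowerSeries.coeff_succ_X_mul, hrec j]
      ring
  · rw [hrec j]
    have := isTopologicallyNilpotent_ball.mp ht
    simp only [Subring.coe_add, Subring.coe_mul, add_sub_cancel_left, norm_mul]
    exact lt_of_le_of_lt (mul_le_of_le_one_right (norm_nonneg _) (norm_coe_le_one _)) this

/-- A series vanishing at `d + 1` distinct nodes has `d`-th coefficient in the maximal ideal. -/
theorem norm_coeff_lt_one_of_vanish {d : ℕ} {s : Finset (unitBall L)} (hcard : s.card = d + 1)
    (hs : ∀ t ∈ s, IsTopologicallyNilpotent t) {f : PowerSeries (unitBall L)}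
    (hf : ∀ t (h : t ∈ s), nodeHom (hs t h) f = 0) : ‖((PowerSeries.coeff d f : unitBall L) : L)‖ < 1 := by
  classical
  induction d generalizing s f with
  | zero =>
    obtain ⟨t, rfl⟩ := Finset.card_eq_one.mp (by simpa using hcard)
    obtain ⟨g, hg, -⟩ := exists_eq_X_sub_C_mul (hs t (by simp)) (hf t (by simp))
    rw [hg, sub_mul, map_sub, PowerSeries.coeff_zero_X_mul, PowerSeries.coeff_C_mul, zero_sub]
    simp only [Subring.coe_neg, Subring.coe_mul, norm_neg, norm_mul]
    exact lt_of_le_of_lt (mul_le_of_le_one_right (norm_nonneg _) (norm_coe_le_one _))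
      (isTopologicallyNilpotent_ball.mp (hs t (by simp)))
  | succ d ih =>
    obtain ⟨t, ht⟩ := Finset.card_pos.mp (show 0 < s.card by omega)
    obtain ⟨g, hg, hg'⟩ := exists_eq_X_sub_C_mul (hs t ht) (hf t ht)
    have h1 : ‖((PowerSeries.coeff d g : unitBall L) : L)‖ < 1 := by
      refine ih (s := s.erase t) (by rw [Finset.card_erase_of_mem ht, hcard]; omega)
        (fun u hu => hs u (Finset.mem_of_mem_erase hu)) fun u hu => ?_
      have h := hf u (Finset.mem_of_mem_erase hu)
      rw [hg, map_mul, map_sub, nodeHom_X, nodeHom_C] at h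
      exact (mul_eq_zero.mp h).resolve_left (sub_ne_zero.mpr (Finset.ne_of_mem_erase hu))
    have h2 := hg' d
    rw [← norm_neg, neg_sub] at h2
    calc ‖((PowerSeries.coeff (d + 1) f : unitBall L) : L)‖
        = ‖(((PowerSeries.coeff (d + 1) f : unitBall L) : L) - ((PowerSeries.coeff d g : unitBall L) : L)) +
            ((PowerSeries.coeff d g : unitBall L) : L)‖ := by rw [sub_add_cancel]
      _ ≤ _ := IsUltrametricDist.norm_add_le_max _ _
      _ < 1 := max_lt h2 h1

/-- A series vanishing on a set of nodes is divisible by the product of the linear factors. -/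
theorem exists_eq_prod_mul {s : Finset (unitBall L)} (hs : ∀ t ∈ s, IsTopologicallyNilpotent t)
    {f : PowerSeries (unitBall L)} (hf : ∀ t (h : t ∈ s), nodeHom (hs t h) f = 0) :
    ∃ g, f = (∏ t ∈ s, (PowerSeries.X - PowerSeries.C t)) * g := by
  classical
  induction s using Finset.induction_on with
  | empty => exact ⟨f, by simp⟩
  | insert a s ha ih =>
    obtain ⟨g, hg⟩ := ih (fun t ht => hs t (Finset.mem_insert_of_mem ht))
      (fun t ht => hf t (Finset.mem_insert_of_mem ht))
    have h := hf a (Finset.mem_insert_self a s)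
    rw [hg, map_mul, map_prod, mul_eq_zero] at h
    have hne : ¬ (∏ t ∈ s, nodeHom (hs a (Finset.mem_insert_self a s))
        (PowerSeries.X - PowerSeries.C t)) = 0 := by
      refine Finset.prod_ne_zero_iff.mpr fun t ht => ?_
      rw [map_sub, nodeHom_X, nodeHom_C]
      exact sub_ne_zero.mpr fun e => ha (e ▸ ht)
    obtain ⟨g', hg', -⟩ := exists_eq_X_sub_C_mul _ (h.resolve_left hne)
    exact ⟨g', by rw [Finset.prod_insert ha, hg, hg']; ring⟩

/-- The derivative at a node of a series vanishing on a set of nodes. -/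
theorem norm_deriv_le_prod {s : Finset (unitBall L)} (hs : ∀ t ∈ s, IsTopologicallyNilpotent t)
    {f : PowerSeries (unitBall L)} (hf : ∀ t (h : t ∈ s), nodeHom (hs t h) f = 0)
    [DecidableEq (unitBall L)] {t : unitBall L} (ht : t ∈ s) :
    ‖((nodeHom (hs t ht) (PowerSeries.derivative (R := unitBall L) f) : unitBall L) : L)‖ ≤
      ∏ u ∈ s.erase t, ‖(t : L) - (u : L)‖ := by
  obtain ⟨g, hg⟩ := exists_eq_prod_mul hs hf
  rw [← Finset.mul_prod_erase s _ ht, mul_assoc] at hg
  rw [hg, Derivation.leibniz, map_sub, PowerSeries.derivative_X, PowerSeries.derivative_C,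
    sub_zero, smul_eq_mul, smul_eq_mul, map_add, map_mul, map_sub, nodeHom_X, nodeHom_C, sub_self,
    zero_mul, zero_add, map_mul, map_one, mul_one, map_mul, map_prod, Subring.coe_mul, norm_mul,
    SubmonoidClass.coe_finsetProd, norm_prod]
  refine (mul_le_of_le_one_right (Finset.prod_nonneg fun u _ => norm_nonneg _)
    (norm_nodeHom_le _ _)).trans (le_of_eq (Finset.prod_congr rfl fun u _ => ?_))
  simp

/-- The main estimate. -/
theorem norm_coeff_lt_one_of_small_on_nodes {d : ℕ} {s : Finset (unitBall L)}
    (hcard : s.card = d + 1) (hs : ∀ t ∈ s, IsTopologicallyNilpotent t)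
    {P f : PowerSeries (unitBall L)} (hP : ∀ t (h : t ∈ s), nodeHom (hs t h) P = 0)
    (hf : ∀ t (h : t ∈ s), nodeHom (hs t h) f = 0 ∨
      ‖((nodeHom (hs t h) f : unitBall L) : L)‖ <
        ‖((nodeHom (hs t h) (PowerSeries.derivative (R := unitBall L) P) : unitBall L) : L)‖) :
    ‖((PowerSeries.coeff d f : unitBall L) : L)‖ < 1 := by
  classical
  let Δ : unitBall L → L := fun t => ∏ u ∈ s.erase t, ((t : L) - (u : L))
  have hΔ : ∀ t, Δ t ≠ 0 := fun t => Finset.prod_ne_zero_iff.mpr fun u hu =>
    sub_ne_zero.mpr fun h => Finset.ne_of_mem_erase hu (Subtype.ext h.symm)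
  let val : unitBall L → unitBall L := fun t =>
    if h : t ∈ s then nodeHom (hs t h) f else 0
  have hsmall : ∀ t ∈ s, ‖(val t : L) / Δ t‖ < 1 := fun t ht => by
    simp only [val, dif_pos ht]
    rcases hf t ht with h | h
    · simp [h]
    · rw [norm_div, div_lt_one (norm_pos_iff.mpr (hΔ t))]
      exact h.trans_le ((norm_deriv_le_prod hs hP ht).trans_eq (norm_prod _ _).symm)
  let c : unitBall L → unitBall L := fun t =>
    if h : t ∈ s then ⟨(val t : L) / Δ t, (hsmall t h).le⟩ else 0
  let Q : PowerSeries (unitBall L) := ∑ t ∈ s,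
    PowerSeries.C (c t) * ∏ u ∈ s.erase t, (PowerSeries.X - PowerSeries.C u)
  have hQv : ∀ t (h : t ∈ s), nodeHom (hs t h) (f - Q) = 0 := by
    intro t h
    rw [map_sub, sub_eq_zero]
    simp only [Q, map_sum, map_mul, map_prod, nodeHom_C, map_sub, nodeHom_X]
    rw [Finset.sum_eq_single t]
    · apply Subtype.ext
      simp only [c, dif_pos h, Subring.coe_mul, SubmonoidClass.coe_finsetProd]
      rw [show (∏ u ∈ s.erase t, ((t - u : unitBall L) : L)) = Δ t from
        Finset.prod_congr rfl fun u _ => by simp, div_mul_cancel₀ _ (hΔ t)]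
      simp [val, dif_pos h]
    · intro u hu hne
      rw [Finset.prod_eq_zero (Finset.mem_erase.mpr ⟨Ne.symm hne, h⟩) (sub_self t), mul_zero]
    · exact fun h' => absurd h h'
  have h1 := norm_coeff_lt_one_of_vanish hcard hs hQv
  have h2 : ‖((PowerSeries.coeff d Q : unitBall L) : L)‖ < 1 := by
    simp only [Q, map_sum, PowerSeries.coeff_C_mul]
    rw [AddSubmonoidClass.coe_finsetSum]
    obtain ⟨t, ht, hle⟩ := IsUltrametricDist.exists_norm_finsetSum_le_of_nonempty
      (Finset.card_pos.mp (show 0 < s.card by omega)) fun t =>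
        ((c t * PowerSeries.coeff d (∏ u ∈ s.erase t, (PowerSeries.X - PowerSeries.C u)) :
          unitBall L) : L)
    refine hle.trans_lt ?_
    simp only [c, dif_pos ht, Subring.coe_mul, norm_mul]
    exact (mul_le_of_le_one_right (norm_nonneg _) (norm_coe_le_one _)).trans_lt (hsmall t ht)
  calc ‖((PowerSeries.coeff d f : unitBall L) : L)‖
      = ‖((PowerSeries.coeff d (f - Q) : unitBall L) : L) + ((PowerSeries.coeff d Q : unitBall L) : L)‖ := by
        simp
    _ ≤ _ := IsUltrametricDist.norm_add_le_max _ _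
    _ < 1 := max_lt h1 h2

end Vale.Agent.P217
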