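import Vale.Agent.P217.SeriesRing
import Vale.Agent.P217.Nodes

/-!
# The first derivative of `theta` is injective

For a series point `π'` lifting `π` and a direction `v`, the directional derivative of
`theta` cannot vanish at all torsion points of level one.
-/

noncomputable section

namespace Vale.Agent.P217

set_option linter.unusedSectionVars false
set_option linter.unusedSimpArgs false

open Filter Topology MvPowerSeries MvPowerSeries.WithPiTopology

section Deriv

variable {O : Type*} [CommRing O] [UniformSpace O] [IsUniformAddGroup O] [IsTopologicalRing O]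
  [CompleteSpace O] [T2Space O] [IsLinearTopology O O]
variable {σ : Type*} [Fintype σ]

/-- The derivative at `0` in the direction `v`. -/
def dirDeriv (v : σ → O) : MvPowerSeries σ O →+ O where
  toFun f := ∑ s, v s * coeff (Finsupp.single s 1) f
  map_zero' := by simp
  map_add' f g := by simp [mul_add, Finset.sum_add_distrib]

theorem dirDeriv_apply (v : σ → O) (f : MvPowerSeries σ O) :
    dirDeriv v f = ∑ s, v s * coeff (Finsupp.single s 1) f := rfl

theorem continuous_dirDeriv (v : σ → O) : Continuous (dirDeriv v) :=
  continuous_finsetSum _ fun _ _ => continuous_const.mul (continuous_coeff O _)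

theorem dirDeriv_mul (v : σ → O) (f g : MvPowerSeries σ O) :
    dirDeriv v (f * g) =
      constantCoeff f * dirDeriv v g + dirDeriv v f * constantCoeff g := by
  classical
  simp only [dirDeriv_apply, Finset.mul_sum, Finset.sum_mul, ← Finset.sum_add_distrib]
  refine Finset.sum_congr rfl fun s _ => ?_
  have h : Finset.antidiagonal (Finsupp.single s 1 : σ →₀ ℕ) =
      {(0, Finsupp.single s 1), (Finsupp.single s 1, 0)} := by
    ext ⟨a, b⟩
    simp only [Finset.mem_antidiagonal, Finset.mem_insert, Finset.mem_singleton, Prod.mk.injEq]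
    constructor
    · intro hab
      have hle : a ≤ Finsupp.single s 1 := hab ▸ le_self_add
      have ha : a = Finsupp.single s (a s) := by
        ext t
        rcases eq_or_ne t s with rfl | ht
        · simp
        · have := hle t
          simp [ht] at this ⊢
          omega
      have has : a s ≤ 1 := by simpa using hle s
      rcases Nat.le_one_iff_eq_zero_or_eq_one.mp has with h0 | h1
      · left
        rw [h0, Finsupp.single_zero] at ha
        subst ha
        exact ⟨rfl, by simpa using hab⟩
      · right
        rw [h1] at ha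
        subst ha
        exact ⟨rfl, by simpa using hab⟩
    · rintro (⟨rfl, rfl⟩ | ⟨rfl, rfl⟩) <;> simp
  have hne : ((0 : σ →₀ ℕ), (Finsupp.single s 1 : σ →₀ ℕ)) ≠ (Finsupp.single s 1, 0) := by simp
  rw [coeff_mul, h, Finset.sum_pair hne, coeff_zero_eq_constantCoeff]
  ring

theorem dirDeriv_C (v : σ → O) (c : O) : dirDeriv v (C c) = 0 := by
  classical
  simp [dirDeriv_apply, coeff_C]

theorem dirDeriv_one (v : σ → O) : dirDeriv v (1 : MvPowerSeries σ O) = 0 := by
  simpa using dirDeriv_C v 1

theorem dirDeriv_pow (v : σ → O) (f : MvPowerSeries σ O) (j : ℕ) :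
    dirDeriv v (f ^ (j + 1)) = (j + 1) * constantCoeff f ^ j * dirDeriv v f := by
  induction j with
  | zero => simp
  | succ j ih =>
    rw [pow_succ f (j + 1), dirDeriv_mul, ih, map_pow]
    push_cast
    ring

theorem constantCoeff_fapp {f : PowerSeries (MvPowerSeries σ O)} {z : MvPowerSeries σ O}
    (hz : IsTopologicallyNilpotent z) :
    constantCoeff (fapp f z) = fapp (f.map constantCoeff) (constantCoeff z) := by
  have hz0 : IsTopologicallyNilpotent (constantCoeff z) := hz.map (continuous_constantCoeff O)
  rw [fapp, ev1, map_ev _ (continuous_constantCoeff O) (hasEval1 hz), fapp, ev1]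
  simp only [PowerSeries.map]
  rw [ev_map _ (hasEval1 hz0)]
  congr 1

/-- The chain rule. -/
theorem dirDeriv_fapp (v : σ → O) (f : PowerSeries (MvPowerSeries σ O)) {z : MvPowerSeries σ O}
    (hz : IsTopologicallyNilpotent z) :
    dirDeriv v (fapp f z) =
      fapp (PowerSeries.mk fun j => dirDeriv v (PowerSeries.coeff j f)) (constantCoeff z) +
        fapp (PowerSeries.derivative (R := O) (f.map constantCoeff)) (constantCoeff z) *
          dirDeriv v z := by
  have hz0 : IsTopologicallyNilpotent (constantCoeff z) := hz.map (continuous_constantCoeff O)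
  have h1 := (hasSum_ev1 (φ := RingHom.id _) hz f).map (dirDeriv v) (continuous_dirDeriv v)
  have h2 := hasSum_ev1 (φ := RingHom.id _) hz0
    (PowerSeries.mk fun j => dirDeriv v (PowerSeries.coeff j f))
  have h3 := (hasSum_ev1 (φ := RingHom.id _) hz0
    (PowerSeries.derivative (R := O) (f.map constantCoeff))).mul_right (dirDeriv v z)
  have h3' : HasSum (fun j : ℕ => constantCoeff (PowerSeries.coeff j f) * dirDeriv v (z ^ j))
      (ev1 (RingHom.id _) (constantCoeff z)
        (PowerSeries.derivative (R := O) (f.map constantCoeff)) * dirDeriv v z) := by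
    refine (hasSum_nat_add_iff' (f := fun j : ℕ =>
      constantCoeff (PowerSeries.coeff j f) * dirDeriv v (z ^ j)) 1).mp ?_
    simp only [Finset.sum_range_one, pow_zero, dirDeriv_one, mul_zero, sub_zero]
    refine h3.congr_fun fun j => ?_
    simp only [RingHom.id_apply, PowerSeries.coeff_derivative, PowerSeries.coeff_map, dirDeriv_pow]
    ring
  refine h1.unique ?_
  refine (h2.add h3').congr_fun fun j => ?_
  simp only [Function.comp_apply, RingHom.id_apply, PowerSeries.coeff_mk, dirDeriv_mul, map_pow]
  ring

/-- At points over `0` the derivative is additive for the formal sum. -/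
theorem dirDeriv_fadd (v : σ → O) (G : FormalGroup (MvPowerSeries σ O))
    {z w : MvPowerSeries σ O} (hz : constantCoeff z = 0) (hw : constantCoeff w = 0) :
    dirDeriv v (fadd G z w) = dirDeriv v z + dirDeriv v w := by
  classical
  have hzn : IsTopologicallyNilpotent z :=
    MvPowerSeries.LinearTopology.isTopologicallyNilpotent_of_constantCoeff (by rw [hz]; exact .zero)
  have hwn : IsTopologicallyNilpotent w :=
    MvPowerSeries.LinearTopology.isTopologicallyNilpotent_of_constantCoeff (by rw [hw]; exact .zero)
  refine ((hasSum_ev (φ := RingHom.id _) (hasEval2 hzn hwn) G.toPowerSeries).map (dirDeriv v)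
    (continuous_dirDeriv v)).unique ?_
  have h : HasSum (fun d : Fin 2 →₀ ℕ => if d = Finsupp.single 0 1 then dirDeriv v z else
      if d = Finsupp.single 1 1 then dirDeriv v w else 0) (dirDeriv v z + dirDeriv v w) := by
    have := hasSum_sum_of_ne_finset_zero (L := SummationFilter.unconditional (Fin 2 →₀ ℕ))
      (f := fun d : Fin 2 →₀ ℕ => if d = Finsupp.single 0 1 then dirDeriv v z else
        if d = Finsupp.single 1 1 then dirDeriv v w else 0)
      (s := {Finsupp.single 0 1, Finsupp.single 1 1}) (fun d hd => by
        simp only [Finset.mem_insert, Finset.mem_singleton, not_or] at hd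
        rw [if_neg hd.1, if_neg hd.2])
    rwa [Finset.sum_pair (by simp [Finsupp.single_eq_single_iff]), if_pos rfl,
      if_neg (by simp [Finsupp.single_eq_single_iff]), if_pos rfl] at this
  refine h.congr_fun fun d => ?_
  have hprod : (d.prod fun s e => ![z, w] s ^ e) = z ^ d 0 * w ^ d 1 := by
    rw [Finsupp.prod_fintype _ _ (fun i => pow_zero _), Fin.prod_univ_two]
    simp
  simp only [Function.comp_apply, RingHom.id_apply, hprod]
  split_ifs with h0 h1
  · subst h0
    simp [G.lin_coeff_X]
  · subst h1
    simp [G.lin_coeff_Y]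
  · rcases Nat.lt_or_ge (d 0 + d 1) 2 with hlt | hge
    · have hd : d = 0 := by
        ext i
        rcases Nat.eq_zero_or_pos (d 0) with a0 | a0
        · rcases Nat.eq_zero_or_pos (d 1) with a1 | a1
          · fin_cases i <;> simp [a0, a1]
          · exact absurd (Finsupp.ext fun j => by fin_cases j <;> simp <;> omega) h1
        · exact absurd (Finsupp.ext fun j => by fin_cases j <;> simp <;> omega) h0
      subst hd
      simp [G.zero_constantCoeff]
    · simp only [dirDeriv_mul, map_mul, map_pow, hz, hw]
      rcases Nat.eq_zero_or_pos (d 0) with a0 | a0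
      · obtain ⟨j, hj⟩ : ∃ j, d 1 = j + 2 := ⟨d 1 - 2, by omega⟩
        rw [a0, hj, dirDeriv_pow]
        simp [hw, dirDeriv_one]
      · rcases Nat.eq_zero_or_pos (d 1) with a1 | a1
        · obtain ⟨j, hj⟩ : ∃ j, d 0 = j + 2 := ⟨d 0 - 2, by omega⟩
          rw [a1, hj, dirDeriv_pow]
          simp [hz, dirDeriv_one]
        · simp [zero_pow a0.ne', zero_pow a1.ne']

end Deriv

/-- A positive power of a topologically nilpotent element. -/
theorem hasEvalIdeal_pow {O : Type*} [CommRing O] [UniformSpace O] [IsUniformAddGroup O]
    [IsTopologicalRing O] [CompleteSpace O] [T2Space O] [IsLinearTopology O O] {t : O}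
    (ht : IsTopologicallyNilpotent t) {P : ℕ} (hP : 0 < P) : IsTopologicallyNilpotent (t ^ P) :=
  (MvPowerSeries.HasEval.pow (fun _ : Unit => t) (hasEval1 ht) hP).hpow ()

section Main

variable {p : ℕ} [Fact p.Prime] {n : ℕ} {k : Type} [Field k] [CharP k p]
variable {T : Type*} [CommRing T] [UniformSpace T] [IsUniformAddGroup T]
  [IsTopologicalRing T] [CompleteSpace T] [T2Space T] [IsLinearTopology T T]
variable {L : Type*} [NormedField L] [IsUltrametricDist L] [CompleteSpace L]
variable {σ : Type*} [Fintype σ]

/-- The constant coefficient of `theta` of a series point is `theta` of the point. -/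
theorem Target.constantCoeff_theta {O : Type*} [CommRing O] [UniformSpace O] [IsUniformAddGroup O]
    [IsTopologicalRing O] [CompleteSpace O] [T2Space O] [IsLinearTopology O O]
    {S : Source p n k T} (E : Target S O) (F : FormalGroup (E0 p n k))
    [F.IsComm] (hn : 1 ≤ n) (hF : mulSeries (special p n k F) p = PowerSeries.X ^ p ^ n)
    {π : E0 p n k →+* O} (hπ : E.IsPointOf π) {π' : E0 p n k →+* MvPowerSeries σ O}
    (hlift : constantCoeff.comp π' = π) {y : T} (hy : IsTopologicallyNilpotent y) :
    constantCoeff ((((E.series σ).setup F hn hF π' (E.isPointOf_series hπ hlift))).theta y) =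
      (E.setup F hn hF π hπ).theta y := by
  set D' := (E.series σ).setup F hn hF π' (E.isPointOf_series hπ hlift)
  set D := E.setup F hn hF π hπ
  refine (D'.theta_map D id constantCoeff (fun z hz => hz) (fun z _ => rfl)
    (fun x hx => hx.map (continuous_constantCoeff O)) (fun x hx => ?_) (fun z hz => ?_) hy).symm
  · change constantCoeff (fapp ((mulSeries F p).map π') x) = fapp ((mulSeries F p).map π) _
    rw [constantCoeff_fapp hx]
    congr 1
    ext j
    simp [PowerSeries.coeff_map, ← hlift]
  · have h : D'.theta z - D'.sharp z ∈ serJ (σ := σ) E.J := D'.theta_sub_sharp_mem hz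
    rw [mem_serJ_iff, map_sub] at h
    change _ - E.sharp z ∈ E.J
    simpa [D', Target.setup, Target.series] using h

/-- A series vanishing outside the multiples of `P`, evaluated. -/
theorem fapp_of_multiples {O : Type*} [CommRing O] [UniformSpace O] [IsUniformAddGroup O]
    [IsTopologicalRing O] [CompleteSpace O] [T2Space O] [IsLinearTopology O O] {f : PowerSeries O}
    {P : ℕ} (hP : 0 < P) (hf : ∀ j, ¬ P ∣ j → PowerSeries.coeff j f = 0) {t : O}
    (ht : IsTopologicallyNilpotent t) (htP : IsTopologicallyNilpotent (t ^ P)) :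
    fapp f t = fapp (PowerSeries.mk fun i => PowerSeries.coeff (i * P) f) (t ^ P) := by
  refine (hasSum_ev1 (φ := RingHom.id _) ht f).unique ?_
  have h := hasSum_ev1 (φ := RingHom.id _) htP (PowerSeries.mk fun i => PowerSeries.coeff (i * P) f)
  refine ((mul_left_injective₀ hP.ne').hasSum_iff (fun j hj => ?_)).mp (h.congr_fun fun i => ?_)
  · rw [hf j fun ⟨c, hc⟩ => hj ⟨c, by simp [hc, mul_comm]⟩]
    simp
  · simp [← pow_mul, mul_comm i P]

/-- The main statement: some level-one torsion point moves to first order in the direction `v`. -/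
theorem Target.exists_dirDeriv_theta_ne_zero {S : Source p n k T} (E : Target S (unitBall L))
    (F : FormalGroup (E0 p n k)) [F.IsComm] (hn : 1 ≤ n)
    (hF : mulSeries (special p n k F) p = PowerSeries.X ^ p ^ n)
    {π : E0 p n k →+* unitBall L} (hπ : E.IsPointOf π)
    {π' : E0 p n k →+* MvPowerSeries σ (unitBall L)} (hlift : constantCoeff.comp π' = π)
    (v : σ → unitBall L) (Y : Set T) {h e : ℕ} (hchar : h ≠ 0 → (p : unitBall L) = 0)
    (hdiv : ∀ j, ¬ p ^ h ∣ j → π' (PowerSeries.coeff j (mulSeries F p)) = 0)
    (htop : ‖((dirDeriv v (π' (PowerSeries.coeff (p ^ e) (mulSeries F p))) : unitBall L) : L)‖ = 1)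
    (he : h ≤ e) {K : Finset (unitBall L)} (hK : K.card = p ^ (e - h) + 1)
    (hKy : ∀ z ∈ K, ∃ y ∈ Y, IsTopologicallyNilpotent y ∧ (E.setup F hn hF π hπ).theta y = 0 ∧
      z = (E.setup F hn hF π hπ).theta (S.root y) ^ p ^ h) :
    ∃ y ∈ Y, IsTopologicallyNilpotent y ∧ (E.setup F hn hF π hπ).theta y = 0 ∧
      dirDeriv v ((((E.series σ).setup F hn hF π' (E.isPointOf_series hπ hlift))).theta y) ≠ 0 := by
  set D := E.setup F hn hF π hπ with hD
  set D' := (E.series σ).setup F hn hF π' (E.isPointOf_series hπ hlift) with hD'
  by_contra hcon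
  push Not at hcon
  let c : ℕ → unitBall L := fun j => dirDeriv v (π' (PowerSeries.coeff j (mulSeries F p)))
  let f : PowerSeries (unitBall L) := PowerSeries.mk c
  let P : PowerSeries (unitBall L) := (mulSeries F p).map π
  have hPh : 0 < p ^ h := pow_pos (Fact.out : p.Prime).pos h
  have hchain : ∀ u, IsTopologicallyNilpotent u →
      dirDeriv v (D'.step (D'.theta u)) = fapp f (D.theta u) +
        fapp (PowerSeries.derivative (R := unitBall L) P) (D.theta u) * dirDeriv v (D'.theta u) := by
    intro u hu
    change dirDeriv v (fapp ((mulSeries F p).map π') (D'.theta u)) = _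
    rw [dirDeriv_fapp v _ (D'.nilp_theta hu), E.constantCoeff_theta F hn hF hπ hlift hu]
    congr 3
    all_goals ext j
    all_goals simp [f, c, P, ← hlift, PowerSeries.coeff_derivative]
  have hP1 : IsTopologicallyNilpotent (π (PowerSeries.coeff 1 (mulSeries F p))) := by
    have h1 : res p n k (PowerSeries.coeff 1 (mulSeries F p)) = 0 := by
      rw [← PowerSeries.coeff_map, ← mulSeries_map, hF, PowerSeries.coeff_X_pow, if_neg]
      exact (Nat.one_lt_pow (by omega) (Fact.out : p.Prime).one_lt).ne
    exact isTopologicallyNilpotent_of_mem E.isAdic (hπ.map_mem h1)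
  have hw : ∀ y, IsTopologicallyNilpotent y →
      ‖((dirDeriv v (D'.theta y) : unitBall L) : L)‖ < 1 := by
    intro y hy
    have hu : IsTopologicallyNilpotent (S.root y) := S.nilp_root' hy
    rw [← D'.step_theta_root hy]
    rw [show D'.root y = S.root y from rfl, hchain _ hu, Subring.coe_add]
    refine (IsUltrametricDist.norm_add_le_max _ _).trans_lt (max_lt ?_ ?_)
    · refine isTopologicallyNilpotent_ball.mp (isTopologicallyNilpotent_fapp ?_ (D.nilp_theta hu))
      rw [← PowerSeries.coeff_zero_eq_constantCoeff_apply]
      simp [f, c, PowerSeries.coeff_zero_eq_constantCoeff_apply, constantCoeff_mulSeries]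
    · rw [Subring.coe_mul, norm_mul]
      refine (mul_le_of_le_one_right (norm_nonneg _) (norm_coe_le_one _)).trans_lt ?_
      refine isTopologicallyNilpotent_ball.mp
        (isTopologicallyNilpotent_ev (hasEval1 (D.nilp_theta hu)) _ ?_)
      rw [show MvPowerSeries.constantCoeff (PowerSeries.derivative (R := unitBall L) P) =
        PowerSeries.constantCoeff (PowerSeries.derivative (R := unitBall L) P) from rfl,
        ← PowerSeries.coeff_zero_eq_constantCoeff_apply, PowerSeries.coeff_derivative]
      simpa [P] using hP1
  let fz : PowerSeries (unitBall L) := PowerSeries.mk fun i => c (i * p ^ h)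
  let Pz : PowerSeries (unitBall L) := PowerSeries.mk fun i => PowerSeries.coeff (i * p ^ h) P
  have hfdiv : ∀ j, ¬ p ^ h ∣ j → PowerSeries.coeff j f = 0 := fun j hj => by
    simp [f, c, hdiv j hj]
  have hPdiv : ∀ j, ¬ p ^ h ∣ j → PowerSeries.coeff j P = 0 := fun j hj => by
    simp [P, ← hlift, hdiv j hj]
  have hKn : ∀ z ∈ K, IsTopologicallyNilpotent z := fun z hz => by
    obtain ⟨y, -, hy, -, rfl⟩ := hKy z hz
    exact (hasEvalIdeal_pow (D.nilp_theta (S.nilp_root' hy)) hPh)
  have hlt := norm_coeff_lt_one_of_small_on_nodes (d := p ^ (e - h)) hK hKn (P := Pz) (f := fz)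
    (fun z hz => ?_) (fun z hz => ?_)
  · simp only [fz, PowerSeries.coeff_mk, ← pow_add, Nat.sub_add_cancel he, c] at hlt
    exact absurd htop hlt.ne
  · obtain ⟨y, hyY, hy, hy0, hzy⟩ := hKy z hz
    have ht : IsTopologicallyNilpotent (D.theta (S.root y)) := D.nilp_theta (S.nilp_root' hy)
    have h1 : fapp Pz z = 0 := by
      rw [hzy, ← fapp_of_multiples hPh hPdiv ht (hasEvalIdeal_pow ht hPh)]
      exact (D.step_theta_root hy).trans hy0
    rw [nodeHom_apply]
    exact h1
  · obtain ⟨y, hyY, hy, hy0, hzy⟩ := hKy z hz
    have hu : IsTopologicallyNilpotent (S.root y) := S.nilp_root' hy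
    have ht : IsTopologicallyNilpotent (D.theta (S.root y)) := D.nilp_theta hu
    have h0 : fapp f (D.theta (S.root y)) +
        fapp (PowerSeries.derivative (R := unitBall L) P) (D.theta (S.root y)) *
          dirDeriv v (D'.theta (S.root y)) = 0 := by
      rw [← hchain _ hu, show S.root y = D'.root y from rfl, D'.step_theta_root hy]
      exact hcon y hyY hy hy0
    have hfz : nodeHom (hKn z hz) fz = fapp f (D.theta (S.root y)) := by
      rw [nodeHom_apply, fapp_of_multiples hPh hfdiv ht (hasEvalIdeal_pow ht hPh)]
      subst hzy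
      simp only [fapp, fz, f, PowerSeries.coeff_mk]
    rcases eq_or_ne h 0 with rfl | hne
    · by_cases hd : fapp (PowerSeries.derivative (R := unitBall L) P) (D.theta (S.root y)) = 0
      · left
        rw [hfz]
        simpa [hd] using h0
      · right
        have hPz : Pz = P := PowerSeries.ext fun i => by simp [Pz]
        have hz' : z = D.theta (S.root y) := by simpa using hzy
        rw [hfz, eq_neg_of_add_eq_zero_left h0, nodeHom_apply, hPz, hz', Subring.coe_neg,
          norm_neg, Subring.coe_mul, norm_mul]
        exact mul_lt_of_lt_one_right (norm_pos_iff.mpr fun e => hd (Subtype.ext e)) (hw _ hu)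
    · left
      have hder : PowerSeries.derivative (R := unitBall L) P = 0 := by
        ext j
        rw [PowerSeries.coeff_derivative]
        by_cases hj : p ^ h ∣ j + 1
        · obtain ⟨c', hc'⟩ := (dvd_pow_self p hne).trans hj
          rw [← Nat.cast_add_one, hc', Nat.cast_mul, hchar hne]
          simp
        · rw [hPdiv _ hj]
          simp
      rw [hfz]
      rw [hder] at h0
      have hz0 : fapp (0 : PowerSeries (unitBall L)) (D.theta (S.root y)) = 0 :=
        ev_zero (hasEval1 ht)
      simpa [hz0] using h0

end Main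

end Vale.Agent.P217
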