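import Vale.Agent.P217.Lead

/-!
# The lifting defect and its first order behaviour
-/

noncomputable section

namespace Vale.Agent.P217

open MvPowerSeries Finsupp

set_option linter.unusedSectionVars false

variable {A : Type*} [CommRing A] {σ : Type*}

/-! ### One variable series -/

theorem ps_subst_congr {J : Ideal A} {N : ℕ} {G H : PowerSeries A} {x y : MvPowerSeries σ A}
    (hx : constantCoeff x = 0) (hy : constantCoeff y = 0) (hGH : G - H ∈ cI J N)
    (hxy : x - y ∈ cI J N) : PowerSeries.subst x G - PowerSeries.subst y H ∈ cI J N := by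
  rw [PowerSeries.subst_def, PowerSeries.subst_def]
  exact subst_congr (fun _ => hx) (fun _ => hy) hGH (fun _ => hxy)

theorem ps_subst_mem {J : Ideal A} {N : ℕ} {G : PowerSeries A} {x : MvPowerSeries σ A}
    (hx : constantCoeff x = 0) (hG : G ∈ cI J N) : PowerSeries.subst x G ∈ cI J N := by
  rw [PowerSeries.subst_def]
  exact subst_mem_cI (fun _ => hx) hG

theorem ps_subst_law (F : FormalGroup A) {a b : PowerSeries A}
    (ha : PowerSeries.constantCoeff a = 0) (hb : PowerSeries.constantCoeff b = 0)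
    {x : MvPowerSeries σ A} (hx : constantCoeff x = 0) :
    PowerSeries.subst x (subst ![a, b] F.toPowerSeries : PowerSeries A) =
      subst ![PowerSeries.subst x a, PowerSeries.subst x b] F.toPowerSeries := by
  rw [PowerSeries.subst_def, PowerSeries.subst_def, PowerSeries.subst_def,
    subst_law_subst F ha hb (PowerSeries.HasSubst.of_constantCoeff_zero hx).const]

theorem ps_subst_linear_mem {G : PowerSeries A} (hG : PowerSeries.constantCoeff G = 0)
    {x : MvPowerSeries σ A} (hx : constantCoeff x = 0) :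
    PowerSeries.subst x G - C (PowerSeries.coeff 1 G) * x ∈ cI (⊥ : Ideal A) 2 := by
  intro d hd
  rw [Ideal.mem_bot, map_sub, coeff_C_mul, coeff_ps_subst_eq_sum hx]
  rcases Nat.eq_zero_or_pos d.degree with h | h
  · have h' := (Finsupp.degree_eq_zero_iff d).mp h
    subst h'
    simp [coeff_zero_eq_constantCoeff_apply, hx, hG]
  · rw [show d.degree = 1 by omega]
    simp [Finset.sum_range_succ, hG]

theorem mem_cI_ker_iff {B : Type*} [CommRing B] {π : A →+* B} {f g : MvPowerSeries σ A} :
    (∀ N, f - g ∈ cI (RingHom.ker π) N) ↔ MvPowerSeries.map π f = MvPowerSeries.map π g := by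
  constructor
  · intro h
    ext d
    have := h (d.degree + 1) d (by omega)
    rwa [RingHom.mem_ker, map_sub, map_sub, sub_eq_zero, ← coeff_map, ← coeff_map] at this
  · intro h N d _
    rw [RingHom.mem_ker, map_sub, map_sub, sub_eq_zero, ← coeff_map, ← coeff_map, h]

theorem coeff_add_single_mem {J : Ideal A} {f g : MvPowerSeries (Fin 2) A} {N : ℕ}
    (h : f - g ∈ cI J (N + 1)) : quotY f - quotY g ∈ cI J N := by
  intro d hd
  rw [map_sub, coeff_quotY, coeff_quotY, ← map_sub]
  exact h _ (by rw [map_add, Finsupp.degree_single]; omega)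

/-- The series `G +_Φ e`. -/
def adj (Φ : FormalGroup A) (G e : PowerSeries A) : PowerSeries A :=
  subst ![G, e] Φ.toPowerSeries

theorem constantCoeff_adj (Φ : FormalGroup A) {G e : PowerSeries A}
    (hG : PowerSeries.constantCoeff G = 0) (he : PowerSeries.constantCoeff e = 0) :
    PowerSeries.constantCoeff (adj Φ G e) = 0 :=
  constantCoeff_subst2 Φ hG he

theorem adj_zero (Φ : FormalGroup A) {G : PowerSeries A}
    (hG : PowerSeries.constantCoeff G = 0) : adj Φ G 0 = G :=
  Φ.add_zero (PowerSeries.HasSubst.of_constantCoeff_zero hG)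

theorem adj_eq_add (Φ : FormalGroup A) {G e : PowerSeries A}
    (hG : PowerSeries.constantCoeff G = 0) (he : PowerSeries.constantCoeff e = 0) :
    adj Φ G e = G + e * (subst ![G, e] (quotY Φ.toPowerSeries) : PowerSeries A) :=
  FormalGroup.subst_eq_add Φ hG he

theorem adj_sub_mem (Φ : FormalGroup A) {G e : PowerSeries A} {J : Ideal A} {N : ℕ}
    (hG : PowerSeries.constantCoeff G = 0) (he : PowerSeries.constantCoeff e = 0)
    (h : e ∈ cI J N) : adj Φ G e - G ∈ cI J N := by
  rw [adj_eq_add Φ hG he, add_sub_cancel_left]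
  exact Ideal.mul_mem_right _ _ h

/-- The obstruction to `G` being a homomorphism from `F'` to `Φ`. -/
def lawDefect (F' Φ : FormalGroup A) (G : PowerSeries A) : MvPowerSeries (Fin 2) A :=
  PowerSeries.subst F'.toPowerSeries G -
    subst ![PowerSeries.subst (X 0 : MvPowerSeries (Fin 2) A) G,
      PowerSeries.subst (X 1 : MvPowerSeries (Fin 2) A) G] Φ.toPowerSeries

theorem isHom_iff_defect {F' Φ : FormalGroup A} {G : PowerSeries A}
    (hG : PowerSeries.constantCoeff G = 0) : IsHom G F' Φ ↔ lawDefect F' Φ G = 0 :=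
  ⟨fun h => sub_eq_zero.mpr h.2, fun h => ⟨hG, sub_eq_zero.mp h⟩⟩

theorem defect_congr {F' Φ Φ' : FormalGroup A} {G G' : PowerSeries A} {J : Ideal A} {N : ℕ}
    (hG : PowerSeries.constantCoeff G = 0) (hG' : PowerSeries.constantCoeff G' = 0)
    (h : G - G' ∈ cI J N) (hΦ : Φ.toPowerSeries - Φ'.toPowerSeries ∈ cI J N) :
    lawDefect F' Φ G - lawDefect F' Φ' G' ∈ cI J N := by
  have h1 := ps_subst_congr (x := F'.toPowerSeries) F'.zero_constantCoeff F'.zero_constantCoeff h
    (by simp)
  have h2 := subst_congr (σ := Fin 2) (τ := Fin 2)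
    (cc2 (cc_ps (x := X 0) hG cc_X) (cc_ps (x := X 1) hG cc_X))
    (cc2 (cc_ps (x := X 0) hG' cc_X) (cc_ps (x := X 1) hG' cc_X)) hΦ (fun s => by
      fin_cases s <;> exact ps_subst_congr cc_X cc_X h (by simp))
  convert Ideal.sub_mem _ h1 h2 using 1
  simp only [lawDefect]
  ring

theorem defect_mem_two (F' Φ : FormalGroup A) {G : PowerSeries A}
    (hG : PowerSeries.constantCoeff G = 0) : lawDefect F' Φ G ∈ cI (⊥ : Ideal A) 2 := by
  have h1 := ps_subst_linear_mem hG F'.zero_constantCoeff
  have h2 := ps_subst_linear_mem (σ := Fin 2) hG (cc_X (s := 0))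
  have h3 := ps_subst_linear_mem (σ := Fin 2) hG (cc_X (s := 1))
  have h4 := subst_sub_linear_mem Φ (cc_ps (σ := Fin 2) (x := X 0) hG cc_X)
    (cc_ps (σ := Fin 2) (x := X 1) hG cc_X)
  have h5 : F'.toPowerSeries - (X 0 + X 1) ∈ cI (⊥ : Ideal A) 2 := by
    simpa [subst_pair_XX] using subst_sub_linear_mem F' (cc_X (σ := Fin 2) (s := 0))
      (cc_X (s := 1))
  convert Ideal.sub_mem _ (Ideal.add_mem _ h1 (Ideal.mul_mem_left _ (C (PowerSeries.coeff 1 G)) h5))
    (Ideal.add_mem _ (Ideal.add_mem _ h2 h3) h4) using 1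
  simp only [lawDefect]
  ring

/-! ### First order behaviour -/

variable {p : ℕ} [Fact p.Prime] {n : ℕ} {k : Type} [Field k] [CharP k p] [Finite k]
variable [Algebra (WittVector p k) A] {π : A →+* k} {F : FormalGroup (E0 p n k)}
  {F' : FormalGroup A} {α β : E0 p n k →ₐ[WittVector p k] A} {t N : ℕ} {G e : PowerSeries A}

theorem law_sub_mem (hB : IsBase (p := p) π)
    (ha : ∀ i, β (X i) - α (X i) ∈ RingHom.ker π ^ t) :
    (F.map β.toRingHom).toPowerSeries - (F.map α.toRingHom).toPowerSeries ∈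
      cI (RingHom.ker π ^ t) N := fun d _ => by
  simpa using algHom_sub_mem hB α β ha (coeff d F.toPowerSeries)

theorem law_sub_dTerm_mem (hB : IsBase (p := p) π)
    (ha : ∀ i, β (X i) - α (X i) ∈ RingHom.ker π ^ t) :
    (F.map β.toRingHom).toPowerSeries - (F.map α.toRingHom).toPowerSeries -
      dTerm F (fun i => β (X i) - α (X i)) ∈ cI (RingHom.ker π ^ (t + 1)) N := fun d _ => by
  simpa [coeff_dTerm] using algHom_linear hB α β ha (coeff d F.toPowerSeries)

theorem base_sub_law_mem (hB : IsBase (p := p) π) (hF' : F'.map π = special p n k F) :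
    F'.toPowerSeries - (F.map α.toRingHom).toPowerSeries ∈ cI (RingHom.ker π) N := by
  refine mem_cI_ker_iff.mpr ?_ N
  exact congrArg FormalGroup.toPowerSeries (hF'.trans (map_special hB F α).symm)

/-- The first order expansion of the lawDefect. -/
theorem perturb [F.IsComm] (hB : IsBase (p := p) π) (hF' : F'.map π = special p n k F)
    (ht : 1 ≤ t) (ha : ∀ i, β (X i) - α (X i) ∈ RingHom.ker π ^ t)
    (hG0 : PowerSeries.constantCoeff G = 0) (he0 : PowerSeries.constantCoeff e = 0)
    (hG : G - PowerSeries.X ∈ cI (RingHom.ker π) N) (he : e ∈ cI (RingHom.ker π ^ t) N) :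
    lawDefect F' (F.map β.toRingHom) (adj (F.map β.toRingHom) G e) -
      lawDefect F' (F.map α.toRingHom) G - lop F α (fun i => β (X i) - α (X i)) e ∈
      cI (RingHom.ker π ^ (t + 1)) N := by
  set M := RingHom.ker π with hM
  set Φ := F.map α.toRingHom with hΦdef
  set Ψ := F.map β.toRingHom with hΨdef
  have hMt : M ^ t ≤ M := Ideal.pow_le_self (by omega)
  have hMM : M ^ t * M ≤ M ^ (t + 1) := (pow_succ M t).ge
  have hMM' : M ^ t * M ^ t ≤ M ^ (t + 1) := by
    rw [← pow_add]; exact Ideal.pow_le_pow_right (by omega)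
  set x : MvPowerSeries (Fin 2) A := X 0 with hx
  set y : MvPowerSeries (Fin 2) A := X 1 with hy
  have cx : constantCoeff x = 0 := cc_X
  have cy : constantCoeff y = 0 := cc_X
  have cF : constantCoeff F'.toPowerSeries = 0 := F'.zero_constantCoeff
  set gF := PowerSeries.subst F'.toPowerSeries G with hgF
  set gx := PowerSeries.subst x G with hgx
  set gy := PowerSeries.subst y G with hgy
  set eF := PowerSeries.subst F'.toPowerSeries e with heF
  set ex := PowerSeries.subst x e with hex
  set ey := PowerSeries.subst y e with hey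
  have cgx : constantCoeff gx = 0 := cc_ps hG0 cx
  have cgy : constantCoeff gy = 0 := cc_ps hG0 cy
  have cgF : constantCoeff gF = 0 := cc_ps hG0 cF
  have cex : constantCoeff ex = 0 := cc_ps he0 cx
  have cey : constantCoeff ey = 0 := cc_ps he0 cy
  have ceF : constantCoeff eF = 0 := cc_ps he0 cF
  set S := subst ![gx, gy] Ψ.toPowerSeries with hS
  set E := subst ![ex, ey] Ψ.toPowerSeries with hE
  have cS : constantCoeff S = 0 := constantCoeff_subst2 Ψ cgx cgy
  have cE : constantCoeff E = 0 := constantCoeff_subst2 Ψ cex cey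
  set H1 := subst ![gF, eF] (quotY Ψ.toPowerSeries) with hH1
  set H2 := subst ![S, E] (quotY Ψ.toPowerSeries) with hH2
  -- the new lawDefect
  have hD : lawDefect F' Ψ (adj Ψ G e) = gF + eF * H1 - (S + E * H2) := by
    simp only [lawDefect, adj, ps_subst_law Ψ hG0 he0 cF, ps_subst_law Ψ hG0 he0 cc_X]
    rw [← hgF, ← heF, law_four Ψ cgx cex cgy cey, ← hS, ← hE,
      FormalGroup.subst_eq_add Ψ cgF ceF, FormalGroup.subst_eq_add Ψ cS cE]
  -- congruences of arguments
  have hFΦ : F'.toPowerSeries - Φ.toPowerSeries ∈ cI M N := base_sub_law_mem hB hF'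
  have hgF' : gF - Φ.toPowerSeries ∈ cI M N := by
    have := ps_subst_congr cF Φ.zero_constantCoeff hG hFΦ
    rwa [ps_subst_X Φ.zero_constantCoeff] at this
  have hgx' : gx - x ∈ cI M N := by
    have := ps_subst_congr cx cx hG (by simp)
    rwa [ps_subst_X cx] at this
  have hgy' : gy - y ∈ cI M N := by
    have := ps_subst_congr cy cy hG (by simp)
    rwa [ps_subst_X cy] at this
  have hxy : ∀ s, ![gx, gy] s - ![x, y] s ∈ cI M N := fun s => by
    fin_cases s
    · exact hgx'
    · exact hgy'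
  have hΔ : Ψ.toPowerSeries - Φ.toPowerSeries ∈ cI (M ^ t) N := law_sub_mem hB ha
  have hS' : S - Φ.toPowerSeries ∈ cI M N := by
    have := subst_congr (cc2 cgx cgy) (cc2 cx cy) (cI_le hMt hΔ) hxy
    rwa [hx, hy, subst_pair_XX] at this
  -- small quantities
  have hex' : ex ∈ cI (M ^ t) N := ps_subst_mem cx he
  have hey' : ey ∈ cI (M ^ t) N := ps_subst_mem cy he
  have heF' : eF ∈ cI (M ^ t) N := ps_subst_mem cF he
  have heΦ : eF - PowerSeries.subst Φ.toPowerSeries e ∈ cI (M ^ (t + 1)) N := by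
    simp only [hM, heF, PowerSeries.subst_def]
    exact cI_le hMM (subst_sub_subst_mem (fun _ => cF) (fun _ => Φ.zero_constantCoeff) he
      (fun _ => hFΦ))
  have hH0 : subst ![ex, ey] (quotY Ψ.toPowerSeries) - 1 ∈ cI (M ^ t) N := by
    have := subst_sub_C_mem (cc2 cex cey) (fun s => by fin_cases s <;> assumption)
      (quotY Ψ.toPowerSeries)
    rwa [constantCoeff_quotY, map_one] at this
  have hE1 : E - (ex + ey) ∈ cI (M ^ (t + 1)) N := by
    rw [hE, FormalGroup.subst_eq_add Ψ cex cey]
    convert cI_le hMM' (mul_mem_cI_mul hey' hH0) using 1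
    ring
  have hEt : E ∈ cI (M ^ t) N := by
    have := Ideal.add_mem _ (cI_le (Ideal.pow_le_pow_right (Nat.le_succ t)) hE1)
      (Ideal.add_mem _ hex' hey')
    simpa using this
  have hHH : H1 - H2 ∈ cI M N := subst_congr_arg (cc2 cgF ceF) (cc2 cS cE) _ (fun s => by
    fin_cases s
    · simpa using Ideal.sub_mem _ hgF' hS'
    · exact cI_le hMt (Ideal.sub_mem _ heF' hEt))
  have hHw : H1 - wPart Φ ∈ cI M N := by
    refine subst_congr (cc2 cgF ceF) (cc2 Φ.zero_constantCoeff (map_zero _))
      (coeff_add_single_mem (cI_le hMt (law_sub_mem hB ha))) (fun s => ?_)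
    fin_cases s
    · exact hgF'
    · simpa using cI_le hMt heF'
  have hec : ecob Φ e ∈ cI (M ^ t) N :=
    Ideal.sub_mem _ (Ideal.sub_mem _ (ps_subst_mem Φ.zero_constantCoeff he) hex') hey'
  -- the four error terms
  have T1 : (gF - S) - lawDefect F' Φ G + dTerm F (fun i => β (X i) - α (X i)) ∈
      cI (M ^ (t + 1)) N := by
    have h1 := cI_le hMM (subst_sub_subst_mem (cc2 cgx cgy) (cc2 cx cy) hΔ hxy)
    have h2 := law_sub_dTerm_mem (N := N) (F := F) hB ha
    rw [hx, hy, subst_pair_XX, subst_sub (hasSubst0 (cc2 cgx cgy))] at h1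
    convert Ideal.neg_mem_iff _ |>.mpr (Ideal.add_mem _ h1 h2) using 1
    simp only [lawDefect, ← hS, ← hgF, ← hgx, ← hgy, ← hx, ← hy]
    ring
  have T2 : (eF - E - ecob Φ e) * H1 ∈ cI (M ^ (t + 1)) N := by
    refine Ideal.mul_mem_right _ _ ?_
    convert Ideal.sub_mem _ heΦ hE1 using 1
    simp only [ecob, ← hx, ← hy, ← hex, ← hey]
    ring
  have T3 : ecob Φ e * (H1 - wPart Φ) ∈ cI (M ^ (t + 1)) N :=
    cI_le hMM (mul_mem_cI_mul hec hHw)
  have T4 : E * (H1 - H2) ∈ cI (M ^ (t + 1)) N := cI_le hMM (mul_mem_cI_mul hEt hHH)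
  convert Ideal.add_mem _ (Ideal.add_mem _ (Ideal.add_mem _ T1 T2) T3) T4 using 1
  rw [hD, lop, ← hΦdef]
  ring

theorem lop_mem (ha : ∀ i, β (X i) - α (X i) ∈ RingHom.ker π ^ t)
    (he : e ∈ cI (RingHom.ker π ^ t) N) :
    lop F α (fun i => β (X i) - α (X i)) e ∈ cI (RingHom.ker π ^ t) N := by
  refine Ideal.sub_mem _ (Ideal.mul_mem_left _ _ ?_) ?_
  · exact Ideal.sub_mem _ (Ideal.sub_mem _ (ps_subst_mem (F.map α.toRingHom).zero_constantCoeff he)
      (ps_subst_mem cc_X he)) (ps_subst_mem cc_X he)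
  · exact Ideal.sum_mem _ fun i _ => Ideal.mul_mem_right _ _ (C_mem_cI (ha i))

/-- A lawDefect which vanishes below degree `N` vanishes in degree `N` if it does so at one
exponent. -/
theorem defect_degree [F.IsComm] [F'.IsComm] (hB : IsBase (p := p) π) (hN : 2 ≤ N)
    (hG0 : PowerSeries.constantCoeff G = 0)
    (hG : PowerSeries.map π G = PowerSeries.X)
    (h1 : lawDefect F' (F.map α.toRingHom) G ∈ cI (RingHom.ker π ^ t) (N + 1))
    (h2 : lawDefect F' (F.map α.toRingHom) G ∈ cI (RingHom.ker π ^ (t + 1)) N)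
    (h0 : coeff (xy (lazIdx p N) (N - lazIdx p N)) (lawDefect F' (F.map α.toRingHom) G) ∈
      RingHom.ker π ^ (t + 1)) :
    lawDefect F' (F.map α.toRingHom) G ∈ cI (RingHom.ker π ^ (t + 1)) (N + 1) := by
  set M := RingHom.ker π with hM
  set Φ := F.map α.toRingHom with hΦ
  have hu : IsUnit (PowerSeries.coeff 1 G) := hB.isUnit (by
    rw [← PowerSeries.coeff_map, hG, PowerSeries.coeff_one_X]
    exact one_ne_zero)
  set gi := G.substInvOfIsUnit hu
  have cgi : PowerSeries.constantCoeff gi = 0 := PowerSeries.constantCoeff_substInvOfIsUnit _ hu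
  have hr : PowerSeries.subst gi G = PowerSeries.X := PowerSeries.subst_substInvOfIsUnit_right _ hG0 hu
  have hl : PowerSeries.subst G gi = PowerSeries.X := PowerSeries.subst_substInvOfIsUnit_left _ hG0 hu
  have hgi : PowerSeries.map π gi = PowerSeries.X := by
    have := congrArg (PowerSeries.map π) hl
    rwa [PowerSeries.map_X, show PowerSeries.map π (PowerSeries.subst G gi) =
      PowerSeries.subst (PowerSeries.map π G) (PowerSeries.map π gi) from
      PowerSeries.map_subst (PowerSeries.HasSubst.of_constantCoeff_zero' hG0) gi, hG,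
      PowerSeries.X_subst] at this
  set x0 := PowerSeries.subst (X 0 : MvPowerSeries (Fin 2) A) gi
  set x1 := PowerSeries.subst (X 1 : MvPowerSeries (Fin 2) A) gi
  have c0 : constantCoeff x0 = 0 := cc_ps cgi cc_X
  have c1 : constantCoeff x1 = 0 := cc_ps cgi cc_X
  have hx := hasSubst0 (cc2 c0 c1)
  let P := conjLaw F' G gi hG0 cgi hr hl
  have hP : P.toPowerSeries - Φ.toPowerSeries = subst ![x0, x1] (lawDefect F' Φ G) := by
    rw [lawDefect, subst_sub hx, subst_ps_subst G F'.zero_constantCoeff hx,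
      subst_law_subst Φ (cc_ps hG0 cc_X) (cc_ps hG0 cc_X) hx, subst_ps_subst G cc_X hx,
      subst_ps_subst G cc_X hx, subst_X hx, subst_X hx]
    simp only [Matrix.cons_val_zero, Matrix.cons_val_one, Matrix.cons_val_fin_one]
    rw [show PowerSeries.subst x0 G = X 0 by rw [← ps_subst_ps G gi cgi cc_X, hr, ps_subst_X cc_X],
      show PowerSeries.subst x1 G = X 1 by rw [← ps_subst_ps G gi cgi cc_X, hr, ps_subst_X cc_X],
      subst_pair_XX]
    rfl
  have hdiff : subst ![x0, x1] (lawDefect F' Φ G) - lawDefect F' Φ G ∈ cI (M ^ (t + 1)) (N + 1) := by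
    have hgiX : ∀ D, gi - PowerSeries.X ∈ cI M D := mem_cI_ker_iff.mpr (by
      show PowerSeries.map π gi = PowerSeries.map π PowerSeries.X
      rw [hgi, PowerSeries.map_X])
    have := subst_sub_subst_mem_high (x := ![x0, x1])
      (y := ![(X 0 : MvPowerSeries (Fin 2) A), X 1]) (K := M) (cc2 c0 c1) (cc2 cc_X cc_X)
      (fun s => by
        fin_cases s
        · have := ps_subst_congr (x := (X 0 : MvPowerSeries (Fin 2) A)) cc_X cc_X (hgiX 2)
            (show X 0 - X 0 ∈ _ by simp)
          rwa [ps_subst_X cc_X] at this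
        · have := ps_subst_congr (x := (X 1 : MvPowerSeries (Fin 2) A)) cc_X cc_X (hgiX 2)
            (show X 1 - X 1 ∈ _ by simp)
          rwa [ps_subst_X cc_X] at this)
      h2 h1 (pow_succ M t).ge
    rwa [subst_pair_XX] at this
  have hlt := lazIdx_lt (p := p) Fact.out hN
  have key := law_diff_mem (p := p) Fact.out P Φ hN
    (hP ▸ subst_mem_cI (cc2 c0 c1) h2)
    (fun d hd => by
      rw [pow_succ', hP]
      exact Ideal.mul_mem_mul hB.p_mem (subst_mem_cI (cc2 c0 c1) h1 d (by omega)))
    (by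
      have h := Ideal.add_mem _ (hdiff (xy (lazIdx p N) (N - lazIdx p N))
        (by rw [degree_xy]; omega)) h0
      rwa [map_sub, sub_add_cancel, ← hP] at h)
  rw [hP] at key
  simpa using Ideal.sub_mem _ key hdiff

end Vale.Agent.P217
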