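import Vale.Agent.P217.Honda

/-!
# Digit expansions of endomorphisms of a Honda law

An endomorphism with coefficients fixed by `x ↦ x^(p^h)` plus suitable multiples of
`g^s X^(p^i)`, `s < h`, vanishes to every order; here `g` generates the fixed field.
-/

noncomputable section

namespace Vale.Agent.P217

set_option linter.unusedSectionVars false

open Filter Topology Finset

variable {p : ℕ} [hp : Fact p.Prime] {h : ℕ}

theorem castHom_pow (a : ZMod p) : (ZMod.castHom dvd_rfl (Tilt p) a) ^ p = ZMod.castHom dvd_rfl _ a := by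
  rw [← map_pow, ZMod.pow_card]

/-- Every fixed element has digits with respect to `1, g, ..., g^(h-1)`. -/
theorem exists_fixed_digits (hh : 1 ≤ h) {g : Tilt p} (hg : g ^ p ^ h = g)
    (hinj : Function.Injective fun c : Fin h => g.coeff 0 ^ p ^ (c : ℕ)) {a : Tilt p}
    (ha : a ^ p ^ h = a) : ∃ d : Fin h → ℕ, (∀ s, d s < p) ∧ a = ∑ s, (d s : Tilt p) * g ^ (s : ℕ) := by
  classical
  have : NeZero p := ⟨hp.1.ne_zero⟩
  set φ : (Fin h → ZMod p) → Tilt p := fun c => ∑ s, ZMod.castHom dvd_rfl (Tilt p) (c s) * g ^ (s : ℕ)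
    with hφ
  have hgi : Function.Injective fun c : Fin h => g ^ p ^ (c : ℕ) := fun u v huv => hinj (by
    simpa [Tilt.coeff_npow] using congrArg (fun z : Tilt p => z.coeff 0) huv)
  have hφi : Function.Injective φ := fun u v huv => by
    have hzero : ∀ i : ℕ, ∑ s, ZMod.castHom dvd_rfl (Tilt p) (u s - v s) * (g ^ p ^ i) ^ (s : ℕ) = 0 := by
      intro i
      induction i with
      | zero =>
        simp only [pow_zero, pow_one, map_sub, sub_mul, Finset.sum_sub_distrib]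
        exact sub_eq_zero.mpr huv
      | succ i ih =>
        have := congrArg (frobenius (Tilt p) p) ih
        rw [map_sum, map_zero] at this
        rw [← this]
        refine Finset.sum_congr rfl fun s _ => ?_
        rw [frobenius_def, mul_pow, castHom_pow, ← pow_mul, ← pow_mul, ← pow_mul, pow_succ]
        congr 2
        ring
    have := Matrix.eq_zero_of_forall_index_sum_mul_pow_eq_zero hgi (fun j => hzero j)
    funext s
    have hs := congrFun this s
    simpa [sub_eq_zero] using (map_eq_zero_iff _ (RingHom.injective _)).mp hs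
  have hQ : 1 < p ^ h := one_lt_pow₀ hp.1.one_lt (by omega)
  set P : Polynomial (Tilt p) := Polynomial.X ^ p ^ h - Polynomial.X with hP
  have hP0 : P ≠ 0 := FiniteField.X_pow_card_sub_X_ne_zero _ hQ
  have hroot : ∀ z : Tilt p, z ^ p ^ h = z → z ∈ P.roots.toFinset := fun z hz => by
    rw [Multiset.mem_toFinset, Polynomial.mem_roots hP0]
    simp [hP, hz]
  have hfix : ∀ c, φ c ^ p ^ h = φ c := fun c => by
    have hc : ∀ (b : ZMod p) (i : ℕ),
        ZMod.castHom dvd_rfl (Tilt p) b ^ p ^ i = ZMod.castHom dvd_rfl _ b := fun b i => by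
      induction i with
      | zero => simp
      | succ i ih => rw [pow_succ, pow_mul, ih, castHom_pow]
    rw [← iterateFrobenius_def p h, hφ, map_sum]
    refine Finset.sum_congr rfl fun s _ => ?_
    rw [iterateFrobenius_def, mul_pow, hc, ← pow_mul, mul_comm (s : ℕ), pow_mul, hg]
  have himage : Finset.univ.image φ = P.roots.toFinset := by
    refine Finset.eq_of_subset_of_card_le (fun z hz => ?_) ?_
    · obtain ⟨c, -, rfl⟩ := Finset.mem_image.mp hz
      exact hroot _ (hfix c)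
    · rw [Finset.card_image_of_injective _ hφi, Finset.card_univ, Fintype.card_fun, ZMod.card,
        Fintype.card_fin]
      refine (Multiset.toFinset_card_le _).trans ((Polynomial.card_roots' P).trans ?_)
      rw [hP, FiniteField.X_pow_card_sub_X_natDegree_eq _ hQ]
  obtain ⟨c, -, hc⟩ := Finset.mem_image.mp (himage ▸ hroot a ha)
  refine ⟨fun s => (c s).val, fun s => ZMod.val_lt _, ?_⟩
  rw [← hc, hφ]
  refine Finset.sum_congr rfl fun s _ => ?_
  conv_lhs => rw [← ZMod.natCast_zmod_val (c s), map_natCast]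

variable {Γ : FormalGroup (unitBall (Tilt p))}

/-- A map given by a series with coefficients fixed by `x ↦ x^(p^h)`. -/
def SerMap (h : ℕ) (f : Pt Γ → Pt Γ) : Prop :=
  ∃ φ : PowerSeries (unitBall (Tilt p)), PowerSeries.constantCoeff φ = 0 ∧
    (∀ i, PowerSeries.coeff i φ ^ p ^ h = PowerSeries.coeff i φ) ∧
    ∀ z, (f z).1 = fapp φ z.1

theorem fixed_iff_map {σ : Type*} {φ : MvPowerSeries σ (unitBall (Tilt p))} :
    (∀ d, MvPowerSeries.coeff d φ ^ p ^ h = MvPowerSeries.coeff d φ) ↔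
      MvPowerSeries.map (iterateFrobenius (unitBall (Tilt p)) p h) φ = φ := by
  constructor
  · intro h'
    ext d
    simp [iterateFrobenius_def, h']
  · intro h' d
    conv_rhs => rw [← h']
    simp [iterateFrobenius_def]

theorem fixed_series_iff {φ : PowerSeries (unitBall (Tilt p))} :
    (∀ i, PowerSeries.coeff i φ ^ p ^ h = PowerSeries.coeff i φ) ↔
      ∀ d, MvPowerSeries.coeff d φ ^ p ^ h = MvPowerSeries.coeff d φ := by
  refine ⟨fun h' d => ?_, fun h' i => h' _⟩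
  rw [show d = Finsupp.single () (d ()) by ext; simp]
  exact h' (d ())

theorem pow_pow_fixed {a : unitBall (Tilt p)} (ha : a ^ p = a) (i : ℕ) : a ^ p ^ i = a := by
  induction i with
  | zero => simp
  | succ i ih => rw [pow_succ, pow_mul, ih, ha]

namespace SerMap

variable [Γ.IsComm] (hΓ : Honda h Γ)
include hΓ

theorem zero : SerMap h (0 : Pt Γ → Pt Γ) := by
  refine ⟨0, by simp, fun i => by simp [zero_pow (pow_ne_zero h hp.1.ne_zero)], fun z => ?_⟩
  exact (ev_zero (hasEval1 z.2)).symm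

theorem add {f f' : Pt Γ → Pt Γ} (hf : SerMap h f) (hf' : SerMap h f') : SerMap h (f + f') := by
  obtain ⟨φ, h0, hφ, hfφ⟩ := hf
  obtain ⟨ψ, h0', hψ, hfψ⟩ := hf'
  have hs := hasSubst_pair (σ := Unit) h0 h0'
  refine ⟨Γ.toPowerSeries.subst ![φ, ψ], constantCoeff_subst_pair Γ h0 h0', ?_, fun z => ?_⟩
  · rw [fixed_series_iff, fixed_iff_map, MvPowerSeries.map_subst hs]
    rw [fixed_series_iff, fixed_iff_map] at hφ hψ
    rw [fixed_iff_map.mp fun d => pow_pow_fixed (hΓ.frob d) h]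
    congr 1
    funext s
    fin_cases s <;> simpa
  · rw [Pi.add_apply, Pt.add_def, hfφ, hfψ]
    refine Eq.symm ?_
    rw [fapp, ev1, ev_subst hs (hasEval1 z.2), fadd]
    congr 1
    funext s
    fin_cases s <;> rfl

theorem nsmul {f : Pt Γ → Pt Γ} (hf : SerMap h f) (j : ℕ) : SerMap h (j • f) := by
  induction j with
  | zero => rw [zero_nsmul]; exact SerMap.zero hΓ
  | succ j ih => rw [succ_nsmul]; exact SerMap.add hΓ ih hf

theorem sum {ι : Type*} (s : Finset ι) {f : ι → Pt Γ → Pt Γ} (hf : ∀ i, SerMap h (f i)) :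
    SerMap h (∑ i ∈ s, f i) := by
  classical
  induction s using Finset.induction_on with
  | empty => rw [Finset.sum_empty]; exact SerMap.zero hΓ
  | @insert a s ha ih => rw [Finset.sum_insert ha]; exact SerMap.add hΓ (hf a) ih

theorem fmul_powp {z : Tilt p} (hz : z ^ p ^ h = z) (i : ℕ) :
    SerMap h (fun x : Pt Γ => hΓ.fmul hz (Pt.powp i x)) := by
  set z' : unitBall (Tilt p) := ⟨z, norm_le_one_of_fixed hΓ.pos hz⟩
  refine ⟨PowerSeries.C z' * PowerSeries.X ^ p ^ i, ?_, fun j => ?_, fun x => ?_⟩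
  · simp [zero_pow (pow_ne_zero i hp.1.ne_zero)]
  · rw [PowerSeries.coeff_C_mul, PowerSeries.coeff_X_pow]
    split_ifs
    · rw [mul_one]
      exact Subtype.ext (by rw [SubmonoidClass.coe_pow]; exact hz)
    · simp [zero_pow (pow_ne_zero h hp.1.ne_zero)]
  · refine Eq.symm ?_
    rw [fapp, ev1, ev_mul (hasEval1 x.2), ev_pow (hasEval1 x.2)]
    have h1 : ev (RingHom.id _) (fun _ : Unit => x.1) (PowerSeries.C z' : PowerSeries _) = z' :=
      ev_C (φ := RingHom.id _) z'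
    have h2 : ev (RingHom.id _) (fun _ : Unit => x.1) (PowerSeries.X : PowerSeries _) = x.1 :=
      fapp_X
    rw [h1, h2]
    exact Subtype.ext rfl

/-- A nonzero map of this kind has an exact order, a unit leading coefficient, and the order of
an additive one is a power of `p`. -/
theorem eq_zero_or_lead {f : Pt Γ → Pt Γ} (hf : SerMap h f)
    (hadd : ∀ x y, f (x + y) = f x + f y) :
    (∀ z, (f z).co = 0) ∨ ∃ e, ∃ a : Tilt p, a ^ p ^ h = a ∧ ‖a‖ = 1 ∧
      ∀ z, ‖(f z).co - a * z.co ^ p ^ e‖ ≤ ‖z.co‖ ^ (p ^ e + 1) := by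
  classical
  obtain ⟨φ, h0, hφ, hfφ⟩ := hf
  set q : ℕ → Tilt p := fun j => ((PowerSeries.coeff j φ : unitBall (Tilt p)) : Tilt p)
  have hfix : ∀ j, q j ^ p ^ h = q j := fun j => by
    rw [← SubmonoidClass.coe_pow, hφ]
  have hqg : LinGrowth q := ⟨1, fun d => by
    rw [one_mul]
    rcases d with _ | d
    · simp [q, h0]
    · exact (norm_coe_le_one _).trans (by simp)⟩
  have hsum : ∀ z : Pt Γ, HasSum (fun j => q j * z.co ^ j) (f z).co := fun z => by
    have := (hasSum_ev1 (φ := RingHom.id _) z.2 φ).map (unitBall (Tilt p)).subtype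
      continuous_subtype_val
    show HasSum (fun j => q j * z.co ^ j) (((f z).1 : unitBall (Tilt p)) : Tilt p)
    rw [hfφ]
    exact this.congr_fun fun j => rfl
  by_cases hzero : ∀ j, q j = 0
  · exact Or.inl fun z => (hsum z).unique (hasSum_zero.congr_fun fun j => by simp [hzero])
  push Not at hzero
  refine Or.inr ?_
  set j₀ := Nat.find hzero
  have hj₀ : q j₀ ≠ 0 := Nat.find_spec hzero
  have hlow : ∀ j < j₀, q j = 0 := fun j hj => not_not.mp (Nat.find_min hzero hj)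
  have hnorm : ‖q j₀‖ = 1 := by
    have hQ : 1 < p ^ h := one_lt_pow₀ hp.1.one_lt (by have := hΓ.pos; omega)
    refine le_antisymm (norm_coe_le_one _) (le_of_not_gt fun hlt => ?_)
    have := congrArg norm (hfix j₀)
    rw [norm_pow] at this
    exact (pow_lt_self_of_lt_one₀ (norm_pos_iff.mpr hj₀) hlt hQ).ne this
  have hlead : ∀ z : Pt Γ, ‖(f z).co - q j₀ * z.co ^ j₀‖ ≤ ‖z.co‖ ^ (j₀ + 1) := fun z => by
    refine norm_le_of_hasSum ((hsum z).sub (hasSum_ite_eq j₀ (q j₀ * z.co ^ j₀)))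
      (by positivity) fun j => ?_
    rcases lt_trichotomy j j₀ with hj | rfl | hj
    · simp [hlow j hj, hj.ne]
    · simp
    · rw [if_neg hj.ne', sub_zero, norm_mul, norm_pow]
      exact (mul_le_of_le_one_left (by positivity) (norm_coe_le_one _)).trans
        (pow_le_pow_of_le_one (norm_nonneg _) z.norm_lt.le hj)
  obtain ⟨w, hw⟩ := Tilt.exists_coeff (p : ℂ_[p]) 0
  have hw1 : ‖w‖ < 1 := by rw [Tilt.norm_def, hw]; exact norm_p_lt_one
  have hw0 : 0 < ‖w‖ := by rw [Tilt.norm_def, hw]; exact Tilt.tau_pos p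
  have hj1 : 1 ≤ j₀ := Nat.one_le_iff_ne_zero.mpr fun h' => hj₀ (h' ▸ hqg.zero)
  obtain ⟨e, he⟩ : ∃ e, j₀ = p ^ e := by
    refine dominant_isPow (L := Tilt p) hp.1
      (by rw [CharP.cast_eq_zero, norm_zero]; exact zero_lt_one) hqg hw1 (pow_pos hw0 j₀)
      (fun j => ?_) (fun ζ η hζ hη => ?_) (by rw [norm_mul, norm_pow, hnorm, one_mul])
    · rcases lt_or_ge j j₀ with hj | hj
      · simp [hlow j hj]
      · rw [norm_mul, norm_pow]
        exact (mul_le_of_le_one_left (by positivity) (norm_coe_le_one _)).trans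
          (pow_le_pow_of_le_one hw0.le hw1.le hj)
    have hle : ∀ {ζ : Tilt p}, ‖ζ‖ ≤ 1 → ‖w * ζ‖ ≤ ‖w‖ := fun {ζ} hζ => by
      rw [norm_mul]; exact mul_le_of_le_one_right hw0.le hζ
    set x₁ : Pt Γ := Pt.mk' Γ (w * ζ) ((hle hζ).trans_lt hw1) with hx₁
    set x₂ : Pt Γ := Pt.mk' Γ (w * η) ((hle hη).trans_lt hw1) with hx₂
    have hw2 : ‖w‖ ^ 2 < ‖w‖ := by rw [sq]; exact mul_lt_of_lt_one_left hw0 hw1
    have hs : ‖(x₁ + x₂).co - (w * ζ + w * η)‖ < ‖w‖ := by
      refine (Pt.norm_add_sub_le x₁ x₂).trans_lt (lt_of_le_of_lt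
        (pow_le_pow_left₀ (le_max_of_le_left (norm_nonneg _)) (max_le ?_ ?_) 2) hw2)
      · simpa [hx₁] using hle hζ
      · simpa [hx₂] using hle hη
    have hz' : ‖(x₁ + x₂).co / w - (ζ + η)‖ < 1 := by
      rw [show (x₁ + x₂).co / w - (ζ + η) = ((x₁ + x₂).co - (w * ζ + w * η)) / w by
        field_simp [norm_pos_iff.mp hw0], norm_div, div_lt_one hw0]
      exact hs
    refine ⟨(x₁ + x₂).co / w, ?_, hz', ?_⟩
    · rw [← sub_add_cancel ((x₁ + x₂).co / w) (ζ + η)]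
      exact (IsUltrametricDist.norm_add_le_max _ _).trans
        (max_le hz'.le ((IsUltrametricDist.norm_add_le_max _ _).trans (max_le hζ hη)))
    have hq' : ∀ x : Pt Γ, qev q x.co = (f x).co := fun x => (hqg.hasSum x.norm_lt).unique (hsum x)
    have hval : ∀ x : Pt Γ, ‖x.co‖ ≤ ‖w‖ → ‖(f x).co‖ ≤ ‖w‖ ^ j₀ := fun x hx => by
      rw [← sub_add_cancel (f x).co (q j₀ * x.co ^ j₀)]
      refine (IsUltrametricDist.norm_add_le_max _ _).trans (max_le ((hlead x).trans ?_) ?_)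
      · exact (pow_le_pow_left₀ (norm_nonneg _) hx _).trans
          (pow_le_pow_of_le_one hw0.le hw1.le (Nat.le_succ _))
      · rw [norm_mul, norm_pow, hnorm, one_mul]
        exact pow_le_pow_left₀ (norm_nonneg _) hx _
    rw [mul_div_cancel₀ _ (norm_pos_iff.mp hw0), ← Pt.co_mk' Γ (w * ζ) ((hle hζ).trans_lt hw1),
      ← hx₁, ← Pt.co_mk' Γ (w * η) ((hle hη).trans_lt hw1), ← hx₂, hq', hq', hq', hadd,
      sub_sub]
    refine (Pt.norm_add_sub_le (f x₁) (f x₂)).trans_lt ?_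
    refine lt_of_le_of_lt (pow_le_pow_left₀ (le_max_of_le_left (norm_nonneg _))
      (max_le (hval x₁ ?_) (hval x₂ ?_)) 2) ?_
    · simpa [hx₁] using hle hζ
    · simpa [hx₂] using hle hη
    · rw [sq]
      exact mul_lt_of_lt_one_left (pow_pos hw0 _) (pow_lt_one₀ hw0.le hw1 (by omega))
  exact ⟨e, q j₀, hfix j₀, hnorm, fun z => he ▸ hlead z⟩

end SerMap

theorem norm_sub_le_max' (a b : Tilt p) : ‖a - b‖ ≤ max ‖a‖ ‖b‖ := by
  simpa [sub_eq_add_neg] using IsUltrametricDist.norm_add_le_max a (-b)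

theorem Pt.norm_sum_sub_le [Γ.IsComm] {ι : Type*} (s : Finset ι) (f : ι → Pt Γ) {ρ : ℝ}
    (hρ : ∀ i ∈ s, ‖(f i).co‖ ≤ ρ) (hρ0 : 0 ≤ ρ) :
    ‖(∑ i ∈ s, f i).co‖ ≤ ρ ∧ ‖(∑ i ∈ s, f i).co - ∑ i ∈ s, (f i).co‖ ≤ ρ ^ 2 := by
  classical
  induction s using Finset.induction_on with
  | empty =>
    rw [Finset.sum_empty, Finset.sum_empty, Pt.co_zero, sub_self, norm_zero]
    exact ⟨hρ0, sq_nonneg ρ⟩
  | @insert a s ha ih =>
    obtain ⟨ih1, ih2⟩ := ih fun i hi => hρ i (Finset.mem_insert_of_mem hi)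
    have h1 := hρ a (Finset.mem_insert_self a s)
    rw [Finset.sum_insert ha, Finset.sum_insert ha]
    refine ⟨(Pt.norm_add_le _ _).trans (max_le h1 ih1), ?_⟩
    rw [show (f a + ∑ i ∈ s, f i).co - ((f a).co + ∑ i ∈ s, (f i).co) =
      ((f a + ∑ i ∈ s, f i).co - ((f a).co + (∑ i ∈ s, f i).co)) +
        ((∑ i ∈ s, f i).co - ∑ i ∈ s, (f i).co) by ring]
    exact (IsUltrametricDist.norm_add_le_max _ _).trans (max_le ((Pt.norm_add_sub_le _ _).trans
      (pow_le_pow_left₀ (le_max_of_le_left (norm_nonneg _)) (max_le h1 ih1) 2)) ih2)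

theorem Pt.norm_nsmul_sub_le [Γ.IsComm] (j : ℕ) (x : Pt Γ) :
    ‖(j • x).co‖ ≤ ‖x.co‖ ∧ ‖(j • x).co - (j : Tilt p) * x.co‖ ≤ ‖x.co‖ ^ 2 := by
  have := Pt.norm_sum_sub_le (Finset.range j) (fun _ => x) (fun _ _ => le_rfl) (norm_nonneg x.co)
  simpa using this

namespace Honda

variable [Γ.IsComm] (hΓ : Honda h Γ)

/-- The correction `Σ_s d_s • (g^s x^(p^i))`. -/
def corr {g : Tilt p} (hg : g ^ p ^ h = g) (d : Fin h → ℕ) (i : ℕ) (x : Pt Γ) : Pt Γ :=
  ∑ s, d s • hΓ.fmul (z := g ^ (s : ℕ)) (by rw [← pow_mul, mul_comm, pow_mul, hg]) (Pt.powp i x)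

variable {g : Tilt p} (hg : g ^ p ^ h = g)
  (hinj : Function.Injective fun c : Fin h => g.coeff 0 ^ p ^ (c : ℕ))

theorem serMap_corr (d : Fin h → ℕ) (i : ℕ) : SerMap h (hΓ.corr hg d i) := by
  have := SerMap.sum hΓ Finset.univ fun s : Fin h => SerMap.nsmul hΓ (SerMap.fmul_powp hΓ
    (z := g ^ (s : ℕ)) (by rw [← pow_mul, mul_comm, pow_mul, hg]) i) (d s)
  convert this using 1
  funext x
  simp [corr, Finset.sum_apply]

theorem corr_add (d : Fin h → ℕ) (i : ℕ) (x y : Pt Γ) :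
    hΓ.corr hg d i (x + y) = hΓ.corr hg d i x + hΓ.corr hg d i y := by
  simp only [corr, ← Finset.sum_add_distrib]
  refine Finset.sum_congr rfl fun s _ => ?_
  rw [hΓ.powp_add, hΓ.fmul_add, nsmul_add]

theorem Gper_corr (l : ℕ) (d : Fin h → ℕ) (i : ℕ) (x : Pt Γ) :
    Gper h l (hΓ.corr hg d i x).co =
      (∑ s, (d s : ℂ_[p]) * (g.coeff 0 ^ p ^ l) ^ (s : ℕ)) * Gper h (l + i) x.co := by
  have hsum : ∀ (t : Finset (Fin h)) (f : Fin h → Pt Γ),
      Gper h l (∑ s ∈ t, f s).co = ∑ s ∈ t, Gper h l (f s).co := fun t f => by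
    classical
    induction t using Finset.induction_on with
    | empty => simpa using hΓ.Gper_nsmul l 0 (0 : Pt Γ)
    | @insert a t ha ih => rw [Finset.sum_insert ha, Finset.sum_insert ha, hΓ.Gper_add, ih]
  rw [corr, hsum, Finset.sum_mul]
  refine Finset.sum_congr rfl fun s _ => ?_
  rw [hΓ.Gper_nsmul, Honda.co_fmul, Gper_fixed_mul hΓ.pos l
    (by rw [← pow_mul, mul_comm, pow_mul, hg]) (Pt.powp i x).norm_lt, Pt.co_powp,
    Gper_pow hΓ.pos l i x.norm_lt, Tilt.coeff_npow, ← pow_mul, ← pow_mul]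
  ring_nf

include hinj in
/-- One step: kill the coefficient of order `p^i`. -/
theorem exists_digit_step {f : Pt Γ → Pt Γ} (hf : SerMap h f)
    (hadd : ∀ x y, f (x + y) = f x + f y) {i : ℕ} (hord : ∀ z, ‖(f z).co‖ ≤ ‖z.co‖ ^ p ^ i) :
    ∃ d : Fin h → ℕ, (∀ s, d s < p) ∧
      ∀ z, ‖(f z + hΓ.corr hg d i z).co‖ ≤ ‖z.co‖ ^ p ^ (i + 1) := by
  obtain ⟨w, hw⟩ := Tilt.exists_coeff (p : ℂ_[p]) 0
  have hw1 : ‖w‖ < 1 := by rw [Tilt.norm_def, hw]; exact norm_p_lt_one
  have hw0 : 0 < ‖w‖ := by rw [Tilt.norm_def, hw]; exact Tilt.tau_pos p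
  have hexact : ∀ {f' : Pt Γ → Pt Γ} {e : ℕ} {a : Tilt p} {N : ℕ}, ‖a‖ = 1 →
      (∀ z : Pt Γ, ‖(f' z).co - a * z.co ^ p ^ e‖ ≤ ‖z.co‖ ^ (p ^ e + 1)) →
      (∀ z : Pt Γ, ‖(f' z).co‖ ≤ ‖z.co‖ ^ N) → N ≤ p ^ e := by
    intro f' e a N ha hlead hN
    by_contra hlt
    rw [not_le] at hlt
    set z := Pt.mk' Γ w hw1
    have h1 : ‖z.co‖ ^ p ^ e ≤ ‖z.co‖ ^ (p ^ e + 1) := by
      have h2 : ‖a * z.co ^ p ^ e‖ = ‖z.co‖ ^ p ^ e := by rw [norm_mul, norm_pow, ha, one_mul]
      rw [← h2, ← sub_sub_cancel (f' z).co (a * z.co ^ p ^ e)]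
      exact (norm_sub_le_max' _ _).trans (max_le ((hN z).trans
        (pow_le_pow_of_le_one (norm_nonneg _) z.norm_lt.le hlt)) (hlead z))
    rw [Pt.co_mk', pow_succ] at h1
    exact absurd h1 (not_le.mpr (mul_lt_of_lt_one_right (pow_pos hw0 _) hw1))
  obtain ⟨a, ha, hf'⟩ : ∃ a : Tilt p, a ^ p ^ h = a ∧
      ∀ z, ‖(f z).co - a * z.co ^ p ^ i‖ ≤ ‖z.co‖ ^ (p ^ i + 1) := by
    rcases SerMap.eq_zero_or_lead hΓ hf hadd with h0 | ⟨e, a, ha, han, hlead⟩
    · exact ⟨0, zero_pow (pow_ne_zero _ hp.1.ne_zero), fun z => by simp [h0]⟩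
    rcases eq_or_lt_of_le (hexact han hlead hord) with hie | hie
    · exact ⟨a, ha, fun z => by rw [hie]; exact hlead z⟩
    refine ⟨0, zero_pow (pow_ne_zero _ hp.1.ne_zero), fun z => ?_⟩
    rw [zero_mul, sub_zero, ← sub_add_cancel (f z).co (a * z.co ^ p ^ e)]
    refine (IsUltrametricDist.norm_add_le_max _ _).trans (max_le ((hlead z).trans ?_) ?_)
    · exact pow_le_pow_of_le_one (norm_nonneg _) z.norm_lt.le (Nat.succ_le_succ hie.le)
    · rw [norm_mul, norm_pow, han, one_mul]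
      exact pow_le_pow_of_le_one (norm_nonneg _) z.norm_lt.le hie
  have hna : (-a) ^ p ^ h = -a := by
    rw [← iterateFrobenius_def p h, map_neg, iterateFrobenius_def, ha]
  obtain ⟨d, hd, hda⟩ := exists_fixed_digits hΓ.pos hg hinj hna
  refine ⟨d, hd, ?_⟩
  set f' : Pt Γ → Pt Γ := fun z => f z + hΓ.corr hg d i z
  have hfser : SerMap h f' := SerMap.add hΓ hf (hΓ.serMap_corr hg d i)
  have hfadd : ∀ x y, f' (x + y) = f' x + f' y := fun x y => by
    simp only [f', hadd, hΓ.corr_add]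
    abel
  have hpi : 0 < p ^ i := pow_pos hp.1.pos i
  have hsmall : ∀ z, ‖(f' z).co‖ ≤ ‖z.co‖ ^ (p ^ i + 1) := by
    intro z
    set ρ := ‖z.co‖ ^ p ^ i
    have hρ : 0 ≤ ρ := by positivity
    have hρ2 : ρ ^ 2 ≤ ‖z.co‖ ^ (p ^ i + 1) := by
      rw [← pow_mul]
      exact pow_le_pow_of_le_one (norm_nonneg _) z.norm_lt.le (by omega)
    have hterm : ∀ s : Fin h, ‖(hΓ.fmul (z := g ^ (s : ℕ)) (by rw [← pow_mul, mul_comm, pow_mul, hg])
        (Pt.powp i z)).co‖ ≤ ρ := fun s => by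
      rw [Honda.co_fmul, Pt.co_powp, norm_mul, norm_pow, norm_pow]
      exact mul_le_of_le_one_left hρ (pow_le_one₀ (norm_nonneg _) (norm_le_one_of_fixed hΓ.pos hg))
    obtain ⟨hc1, hc2⟩ := Pt.norm_sum_sub_le (Finset.univ : Finset (Fin h)) (fun s => d s •
      hΓ.fmul (z := g ^ (s : ℕ)) (by rw [← pow_mul, mul_comm, pow_mul, hg]) (Pt.powp i z))
      (fun s _ => (Pt.norm_nsmul_sub_le _ _).1.trans (hterm s)) hρ
    rw [show ∑ s, d s • hΓ.fmul (z := g ^ (s : ℕ)) (by rw [← pow_mul, mul_comm, pow_mul, hg])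
      (Pt.powp i z) = hΓ.corr hg d i z from rfl] at hc1 hc2
    have hlin : ‖(hΓ.corr hg d i z).co + a * z.co ^ p ^ i‖ ≤ ρ ^ 2 := by
      rw [show (hΓ.corr hg d i z).co + a * z.co ^ p ^ i = ((hΓ.corr hg d i z).co -
        ∑ s, (d s • hΓ.fmul (z := g ^ (s : ℕ)) (by rw [← pow_mul, mul_comm, pow_mul, hg])
          (Pt.powp i z)).co) + (∑ s, (d s • hΓ.fmul (z := g ^ (s : ℕ))
            (by rw [← pow_mul, mul_comm, pow_mul, hg]) (Pt.powp i z)).co - -a * z.co ^ p ^ i) by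
        ring]
      refine (IsUltrametricDist.norm_add_le_max _ _).trans (max_le hc2 ?_)
      rw [hda, Finset.sum_mul, ← Finset.sum_sub_distrib]
      refine IsUltrametricDist.norm_sum_le_of_forall_le_of_nonneg (by positivity) fun s _ => ?_
      rw [mul_assoc]
      exact (Pt.norm_nsmul_sub_le _ _).2.trans (pow_le_pow_left₀ (norm_nonneg _) (hterm s) 2)
    rw [show (f' z).co = ((f' z).co - ((f z).co + (hΓ.corr hg d i z).co)) +
      (((f z).co - a * z.co ^ p ^ i) + ((hΓ.corr hg d i z).co + a * z.co ^ p ^ i)) by ring]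
    refine (IsUltrametricDist.norm_add_le_max _ _).trans (max_le ?_
      ((IsUltrametricDist.norm_add_le_max _ _).trans (max_le (hf' z) (hlin.trans hρ2))))
    exact (Pt.norm_add_sub_le _ _).trans ((pow_le_pow_left₀ (le_max_of_le_left (norm_nonneg _))
      (max_le (hord z) hc1) 2).trans hρ2)
  intro z
  rcases SerMap.eq_zero_or_lead hΓ hfser hfadd with h0 | ⟨e, b, -, hb, hlead⟩
  · simpa [f'] using (h0 z).symm ▸ (show ‖(0 : Tilt p)‖ ≤ ‖z.co‖ ^ p ^ (i + 1) by
      rw [norm_zero]; positivity)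
  have hie : i < e := by
    by_contra hle
    rw [not_lt] at hle
    have := hexact hb hlead hsmall
    have := Nat.pow_le_pow_right hp.1.pos hle
    omega
  show ‖(f' z).co‖ ≤ _
  rw [← sub_add_cancel (f' z).co (b * z.co ^ p ^ e)]
  have he : p ^ (i + 1) ≤ p ^ e := Nat.pow_le_pow_right hp.1.pos hie
  refine (IsUltrametricDist.norm_add_le_max _ _).trans (max_le ((hlead z).trans ?_) ?_)
  · exact pow_le_pow_of_le_one (norm_nonneg _) z.norm_lt.le (he.trans (Nat.le_succ _))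
  · rw [norm_mul, norm_pow, hb, one_mul]
    exact pow_le_pow_of_le_one (norm_nonneg _) z.norm_lt.le he

end Honda

end Vale.Agent.P217
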