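import Vale.Agent.P217.Digits

/-!
# The periods of a map approximated by an integral series

If `η : Γn → Γh` is additive and `‖η y - ι(y)‖ ≤ r < 1` for an integral series `ι`, then each
period of `Γh` composed with `η` is a combination of periods of `Γn`.
-/

noncomputable section

namespace Vale.Agent.P217

set_option linter.unusedSectionVars false

open Filter Topology Finset

variable {p : ℕ} [hp : Fact p.Prime]

theorem norm_coeff_zero_sub_le {u v : Tilt p} (hu : ‖u‖ ≤ 1) (hv : ‖v‖ ≤ 1) {r : ℝ}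
    (huv : ‖u - v‖ ≤ r) : ‖u.coeff 0 - v.coeff 0‖ ≤ max r (Tilt.tau p) := by
  have h1 := Tilt.norm_coeff_sub_sub (w := 1) (by simpa using hu) (by simpa using hv) 0
  rw [Tilt.coeff_one, norm_one, mul_one] at h1
  rw [← sub_sub_self ((u - v).coeff 0) (u.coeff 0 - v.coeff 0)]
  exact (Tilt.norm_sub_le_max _ _).trans (max_le_max huv h1)

/-- Congruent arguments give boundedly close values of the logarithm. -/
theorem exists_ell_close {n : ℕ} (hn : 1 ≤ n) (c : ℕ) {r : ℝ} (hr0 : 0 ≤ r) (hr : r < 1) :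
    ∃ B : ℝ, ∀ a b : ℂ_[p], ‖a‖ < 1 → ‖b‖ < 1 → ‖a - b‖ ≤ r →
      ‖qev (ellCoeff n c) a - qev (ellCoeff n c) b‖ ≤ B := by
  obtain ⟨m₀, hm₀⟩ : ∃ m, Tilt.rate p r ^ m * r ≤ Tilt.tau p := by
    have := (tendsto_pow_atTop_nhds_zero_of_lt_one (Tilt.rate_nonneg (p := p) r)
      (Tilt.rate_lt_one hr0 hr)).mul_const r
    rw [zero_mul] at this
    exact (this.eventually_le_const (Tilt.tau_pos p)).exists
  set t := Tilt.rate p r ^ m₀ * r
  have ht0 : 0 ≤ t := mul_nonneg (pow_nonneg (Tilt.rate_nonneg r) _) hr0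
  have ht1 : t < 1 := hm₀.trans_lt (Tilt.tau_lt_one p)
  have hτ := Tilt.tau_pos p
  refine ⟨(Tilt.tau p ^ m₀)⁻¹, fun a b ha hb hab => ?_⟩
  have hpow : ∀ m, Tilt.tau p ^ m₀ * ‖a ^ p ^ m - b ^ p ^ m‖ ≤ Tilt.tau p ^ m := by
    intro m
    rcases lt_or_ge m m₀ with h | h
    · refine (mul_le_of_le_one_right (pow_nonneg hτ.le _) ((Tilt.norm_sub_le_max _ _).trans ?_)).trans
        (pow_le_pow_of_le_one hτ.le (Tilt.tau_lt_one p).le h.le)
      rw [norm_pow, norm_pow]
      exact max_le (pow_le_one₀ (norm_nonneg _) ha.le) (pow_le_one₀ (norm_nonneg _) hb.le)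
    · obtain ⟨e, rfl⟩ := Nat.exists_eq_add_of_le h
      have h0 := Tilt.norm_pow_pow_sub_le hr0 hr hb.le (by rwa [mul_one]) m₀
      rw [one_pow, mul_one] at h0
      have hb' : ‖b ^ p ^ m₀‖ ≤ 1 := by rw [norm_pow]; exact pow_le_one₀ (norm_nonneg _) hb.le
      have h1 := Tilt.norm_pow_pow_sub_le ht0 ht1 hb' (by rwa [mul_one]) e
      rw [one_pow, mul_one, ← pow_mul, ← pow_mul, ← pow_add] at h1
      have hrate : Tilt.rate p t = Tilt.tau p := max_eq_left
        ((pow_le_of_le_one ht0 ht1.le (Nat.sub_ne_zero_of_lt hp.1.one_lt)).trans hm₀)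
      rw [hrate] at h1
      rw [pow_add (Tilt.tau p)]
      refine mul_le_mul_of_nonneg_left (h1.trans ?_) (pow_nonneg hτ.le _)
      exact mul_le_of_le_one_right (pow_nonneg hτ.le _) ht1.le
  refine norm_le_of_hasSum ((hasSum_ell hn c ha).sub (hasSum_ell hn c hb))
    (by positivity) fun i => ?_
  rw [← mul_sub, norm_mul, norm_inv, norm_pow, ← mul_one (Tilt.tau p ^ m₀)⁻¹,
    le_inv_mul_iff₀ (pow_pos hτ m₀), mul_left_comm]
  refine (mul_le_mul_of_nonneg_left (hpow (c + n * i))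
    (inv_nonneg.mpr (pow_nonneg (norm_nonneg _) i))).trans ?_
  refine inv_mul_le_one_of_le₀ ?_ (pow_nonneg (norm_nonneg _) i)
  exact pow_le_pow_of_le_one hτ.le (Tilt.tau_lt_one p).le
    (le_add_left (Nat.le_mul_of_pos_left i hn))

/-- The coefficients of `Σ_e p^(-e) A^(p^(c + h e))`. -/
def compEll (h c : ℕ) (A : PowerSeries (unitBall ℂ_[p])) (d : ℕ) : ℂ_[p] :=
  ∑ e ∈ range (d + 1), ((p : ℂ_[p]) ^ e)⁻¹ *
    ((PowerSeries.coeff d (A ^ p ^ (c + h * e)) : unitBall ℂ_[p]) : ℂ_[p])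

section Comp

variable {h : ℕ} {A : PowerSeries (unitBall ℂ_[p])} (hA : PowerSeries.constantCoeff A = 0)
include hA

theorem coeff_seriesPow_eq_zero {d m : ℕ} (hd : d < m) : PowerSeries.coeff d (A ^ m) = 0 :=
  (PowerSeries.X_pow_dvd_iff.mp (pow_dvd_pow_of_dvd (PowerSeries.X_dvd_iff.mpr hA) m)) d hd

theorem norm_compEll_term_le (hh : 1 ≤ h) (c d e : ℕ) :
    ‖((p : ℂ_[p]) ^ e)⁻¹ *
      ((PowerSeries.coeff d (A ^ p ^ (c + h * e)) : unitBall ℂ_[p]) : ℂ_[p])‖ ≤ d := by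
  rcases lt_or_ge d (p ^ (c + h * e)) with hd | hd
  · rw [coeff_seriesPow_eq_zero hA hd, ZeroMemClass.coe_zero, mul_zero, norm_zero]
    exact Nat.cast_nonneg d
  · rw [norm_mul, norm_inv, norm_pow, show ‖(p : ℂ_[p])‖ = (p : ℝ)⁻¹ from Tilt.tau_eq p, inv_pow,
      inv_inv]
    refine (mul_le_of_le_one_right (by positivity) (norm_coe_le_one _)).trans ?_
    refine le_trans ?_ (Nat.cast_le.mpr hd)
    push_cast
    exact pow_le_pow_right₀ (by exact_mod_cast hp.1.one_le)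
      (le_add_left (Nat.le_mul_of_pos_left e hh))

theorem linGrowth_compEll (hh : 1 ≤ h) (c : ℕ) : LinGrowth (compEll h c A) :=
  ⟨1, fun d => by
    rw [one_mul]
    exact IsUltrametricDist.norm_sum_le_of_forall_le_of_nonneg (Nat.cast_nonneg d)
      fun e _ => norm_compEll_term_le hA hh c d e⟩

theorem compEll_eq {d E c : ℕ} (hh : 1 ≤ h) (hE : d < p ^ (c + h * E)) :
    compEll h c A d = ∑ e ∈ range E, ((p : ℂ_[p]) ^ e)⁻¹ *
      ((PowerSeries.coeff d (A ^ p ^ (c + h * e)) : unitBall ℂ_[p]) : ℂ_[p]) := by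
  have hvan : ∀ e, d < p ^ (c + h * e) → ((p : ℂ_[p]) ^ e)⁻¹ *
      ((PowerSeries.coeff d (A ^ p ^ (c + h * e)) : unitBall ℂ_[p]) : ℂ_[p]) = 0 := fun e he => by
    rw [coeff_seriesPow_eq_zero hA he, ZeroMemClass.coe_zero, mul_zero]
  rw [compEll]
  rcases le_total (d + 1) E with hdE | hdE
  · refine Finset.sum_subset (range_mono hdE) fun e _ he => hvan e ?_
    rw [mem_range] at he
    have h1 : e ≤ c + h * e := le_add_left (Nat.le_mul_of_pos_left e hh)
    have := Nat.lt_pow_self hp.1.one_lt (n := c + h * e)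
    omega
  · refine (Finset.sum_subset (range_mono hdE) fun e _ he => hvan e ?_).symm
    rw [mem_range, not_lt] at he
    exact hE.trans_le (Nat.pow_le_pow_right hp.1.pos
      (Nat.add_le_add_left (Nat.mul_le_mul_left h he) c))

omit hA in
theorem hasSum_fapp_pow (A : PowerSeries (unitBall ℂ_[p])) {x : unitBall ℂ_[p]}
    (hx : IsTopologicallyNilpotent x) (m : ℕ) :
    HasSum (fun d => ((PowerSeries.coeff d (A ^ m) : unitBall ℂ_[p]) : ℂ_[p]) *
      (x : ℂ_[p]) ^ d) (((fapp A x : unitBall ℂ_[p]) : ℂ_[p]) ^ m) := by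
  have h := (hasSum_ev1 (φ := RingHom.id _) hx (A ^ m)).map (unitBall ℂ_[p]).subtype
    continuous_subtype_val
  rw [ev1, ev_pow (hasEval1 hx)] at h
  simpa [Function.comp_def, fapp, ev1] using h

theorem qev_compEll (hh : 1 ≤ h) (c : ℕ) {x : unitBall ℂ_[p]} (hx : IsTopologicallyNilpotent x) :
    qev (compEll h c A) (x : ℂ_[p]) =
      qev (ellCoeff h c) ((fapp A x : unitBall ℂ_[p]) : ℂ_[p]) := by
  set z := (x : ℂ_[p])
  set w := ((fapp A x : unitBall ℂ_[p]) : ℂ_[p])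
  have hz : ‖z‖ < 1 := isTopologicallyNilpotent_ball.mp hx
  have hw : ‖w‖ < 1 := isTopologicallyNilpotent_ball.mp (isTopologicallyNilpotent_fapp hA hx)
  refine tendsto_nhds_unique ?_ (hasSum_ell hh c hw).tendsto_sum_nat
  rw [tendsto_iff_norm_sub_tendsto_zero]
  have hN : Tendsto (fun E : ℕ => p ^ (c + h * E)) atTop atTop :=
    (tendsto_pow_atTop_atTop_of_one_lt hp.1.one_lt).comp
      (tendsto_atTop_mono (fun E => le_add_left (Nat.le_mul_of_pos_left E hh)) tendsto_id)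
  rw [Metric.tendsto_atTop]
  intro ε hε
  obtain ⟨D, hD⟩ := eventually_atTop.mp
    ((tendsto_self_mul_const_pow_of_lt_one (norm_nonneg z) hz).eventually_le_const (half_pos hε))
  obtain ⟨E₀, hE₀⟩ := eventually_atTop.mp (hN.eventually_ge_atTop D)
  refine ⟨E₀, fun E hE => ?_⟩
  rw [dist_zero_right, norm_norm, norm_sub_rev]
  refine lt_of_le_of_lt ?_ (half_lt_self hε)
  refine norm_le_of_hasSum (((linGrowth_compEll hA hh c).hasSum hz).sub
    (hasSum_sum (s := range E) fun e _ => (hasSum_fapp_pow A hx (p ^ (c + h * e))).mul_left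
      ((p : ℂ_[p]) ^ e)⁻¹)) (half_pos hε).le fun d => ?_
  rcases lt_or_ge d (p ^ (c + h * E)) with hd | hd
  · rw [compEll_eq hA hh hd, Finset.sum_mul, ← Finset.sum_sub_distrib,
      Finset.sum_eq_zero fun e _ => by rw [mul_assoc, sub_self], norm_zero]
    exact (half_pos hε).le
  · refine ((Tilt.norm_sub_le_max _ _).trans (max_le ?_ ?_)).trans (hD d ((hE₀ E hE).trans hd))
    · rw [norm_mul, norm_pow]
      refine mul_le_mul_of_nonneg_right ?_ (by positivity)
      exact IsUltrametricDist.norm_sum_le_of_forall_le_of_nonneg (Nat.cast_nonneg d)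
        fun e _ => norm_compEll_term_le hA hh c d e
    · refine IsUltrametricDist.norm_sum_le_of_forall_le_of_nonneg (by positivity) fun e _ => ?_
      rw [← mul_assoc, norm_mul, norm_pow]
      exact mul_le_mul_of_nonneg_right (norm_compEll_term_le hA hh c d e) (by positivity)

end Comp

variable {n h : ℕ} {Γn Γh : FormalGroup (unitBall (Tilt p))} [Γn.IsComm] [Γh.IsComm]

theorem nsmul_p_pow_root (Hn : Honda n Γn) (J : ℕ) (y : Pt Γn) :
    (p ^ J) • Pt.mk' Γn (Tilt.rootHom (n * J) y.co) (Pt.norm_root_lt y _) = y :=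
  Pt.ext' (by rw [Hn.nsmul_p_pow, Pt.co_powp, Pt.co_mk', Tilt.rootHom_pow])

/-- The periods of `Γh` pulled back by `η` are combinations of the periods of `Γn`. -/
theorem exists_eta_periods (Hn : Honda n Γn) (Hh : Honda h Γh) (η : Pt Γn →+ Pt Γh)
    (ι : PowerSeries (unitBall (Tilt p))) (hι : PowerSeries.constantCoeff ι = 0) {r : ℝ}
    (hr : r < 1) (hη : ∀ y, ‖(η y).co - ((fapp ι y.1 : unitBall (Tilt p)) : Tilt p)‖ ≤ r)
    (l : ℕ) : ∃ H : Fin n → ℂ_[p], ∀ y : Pt Γn,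
      Gper h l (η y).co = ∑ c, H c * Gper n c y.co := by
  set A : PowerSeries (unitBall ℂ_[p]) := PowerSeries.mk fun i => sharp (PowerSeries.coeff i ι)
  have hA : PowerSeries.constantCoeff A = 0 := by
    simp [A, ← PowerSeries.coeff_zero_eq_constantCoeff_apply, show PowerSeries.coeff 0 ι = 0 by
      rwa [PowerSeries.coeff_zero_eq_constantCoeff_apply], sharp_zero]
  set τ := Tilt.tau p
  set r₁ := max r τ
  have hr0 : 0 ≤ r := (norm_nonneg _).trans (hη 0)
  have hr₁ : r₁ < 1 := max_lt hr (Tilt.tau_lt_one p)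
  have hclose : ∀ u : Pt Γn, ‖(η u).co.coeff 0 -
      ((fapp A (sharp u.1) : unitBall ℂ_[p]) : ℂ_[p])‖ ≤ r₁ := by
    intro u
    have hu' : IsTopologicallyNilpotent (sharp u.1) := isTopologicallyNilpotent_sharp.mpr u.2
    have h1 := norm_coeff_zero_sub_le (η u).norm_lt.le (norm_coe_le_one (fapp ι u.1)) (hη u)
    have h2 := sharp_ev_sub_mem (p := p) (r := τ) le_rfl (φ := RingHom.id _)
      (φ' := RingHom.id _) (hasEval1 u.2) (hasEval1 hu') (f := ι) (f' := A)
      (fun _ => by rw [sub_self]; exact Submodule.zero_mem _) (fun d => by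
        have hd : d = Finsupp.single () (d ()) := by ext; simp
        rw [hd]
        show sharp (PowerSeries.coeff (d ()) ι) - PowerSeries.coeff (d ()) A ∈ _
        rw [PowerSeries.coeff_mk, sub_self]
        exact Submodule.zero_mem _)
    rw [mem_ballIdeal, AddSubgroupClass.coe_sub, coe_sharp] at h2
    rw [← sub_add_sub_cancel _ (((fapp ι u.1 : unitBall (Tilt p)) : Tilt p).coeff 0)]
    exact (IsUltrametricDist.norm_add_le_max _ _).trans
      (max_le h1 (h2.trans (le_max_right _ _)))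
  obtain ⟨B, hB⟩ := exists_ell_close (p := p) Hh.pos l (hr0.trans (le_max_left r τ)) hr₁
  have hB0 : 0 ≤ B := (norm_nonneg _).trans (hB 0 0 (by simp) (by simp) (by simp [hr0]))
  have hAw : ∀ u : Pt Γn, ‖((fapp A (sharp u.1) : unitBall ℂ_[p]) : ℂ_[p])‖ < 1 := fun u =>
    isTopologicallyNilpotent_ball.mp
      (isTopologicallyNilpotent_fapp hA (isTopologicallyNilpotent_sharp.mpr u.2))
  have hq : QData n (compEll h l A) := by
    refine ⟨linGrowth_compEll hA Hh.pos l, max 1 B, fun z hz => ?_⟩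
    obtain ⟨x₀, hx₀⟩ := Tilt.exists_coeff z 0
    have hx : ‖x₀‖ < 1 := by rwa [Tilt.norm_def, hx₀]
    set u := Pt.mk' Γn x₀ hx
    have e1 : z = ((sharp u.1 : unitBall ℂ_[p]) : ℂ_[p]) := by rw [coe_sharp]; exact hx₀.symm
    have e2 : z ^ p ^ n = ((sharp (p • u).1 : unitBall ℂ_[p]) : ℂ_[p]) := by
      rw [coe_sharp]
      show _ = ((p • u).co).coeff 0
      rw [Hn.nsmul_p_co, Tilt.coeff_npow, Pt.co_mk', hx₀]
    rw [e2, e1, qev_compEll hA Hh.pos l (isTopologicallyNilpotent_sharp.mpr u.2),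
      qev_compEll hA Hh.pos l (isTopologicallyNilpotent_sharp.mpr (p • u).2)]
    set a := ((fapp A (sharp u.1) : unitBall ℂ_[p]) : ℂ_[p])
    set b := ((fapp A (sharp (p • u).1) : unitBall ℂ_[p]) : ℂ_[p])
    have ha : ‖a‖ < 1 := hAw u
    have hab : ‖a ^ p ^ h - b‖ ≤ r₁ := by
      rw [← sub_add_sub_cancel (a ^ p ^ h) ((η (p • u)).co.coeff 0) b]
      refine (IsUltrametricDist.norm_add_le_max _ _).trans (max_le ?_ (hclose (p • u)))
      rw [map_nsmul, Hh.nsmul_p_co, Tilt.coeff_npow, norm_sub_rev]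
      exact (norm_pow_sub_pow_le_of_le_one (norm_coeff_lt_one (η u).norm_lt 0).le ha.le _).trans
        (hclose u)
    rw [show (p : ℂ_[p]) * qev (ellCoeff h l) a - qev (ellCoeff h l) b =
      p * a ^ p ^ l + (qev (ellCoeff h l) (a ^ p ^ h) - qev (ellCoeff h l) b) by
        rw [qev_ell_pow Hh.pos l ha]; ring]
    refine (IsUltrametricDist.norm_add_le_max _ _).trans
      (max_le_max ?_ (hB _ _ (norm_pow_lt_one ha h) (hAw _) hab))
    rw [norm_mul, norm_pow]
    exact mul_le_one₀ norm_p_lt_one.le (by positivity) (pow_le_one₀ (norm_nonneg _) ha.le)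
  have heq : ∀ y : Pt Γn, Qlim n (compEll h l A) y.co = Gper h l (η y).co := by
    intro y
    refine tendsto_nhds_unique (hq.tendsto y.norm_lt) ?_
    refine ((qdata_ellCoeff Hh.pos l).tendsto (η y).norm_lt).congr_dist ?_
    refine squeeze_zero (fun J => dist_nonneg) (fun J => ?_) (tendsto_tau_mul (p := p) B)
    set u := Pt.mk' Γn (Tilt.rootHom (n * J) y.co) (Pt.norm_root_lt y _)
    have e1 : (η y).co.coeff (h * J) = (η u).co.coeff 0 := by
      rw [← nsmul_p_pow_root Hn J y, map_nsmul, Hh.nsmul_p_pow, Pt.co_powp, Tilt.coeff_npow,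
        ← Tilt.coeff_pow_pow (η u).co 0 (h * J), Nat.zero_add]
    have e2 : y.co.coeff (n * J) = ((sharp u.1 : unitBall ℂ_[p]) : ℂ_[p]) := by
      rw [coe_sharp]
      show _ = u.co.coeff 0
      rw [Pt.co_mk', Tilt.coeff_rootHom, Nat.zero_add]
    rw [dist_eq_norm, approxQ, approxQ, e1, e2,
      qev_compEll hA Hh.pos l (isTopologicallyNilpotent_sharp.mpr u.2), ← mul_sub, norm_mul,
      norm_pow]
    exact mul_le_mul_of_nonneg_left (hB _ _ (norm_coeff_lt_one (η u).norm_lt 0) (hAw u) (hclose u))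
      (pow_nonneg (norm_nonneg _) _)
  obtain ⟨H, hH⟩ := exists_eq_sum_Gper (Γ := Γn) Hn.pos hq
    (fun x y => by rw [heq, heq, heq, map_add, Hh.Gper_add]) Hn.Gper_add
  exact ⟨H, fun y => by rw [← heq, hH _ y.norm_lt]⟩

end Vale.Agent.P217
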