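import Mathlib.LinearAlgebra.Dimension.Free
import Mathlib.Algebra.Module.ZMod
import Mathlib.FieldTheory.Finiteness
import Mathlib.Algebra.Field.ZMod

/-!
# Generators of a finite group of exponent `p`
-/

noncomputable section

namespace Vale.Agent.P217

set_option linter.style.haveILetI false

theorem exists_indep_span_module {V : Type*} [AddCommGroup V] [Finite V] {p : ℕ} [Fact p.Prime]
    {m : ℕ} [Module (ZMod p) V] (hcard : Nat.card V = p ^ m) :
    ∃ b : Fin m → V, (∀ c : Fin m → ℕ, ∑ i, c i • b i = 0 → ∀ i, p ∣ c i) ∧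
      ∀ v, ∃ c : Fin m → ℕ, ∑ i, c i • b i = v := by
  haveI : Module.Finite (ZMod p) V := Module.Finite.of_finite
  have hrank : Module.finrank (ZMod p) V = m := by
    have h1 := Module.natCard_eq_pow_finrank (K := ZMod p) (V := V)
    rw [hcard, Nat.card_zmod] at h1
    exact (Nat.pow_right_injective (Fact.out : p.Prime).two_le h1).symm
  let b := Module.finBasisOfFinrankEq (ZMod p) V hrank
  refine ⟨b, fun c hc i => ?_, fun v => ⟨fun i => (b.repr v i).val, ?_⟩⟩
  · have hc' : ∑ i, (c i : ZMod p) • b i = 0 := by simpa [Nat.cast_smul_eq_nsmul] using hc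
    exact (ZMod.natCast_eq_zero_iff _ _).mp
      (Fintype.linearIndependent_iff.mp b.linearIndependent _ hc' i)
  · conv_rhs => rw [← b.sum_repr v]
    refine Finset.sum_congr rfl fun i _ => ?_
    rw [← Nat.cast_smul_eq_nsmul (ZMod p), ZMod.natCast_zmod_val]

/-- A finite group of exponent `p` and order `p^m` has `m` independent generators. -/
theorem exists_indep_span {V : Type*} [AddCommGroup V] [Finite V] {p : ℕ} [Fact p.Prime] {m : ℕ}
    (hV : ∀ x : V, p • x = 0) (hcard : Nat.card V = p ^ m) :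
    ∃ b : Fin m → V, (∀ c : Fin m → ℕ, ∑ i, c i • b i = 0 → ∀ i, p ∣ c i) ∧
      ∀ v, ∃ c : Fin m → ℕ, ∑ i, c i • b i = v :=
  @exists_indep_span_module V _ _ p _ m (AddCommGroup.zmodModule hV) hcard

end Vale.Agent.P217
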