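import Vale.Agent.P217.FEqBase

/-!
Hazewinkel's functional equation lemma for one logarithm
`ℓ(X) = X + ∑ i ≥ 1, (u i / p) ℓ^(σ^i) (X ^ (p ^ i))`, and the formal group law
`F(X,Y) = ℓ⁻¹(ℓ X + ℓ Y)` with coefficients in the base ring.
-/

namespace Vale.Agent.P217

open MvPowerSeries Finsupp

/-- Data of a functional equation: a Frobenius lift on a `p`-torsion free ring and the sequence
`u i` (only `i ≥ 1` is used). -/
structure FEData (p : ℕ) (A : Type*) [CommRing A] where
  frob : A →+* A
  frob_congr : ∀ a, (p : A) ∣ frob a - a ^ p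
  reg : ∀ a : A, (p : A) * a = 0 → a = 0
  u : ℕ → A

/-- The ring `A[1/p]`. -/
abbrev Kp (p : ℕ) (A : Type*) [CommRing A] := Localization.Away (p : A)

namespace FEData

variable {p : ℕ} [hp : Fact p.Prime] {A : Type*} [CommRing A] (D : FEData p A) {τ : Type*}

/-- The inclusion of `A` in `A[1/p]`. -/
noncomputable abbrev ι (_D : FEData p A) : A →+* Kp p A := algebraMap A (Kp p A)

omit hp in
theorem mem_nonZeroDivisors (D : FEData p A) : (p : A) ∈ nonZeroDivisors A :=
  mem_nonZeroDivisors_iff_left.mpr D.reg |> fun h => h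

omit hp in
theorem ι_injective : Function.Injective D.ι :=
  IsLocalization.injective (Kp p A)
    (Submonoid.powers_le.mpr D.mem_nonZeroDivisors)

/-- `1/p`. -/
noncomputable def invp (_D : FEData p A) : Kp p A := IsLocalization.Away.invSelf (p : A)

omit hp in
theorem natCast_mul_invp : (p : Kp p A) * D.invp = 1 := by
  have h := IsLocalization.Away.mul_invSelf (S := Kp p A) (p : A)
  rwa [map_natCast] at h

/-- Iterates of the Frobenius lift. -/
def frobIter : ℕ → A →+* A
  | 0 => RingHom.id A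
  | i + 1 => D.frob.comp (frobIter i)

omit hp in
theorem frobIter_congr (i : ℕ) (a : A) : (p : A) ∣ D.frobIter i a - a ^ (p ^ i) := by
  induction i with
  | zero => simp [frobIter]
  | succ i ih =>
    have h1 : (p : A) ∣ D.frob (D.frobIter i a) - D.frob (a ^ (p ^ i)) := by
      rw [← map_sub]
      obtain ⟨z, hz⟩ := ih
      exact ⟨D.frob z, by rw [hz, map_mul, map_natCast]⟩
    have h2 : (p : A) ∣ D.frob (a ^ (p ^ i)) - a ^ (p ^ (i + 1)) := by
      rw [map_pow, pow_succ', pow_mul]
      exact (D.frob_congr a).trans (sub_dvd_pow_sub_pow _ _ _)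
    have h3 : D.frobIter (i + 1) a - a ^ (p ^ (i + 1)) =
        (D.frob (D.frobIter i a) - D.frob (a ^ (p ^ i))) +
          (D.frob (a ^ (p ^ i)) - a ^ (p ^ (i + 1))) := by
      simp [frobIter]
    rw [h3]
    exact dvd_add h1 h2

/-- Iterates of the Frobenius lift on `A[1/p]`. -/
noncomputable def frobK (i : ℕ) : Kp p A →+* Kp p A :=
  IsLocalization.lift (M := Submonoid.powers (p : A)) (g := D.ι.comp (D.frobIter i)) fun y => by
    obtain ⟨y, m, rfl⟩ := y
    simp only [map_pow, map_natCast]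
    exact (IsUnit.of_mul_eq_one _ D.natCast_mul_invp).pow m

omit hp in
theorem frobK_ι (i : ℕ) (a : A) : D.frobK i (D.ι a) = D.ι (D.frobIter i a) :=
  IsLocalization.lift_eq _ a

omit hp in
theorem frobK_invp (i : ℕ) : D.frobK i D.invp = D.invp := by
  have h := congrArg (D.frobK i) D.natCast_mul_invp
  rw [map_mul, map_natCast, map_one] at h
  calc D.frobK i D.invp = D.frobK i D.invp * ((p : Kp p A) * D.invp) := by
        rw [D.natCast_mul_invp, mul_one]
    _ = ((p : Kp p A) * D.frobK i D.invp) * D.invp := by ring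
    _ = D.invp := by rw [h, one_mul]

/-- `p ^ j` times the `j`-th coefficient of the logarithm. -/
def bcoef : ℕ → A
  | 0 => 1
  | j + 1 => ∑ i : Fin (j + 1), D.u (i + 1) * (p : A) ^ (i : ℕ) *
      D.frobIter (i + 1) (bcoef (j - i))

/-- The coefficient of `X ^ (p ^ j)` of the logarithm. -/
noncomputable def c (j : ℕ) : Kp p A := D.ι (D.bcoef j) * D.invp ^ j

/-- `u i / p`. -/
noncomputable def s (i : ℕ) : Kp p A := D.ι (D.u i) * D.invp

omit hp in
@[simp] theorem c_zero : D.c 0 = 1 := by simp [c, bcoef]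

omit hp in
theorem c_succ (j : ℕ) :
    D.c (j + 1) = ∑ i ∈ Finset.range (j + 1), D.s (i + 1) * D.frobK (i + 1) (D.c (j - i)) := by
  rw [c, bcoef, map_sum, Finset.sum_mul, ← Fin.sum_univ_eq_sum_range
    (fun i => D.s (i + 1) * D.frobK (i + 1) (D.c (j - i)))]
  refine Finset.sum_congr rfl fun i _ => ?_
  obtain ⟨k, hk⟩ : ∃ k, j = (i : ℕ) + k := ⟨j - i, by omega⟩
  rw [show j - (i : ℕ) = k by omega,
    show D.invp ^ (j + 1) = D.invp ^ ((i : ℕ) + k + 1) by congr 1; omega]
  simp only [s, c, map_mul, map_pow, map_natCast, frobK_ι, frobK_invp]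
  calc D.ι (D.u (i + 1)) * (p : Kp p A) ^ (i : ℕ) * D.ι (D.frobIter (i + 1) (D.bcoef k)) *
        D.invp ^ ((i : ℕ) + k + 1)
      = D.ι (D.u (i + 1)) * D.invp * (D.ι (D.frobIter (i + 1) (D.bcoef k)) * D.invp ^ k) *
          ((p : Kp p A) * D.invp) ^ (i : ℕ) := by ring
    _ = _ := by rw [D.natCast_mul_invp, one_pow, mul_one]

/-- The logarithm. -/
noncomputable def log : PowerSeries (Kp p A) := ppow p D.c

/-- The logarithm evaluated at a series. -/
noncomputable def logAt (a : MvPowerSeries τ (Kp p A)) : MvPowerSeries τ (Kp p A) :=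
  PowerSeries.subst a D.log

omit hp in
theorem constantCoeff_log : PowerSeries.constantCoeff D.log = 0 := constantCoeff_ppow _

theorem coeff_one_log : PowerSeries.coeff 1 D.log = 1 := by
  have h := coeff_ppow_pow hp.out.one_lt D.c 0
  rwa [pow_zero, c_zero] at h

theorem isUnit_coeff_one_log : IsUnit (PowerSeries.coeff 1 D.log) := by
  rw [coeff_one_log]; exact isUnit_one

theorem coeff_logAt {a : MvPowerSeries τ (Kp p A)} (a0 : constantCoeff a = 0) (e : τ →₀ ℕ) :
    coeff e (D.logAt a) = ∑ j ∈ Finset.range (e.degree + 1), D.c j * coeff e (a ^ (p ^ j)) :=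
  coeff_subst_ppow hp.out.one_lt _ a0 e (by omega)

theorem coeff_logAt_split {a : MvPowerSeries τ (Kp p A)} (a0 : constantCoeff a = 0)
    (e : τ →₀ ℕ) :
    coeff e (D.logAt a) = coeff e a + ∑ i ∈ Finset.range e.degree, D.s (i + 1) *
      ∑ k ∈ Finset.range (e.degree + 1),
        D.frobK (i + 1) (D.c k) * coeff e ((a ^ (p ^ (i + 1))) ^ (p ^ k)) := by
  rw [D.coeff_logAt a0, Finset.sum_range_succ', add_comm (coeff e a)]
  congr 1
  · simp only [D.c_succ, Finset.sum_mul]
    let f : ℕ → ℕ → Kp p A := fun i k =>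
      D.s (i + 1) * D.frobK (i + 1) (D.c k) * coeff e (a ^ (p ^ (i + 1 + k)))
    trans ∑ j ∈ Finset.range e.degree, ∑ i ∈ Finset.range (j + 1), f i (j - i)
    · refine Finset.sum_congr rfl fun j _ => Finset.sum_congr rfl fun i hi => ?_
      rw [Finset.mem_range] at hi
      simp only [f, show i + 1 + (j - i) = j + 1 by omega]
    rw [sum_triangle]
    refine Finset.sum_congr rfl fun i hi => ?_
    rw [Finset.mul_sum]
    trans ∑ k ∈ Finset.range (e.degree + 1), f i k
    · refine Finset.sum_subset (Finset.range_subset_range.mpr (by omega)) fun k _ hk2 => ?_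
      rw [Finset.mem_range] at hk2
      have h1 : i + 1 + k < p ^ (i + 1 + k) := (i + 1 + k).lt_pow_self hp.out.one_lt
      simp only [f]
      rw [coeff_pow_eq_zero a0 (by omega), mul_zero]
    · refine Finset.sum_congr rfl fun k _ => ?_
      simp only [f]
      rw [← pow_mul, ← pow_add, mul_assoc]
  · rw [c_zero, pow_zero, pow_one, one_mul]

/-- The defect of the functional equation. -/
noncomputable def defect (T : MvPowerSeries τ (Kp p A)) (e : τ →₀ ℕ) : Kp p A :=
  coeff e T - ∑ i ∈ Finset.range e.degree, D.s (i + 1) *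
    coeff e (expand (p ^ (i + 1)) (pow_ne_zero _ hp.out.ne_zero) (map (D.frobK (i + 1)) T))

/-- `T` satisfies the functional equation with integral defect. -/
def IsFE (T : MvPowerSeries τ (Kp p A)) : Prop := ∀ e, D.defect T e ∈ D.ι.range

variable {D}

theorem IsFE.add {T T' : MvPowerSeries τ (Kp p A)} (h : D.IsFE T) (h' : D.IsFE T') :
    D.IsFE (T + T') := fun e => by
  have h2 : D.defect (T + T') e = D.defect T e + D.defect T' e := by
    simp only [defect, map_add, mul_add, Finset.sum_add_distrib]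
    ring
  rw [h2]
  exact add_mem (h e) (h' e)

theorem IsFE.nsmul {T : MvPowerSeries τ (Kp p A)} (h : D.IsFE T) : ∀ m : ℕ, D.IsFE (m • T)
  | 0 => fun e => by simp [defect]
  | m + 1 => by rw [succ_nsmul]; exact (IsFE.nsmul h m).add h

variable (D)

omit hp in
theorem constantCoeff_logAt {a : MvPowerSeries τ (Kp p A)} (a0 : constantCoeff a = 0) :
    constantCoeff (D.logAt a) = 0 :=
  PowerSeries.constantCoeff_subst_eq_zero a0 _ D.constantCoeff_log

theorem coeff_expand_map_logAt {a : MvPowerSeries τ (Kp p A)} (a0 : constantCoeff a = 0)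
    (e : τ →₀ ℕ) (i : ℕ) :
    coeff e (expand (p ^ i) (pow_ne_zero _ hp.out.ne_zero) (map (D.frobK i) (D.logAt a))) =
      ∑ k ∈ Finset.range (e.degree + 1), D.frobK i (D.c k) * coeff e
        ((expand (p ^ i) (pow_ne_zero _ hp.out.ne_zero) (map (D.frobK i) a)) ^ (p ^ k)) := by
  have ha : PowerSeries.HasSubst a := PowerSeries.HasSubst.of_constantCoeff_zero a0
  have ha' : PowerSeries.HasSubst (map (D.frobK i) a) :=
    PowerSeries.HasSubst.of_constantCoeff_zero (by rw [constantCoeff_map, a0, map_zero])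
  rw [logAt, PowerSeries.map_subst ha, log, map_ppow, PowerSeries.subst, expand_subst _ _ ha'.const]
  exact coeff_subst_ppow hp.out.one_lt _ (by rw [constantCoeff_expand, constantCoeff_map, a0,
    map_zero]) e (by omega)

theorem defect_logAt {a : MvPowerSeries τ (Kp p A)} (a0 : constantCoeff a = 0) (e : τ →₀ ℕ) :
    D.defect (D.logAt a) e = coeff e a + ∑ i ∈ Finset.range e.degree,
      ∑ k ∈ Finset.range (e.degree + 1), D.s (i + 1) * D.frobK (i + 1) (D.c k) *
        (coeff e ((a ^ (p ^ (i + 1))) ^ (p ^ k)) - coeff e ((expand (p ^ (i + 1))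
          (pow_ne_zero _ hp.out.ne_zero) (map (D.frobK (i + 1)) a)) ^ (p ^ k))) := by
  rw [defect, D.coeff_logAt_split a0, add_sub_assoc, ← Finset.sum_sub_distrib]
  congr 1
  refine Finset.sum_congr rfl fun i _ => ?_
  rw [D.coeff_expand_map_logAt a0, ← mul_sub, ← Finset.sum_sub_distrib, Finset.mul_sum]
  exact Finset.sum_congr rfl fun k _ => by ring

theorem isFE_logAt_X (t : τ) : D.IsFE (D.logAt (X t)) := fun e => by
  classical
  rw [D.defect_logAt (constantCoeff_X t), Finset.sum_eq_zero, add_zero, coeff_X]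
  · split_ifs
    · exact one_mem _
    · exact zero_mem _
  · intro i _
    refine Finset.sum_eq_zero fun k _ => ?_
    rw [map_X, expand_X, sub_self, mul_zero]

theorem isFE_log : D.IsFE (D.log : MvPowerSeries Unit (Kp p A)) := by
  have h := D.isFE_logAt_X (τ := Unit) ()
  rwa [logAt, show (X () : MvPowerSeries Unit (Kp p A)) = (PowerSeries.X : PowerSeries (Kp p A))
    from rfl, PowerSeries.X_subst] at h

theorem map_frobIter_expand_congr (G : MvPowerSeries τ A) (i : ℕ) :
    (p : MvPowerSeries τ A) ∣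
      G ^ (p ^ i) - expand (p ^ i) (pow_ne_zero _ hp.out.ne_zero) (map (D.frobIter i) G) := by
  by_cases hu : IsUnit (p : A)
  · exact dvd_of_dvd_coeff fun e => hu.dvd
  have := CharP.quotient A p hu
  have : ExpChar (A ⧸ Ideal.span ({(p : A)} : Set A)) p := ExpChar.prime hp.out
  let π : A →+* A ⧸ Ideal.span ({(p : A)} : Set A) := Ideal.Quotient.mk _
  have hc : π.comp (D.frobIter i) = (iterateFrobenius _ p i).comp π := by
    refine RingHom.ext fun a => ?_
    rw [RingHom.comp_apply, RingHom.comp_apply, iterateFrobenius_def, ← map_pow]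
    exact (Ideal.Quotient.eq).mpr (Ideal.mem_span_singleton.mpr (D.frobIter_congr i a))
  have hz : map π (G ^ (p ^ i) -
      expand (p ^ i) (pow_ne_zero _ hp.out.ne_zero) (map (D.frobIter i) G)) = 0 := by
    rw [map_sub, map_pow, map_expand, map_map, hc, ← map_map, ← map_expand,
      map_iterateFrobenius_expand p hp.out.ne_zero, sub_self]
  refine dvd_of_dvd_coeff fun e => Ideal.mem_span_singleton.mp ?_
  have h := congrArg (coeff e) hz
  rw [coeff_map, map_zero] at h
  exact Ideal.Quotient.eq_zero_iff_mem.mp h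

theorem agree_expand {B : Type*} [CommRing B] {q : ℕ} (hq : 2 ≤ q) {d : ℕ}
    {a b : MvPowerSeries τ B} (h : Agree d a b) (h0 : constantCoeff a = constantCoeff b) :
    Agree (d + 1) (expand q (by omega) a) (expand q (by omega) b) := by
  intro e he
  by_cases hd : ∀ t, q ∣ e t
  · obtain ⟨m, rfl⟩ : ∃ m : τ →₀ ℕ, e = q • m :=
      ⟨e.mapRange (· / q) (by simp), Finsupp.ext fun t => by
        simp [Nat.mul_div_cancel' (hd t)]⟩
    rw [coeff_expand_smul, coeff_expand_smul]
    by_cases hm : m = 0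
    · subst hm
      simpa using h0
    · have g1 : m.degree ≠ 0 := fun h => hm ((degree_eq_zero_iff _).mp h)
      rw [map_nsmul, smul_eq_mul] at he
      exact h m (by have := Nat.mul_le_mul_right m.degree hq; omega)
  · push Not at hd
    obtain ⟨t, ht⟩ := hd
    rw [coeff_expand_of_not_dvd _ _ _ ht, coeff_expand_of_not_dvd _ _ _ ht]

/-- Functional equation lemma. -/
theorem mem_range_of_isFE {H : MvPowerSeries τ (Kp p A)} (H0 : constantCoeff H = 0)
    (hT : D.IsFE (D.logAt H)) (e : τ →₀ ℕ) : coeff e H ∈ D.ι.range := by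
  classical
  induction hd : e.degree using Nat.strong_induction_on generalizing e with
  | _ d ih =>
  subst hd
  have hg : ∀ m : τ →₀ ℕ, ∃ a : A,
      (m.degree < e.degree → D.ι a = coeff m H) ∧ (¬ m.degree < e.degree → a = 0) := fun m => by
    by_cases hm : m.degree < e.degree
    · obtain ⟨a, ha⟩ := ih _ hm m rfl
      exact ⟨a, fun _ => ha, fun h => absurd hm h⟩
    · exact ⟨0, fun h => absurd h hm, fun _ => rfl⟩
  choose g hg1 hg2 using hg
  obtain ⟨G, hG⟩ : ∃ G : MvPowerSeries τ A, ∀ m, coeff m G = g m := ⟨fun m => g m, fun _ => rfl⟩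
  have hag : Agree e.degree H (map D.ι G) := fun m hm => by rw [coeff_map, hG, hg1 m hm]
  have G0 : constantCoeff G = 0 := by
    rw [← coeff_zero_eq_constantCoeff_apply, hG]
    by_cases h0 : (0 : τ →₀ ℕ).degree < e.degree
    · apply D.ι_injective
      rw [hg1 0 h0, coeff_zero_eq_constantCoeff_apply, H0, map_zero]
    · exact hg2 0 h0
  have G0' : constantCoeff (map D.ι G) = 0 := by rw [constantCoeff_map, G0, map_zero]
  have h1 := D.defect_logAt H0 e
  have h2 : coeff e H = D.defect (D.logAt H) e - ∑ i ∈ Finset.range e.degree,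
      ∑ k ∈ Finset.range (e.degree + 1), D.s (i + 1) * D.frobK (i + 1) (D.c k) *
        (coeff e ((H ^ (p ^ (i + 1))) ^ (p ^ k)) - coeff e ((expand (p ^ (i + 1))
          (pow_ne_zero _ hp.out.ne_zero) (map (D.frobK (i + 1)) H)) ^ (p ^ k))) := by
    rw [h1, add_sub_cancel_right]
  rw [h2]
  refine sub_mem (hT e) (Subring.sum_mem _ fun i _ => Subring.sum_mem _ fun k _ => ?_)
  have hq : 2 ≤ p ^ (i + 1) := le_trans hp.out.two_le (Nat.le_self_pow (by omega) p)
  have e1 : coeff e ((H ^ (p ^ (i + 1))) ^ (p ^ k)) =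
      D.ι (coeff e ((G ^ (p ^ (i + 1))) ^ (p ^ k))) := by
    rw [← pow_mul, ← pow_mul,
      hag.pow_succ_degree H0 G0' (le_trans hq (Nat.le_mul_of_pos_right _
        (pow_pos hp.out.pos k))) e (by omega), ← coeff_map, map_pow (map D.ι)]
  have hmap : map (D.frobK (i + 1)) (map D.ι G) = map D.ι (map (D.frobIter (i + 1)) G) := by
    ext m
    simp only [coeff_map, frobK_ι]
  have hσ : Agree e.degree (map (D.frobK (i + 1)) H) (map (D.frobK (i + 1)) (map D.ι G)) :=
    fun m hm => by rw [coeff_map, coeff_map, hag m hm]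
  have e2 : coeff e ((expand (p ^ (i + 1)) (pow_ne_zero _ hp.out.ne_zero)
      (map (D.frobK (i + 1)) H)) ^ (p ^ k)) = D.ι (coeff e ((expand (p ^ (i + 1))
      (pow_ne_zero _ hp.out.ne_zero) (map (D.frobIter (i + 1)) G)) ^ (p ^ k))) := by
    rw [← coeff_map, map_pow (map D.ι), map_expand, ← hmap]
    refine ((agree_expand hq hσ ?_).pow _) e (by omega)
    rw [constantCoeff_map, constantCoeff_map, H0, G0']
  rw [e1, e2, ← map_sub, ← map_sub]
  obtain ⟨z, hz⟩ := dvd_coeff_of_dvd (m := p ^ (k + 1)) (by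
    exact_mod_cast dvd_sub_pow_of_dvd_sub (D.map_frobIter_expand_congr G (i + 1)) k) e
  rw [hz]
  refine ⟨D.u (i + 1) * D.frobIter (i + 1) (D.bcoef k) * z, ?_⟩
  simp only [s, c, map_mul, map_pow, Nat.cast_pow, map_natCast, frobK_ι, frobK_invp]
  calc D.ι (D.u (i + 1)) * D.ι (D.frobIter (i + 1) (D.bcoef k)) * D.ι z
      = D.ι (D.u (i + 1)) * D.ι (D.frobIter (i + 1) (D.bcoef k)) * D.ι z *
          ((p : Kp p A) * D.invp) ^ (k + 1) := by rw [D.natCast_mul_invp, one_pow, mul_one]
    _ = _ := by ring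

/-- The inverse of the logarithm. -/
noncomputable def expSeries : PowerSeries (Kp p A) :=
  D.log.substInvOfIsUnit D.isUnit_coeff_one_log

theorem logAt_injective {a b : MvPowerSeries τ (Kp p A)} (a0 : constantCoeff a = 0)
    (b0 : constantCoeff b = 0) (h : D.logAt a = D.logAt b) : a = b := by
  have key : ∀ x : MvPowerSeries τ (Kp p A), constantCoeff x = 0 →
      PowerSeries.subst (D.logAt x) D.expSeries = x := fun x x0 => by
    have hx := PowerSeries.HasSubst.of_constantCoeff_zero (S := Kp p A) x0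
    rw [logAt, ← PowerSeries.subst_comp_subst_apply
      (PowerSeries.HasSubst.of_constantCoeff_zero' D.constantCoeff_log) hx, expSeries,
      PowerSeries.subst_substInvOfIsUnit_left D.log D.constantCoeff_log, PowerSeries.subst_X hx]
  rw [← key a a0, ← key b b0, h]

theorem exists_of_isFE {T : MvPowerSeries τ (Kp p A)} (T0 : constantCoeff T = 0)
    (hT : D.IsFE T) :
    ∃ G : MvPowerSeries τ A, constantCoeff G = 0 ∧ D.logAt (map D.ι G) = T := by
  have hT' := PowerSeries.HasSubst.of_constantCoeff_zero (S := Kp p A) T0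
  have he : PowerSeries.HasSubst D.expSeries :=
    PowerSeries.HasSubst.substInvOfIsUnit _ _
  have e0 : constantCoeff (PowerSeries.subst T D.expSeries) = 0 :=
    PowerSeries.constantCoeff_subst_eq_zero T0 _ (PowerSeries.constantCoeff_substInvOfIsUnit _ _)
  have hlog : D.logAt (PowerSeries.subst T D.expSeries) = T := by
    rw [logAt, ← PowerSeries.subst_comp_subst_apply he hT', expSeries,
      PowerSeries.subst_substInvOfIsUnit_right D.log D.constantCoeff_log,
      PowerSeries.subst_X hT']
  have hm : ∀ e, ∃ a : A, D.ι a = coeff e (PowerSeries.subst T D.expSeries) := fun e =>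
    D.mem_range_of_isFE e0 (by rw [hlog]; exact hT) e
  choose g hg using hm
  obtain ⟨G, hG⟩ : ∃ G : MvPowerSeries τ A, ∀ m, coeff m G = g m := ⟨fun m => g m, fun _ => rfl⟩
  have hmap : map D.ι G = PowerSeries.subst T D.expSeries := by
    ext e
    rw [coeff_map, hG, hg]
  refine ⟨G, ?_, by rw [hmap, hlog]⟩
  apply D.ι_injective
  rw [← constantCoeff_map, hmap, e0, map_zero]

theorem eq_of_logAt_map {a b : MvPowerSeries τ A} (a0 : constantCoeff a = 0)
    (b0 : constantCoeff b = 0) (h : D.logAt (map D.ι a) = D.logAt (map D.ι b)) : a = b :=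
  MvPowerSeries.ext fun e => D.ι_injective <| by
    rw [← coeff_map, ← coeff_map, D.logAt_injective (by rw [constantCoeff_map, a0, map_zero])
      (by rw [constantCoeff_map, b0, map_zero]) h]

end FEData

end Vale.Agent.P217
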