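import Mathlib

/-!
Degreewise tools for Hazewinkel's functional equation lemma: agreement of power series below a
total degree, the degree bound for powers, and series supported on powers of a prime.
-/

namespace Vale.Agent.P217

open MvPowerSeries Finsupp

variable {τ : Type*} {B : Type*} [CommRing B]

/-- `a` and `b` have the same coefficients in total degrees `< d`. -/
def Agree (d : ℕ) (a b : MvPowerSeries τ B) : Prop :=
  ∀ e : τ →₀ ℕ, e.degree < d → coeff e a = coeff e b

theorem Agree.mul {d : ℕ} {a a' b b' : MvPowerSeries τ B} (ha : Agree d a a') (hb : Agree d b b') :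
    Agree d (a * b) (a' * b') := by
  classical
  intro e he
  rw [coeff_mul, coeff_mul]
  refine Finset.sum_congr rfl fun x hx => ?_
  have hsum := Finset.HasAntidiagonal.mem_antidiagonal.mp hx
  have : x.1.degree + x.2.degree = e.degree := by rw [← map_add, hsum]
  rw [ha x.1 (by omega), hb x.2 (by omega)]

theorem Agree.pow {d : ℕ} {a a' : MvPowerSeries τ B} (ha : Agree d a a') (m : ℕ) :
    Agree d (a ^ m) (a' ^ m) := by
  induction m with
  | zero => intro e _; simp
  | succ m ih => rw [pow_succ, pow_succ]; exact ih.mul ha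

theorem coeff_mul_agree_succ {d : ℕ} {a a' b b' : MvPowerSeries τ B} (ha : Agree d a a')
    (hb : Agree d b b') (a0 : constantCoeff a = 0) (a0' : constantCoeff a' = 0)
    (b0 : constantCoeff b = 0) (b0' : constantCoeff b' = 0) :
    Agree (d + 1) (a * b) (a' * b') := by
  classical
  intro e he
  rw [coeff_mul, coeff_mul]
  refine Finset.sum_congr rfl fun x hx => ?_
  have hsum := Finset.HasAntidiagonal.mem_antidiagonal.mp hx
  have hd : x.1.degree + x.2.degree = e.degree := by rw [← map_add, hsum]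
  by_cases h1 : x.1 = 0
  · simp [h1, a0, a0']
  by_cases h2 : x.2 = 0
  · simp [h2, b0, b0']
  have g1 : x.1.degree ≠ 0 := fun h => h1 ((degree_eq_zero_iff _).mp h)
  have g2 : x.2.degree ≠ 0 := fun h => h2 ((degree_eq_zero_iff _).mp h)
  rw [ha x.1 (by omega), hb x.2 (by omega)]

theorem Agree.pow_succ_degree {d : ℕ} {a a' : MvPowerSeries τ B} (ha : Agree d a a')
    (a0 : constantCoeff a = 0) (a0' : constantCoeff a' = 0) {m : ℕ} (hm : 2 ≤ m) :
    Agree (d + 1) (a ^ m) (a' ^ m) := by
  obtain ⟨k, rfl⟩ : ∃ k, m = k + 1 := ⟨m - 1, by omega⟩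
  rw [pow_succ, pow_succ]
  refine coeff_mul_agree_succ (ha.pow k) ha ?_ ?_ a0 a0' <;>
    simp [a0, a0', zero_pow (show k ≠ 0 by omega)]

theorem coeff_pow_eq_zero {a : MvPowerSeries τ B} (a0 : constantCoeff a = 0) {m : ℕ} {e : τ →₀ ℕ}
    (h : e.degree < m) : coeff e (a ^ m) = 0 := by
  classical
  induction m generalizing e with
  | zero => omega
  | succ m ih =>
    rw [pow_succ, coeff_mul]
    refine Finset.sum_eq_zero fun x hx => ?_
    have hsum := Finset.HasAntidiagonal.mem_antidiagonal.mp hx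
    have hd : x.1.degree + x.2.degree = e.degree := by rw [← map_add, hsum]
    by_cases h2 : x.2 = 0
    · simp [h2, a0]
    have g2 : x.2.degree ≠ 0 := fun h => h2 ((degree_eq_zero_iff _).mp h)
    rw [ih (e := x.1) (by omega), zero_mul]

/-- The series `∑ c j X ^ (p ^ j)`. -/
noncomputable def ppow (p : ℕ) (c : ℕ → B) : PowerSeries B :=
  PowerSeries.mk fun m => if m = p ^ Nat.log p m then c (Nat.log p m) else 0

theorem coeff_ppow_pow {p : ℕ} (hp : 1 < p) (c : ℕ → B) (j : ℕ) :
    PowerSeries.coeff (p ^ j) (ppow p c) = c j := by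
  simp [ppow, Nat.log_pow hp]

theorem coeff_ppow_of_ne {p : ℕ} (c : ℕ → B) {m : ℕ} (h : ∀ j, m ≠ p ^ j) :
    PowerSeries.coeff m (ppow p c) = 0 := by
  simp [ppow, h _]

theorem constantCoeff_ppow {p : ℕ} (c : ℕ → B) :
    PowerSeries.constantCoeff (ppow p c) = 0 := by
  rw [← PowerSeries.coeff_zero_eq_constantCoeff_apply]
  simp [ppow]

theorem map_ppow {B' : Type*} [CommRing B'] (f : B →+* B') (p : ℕ) (c : ℕ → B) :
    PowerSeries.map f (ppow p c) = ppow p (fun j => f (c j)) := by
  ext m
  simp only [PowerSeries.coeff_map, ppow, PowerSeries.coeff_mk]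
  split_ifs <;> simp

theorem coeff_subst_ppow {p : ℕ} (hp : 1 < p) (c : ℕ → B) {a : MvPowerSeries τ B}
    (a0 : constantCoeff a = 0) (e : τ →₀ ℕ) {N : ℕ} (hN : e.degree < N) :
    coeff e (PowerSeries.subst a (ppow p c)) =
      ∑ j ∈ Finset.range N, c j * coeff e (a ^ (p ^ j)) := by
  classical
  rw [PowerSeries.coeff_subst (PowerSeries.HasSubst.of_constantCoeff_zero a0)]
  rw [finsum_eq_sum_of_support_subset _ (s := (Finset.range N).image fun j => p ^ j)]
  · rw [Finset.sum_image (fun x _ y _ h => Nat.pow_right_injective hp h)]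
    exact Finset.sum_congr rfl fun j _ => by rw [coeff_ppow_pow hp, smul_eq_mul]
  · intro m hm
    simp only [Function.mem_support] at hm
    by_cases hj : ∀ j, m ≠ p ^ j
    · exact absurd (by rw [coeff_ppow_of_ne c hj, zero_smul]) hm
    push Not at hj
    obtain ⟨j, rfl⟩ := hj
    simp only [Finset.coe_image, Finset.coe_range, Set.mem_image, Set.mem_Iio]
    refine ⟨j, ?_, rfl⟩
    by_contra hjN
    apply hm
    have : j < p ^ j := j.lt_pow_self hp
    rw [coeff_pow_eq_zero a0 (show e.degree < p ^ j by omega), smul_zero]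

theorem sum_triangle {β : Type*} [AddCommMonoid β] (f : ℕ → ℕ → β) (d : ℕ) :
    ∑ j ∈ Finset.range d, ∑ i ∈ Finset.range (j + 1), f i (j - i) =
      ∑ i ∈ Finset.range d, ∑ k ∈ Finset.range (d - i), f i k := by
  induction d with
  | zero => simp
  | succ d ih =>
    have h : ∀ i ∈ Finset.range d, (∑ k ∈ Finset.range (d + 1 - i), f i k)
        = (∑ k ∈ Finset.range (d - i), f i k) + f i (d - i) := fun i hi => by
      rw [Finset.mem_range] at hi
      rw [show d + 1 - i = (d - i) + 1 by omega, Finset.sum_range_succ]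
    rw [Finset.sum_range_succ, ih, Finset.sum_range_succ (n := d),
      Finset.sum_range_succ (f := fun i => ∑ k ∈ Finset.range (d + 1 - i), f i k),
      Finset.sum_congr rfl h, Finset.sum_add_distrib]
    simp only [Nat.add_sub_cancel_left, Finset.sum_range_one, Nat.sub_self, add_assoc]

/-- A series all of whose coefficients are divisible by `m` is `m` times a series. -/
theorem dvd_of_dvd_coeff {m : ℕ} {a : MvPowerSeries τ B} (h : ∀ e, (m : B) ∣ coeff e a) :
    (m : MvPowerSeries τ B) ∣ a := by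
  choose g hg using h
  obtain ⟨G, hG⟩ : ∃ G : MvPowerSeries τ B, ∀ e, coeff e G = g e :=
    ⟨fun e => g e, fun _ => rfl⟩
  refine ⟨G, MvPowerSeries.ext fun e => ?_⟩
  rw [show (m : MvPowerSeries τ B) = C (m : B) from (map_natCast C m).symm, coeff_C_mul, hG]
  exact hg e

theorem dvd_coeff_of_dvd {m : ℕ} {a : MvPowerSeries τ B} (h : (m : MvPowerSeries τ B) ∣ a)
    (e : τ →₀ ℕ) : (m : B) ∣ coeff e a := by
  obtain ⟨g, rfl⟩ := h
  rw [show (m : MvPowerSeries τ B) = C (m : B) from (map_natCast C m).symm, coeff_C_mul]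
  exact dvd_mul_right _ _

end Vale.Agent.P217
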