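import Vale.Agent.P217.EtaPeriods
import Vale.Agent.P217.Contract

/-!
# Freeness of the lattice `Λ`

No nonzero row of endomorphisms of `Γh` vanishes on `(η (ζ x_j^(p^t)))_j`.
-/

noncomputable section

namespace Vale.Agent.P217

set_option linter.unusedSectionVars false

open Filter Topology Finset

variable {p : ℕ} [hp : Fact p.Prime]

theorem QData.exists_lipschitz {n : ℕ} {q : ℕ → ℂ_[p]} (hq : QData n q) {ρ : ℝ} (hρ0 : 0 ≤ ρ)
    (hρ : ρ < 1) : ∃ C : ℝ, ∀ a b : ℂ_[p], ‖a‖ ≤ ρ → ‖b‖ ≤ ρ →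
      ‖qev q a - qev q b‖ ≤ C * ‖a - b‖ := by
  obtain ⟨K, hK⟩ := hq.growth
  have hK0 : 0 ≤ K := by simpa using (norm_nonneg _).trans (hK 1)
  have ht : Tendsto (fun d : ℕ => (d : ℝ) * ρ ^ (d - 1)) atTop (𝓝 0) := by
    rw [← tendsto_add_atTop_iff_nat 1]
    have h1 := (tendsto_self_mul_const_pow_of_lt_one hρ0 hρ).add
      (tendsto_pow_atTop_nhds_zero_of_lt_one hρ0 hρ)
    rw [add_zero] at h1
    refine h1.congr fun d => ?_
    rw [Nat.add_sub_cancel]
    push_cast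
    ring
  obtain ⟨M, hM⟩ := ht.bddAbove_range
  have hM0 : 0 ≤ M := le_trans (by simp) (hM (Set.mem_range_self 0))
  refine ⟨K * M, fun a b ha hb => ?_⟩
  refine norm_le_of_hasSum ((hq.growth.hasSum (ha.trans_lt hρ)).sub
    (hq.growth.hasSum (hb.trans_lt hρ))) (by positivity) fun d => ?_
  rw [← mul_sub, norm_mul, ← geom_sum₂_mul, norm_mul]
  calc ‖q d‖ * (‖∑ i ∈ range d, a ^ i * b ^ (d - 1 - i)‖ * ‖a - b‖)
      ≤ (K * d) * (ρ ^ (d - 1) * ‖a - b‖) := by
        refine mul_le_mul (hK d) (mul_le_mul_of_nonneg_right ?_ (norm_nonneg _)) (by positivity)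
          (mul_nonneg hK0 (Nat.cast_nonneg d))
        refine IsUltrametricDist.norm_sum_le_of_forall_le_of_nonneg (pow_nonneg hρ0 _)
          fun i hi => ?_
        rw [mem_range] at hi
        rw [norm_mul, norm_pow, norm_pow]
        calc ‖a‖ ^ i * ‖b‖ ^ (d - 1 - i) ≤ ρ ^ i * ρ ^ (d - 1 - i) := by gcongr
          _ = ρ ^ (d - 1) := by rw [← pow_add]; congr 1; omega
    _ = K * ((d : ℝ) * ρ ^ (d - 1)) * ‖a - b‖ := by ring
    _ ≤ K * M * ‖a - b‖ := mul_le_mul_of_nonneg_right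
        (mul_le_mul_of_nonneg_left (hM (Set.mem_range_self d)) hK0) (norm_nonneg _)

/-- `Qlim` is continuous on the open disc. -/
theorem QData.tendsto_comp {n : ℕ} {q : ℕ → ℂ_[p]} (hq : QData n q) {u : ℕ → Tilt p} {v : Tilt p}
    (hv : ‖v‖ < 1) (hu : Tendsto u atTop (𝓝 v)) :
    Tendsto (fun i => Qlim n q (u i)) atTop (𝓝 (Qlim n q v)) := by
  obtain ⟨B, hB0, hB, -⟩ := hq.exists_bound
  obtain ⟨w, hw⟩ := Tilt.exists_coeff (p : ℂ_[p]) 0
  obtain ⟨W, hW1, hWv, hW0⟩ : ∃ W : Tilt p, ‖W‖ < 1 ∧ ‖v‖ ≤ ‖W‖ ∧ 0 < ‖W‖ := by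
    rcases le_total ‖v‖ ‖w‖ with h | h
    · refine ⟨w, ?_, h, ?_⟩ <;> rw [Tilt.norm_def, hw]
      · exact norm_p_lt_one
      · exact Tilt.tau_pos p
    · refine ⟨v, hv, le_rfl, lt_of_lt_of_le ?_ h⟩
      rw [Tilt.norm_def, hw]
      exact Tilt.tau_pos p
  have hev : ∀ᶠ i in atTop, ‖u i‖ ≤ ‖W‖ := by
    filter_upwards [(tendsto_iff_norm_sub_tendsto_zero.mp hu).eventually_le_const hW0] with i hi
    rw [← sub_add_cancel (u i) v]
    exact (IsUltrametricDist.norm_add_le_max _ _).trans (max_le hi hWv)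
  rw [Metric.tendsto_atTop]
  intro ε hε
  obtain ⟨J, hJ⟩ := ((tendsto_tau_mul (p := p) B).eventually_lt_const hε).exists
  obtain ⟨C, hC⟩ := hq.exists_lipschitz (norm_nonneg (W.coeff (n * J))) (norm_coeff_lt_one hW1 _)
  have hd : Tendsto (fun i => C * ‖(u i).coeff (n * J) - v.coeff (n * J)‖) atTop (𝓝 0) := by
    have := tendsto_iff_norm_sub_tendsto_zero.mp (((Tilt.continuous_coeff (n * J)).tendsto v).comp hu)
    simpa using this.const_mul C
  obtain ⟨N, hN⟩ := eventually_atTop.mp (hev.and (hd.eventually_lt_const hε))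
  refine ⟨N, fun i hi => ?_⟩
  obtain ⟨hi1, hi2⟩ := hN i hi
  have hui : ‖u i‖ < 1 := hi1.trans_lt hW1
  rw [dist_eq_norm, show Qlim n q (u i) - Qlim n q v =
    (Qlim n q (u i) - approxQ n q (u i) J) - (Qlim n q v - approxQ n q v J) +
      (approxQ n q (u i) J - approxQ n q v J) by ring]
  refine (IsUltrametricDist.norm_add_le_max _ _).trans_lt (max_lt
    ((Tilt.norm_sub_le_max _ _).trans_lt (max_lt ((norm_Qlim_sub_le hB hui J).trans_lt hJ)
      ((norm_Qlim_sub_le hB hv J).trans_lt hJ))) ?_)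
  rw [approxQ, approxQ, ← mul_sub, norm_mul, norm_pow]
  refine lt_of_le_of_lt ((mul_le_of_le_one_left (norm_nonneg _)
    (pow_le_one₀ (norm_nonneg _) norm_p_lt_one.le)).trans
      (hC _ _ (Tilt.norm_coeff_mono hi1 _) (Tilt.norm_coeff_mono hWv _))) hi2

section Points

variable {Γ : FormalGroup (unitBall (Tilt p))}

theorem Pt.norm_add_sub_left_le (a b : Pt Γ) : ‖(a + b).co - a.co‖ ≤ ‖b.co‖ := by
  rcases eq_or_ne b.co 0 with hb | hb
  · rw [show b = 0 from Pt.ext' hb, Pt.co_zero, norm_zero]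
    have : (a + 0).1 = a.1 := fadd_zero Γ a.2
    rw [show (a + 0 : Pt Γ) = a from Subtype.ext this, sub_self, norm_zero]
  have h := fadd_sub_fadd_mem (isOpen_ballIdeal (norm_pos_iff.mpr hb)) Γ a.2 b.2 a.2 .zero
    (by rw [sub_self]; exact Submodule.zero_mem _)
    (by rw [sub_zero, mem_ballIdeal]; exact le_rfl)
  rw [fadd_zero Γ a.2, mem_ballIdeal] at h
  exact h

variable [Γ.IsComm] {n : ℕ} (Hn : Honda n Γ)
include Hn

theorem norm_nsmul_pow (N : ℕ) (x : Pt Γ) : ‖((p ^ N) • x).co‖ = ‖x.co‖ ^ p ^ (n * N) := by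
  rw [Hn.nsmul_p_pow, Pt.co_powp, norm_pow]

/-- A sequence with `p`-adically small steps converges. -/
theorem exists_limit_of_steps {u : ℕ → Pt Γ} {ρ : ℝ} (hρ0 : 0 ≤ ρ) (hρ : ρ < 1)
    (h0 : ∀ N, ‖(u N).co‖ ≤ ρ)
    (hstep : ∀ N, ∃ z : Pt Γ, ‖z.co‖ ≤ ρ ∧ u (N + 1) = u N + (p ^ N) • z) :
    ∃ v : Tilt p, ‖v‖ < 1 ∧ Tendsto (fun N => (u N).co) atTop (𝓝 v) := by
  have hd : ∀ N, dist (u N).co (u (N + 1)).co ≤ ρ ^ p ^ (n * N) := fun N => by
    obtain ⟨z, hz, e⟩ := hstep N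
    rw [dist_comm, dist_eq_norm, e]
    refine (Pt.norm_add_sub_left_le _ _).trans ?_
    rw [norm_nsmul_pow Hn]
    exact pow_le_pow_left₀ (norm_nonneg _) hz _
  have hd' : ∀ N, dist (u N).co (u (N + 1)).co ≤ 1 * ρ ^ N := fun N => by
    rw [one_mul]
    refine (hd N).trans (pow_le_pow_of_le_one hρ0 hρ.le ?_)
    exact (Nat.le_mul_of_pos_left N Hn.pos).trans (Nat.lt_pow_self hp.1.one_lt).le
  obtain ⟨v, hv⟩ := cauchySeq_tendsto_of_complete (cauchySeq_of_le_geometric ρ 1 hρ hd')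
  exact ⟨v, (le_of_tendsto' hv.norm h0).trans_lt hρ, hv⟩

theorem Gper_sum {ι : Type*} (c : ℕ) (s : Finset ι) (f : ι → Pt Γ) :
    Gper n c (∑ i ∈ s, f i).co = ∑ i ∈ s, Gper n c (f i).co := by
  classical
  induction s using Finset.induction_on with
  | empty => simpa using Hn.Gper_nsmul c 0 (0 : Pt Γ)
  | @insert a t ha ih => rw [Finset.sum_insert ha, Finset.sum_insert ha, Hn.Gper_add, ih]

theorem exists_digit_seq {g : Tilt p} (hg : g ^ p ^ n = g)
    (hinj : Function.Injective fun c : Fin n => g.coeff 0 ^ p ^ (c : ℕ)) {α : Pt Γ → Pt Γ}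
    (hα : SerMap n α) (hadd : ∀ x y, α (x + y) = α x + α y)
    (h0 : ∀ z, ‖(α z).co‖ ≤ ‖z.co‖) :
    ∃ d : ℕ → Fin n → ℕ, (∀ i s, d i s < p) ∧
      ∀ i z, ‖(α z + ∑ i' ∈ range i, Hn.corr hg (d i') i' z).co‖ ≤ ‖z.co‖ ^ p ^ i := by
  classical
  let S := fun i : ℕ => {f : Pt Γ → Pt Γ // SerMap n f ∧ (∀ x y, f (x + y) = f x + f y) ∧
    ∀ z, ‖(f z).co‖ ≤ ‖z.co‖ ^ p ^ i}
  let dig : ∀ i, S i → (Fin n → ℕ) := fun i f =>
    (Hn.exists_digit_step hg hinj f.2.1 f.2.2.1 f.2.2.2).choose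
  have hdig := fun (i : ℕ) (f : S i) =>
    (Hn.exists_digit_step hg hinj f.2.1 f.2.2.1 f.2.2.2).choose_spec
  let next : ∀ i, S i → S (i + 1) := fun i f =>
    ⟨f.1 + Hn.corr hg (dig i f) i, SerMap.add Hn f.2.1 (Hn.serMap_corr hg _ i), fun x y => by
      simp only [Pi.add_apply, f.2.2.1, Hn.corr_add]
      abel, (hdig i f).2⟩
  let seq : ∀ i, S i := fun i => Nat.rec (motive := S)
    ⟨α, hα, hadd, fun z => by rw [pow_zero, pow_one]; exact h0 z⟩ next i
  refine ⟨fun i => dig i (seq i), fun i => (hdig i (seq i)).1, fun i z => ?_⟩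
  have key : ∀ i, (seq i).1 z =
      α z + ∑ i' ∈ range i, Hn.corr hg (dig i' (seq i')) i' z := by
    intro i
    induction i with
    | zero =>
      show α z = _
      simp
    | succ i ih =>
      rw [Finset.sum_range_succ, ← add_assoc, ← ih]
      rfl
  rw [← key]
  exact (seq i).2.2.2 z

theorem Gper_add_mul (c N : ℕ) {y : Tilt p} (hy : ‖y‖ < 1) :
    Gper n (c + n * N) y = (p : ℂ_[p]) ^ N * Gper n c y := by
  induction N with
  | zero => simp
  | succ N ih =>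
    rw [Nat.mul_succ, ← add_assoc, Gper_add_period Hn.pos _ hy, ih]
    ring

/-- Periods of a point of high order are small. -/
theorem norm_Gper_le_of_norm_le {ρ : ℝ} (hρ0 : 0 ≤ ρ) (hρ : ρ < 1) (c : ℕ) :
    ∃ C, ∀ N, ∀ y : Pt Γ, ‖y.co‖ ≤ ρ ^ p ^ (n * N) → ‖Gper n c y.co‖ ≤ Tilt.tau p ^ N * C := by
  obtain ⟨C, hC⟩ := (qdata_ellCoeff (p := p) Hn.pos c).bdd_Qlim hρ
  refine ⟨C, fun N y hy => ?_⟩
  set u := Tilt.rootHom (n * N) y.co
  have hu : ‖u‖ ≤ ρ := by
    rw [← pow_le_pow_iff_left₀ (norm_nonneg _) hρ0 (pow_ne_zero (n * N) hp.1.ne_zero), ← norm_pow,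
      Tilt.rootHom_pow]
    exact hy
  rw [← Tilt.rootHom_pow (n * N) y.co, Gper_pow Hn.pos c _ (hu.trans_lt hρ),
    Gper_add_mul Hn c N (hu.trans_lt hρ), norm_mul, norm_pow]
  exact mul_le_mul_of_nonneg_left (hC u hu) (pow_nonneg (norm_nonneg _) _)

end Points

/-- Natural number partial sums of a digit sequence in base `p`. -/
def digitSum (p : ℕ) (d : ℕ → ℕ) (N : ℕ) : ℕ := ∑ M ∈ range N, p ^ M * d M

theorem digitSum_modEq (d : ℕ → ℕ) (N : ℕ) : digitSum p d (N + 1) ≡ d 0 [MOD p] := by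
  induction N with
  | zero => simp [digitSum, Nat.ModEq.refl]
  | succ N ih =>
    rw [digitSum, Finset.sum_range_succ]
    have : p ^ (N + 1) * d (N + 1) ≡ 0 [MOD p] :=
      Nat.modEq_zero_iff_dvd.mpr (Dvd.dvd.mul_right (dvd_pow_self p (Nat.succ_ne_zero N)) _)
    simpa [digitSum] using ih.add this

theorem digitSum_shift (d : ℕ → ℕ) (a N : ℕ) (h : ∀ M < a, d M = 0) :
    digitSum p d (a + N) = p ^ a * digitSum p (fun M => d (a + M)) N := by
  rw [digitSum, Finset.sum_range_add, Finset.sum_eq_zero fun M hM => by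
    rw [h M (mem_range.mp hM), mul_zero], zero_add, digitSum, Finset.mul_sum]
  exact Finset.sum_congr rfl fun M _ => by ring

/-- Regrouping a sum over `range (h * N)` by residues. -/
theorem sum_range_mul {R : Type*} [AddCommMonoid R] (h N : ℕ) (f : ℕ → R) :
    ∑ i ∈ range (h * N), f i = ∑ i₀ : Fin h, ∑ M ∈ range N, f ((i₀ : ℕ) + h * M) := by
  induction N with
  | zero => simp
  | succ N ih =>
    rw [Nat.mul_succ, Finset.sum_range_add, ih, Finset.sum_range,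
      ← Finset.sum_add_distrib]
    refine Finset.sum_congr rfl fun i₀ _ => ?_
    rw [Finset.sum_range_succ, add_comm (i₀ : ℕ)]

theorem pow_fixed_of_fixed {P : ℕ} {g : Tilt p} (hg : g ^ P = g) (s : ℕ) :
    (g ^ s) ^ P = g ^ s := by rw [← pow_mul, mul_comm, pow_mul, hg]

theorem coeff_zero_fixed_pow {h : ℕ} {z : Tilt p} (hz : z ^ p ^ h = z) (c N : ℕ) :
    z.coeff 0 ^ p ^ (c + h * N) = z.coeff 0 ^ p ^ c := by
  induction N with
  | zero => simp
  | succ N ih =>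
    rw [Nat.mul_succ, ← Nat.add_assoc, pow_add, pow_mul, ih, ← pow_mul, mul_comm, pow_mul,
      ← Tilt.coeff_npow, hz]

variable {n h m : ℕ} {Γn Γh : FormalGroup (unitBall (Tilt p))} [Γn.IsComm] [Γh.IsComm]

/-- The rows of the period matrix of `η` are independent. -/
theorem eta_rows_indep (Hh : Honda h Γh) (η : Pt Γn →+ Pt Γh)
    {ε : ℝ} (hε : 0 < ε) (honto : ∀ z : Pt Γh, ‖z.co‖ < ε → ∃ y, η y = z)
    {H : ℕ → Fin n → ℂ_[p]} (hH : ∀ l (y : Pt Γn), Gper h l (η y).co = ∑ c, H l c * Gper n c y.co)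
    (l : ℕ) {w : Fin h → ℂ_[p]} (hw : ∀ c, ∑ i : Fin h, w i * H (l + (i : ℕ)) c = 0) : w = 0 := by
  have h1 : ∀ z : Pt Γh, ‖z.co‖ < ε → ∑ i : Fin h, w i * Gper h (l + (i : ℕ)) z.co = 0 := by
    intro z hz
    obtain ⟨y, rfl⟩ := honto z hz
    simp only [hH, Finset.mul_sum]
    rw [Finset.sum_comm]
    refine Finset.sum_eq_zero fun c _ => ?_
    rw [← Finset.sum_congr rfl fun i _ => mul_assoc _ _ _, ← Finset.sum_mul, hw, zero_mul]
  have h2 : ∀ z : Pt Γh, ∑ i : Fin h, w i * Gper h (l + (i : ℕ)) z.co = 0 := by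
    intro z
    obtain ⟨N, hN⟩ := exists_pow_lt_of_lt_one hε z.norm_lt
    have h3 := h1 ((p ^ N) • z) (lt_of_le_of_lt (by
      rw [norm_nsmul_pow Hh]
      exact pow_le_pow_of_le_one (norm_nonneg _) z.norm_lt.le
        ((Nat.le_mul_of_pos_left N Hh.pos).trans (Nat.lt_pow_self hp.1.one_lt).le)) hN)
    have h4 : ((p : ℂ_[p]) ^ N) * ∑ i : Fin h, w i * Gper h (l + (i : ℕ)) z.co = 0 := by
      rw [← h3, Finset.mul_sum]
      refine Finset.sum_congr rfl fun i _ => ?_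
      rw [Hh.Gper_nsmul]
      push_cast
      ring
    exact (mul_eq_zero.mp h4).resolve_left (pow_ne_zero _ natCast_ne_zero_Cp)
  obtain ⟨y₀, hy₀, hne⟩ := exists_Gper_ne_zero (p := p) Hh.pos
  set y₁ := Pt.mk' Γh y₀ hy₀
  have h5 : (fun i : Fin h => w i * Gper h (l + (i : ℕ)) y₀) = 0 := by
    refine eq_zero_of_fixed_sums Hh.pos fun u hu => ?_
    set z := Tilt.rootHom l u
    have hz : z ^ p ^ h = z := by rw [← map_pow, hu]
    have hzl : z.coeff 0 ^ p ^ l = u.coeff 0 := by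
      rw [← Tilt.coeff_npow, Tilt.rootHom_pow]
    have h6 := h2 (Hh.fmul hz y₁)
    rw [← h6]
    refine Finset.sum_congr rfl fun i _ => ?_
    rw [Honda.co_fmul, Gper_fixed_mul Hh.pos _ hz y₁.norm_lt, pow_add, pow_mul, hzl, Pt.co_mk']
    ring
  funext i
  exact (mul_eq_zero.mp (congrFun h5 i)).resolve_right (hne _)

/-- The main step: the digit sums of a vanishing row give vanishing period combinations. -/
theorem digit_combination_eq_zero (Hn : Honda n Γn) (hn : 2 ≤ n) (Hh : Honda h Γh)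
    (η : Pt Γn →+ Pt Γh) {ε : ℝ} (hε : 0 < ε) (honto : ∀ z : Pt Γh, ‖z.co‖ < ε → ∃ y, η y = z)
    {H : ℕ → Fin n → ℂ_[p]} (hH : ∀ l (y : Pt Γn), Gper h l (η y).co = ∑ c, H l c * Gper n c y.co)
    {g : Tilt p} (hg : g ^ p ^ h = g)
    (hinj : Function.Injective fun c : Fin h => g.coeff 0 ^ p ^ (c : ℕ))
    (x : Fin m → Pt Γn) (α : Fin m → Pt Γh → Pt Γh) (D : Fin m → ℕ → Fin h → ℕ)
    (hD : ∀ j i z, ‖(α j z + ∑ i' ∈ range i, Hh.corr hg (D j i') i' z).co‖ ≤ ‖z.co‖ ^ p ^ i)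
    (hvan : ∀ (z : Tilt p) (hz : z ^ p ^ n = z), ∀ t < n,
      ∑ j, α j (η (Hn.fmul hz (Pt.powp t (x j)))) = 0) (i₀ : Fin h) (s : Fin h) :
    Tendsto (fun N => (∑ j, digitSum p (fun M => D j ((i₀ : ℕ) + h * M) s) N • x j).co)
      atTop (𝓝 0) := by
  classical
  set c : Fin m → Fin h → Fin h → ℕ → ℕ :=
    fun j i s N => digitSum p (fun M => D j ((i : ℕ) + h * M) s) N
  set v : Fin h → Fin h → ℕ → Pt Γn := fun i s N => ∑ j, c j i s N • x j
  obtain ⟨ρ, hρ0, hρ1, hρ⟩ : ∃ ρ : ℝ, 0 ≤ ρ ∧ ρ < 1 ∧ ∀ j, ‖(x j).co‖ ≤ ρ := by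
    rcases isEmpty_or_nonempty (Fin m) with he | he
    · exact ⟨0, le_rfl, one_pos, fun j => isEmptyElim j⟩
    · obtain ⟨j₀, hj₀⟩ := Finite.exists_max fun j => ‖(x j).co‖
      exact ⟨_, norm_nonneg _, (x j₀).norm_lt, hj₀⟩
  have hv : ∀ i s N, ‖(v i s N).co‖ ≤ ρ := fun i s N =>
    (Pt.norm_sum_sub_le Finset.univ _ (fun j _ =>
      (Pt.norm_nsmul_sub_le _ _).1.trans (hρ j)) hρ0).1
  choose L hL1 hLim using fun i s => exists_limit_of_steps Hn hρ0 hρ1 (hv i s) fun N =>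
    ⟨∑ j, D j ((i : ℕ) + h * N) s • x j,
      (Pt.norm_sum_sub_le Finset.univ _ (fun j _ =>
        (Pt.norm_nsmul_sub_le _ _).1.trans (hρ j)) hρ0).1, by
      simp only [v, c, Finset.smul_sum, smul_smul, ← Finset.sum_add_distrib, ← add_smul]
      refine Finset.sum_congr rfl fun j _ => ?_
      congr 1
      simp [digitSum, Finset.sum_range_succ]⟩
  have hG : ∀ i s a, Tendsto (fun N => Gper n a (v i s N).co) atTop (𝓝 (Gper n a (L i s))) :=
    fun i s a => (qdata_ellCoeff Hn.pos a).tendsto_comp (hL1 i s) (hLim i s)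
  set γ : ℕ → Fin h → ℂ_[p] := fun l s => (g.coeff 0 ^ p ^ l) ^ (s : ℕ)
  have hmain : ∀ (z : Tilt p) (_ : z ^ p ^ n = z), ∀ t < n, ∀ l,
      ∑ a : Fin n, z.coeff 0 ^ p ^ (a : ℕ) * ∑ i : Fin h, H (l + (i : ℕ)) a *
        ∑ s : Fin h, γ l s * Gper n ((a : ℕ) + t) (L i s) = 0 := by
    intro z hz t ht l
    set w : Fin m → Pt Γh := fun j => η (Hn.fmul hz (Pt.powp t (x j)))
    obtain ⟨ρ', hρ'0, hρ'1, hρ'⟩ : ∃ ρ : ℝ, 0 ≤ ρ ∧ ρ < 1 ∧ ∀ j, ‖(w j).co‖ ≤ ρ := by
      rcases isEmpty_or_nonempty (Fin m) with he | he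
      · exact ⟨0, le_rfl, one_pos, fun j => isEmptyElim j⟩
      · obtain ⟨j₀, hj₀⟩ := Finite.exists_max fun j => ‖(w j).co‖
        exact ⟨_, norm_nonneg _, (w j₀).norm_lt, hj₀⟩
    obtain ⟨C, hC⟩ := norm_Gper_le_of_norm_le (Γ := Γh) Hh hρ'0 hρ'1 l
    have hw : ∀ j (i : Fin h), Gper h (l + (i : ℕ)) (w j).co =
        ∑ a : Fin n, H (l + (i : ℕ)) a * (z.coeff 0 ^ p ^ (a : ℕ) * Gper n ((a : ℕ) + t) (x j).co) :=
      fun j i => by
        rw [hH]
        refine Finset.sum_congr rfl fun a _ => ?_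
        rw [Honda.co_fmul, Gper_fixed_mul Hn.pos _ hz (Pt.powp t (x j)).norm_lt, Pt.co_powp,
          Gper_pow Hn.pos _ _ (x j).norm_lt]
    have hid : ∀ N, ∑ a : Fin n, z.coeff 0 ^ p ^ (a : ℕ) * ∑ i : Fin h, H (l + (i : ℕ)) a *
        ∑ s : Fin h, γ l s * Gper n ((a : ℕ) + t) (v i s N).co =
        ∑ j, Gper h l (α j (w j) + ∑ i' ∈ range (h * N), Hh.corr hg (D j i') i' (w j)).co := by
      intro N
      have h0 : ∑ j, Gper h l (α j (w j)).co = 0 := by
        rw [← Gper_sum Hh, hvan z hz t ht]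
        simpa using Hh.Gper_nsmul l 0 (0 : Pt Γh)
      have hcorr : ∀ (j : Fin m) (i : Fin h) (M : ℕ),
          Gper h l (Hh.corr hg (D j ((i : ℕ) + h * M)) ((i : ℕ) + h * M) (w j)).co =
            ∑ s : Fin h, γ l s * ((p ^ M * D j ((i : ℕ) + h * M) s : ℕ) : ℂ_[p]) *
              Gper h (l + (i : ℕ)) (w j).co := fun j i M => by
        rw [Hh.Gper_corr hg, ← add_assoc, Gper_add_mul Hh _ _ (w j).norm_lt, Finset.sum_mul]
        refine Finset.sum_congr rfl fun s _ => ?_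
        push_cast
        ring
      calc ∑ a : Fin n, z.coeff 0 ^ p ^ (a : ℕ) * ∑ i : Fin h, H (l + (i : ℕ)) a *
            ∑ s : Fin h, γ l s * Gper n ((a : ℕ) + t) (v i s N).co
          = ∑ a : Fin n, ∑ i : Fin h, ∑ s : Fin h, ∑ j, γ l s * (c j i s N : ℂ_[p]) *
              (H (l + (i : ℕ)) a * (z.coeff 0 ^ p ^ (a : ℕ) * Gper n ((a : ℕ) + t) (x j).co)) := by
            simp only [v, Gper_sum Hn, Hn.Gper_nsmul, Finset.mul_sum]
            refine Finset.sum_congr rfl fun a _ => Finset.sum_congr rfl fun i _ =>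
              Finset.sum_congr rfl fun s _ => Finset.sum_congr rfl fun j _ => ?_
            ring
        _ = ∑ j, ∑ i : Fin h, ∑ s : Fin h,
              γ l s * (c j i s N : ℂ_[p]) * Gper h (l + (i : ℕ)) (w j).co := by
            simp only [hw, Finset.mul_sum]
            rw [Finset.sum_comm]
            refine Eq.trans ?_ Finset.sum_comm
            refine Finset.sum_congr rfl fun i _ => ?_
            rw [Finset.sum_comm]
            refine Eq.trans ?_ Finset.sum_comm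
            refine Finset.sum_congr rfl fun s _ => Finset.sum_comm
        _ = ∑ j, (Gper h l (α j (w j)).co +
              ∑ i' ∈ range (h * N), Gper h l (Hh.corr hg (D j i') i' (w j)).co) := by
            rw [Finset.sum_add_distrib, h0, zero_add]
            refine Finset.sum_congr rfl fun j _ => ?_
            rw [sum_range_mul]
            refine Finset.sum_congr rfl fun i _ => ?_
            simp only [hcorr, c, digitSum, Nat.cast_sum, Finset.mul_sum, Finset.sum_mul]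
            exact Finset.sum_comm
        _ = _ := Finset.sum_congr rfl fun j _ => by rw [Hh.Gper_add, Gper_sum Hh]
    have hlim : Tendsto (fun N => ∑ a : Fin n, z.coeff 0 ^ p ^ (a : ℕ) * ∑ i : Fin h,
        H (l + (i : ℕ)) a * ∑ s : Fin h, γ l s * Gper n ((a : ℕ) + t) (v i s N).co) atTop
        (𝓝 (∑ a : Fin n, z.coeff 0 ^ p ^ (a : ℕ) * ∑ i : Fin h, H (l + (i : ℕ)) a *
          ∑ s : Fin h, γ l s * Gper n ((a : ℕ) + t) (L i s))) :=
      tendsto_finsetSum _ fun a _ => (tendsto_finsetSum _ fun i _ =>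
        (tendsto_finsetSum _ fun s _ => (hG i s _).const_mul _).const_mul _).const_mul _
    have hzero : Tendsto (fun N => ∑ a : Fin n, z.coeff 0 ^ p ^ (a : ℕ) * ∑ i : Fin h,
        H (l + (i : ℕ)) a * ∑ s : Fin h, γ l s * Gper n ((a : ℕ) + t) (v i s N).co) atTop
        (𝓝 0) := by
      refine squeeze_zero_norm (fun N => ?_) (tendsto_tau_mul (p := p) (max C 0))
      rw [hid]
      refine IsUltrametricDist.norm_sum_le_of_forall_le_of_nonneg
        (mul_nonneg (pow_nonneg (Tilt.tau_pos p).le _) (le_max_right _ _)) fun j _ => ?_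
      refine (hC N _ ((hD j (h * N) (w j)).trans
        (pow_le_pow_left₀ (norm_nonneg _) (hρ' j) _))).trans ?_
      exact mul_le_mul_of_nonneg_left (le_max_left _ _) (pow_nonneg (Tilt.tau_pos p).le _)
    exact tendsto_nhds_unique hlim hzero
  have hzero : ∀ i s, L i s = 0 := by
    have h1 : ∀ t < n, ∀ l, ∀ a : Fin n, ∑ i : Fin h, H (l + (i : ℕ)) a *
        ∑ s : Fin h, γ l s * Gper n ((a : ℕ) + t) (L i s) = 0 := fun t ht l a =>
      congrFun (eq_zero_of_fixed_sums Hn.pos fun z hz => hmain z hz t ht l) a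
    have h2 : ∀ d < n, ∀ l (i : Fin h), ∑ s : Fin h, γ l s * Gper n d (L i s) = 0 := by
      intro d hd l i
      refine congrFun (eta_rows_indep Hh η hε honto hH l
        (w := fun i => ∑ s : Fin h, γ l s * Gper n d (L i s)) fun a => ?_) i
      rcases le_or_gt (a : ℕ) d with had | had
      · have := h1 (d - (a : ℕ)) (by omega) l a
        rw [Nat.add_sub_cancel' had] at this
        rw [← this]
        exact Finset.sum_congr rfl fun i _ => mul_comm _ _
      · have := h1 (d + n - (a : ℕ)) (by omega) l a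
        rw [Nat.add_sub_cancel' (by omega : (a : ℕ) ≤ d + n)] at this
        have e : (p : ℂ_[p]) * ∑ i : Fin h,
            (∑ s : Fin h, γ l s * Gper n d (L i s)) * H (l + (i : ℕ)) a = 0 := by
          rw [← this, Finset.mul_sum]
          refine Finset.sum_congr rfl fun i _ => ?_
          simp only [Gper_add_period Hn.pos _ (hL1 i _), Finset.mul_sum, Finset.sum_mul]
          exact Finset.sum_congr rfl fun s _ => by ring
        exact (mul_eq_zero.mp e).resolve_left natCast_ne_zero_Cp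
    intro i s
    refine eq_zero_of_Gper_eq_zero hn (hL1 i s) fun d hd => ?_
    refine congrFun (Matrix.eq_zero_of_forall_index_sum_mul_pow_eq_zero hinj
      (v := fun s => Gper n d (L i s)) fun l => ?_) s
    rw [← h2 d hd (l : ℕ) i]
    exact Finset.sum_congr rfl fun s _ => mul_comm _ _
  have := hLim i₀ s
  rwa [hzero] at this

/-- Level-one independence from a map killing `p • x_j` which is small near zero. -/
theorem indep_of_level_one {M : Type*} [AddCommMonoid M] (τ : Pt Γn →+ M)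
    (hcont : ∀ a : M, a ≠ 0 → ∃ δ > 0, ∀ z : Pt Γn, ‖z.co‖ < δ → τ z ≠ a)
    (x : Fin m → Pt Γn) (hp0 : ∀ j, p • τ (x j) = 0)
    (hind : ∀ e : Fin m → ℕ, ∑ j, e j • τ (x j) = 0 → ∀ j, p ∣ e j) (e : Fin m → ℕ)
    (he : ∃ j, ¬ p ∣ e j) :
    ∃ δ > 0, ∀ e' : Fin m → ℕ, (∀ j, e' j ≡ e j [MOD p]) → δ ≤ ‖(∑ j, e' j • x j).co‖ := by
  have hne : ∑ j, e j • τ (x j) ≠ 0 := fun h => by
    obtain ⟨j, hj⟩ := he
    exact hj (hind e h j)
  obtain ⟨δ, hδ, hsmall⟩ := hcont _ hne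
  refine ⟨δ, hδ, fun e' he' => le_of_not_gt fun hlt => hsmall _ hlt ?_⟩
  have hmod : ∀ (j : Fin m) (a : ℕ), a • τ (x j) = (a % p) • τ (x j) := fun j a => by
    conv_lhs => rw [← Nat.mod_add_div a p, add_smul, mul_comm, mul_smul, hp0, smul_zero, add_zero]
  simp only [map_sum, map_nsmul]
  refine Finset.sum_congr rfl fun j _ => ?_
  rw [hmod j (e' j), hmod j (e j), (he' j : e' j % p = e j % p)]

/-- Freeness of `Λ`. -/
theorem freeRows_of_approx (hn : 2 ≤ n) (Hn : Honda n Γn) (Hh : Honda h Γh)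
    (η : Pt Γn →+ Pt Γh) (ι : PowerSeries (unitBall (Tilt p)))
    (hι : PowerSeries.constantCoeff ι = 0) {r : ℝ} (hr : r < 1)
    (hη : ∀ y, ‖(η y).co - ((fapp ι y.1 : unitBall (Tilt p)) : Tilt p)‖ ≤ r)
    {ε : ℝ} (hε : 0 < ε) (honto : ∀ z : Pt Γh, ‖z.co‖ < ε → ∃ y, η y = z)
    (x : Fin m → Pt Γn)
    (hindep : ∀ e : Fin m → ℕ, (∃ j, ¬ p ∣ e j) → ∃ δ > 0, ∀ e' : Fin m → ℕ,
      (∀ j, e' j ≡ e j [MOD p]) → δ ≤ ‖(∑ j, e' j • x j).co‖)
    (Λ : Set (Fin m → Pt Γh))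
    (hΛ : ∀ (z : Tilt p) (hz : z ^ p ^ n = z), ∀ t < n,
      (fun j => η (Hn.fmul hz (Pt.powp t (x j)))) ∈ Λ) :
    FreeRows (p ^ h) Λ := by
  classical
  intro φ hφ hfix hne
  by_contra hno
  push Not at hno
  set α : Fin m → Pt Γh → Pt Γh := fun j => sapp (φ j) (hφ j).1
  obtain ⟨g, hg, -, hinj⟩ := exists_gen (p := p) Hh.pos
  choose H hH using exists_eta_periods Hn Hh η ι hι hr hη
  have hser : ∀ j, SerMap h (α j) := fun j => ⟨φ j, (hφ j).1, hfix j, fun z => rfl⟩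
  have hα : ∀ j x y, α j (x + y) = α j x + α j y := fun j x y =>
    Subtype.ext (fapp_hom (hφ j) x.2 y.2)
  have h0 : ∀ j z, ‖(α j z).co‖ ≤ ‖z.co‖ := fun j z => by
    refine norm_le_of_hasSum ((hasSum_ev1 (φ := RingHom.id _) z.2 (φ j)).map
      (unitBall (Tilt p)).subtype continuous_subtype_val) (norm_nonneg _) fun i => ?_
    simp only [Function.comp_apply, RingHom.id_apply, Subring.subtype_apply, Subring.coe_mul,
      SubmonoidClass.coe_pow, norm_mul, norm_pow]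
    rcases i with _ | i
    · simp [(hφ j).1]
    · exact (mul_le_of_le_one_left (by positivity) (norm_coe_le_one _)).trans
        (pow_le_of_le_one (norm_nonneg _) z.norm_lt.le (Nat.succ_ne_zero i))
  choose D hDlt hD using fun j => exists_digit_seq Hh hg hinj (hser j) (hα j) (h0 j)
  have hcomb := digit_combination_eq_zero Hn hn Hh η hε honto hH hg hinj x α D hD
    (fun z hz t ht => hno _ (hΛ z hz t ht))
  have hzero : ∀ M, ∀ (i : Fin h) (s : Fin h) j, D j ((i : ℕ) + h * M) s = 0 := by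
    intro M
    induction M using Nat.strong_induction_on with
    | _ M ih =>
      intro i s j
      by_contra hd
      have hlt := hDlt j ((i : ℕ) + h * M) s
      obtain ⟨δ, hδ, hbound⟩ := hindep (fun j => D j ((i : ℕ) + h * M) s)
        ⟨j, fun hdvd => hd (Nat.eq_zero_of_dvd_of_lt hdvd hlt)⟩
      obtain ⟨N₀, hN₀⟩ := eventually_atTop.mp
        ((tendsto_zero_iff_norm_tendsto_zero.mp (hcomb i s)).eventually_lt_const
          (pow_pos hδ (p ^ (n * M))))
      refine (hN₀ (M + (N₀ + 1)) (by omega)).not_ge ?_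
      simp only [digitSum_shift (p := p) _ M _ fun M' hM' => ih M' hM' i s _, mul_smul,
        ← Finset.smul_sum]
      rw [norm_nsmul_pow Hn]
      refine pow_le_pow_left₀ hδ.le (hbound _ fun j => ?_) _
      simpa using digitSum_modEq (p := p) (fun M' => D j ((i : ℕ) + h * (M + M')) s) N₀
  obtain ⟨j, hj⟩ := hne
  have hall : ∀ i, ∀ z, ‖(α j z).co‖ ≤ ‖z.co‖ ^ p ^ i := fun i z => by
    have hd0 : ∀ i', D j i' = 0 := fun i' => funext fun s => by
      have := hzero (i' / h) ⟨i' % h, Nat.mod_lt _ Hh.pos⟩ s j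
      rwa [show ((⟨i' % h, Nat.mod_lt _ Hh.pos⟩ : Fin h) : ℕ) + h * (i' / h) = i' from
        Nat.mod_add_div i' h] at this
    have := hD j i z
    simpa [hd0, Honda.corr] using this
  have hαz : ∀ z, (α j z).co = 0 := fun z => by
    refine norm_le_zero_iff.mp (ge_of_tendsto' ((tendsto_pow_atTop_nhds_zero_of_lt_one
      (norm_nonneg _) z.norm_lt).comp (tendsto_pow_atTop_atTop_of_one_lt hp.1.one_lt))
      fun i => hall i z)
  refine hj ?_
  by_contra hne'
  set q : ℕ → Tilt p := fun i => ((PowerSeries.coeff i (φ j) : unitBall (Tilt p)) : Tilt p)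
  have hex : ∃ i, q i ≠ 0 := by
    by_contra hall'
    push Not at hall'
    exact hne' (PowerSeries.ext fun i => Subtype.ext ((hall' i).trans (by simp)))
  have hq0 := Nat.find_spec hex
  set i₀ := Nat.find hex
  have hfix₀ : q i₀ ^ p ^ h = q i₀ := by rw [← SubmonoidClass.coe_pow, hfix]
  have hnorm : ‖q i₀‖ = 1 := by
    have hQ : 1 < p ^ h := one_lt_pow₀ hp.1.one_lt (by have := Hh.pos; omega)
    refine le_antisymm (norm_coe_le_one _) (le_of_not_gt fun hlt => ?_)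
    have := congrArg norm hfix₀
    rw [norm_pow] at this
    exact (pow_lt_self_of_lt_one₀ (norm_pos_iff.mpr hq0) hlt hQ).ne this
  obtain ⟨w, hw⟩ := Tilt.exists_coeff (p : ℂ_[p]) 0
  have hw1 : ‖w‖ < 1 := by rw [Tilt.norm_def, hw]; exact norm_p_lt_one
  have hw0 : 0 < ‖w‖ := by rw [Tilt.norm_def, hw]; exact Tilt.tau_pos p
  have hs : HasSum (fun i => q i * w ^ i) 0 := by
    have := (hasSum_ev1 (φ := RingHom.id _) (Pt.mk' Γh w hw1).2 (φ j)).map
      (unitBall (Tilt p)).subtype continuous_subtype_val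
    rw [show (unitBall (Tilt p)).subtype (ev1 (RingHom.id _) (Pt.mk' Γh w hw1).1 (φ j)) = 0 from
      hαz (Pt.mk' Γh w hw1)] at this
    exact this.congr_fun fun i => rfl
  have hle : ‖q i₀ * w ^ i₀‖ ≤ ‖w‖ ^ (i₀ + 1) := by
    have h1 := hs.sub (hasSum_ite_eq i₀ (q i₀ * w ^ i₀))
    rw [zero_sub] at h1
    have h2 := norm_le_of_hasSum h1 (by positivity : 0 ≤ ‖w‖ ^ (i₀ + 1)) fun i => ?_
    · rwa [norm_neg] at h2
    rcases lt_trichotomy i i₀ with hi | rfl | hi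
    · simp [not_not.mp (Nat.find_min hex hi), hi.ne]
    · simp
    · rw [if_neg hi.ne', sub_zero, norm_mul, norm_pow]
      exact (mul_le_of_le_one_left (by positivity) (norm_coe_le_one _)).trans
        (pow_le_pow_of_le_one hw0.le hw1.le hi)
  rw [norm_mul, norm_pow, hnorm, one_mul, pow_succ] at hle
  exact hle.not_gt (mul_lt_of_lt_one_right (pow_pos hw0 _) hw1)

end Vale.Agent.P217
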