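import Vale.Agent.P217.Nodes
import Mathlib.RingTheory.PowerSeries.WeierstrassPreparation
import Mathlib.Topology.Algebra.Nonarchimedean.AdicTopology
import Mathlib.FieldTheory.IsAlgClosed.Basic
import Mathlib.RingTheory.Polynomial.UniqueFactorization

/-!
# The adic structure of the unit ball and roots of series
-/

noncomputable section

namespace Vale.Agent.P217

set_option linter.unusedSectionVars false
set_option linter.style.haveILetI false

open Filter Topology

variable {L : Type*} [NormedField L] [IsUltrametricDist L]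

theorem mem_span_pow_iff {a x : unitBall L} (ha : (a : L) ≠ 0) {m : ℕ} :
    x ∈ Ideal.span {a} ^ m ↔ ‖(x : L)‖ ≤ ‖(a : L)‖ ^ m := by
  rw [Ideal.span_singleton_pow, Ideal.mem_span_singleton']
  constructor
  · rintro ⟨c, rfl⟩
    rw [Subring.coe_mul, norm_mul, SubmonoidClass.coe_pow, norm_pow]
    exact mul_le_of_le_one_left (by positivity) (norm_coe_le_one c)
  · intro h
    refine ⟨⟨(x : L) / (a : L) ^ m, ?_⟩, Subtype.ext ?_⟩
    · rw [mem_unitBall, norm_div, norm_pow]
      exact div_le_one_of_le₀ h (by positivity)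
    · rw [Subring.coe_mul, SubmonoidClass.coe_pow]
      exact div_mul_cancel₀ _ (pow_ne_zero _ ha)

theorem isAdic_span {a : unitBall L} (ha : (a : L) ≠ 0) (ha1 : ‖(a : L)‖ < 1) :
    IsAdic (Ideal.span {a}) := by
  rw [isAdic_iff]
  refine ⟨fun m => ?_, fun U hU => ?_⟩
  · have hr : 0 < ‖(a : L)‖ ^ m := pow_pos (norm_pos_iff.mpr ha) m
    convert isOpen_ballIdeal (K := L) hr using 1
    ext x
    simp only [SetLike.mem_coe, mem_span_pow_iff ha, mem_ballIdeal]
  · obtain ⟨r, hr, h⟩ := Metric.nhds_basis_closedBall.mem_iff.mp hU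
    obtain ⟨m, hm⟩ := exists_pow_lt_of_lt_one hr ha1
    refine ⟨m, fun x hx => h ?_⟩
    rw [SetLike.mem_coe, mem_span_pow_iff ha] at hx
    rw [Metric.mem_closedBall, Subtype.dist_eq, dist_eq_norm]
    simpa using hx.trans hm.le

theorem isAdicComplete_span [CompleteSpace L] {a : unitBall L} (ha : (a : L) ≠ 0)
    (ha1 : ‖(a : L)‖ < 1) : IsAdicComplete (Ideal.span {a}) (unitBall L) := by
  have hB := (isAdic_span ha ha1).hasBasis_nhds_zero
  haveI : IsHausdorff (Ideal.span {a}) (unitBall L) := by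
    refine ⟨fun x hx => ?_⟩
    simp only [SModEq.zero, smul_eq_mul, Ideal.mul_top] at hx
    have h0 : Tendsto (fun _ : ℕ => x) atTop (𝓝 0) := by
      rw [hB.tendsto_right_iff]
      exact fun m _ => Eventually.of_forall fun _ => hx m
    exact tendsto_nhds_unique tendsto_const_nhds h0
  haveI : IsPrecomplete (Ideal.span {a}) (unitBall L) := by
    refine ⟨fun f hf => ?_⟩
    simp only [SModEq.sub_mem, smul_eq_mul, Ideal.mul_top] at hf ⊢
    have hc : CauchySeq f := by
      rw [hB.uniformity_of_nhds_zero.cauchySeq_iff']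
      exact fun m _ => ⟨m, fun i hi => by
        simp only [Set.mem_ofPred_eq]
        exact hf hi⟩
    obtain ⟨l, hl⟩ := cauchySeq_tendsto_of_complete hc
    refine ⟨l, fun m => ?_⟩
    exact ((Ideal.span {a} ^ m).toAddSubgroup.isClosed_of_isOpen
      ((isAdic_iff.mp (isAdic_span ha ha1)).1 m)).mem_of_tendsto
      (tendsto_const_nhds.sub hl) ((eventually_ge_atTop m).mono fun i hi => hf hi)
  exact ⟨⟩

theorem isUnit_ball_iff {x : unitBall L} : IsUnit x ↔ ‖(x : L)‖ = 1 := by
  constructor
  · rintro ⟨u, rfl⟩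
    have h : ‖((u : unitBall L) : L)‖ * ‖((↑u⁻¹ : unitBall L) : L)‖ = 1 := by
      rw [← norm_mul, ← Subring.coe_mul, Units.mul_inv, Subring.coe_one, norm_one]
    refine le_antisymm (norm_coe_le_one _) ?_
    calc (1 : ℝ) = ‖((u : unitBall L) : L)‖ * ‖((↑u⁻¹ : unitBall L) : L)‖ := h.symm
      _ ≤ _ := mul_le_of_le_one_right (norm_nonneg _) (norm_coe_le_one _)
  · intro h
    have h0 : (x : L) ≠ 0 := fun e => by simp [e] at h
    exact IsUnit.of_mul_eq_one (⟨(x : L)⁻¹, by rw [mem_unitBall, norm_inv, h, inv_one]⟩ : unitBall L)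
      (Subtype.ext (mul_inv_cancel₀ h0))

variable [CompleteSpace L]

/-- Weierstrass preparation over the unit ball: a series with small coefficients below `d` and a
unit at `d` is a distinguished monic polynomial times a unit. -/
theorem exists_distinguished {f : PowerSeries (unitBall L)} {d : ℕ} {π : unitBall L}
    (hπ0 : (π : L) ≠ 0) (hπ1 : ‖(π : L)‖ < 1)
    (hlow : ∀ i < d, ‖((PowerSeries.coeff i f : unitBall L) : L)‖ ≤ ‖(π : L)‖)
    (htop : ‖((PowerSeries.coeff d f : unitBall L) : L)‖ = 1) :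
    ∃ (Q : Polynomial (unitBall L)) (U : PowerSeries (unitBall L)), Q.Monic ∧ Q.natDegree = d ∧
      (∀ i < d, ‖((Q.coeff i : unitBall L) : L)‖ ≤ ‖(π : L)‖) ∧
      IsUnit U ∧ f = (Q : PowerSeries (unitBall L)) * U := by
  classical
  haveI := isAdicComplete_span hπ0 hπ1
  set I : Ideal (unitBall L) := Ideal.span {π}
  have hmem : ∀ x : unitBall L, x ∈ I ↔ ‖(x : L)‖ ≤ ‖(π : L)‖ := fun x => by
    simpa using mem_span_pow_iff (x := x) hπ0 (m := 1)
  have hunit : IsUnit (PowerSeries.coeff d f) := isUnit_ball_iff.mpr htop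
  have hne : (Ideal.Quotient.mk I) (PowerSeries.coeff d f) ≠ 0 := by
    rw [Ne, Ideal.Quotient.eq_zero_iff_mem, hmem, htop]
    exact not_le.mpr hπ1
  have hord : (f.map (Ideal.Quotient.mk I)).order = d := by
    rw [PowerSeries.order_eq_nat]
    exact ⟨by simpa using hne, fun i hi => by
      simpa [Ideal.Quotient.eq_zero_iff_mem, hmem] using hlow i hi⟩
  have H : f.IsWeierstrassDivisorAt I := by
    rw [PowerSeries.IsWeierstrassDivisorAt, hord]
    simpa using hunit
  have hdiv := H.isWeierstrassDivisionAt_div_mod (f := PowerSeries.X ^ d)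
  set q := H.div (PowerSeries.X ^ d)
  set r := H.mod (PowerSeries.X ^ d)
  have hrdeg : r.degree < d := by simpa [hord] using hdiv.degree_lt
  have heq : (PowerSeries.X ^ d : PowerSeries (unitBall L)) = f * q + r := hdiv.eq_mul_add
  have hfI : ∀ i < d, PowerSeries.coeff i f ∈ I := fun i hi => (hmem _).mpr (hlow i hi)
  have hprod : ∀ i < d, PowerSeries.coeff i (f * q) ∈ I := fun i hi => by
    rw [PowerSeries.coeff_mul]
    refine Ideal.sum_mem _ fun x hx => Ideal.mul_mem_right _ _ (hfI _ ?_)
    have := Finset.mem_antidiagonal.mp hx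
    omega
  have hr : ∀ i, r.coeff i ∈ I := fun i => by
    rcases Nat.lt_or_ge i d with hi | hi
    · have h := congrArg (PowerSeries.coeff i) heq
      rw [PowerSeries.coeff_X_pow, if_neg hi.ne, map_add, Polynomial.coeff_coe] at h
      rw [eq_neg_of_add_eq_zero_right h.symm]
      exact I.neg_mem (hprod i hi)
    · rw [Polynomial.coeff_eq_zero_of_degree_lt
        (hrdeg.trans_le (WithBot.coe_le_coe.mpr hi))]
      exact I.zero_mem
  have hq : IsUnit q := by
    rw [PowerSeries.isUnit_iff_constantCoeff]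
    have h := congrArg (fun g => Ideal.Quotient.mk I (PowerSeries.coeff d g)) heq
    simp only [PowerSeries.coeff_X_pow, if_pos, map_one, map_add, Polynomial.coeff_coe,
      Ideal.Quotient.eq_zero_iff_mem.mpr (hr d), add_zero] at h
    rw [PowerSeries.coeff_mul, map_sum,
      Finset.sum_eq_single (d, 0) (fun x hx hne => by
        have := Finset.mem_antidiagonal.mp hx
        have hlt : x.1 < d := by
          by_contra hge
          exact hne (Prod.ext (show x.1 = d by omega) (show x.2 = 0 by omega))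
        rw [map_mul, Ideal.Quotient.eq_zero_iff_mem.mpr (hfI _ hlt), zero_mul])
        (fun h => absurd (Finset.mem_antidiagonal.mpr (by simp)) h)] at h
    rw [PowerSeries.coeff_zero_eq_constantCoeff] at h
    have h' : 1 - PowerSeries.coeff d f * PowerSeries.constantCoeff q ∈ I := by
      rw [← Ideal.Quotient.eq_zero_iff_mem, map_sub, map_one, ← h, sub_self]
    rw [hmem] at h'
    refine isUnit_ball_iff.mpr (le_antisymm (norm_coe_le_one _) ?_)
    by_contra hlt
    push Not at hlt
    have : ‖(1 : L)‖ < 1 := by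
      rw [show (1 : L) = ((1 - PowerSeries.coeff d f * PowerSeries.constantCoeff q : unitBall L) : L)
        + ((PowerSeries.coeff d f * PowerSeries.constantCoeff q : unitBall L) : L) by simp]
      refine (IsUltrametricDist.norm_add_le_max _ _).trans_lt (max_lt (h'.trans_lt hπ1) ?_)
      rw [Subring.coe_mul, norm_mul, htop, one_mul]
      exact hlt
    simp at this
  refine ⟨Polynomial.X ^ d - r, ↑hq.unit⁻¹, Polynomial.monic_X_pow_sub hrdeg, ?_, fun i hi => ?_,
    Units.isUnit _, ?_⟩
  · refine Polynomial.natDegree_eq_of_degree_eq_some ?_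
    rw [Polynomial.degree_sub_eq_left_of_degree_lt (by rwa [Polynomial.degree_X_pow]),
      Polynomial.degree_X_pow]
  · rw [Polynomial.coeff_sub, Polynomial.coeff_X_pow, if_neg hi.ne, zero_sub, Subring.coe_neg,
      norm_neg]
    exact (hmem _).mp (hr i)
  · rw [Polynomial.coe_sub, Polynomial.coe_pow, Polynomial.coe_X, heq, add_sub_cancel_right,
      mul_assoc, IsUnit.mul_val_inv, mul_one]

theorem nodeHom_polynomial {t : unitBall L} (ht : IsTopologicallyNilpotent t)
    (Q : Polynomial (unitBall L)) :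
    nodeHom ht (Q : PowerSeries (unitBall L)) = Q.eval t := by
  induction Q using Polynomial.induction_on' with
  | add P Q hP hQ => rw [Polynomial.coe_add, map_add, hP, hQ, Polynomial.eval_add]
  | monomial i c =>
    rw [← Polynomial.C_mul_X_pow_eq_monomial, Polynomial.coe_mul, Polynomial.coe_C,
      Polynomial.coe_pow, Polynomial.coe_X, map_mul, map_pow, nodeHom_C, nodeHom_X]
    simp

theorem norm_root_lt_one {Q : Polynomial (unitBall L)} (hQ : Q.Monic) {c : ℝ} (hc : c < 1)
    (hlow : ∀ i < Q.natDegree, ‖((Q.coeff i : unitBall L) : L)‖ ≤ c) {x : L}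
    (hx : (Q.map (unitBall L).subtype).eval x = 0) : ‖x‖ < 1 := by
  by_contra h
  push Not at h
  rw [Polynomial.eval_eq_sum_range,
    hQ.natDegree_map, Finset.sum_range_succ] at hx
  simp only [Polynomial.coeff_map, hQ.coeff_natDegree, map_one, one_mul] at hx
  rcases Nat.eq_zero_or_pos Q.natDegree with h0 | hpos
  · simp [h0] at hx
  obtain ⟨i, hi, hle⟩ := IsUltrametricDist.exists_norm_finsetSum_le_of_nonempty
    (Finset.nonempty_range_iff.mpr hpos.ne') fun i => (unitBall L).subtype (Q.coeff i) * x ^ i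
  have hi' := Finset.mem_range.mp hi
  have hlt : ‖∑ i ∈ Finset.range Q.natDegree, (unitBall L).subtype (Q.coeff i) * x ^ i‖ <
      ‖x ^ Q.natDegree‖ := by
    refine hle.trans_lt ?_
    rw [norm_mul, norm_pow, norm_pow]
    calc ‖((Q.coeff i : unitBall L) : L)‖ * ‖x‖ ^ i ≤ c * ‖x‖ ^ i := by
          exact mul_le_mul_of_nonneg_right (hlow i hi') (by positivity)
      _ < 1 * ‖x‖ ^ i := mul_lt_mul_of_pos_right hc (pow_pos (by linarith) i)
      _ ≤ ‖x‖ ^ Q.natDegree := by
          rw [one_mul]
          exact pow_le_pow_right₀ h hi'.le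
  rw [eq_neg_of_add_eq_zero_left hx, norm_neg] at hlt
  exact lt_irrefl _ hlt

variable [IsAlgClosed L]

/-- A series with a unit at a positive degree and small coefficients below has a zero. -/
theorem exists_zero {f : PowerSeries (unitBall L)} {d : ℕ} (hd : 0 < d) {π : unitBall L}
    (hπ0 : (π : L) ≠ 0) (hπ1 : ‖(π : L)‖ < 1)
    (hlow : ∀ i < d, ‖((PowerSeries.coeff i f : unitBall L) : L)‖ ≤ ‖(π : L)‖)
    (htop : ‖((PowerSeries.coeff d f : unitBall L) : L)‖ = 1) :
    ∃ (t : unitBall L) (ht : IsTopologicallyNilpotent t), nodeHom ht f = 0 := by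
  obtain ⟨Q, U, hQ, hdeg, hQlow, -, rfl⟩ := exists_distinguished hπ0 hπ1 hlow htop
  obtain ⟨x, hx⟩ := IsAlgClosed.exists_root (Q.map (unitBall L).subtype) (by
    rw [hQ.degree_map, Polynomial.degree_eq_natDegree hQ.ne_zero, hdeg]
    exact_mod_cast hd.ne')
  have hx1 := norm_root_lt_one hQ hπ1 (fun i hi => hQlow i (hdeg ▸ hi)) hx
  refine ⟨⟨x, hx1.le⟩, isTopologicallyNilpotent_ball.mpr hx1, ?_⟩
  rw [map_mul, nodeHom_polynomial]
  have : Q.eval (⟨x, hx1.le⟩ : unitBall L) = 0 := by
    apply Subtype.ext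
    have h := Polynomial.eval_map_apply (p := Q) (f := (unitBall L).subtype) (⟨x, hx1.le⟩ : unitBall L)
    exact h.symm.trans hx
  rw [this, zero_mul]

/-- If moreover the derivative does not vanish at the zeros, there are exactly `d` of them. -/
theorem exists_zero_finset {f : PowerSeries (unitBall L)} {d : ℕ} {π : unitBall L}
    (hπ0 : (π : L) ≠ 0) (hπ1 : ‖(π : L)‖ < 1)
    (hlow : ∀ i < d, ‖((PowerSeries.coeff i f : unitBall L) : L)‖ ≤ ‖(π : L)‖)
    (htop : ‖((PowerSeries.coeff d f : unitBall L) : L)‖ = 1)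
    (hder : ∀ (t : unitBall L) (ht : IsTopologicallyNilpotent t), nodeHom ht f = 0 →
      nodeHom ht (PowerSeries.derivative (R := unitBall L) f) ≠ 0) :
    ∃ K : Finset (unitBall L), K.card = d ∧
      (∀ t, t ∈ K ↔ ∃ ht : IsTopologicallyNilpotent t, nodeHom ht f = 0) := by
  classical
  obtain ⟨Q, U, hQ, hdeg, hQlow, hU, rfl⟩ := exists_distinguished hπ0 hπ1 hlow htop
  set P := Q.map (unitBall L).subtype with hP
  have hPm : P.Monic := hQ.map _
  have hroot : ∀ x ∈ P.roots, ‖x‖ < 1 := fun x hx =>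
    norm_root_lt_one hQ hπ1 (fun i hi => hQlow i (hdeg ▸ hi))
      ((Polynomial.mem_roots hPm.ne_zero).mp hx)
  have hev : ∀ t : unitBall L, Q.eval t = 0 ↔ (t : L) ∈ P.roots := fun t => by
    rw [Polynomial.mem_roots hPm.ne_zero, Polynomial.IsRoot, hP,
      show (t : L) = (unitBall L).subtype t from rfl, Polynomial.eval_map_apply]
    exact ⟨fun h => by rw [h, map_zero], fun h => Subtype.ext h⟩
  have hzero : ∀ (t : unitBall L) (ht : IsTopologicallyNilpotent t),
      nodeHom ht ((Q : PowerSeries (unitBall L)) * U) = 0 ↔ Q.eval t = 0 := fun t ht => by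
    rw [map_mul, nodeHom_polynomial, mul_eq_zero, or_iff_left]
    exact fun h => not_isUnit_zero (h ▸ hU.map (nodeHom ht))
  have hnodup : P.roots.Nodup := by
    rw [Multiset.nodup_iff_count_le_one]
    intro x
    by_contra hx
    push Not at hx
    rw [Polynomial.count_roots, Polynomial.one_lt_rootMultiplicity_iff_isRoot hPm.ne_zero] at hx
    obtain ⟨h2, h1⟩ := hx
    have hx1 := norm_root_lt_one hQ hπ1 (fun i hi => hQlow i (hdeg ▸ hi)) h2
    let t : unitBall L := ⟨x, hx1.le⟩
    have ht : IsTopologicallyNilpotent t := isTopologicallyNilpotent_ball.mpr hx1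
    have e1 : Q.eval t = 0 := (hev t).mpr ((Polynomial.mem_roots hPm.ne_zero).mpr h2)
    have e2 : Q.derivative.eval t = 0 := by
      apply Subtype.ext
      rw [Polynomial.IsRoot, hP, Polynomial.derivative_map,
        show x = (unitBall L).subtype t from rfl, Polynomial.eval_map_apply] at h1
      exact h1
    refine hder t ht ((hzero t ht).mpr e1) ?_
    rw [Derivation.leibniz, smul_eq_mul, smul_eq_mul, map_add, map_mul, map_mul,
      nodeHom_polynomial, PowerSeries.derivative_coe, nodeHom_polynomial, e1, e2, zero_mul,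
      mul_zero, add_zero]
  refine ⟨P.roots.toFinset.subtype (· ∈ unitBall L), ?_, fun t => ?_⟩
  · rw [Finset.card_subtype, Finset.filter_true_of_mem (p := (· ∈ unitBall L)) (fun x hx =>
      (hroot x (Multiset.mem_toFinset.mp hx)).le), Multiset.toFinset_card_of_nodup hnodup,
      IsAlgClosed.card_roots_eq_natDegree, hP, hQ.natDegree_map, hdeg]
  · rw [Finset.mem_subtype, Multiset.mem_toFinset]
    constructor
    · intro h
      have ht : IsTopologicallyNilpotent t := isTopologicallyNilpotent_ball.mpr (hroot _ h)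
      exact ⟨ht, (hzero t ht).mpr ((hev t).mpr h)⟩
    · rintro ⟨ht, h⟩
      exact (hev t).mp ((hzero t ht).mp h)

end Vale.Agent.P217
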