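import Vale.Agent.P217.Defs
import Vale.Agent.P217.Ev

/-!
# Points of a formal group law in a complete ring with linear topology

`fadd G x y` is the sum of topologically nilpotent points, `fapp g x` the value of a series.
-/

noncomputable section

namespace Vale.Agent.P217

set_option linter.unusedSectionVars false

variable {O : Type*} [CommRing O] [UniformSpace O] [IsUniformAddGroup O] [IsTopologicalRing O]
  [CompleteSpace O] [T2Space O] [IsLinearTopology O O]

/-- The value of a series with coefficients in `O`. -/
def fapp (g : PowerSeries O) (x : O) : O := ev1 (RingHom.id O) x g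

/-- The sum of two points. -/
def fadd (G : FormalGroup O) (x y : O) : O := ev (RingHom.id O) ![x, y] G.toPowerSeries

variable {x y z : O}

theorem isTopologicallyNilpotent_fapp {g : PowerSeries O}
    (hg : PowerSeries.constantCoeff g = 0) (hx : IsTopologicallyNilpotent x) :
    IsTopologicallyNilpotent (fapp g x) :=
  isTopologicallyNilpotent_ev (hasEval1 hx) g <| by
    rw [show MvPowerSeries.constantCoeff g = 0 from hg, map_zero]
    exact .zero

theorem isTopologicallyNilpotent_fadd (G : FormalGroup O) (hx : IsTopologicallyNilpotent x)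
    (hy : IsTopologicallyNilpotent y) : IsTopologicallyNilpotent (fadd G x y) :=
  isTopologicallyNilpotent_ev (hasEval2 hx hy) _ <| by
    rw [G.zero_constantCoeff, map_zero]
    exact .zero

theorem fapp_subst {f g : PowerSeries O} (hg : PowerSeries.constantCoeff g = 0)
    (hx : IsTopologicallyNilpotent x) : fapp (PowerSeries.subst g f) x = fapp f (fapp g x) :=
  ev_subst1 (PowerSeries.HasSubst.of_constantCoeff_zero' hg) (hasEval1 hx) f

@[simp]
theorem fapp_X : fapp (PowerSeries.X : PowerSeries O) x = x :=
  ev_X (φ := RingHom.id O) (a := fun _ : Unit => x) ()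

theorem fapp_hom {g : PowerSeries O} {F G : FormalGroup O} (hg : IsHom g F G)
    (hx : IsTopologicallyNilpotent x) (hy : IsTopologicallyNilpotent y) :
    fapp g (fadd F x y) = fadd G (fapp g x) (fapp g y) := by
  have h := congrArg (ev (RingHom.id O) ![x, y]) hg.2
  have hX : ∀ i : Fin 2, PowerSeries.HasSubst (MvPowerSeries.X i : MvPowerSeries (Fin 2) O) :=
    fun i => PowerSeries.HasSubst.of_constantCoeff_zero (by simp)
  rw [ev_subst1 (PowerSeries.HasSubst.of_constantCoeff_zero F.zero_constantCoeff)
    (hasEval2 hx hy), ev_subst (MvPowerSeries.hasSubst_of_constantCoeff_zero fun s => by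
      fin_cases s <;>
        simp [PowerSeries.constantCoeff_subst_eq_zero, hg.1]) (hasEval2 hx hy)] at h
  rw [fapp, fadd, h, fadd]
  congr 1
  funext s
  fin_cases s <;> simp [fapp, ev_subst1 (hX _) (hasEval2 hx hy)]

theorem fadd_assoc (G : FormalGroup O) (hx : IsTopologicallyNilpotent x)
    (hy : IsTopologicallyNilpotent y) (hz : IsTopologicallyNilpotent z) :
    fadd G (fadd G x y) z = fadd G x (fadd G y z) := by
  have he : MvPowerSeries.HasEval ![x, y, z] :=
    hasEval_of_finite fun s => by fin_cases s <;> assumption
  have h := congrArg (ev (RingHom.id O) ![x, y, z]) G.assoc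
  rw [ev_subst (MvPowerSeries.HasSubst.cons_subst_zero_left (0 : Fin 3) 1 2 G.zero_constantCoeff) he,
    ev_subst (MvPowerSeries.HasSubst.cons_subst_zero_right (0 : Fin 3) 1 2 G.zero_constantCoeff)
      he] at h
  have e : ∀ i j : Fin 3, ev (RingHom.id O) ![x, y, z]
      (MvPowerSeries.subst ![MvPowerSeries.X i, MvPowerSeries.X j] G.toPowerSeries) =
      fadd G (![x, y, z] i) (![x, y, z] j) := fun i j => by
    rw [ev_subst MvPowerSeries.HasSubst.X_X he, fadd]
    congr 1
    funext t
    fin_cases t <;> simp
  refine Eq.trans ?_ (h.trans ?_)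
  · conv_lhs => rw [fadd]
    congr 1
    funext s
    fin_cases s <;> simp [e]
  · conv_rhs => rw [fadd]
    congr 1
    funext s
    fin_cases s <;> simp [e]

theorem fadd_comm (G : FormalGroup O) [G.IsComm] (hx : IsTopologicallyNilpotent x)
    (hy : IsTopologicallyNilpotent y) : fadd G x y = fadd G y x := by
  conv_lhs => rw [fadd, FormalGroup.IsComm.comm (F := G)]
  rw [ev_subst MvPowerSeries.HasSubst.X_X (hasEval2 hx hy), fadd]
  congr 1
  funext s
  fin_cases s <;> simp

theorem fadd_zero (G : FormalGroup O) (hx : IsTopologicallyNilpotent x) : fadd G x 0 = x := by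
  have h := congrArg (ev (RingHom.id O) (fun _ : Unit => x))
    (G.add_zero (f := (PowerSeries.X : PowerSeries O)) PowerSeries.HasSubst.X')
  rw [ev_subst (MvPowerSeries.hasSubst_of_constantCoeff_zero fun s => by
      fin_cases s <;> simp [PowerSeries.X]) (hasEval1 hx)] at h
  have h0 : ev (RingHom.id O) (fun _ : Unit => x) (0 : PowerSeries O) = 0 := ev_zero (hasEval1 hx)
  refine Eq.trans ?_ (h.trans (ev_X (φ := RingHom.id O) (a := fun _ : Unit => x) ()))
  rw [fadd]
  congr 1
  funext s
  fin_cases s <;> simp [PowerSeries.X, h0]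

theorem fadd_zero_left (G : FormalGroup O) [G.IsComm] (hx : IsTopologicallyNilpotent x) :
    fadd G 0 x = x := by
  rw [fadd_comm G .zero hx, fadd_zero G hx]

end Vale.Agent.P217
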