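import Vale.Agent.P217.Ball
import Vale.Agent.P217.Pts
import Mathlib.Algebra.CharP.Frobenius
import Mathlib.RingTheory.MvPowerSeries.Trunc
import Mathlib.FieldTheory.IsAlgClosed.Basic

/-!
# The additive monoid of points of a formal group in the open unit ball
-/

noncomputable section

namespace Vale.Agent.P217

set_option linter.unusedSectionVars false

variable {L : Type*} [NormedField L] [IsUltrametricDist L] [CompleteSpace L]

/-- Points of `Γ`: topologically nilpotent elements of the unit ball. -/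
def Pt (_Γ : FormalGroup (unitBall L)) := {x : unitBall L // IsTopologicallyNilpotent x}

namespace Pt

variable {Γ : FormalGroup (unitBall L)}

/-- A point as element of the field. -/
def co (x : Pt Γ) : L := (x.1 : L)

theorem norm_lt (x : Pt Γ) : ‖x.co‖ < 1 := isTopologicallyNilpotent_ball.mp x.2

theorem ext' {x y : Pt Γ} (h : x.co = y.co) : x = y := Subtype.ext (Subtype.ext h)

instance : Zero (Pt Γ) := ⟨⟨0, .zero⟩⟩
instance : Add (Pt Γ) := ⟨fun x y => ⟨fadd Γ x.1 y.1, isTopologicallyNilpotent_fadd Γ x.2 y.2⟩⟩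

theorem add_def (x y : Pt Γ) : (x + y).1 = fadd Γ x.1 y.1 := rfl

@[simp] theorem co_zero : (0 : Pt Γ).co = 0 := rfl

instance [Γ.IsComm] : AddCommMonoid (Pt Γ) where
  add_assoc x y z := Subtype.ext (fadd_assoc Γ x.2 y.2 z.2)
  zero_add x := Subtype.ext (fadd_zero_left Γ x.2)
  add_zero x := Subtype.ext (fadd_zero Γ x.2)
  add_comm x y := Subtype.ext (fadd_comm Γ x.2 y.2)
  nsmul := nsmulRec

end Pt

/-- The value at a point of a series without constant term. -/
def sapp {Γ : FormalGroup (unitBall L)} (α : PowerSeries (unitBall L))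
    (hα : PowerSeries.constantCoeff α = 0) (x : Pt Γ) : Pt Γ :=
  ⟨fapp α x.1, isTopologicallyNilpotent_fapp hα x.2⟩

/-- The coordinates in the field of a tuple of points. -/
def coV {Γ : FormalGroup (unitBall L)} {σ : Type*} (z : σ → Pt Γ) : σ → L := fun i => (z i).co

/-- `G` is small to every order on the `p`-power multiples of `Λ`: for all `D` there are `k`, `C`
with `|G^(<D)(λ)| ≤ C |λ|^D` for all `λ = z^(P^k)`, `z ∈ Λ`. -/
def AV {Γ : FormalGroup (unitBall L)} {m : ℕ} (P : ℕ) (Λ : Set (Fin m → Pt Γ))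
    (G : MvPowerSeries (Fin m) L) : Prop :=
  ∀ D : ℕ, ∃ k : ℕ, ∃ C : ℝ, ∀ z ∈ Λ,
    ‖MvPolynomial.eval (fun i => (z i).co ^ P ^ k) (G.truncTotal D)‖ ≤
      C * ‖fun i => (z i).co ^ P ^ k‖ ^ D

/-- No nonzero row of endomorphisms with coefficients fixed by `x ↦ x^P` vanishes on `Λ`. -/
def FreeRows {Γ : FormalGroup (unitBall L)} [Γ.IsComm] {m : ℕ} (P : ℕ)
    (Λ : Set (Fin m → Pt Γ)) : Prop :=
  ∀ (α : Fin m → PowerSeries (unitBall L)) (hα : ∀ j, IsHom (α j) Γ Γ),
    (∀ j i, PowerSeries.coeff i (α j) ^ P = PowerSeries.coeff i (α j)) → (∃ j, α j ≠ 0) →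
      ∃ z ∈ Λ, (∑ j, sapp (α j) (hα j).1 (z j)) ≠ 0

end Vale.Agent.P217
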