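import Vale.Agent.P217.DTheta
import Vale.Agent.P217.Roots
import Vale.Agent.P217.TwistPt
import Vale.Agent.P217.ExpP
import Mathlib.RingTheory.MvPowerSeries.Expand
import Mathlib.RingTheory.PowerSeries.Expand

/-!
# The kernel of `[p]` at a point and Tate vectors

For a point of height `h` on the stratum the kernel of `[p]` is elementary abelian of rank
`n - h`, and lifts to `n - h` vectors of the universal cover, independent at level one.
-/

noncomputable section

namespace Vale.Agent.P217

set_option linter.unusedSectionVars false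
set_option linter.style.haveILetI false
set_option linter.unusedSimpArgs false

open Filter Topology MvPowerSeries MvPowerSeries.WithPiTopology

variable {p : ℕ} [Fact p.Prime] {n : ℕ} {k : Type} [Field k] [CharP k p]
variable {T : Type*} [CommRing T] [UniformSpace T] [IsUniformAddGroup T]
  [IsTopologicalRing T] [CompleteSpace T] [T2Space T] [IsLinearTopology T T]
variable {L : Type*} [NormedField L] [IsUltrametricDist L] [CompleteSpace L]

theorem Pt.nsmul_val {Γ : FormalGroup (unitBall L)} [Γ.IsComm] (x : Pt Γ) (j : ℕ) :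
    (j • x).1 = fapp (mulSeries Γ j) x.1 := by
  induction j with
  | zero =>
    rw [zero_smul, mulSeries, fapp, ev1, ev_zero (hasEval1 x.2)]
    rfl
  | succ j ih =>
    rw [succ_nsmul, Pt.add_def, ih, mulSeries]
    simp only [fapp, ev1, fadd]
    rw [ev_subst (hasSubst_pair (constantCoeff_mulSeries Γ j)
        (by simp [PowerSeries.X])) (hasEval1 x.2)]
    congr 1
    funext s
    fin_cases s
    · simp
    · simp [PowerSeries.X]

/-- The kernel of multiplication by `p` on points. -/
def kerP (p : ℕ) (Γ : FormalGroup (unitBall L)) [Γ.IsComm] : AddSubmonoid (Pt Γ) where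
  carrier := {x | p • x = 0}
  zero_mem' := by simp
  add_mem' {x y} hx hy := by
    simp only [Set.mem_ofPred_eq] at hx hy ⊢
    rw [nsmul_add, hx, hy, add_zero]

theorem mem_kerP {Γ : FormalGroup (unitBall L)} [Γ.IsComm] {x : Pt Γ} :
    x ∈ kerP p Γ ↔ p • x = 0 := Iff.rfl

instance kerPNeg (Γ : FormalGroup (unitBall L)) [Γ.IsComm] : Neg (kerP p Γ) :=
  ⟨fun x => (p - 1) • x⟩

instance kerPAddCommGroup (Γ : FormalGroup (unitBall L)) [Γ.IsComm] :
    AddCommGroup (kerP p Γ) :=
  { (inferInstance : AddCommMonoid (kerP p Γ)), kerPNeg (p := p) Γ with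
    zsmul := zsmulRec
    neg_add_cancel := fun x => by
      apply Subtype.ext
      change (p - 1) • (x : Pt Γ) + (x : Pt Γ) = 0
      rw [← succ_nsmul, Nat.sub_add_cancel (Fact.out : p.Prime).pos]
      exact mem_kerP.mp x.2 }

/-- The `[p]`-series at a point, regrouped in the powers of `p^h`. -/
def redSeries {O : Type*} [CommRing O] (f : PowerSeries O) (P : ℕ) : PowerSeries O :=
  PowerSeries.mk fun i => PowerSeries.coeff (i * P) f

theorem expand_redSeries {O : Type*} [CommRing O] {f : PowerSeries O} {P : ℕ} (hP : P ≠ 0)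
    (hf : ∀ j, ¬ P ∣ j → PowerSeries.coeff j f = 0) :
    PowerSeries.expand P hP (redSeries f P) = f := by
  ext j
  rw [PowerSeries.coeff_expand]
  split_ifs with h
  · rw [redSeries, PowerSeries.coeff_mk, Nat.div_mul_cancel h]
  · rw [hf j h]

/-- Hypotheses on a point on the stratum of height `h`. -/
structure Level {S : Source p n k T} (E : Target S (unitBall L)) (F : FormalGroup (E0 p n k))
    (π : E0 p n k →+* unitBall L) (h : ℕ) : Prop where
  le : h ≤ n
  char : h ≠ 0 → (p : unitBall L) = 0
  div : ∀ j, ¬ p ^ h ∣ j → π (PowerSeries.coeff j (mulSeries F p)) = 0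
  lin : π (PowerSeries.coeff (p ^ h) (mulSeries F p)) ≠ 0
  principal : ∃ a : unitBall L, (a : L) ≠ 0 ∧ ‖(a : L)‖ < 1 ∧ E.J = Ideal.span {a}

variable {S : Source p n k T} {E : Target S (unitBall L)} {F : FormalGroup (E0 p n k)}
  [F.IsComm] {π : E0 p n k →+* unitBall L} {h : ℕ}

theorem Target.norm_lt_one_of_mem (hl : Level E F π h) {x : unitBall L} (hx : x ∈ E.J) :
    ‖(x : L)‖ < 1 := by
  obtain ⟨a, -, ha1, hJ⟩ := hl.principal
  rw [hJ, Ideal.mem_span_singleton'] at hx
  obtain ⟨c, rfl⟩ := hx
  rw [Subring.coe_mul, norm_mul]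
  exact (mul_le_of_le_one_left (norm_nonneg _) (norm_coe_le_one c)).trans_lt ha1

theorem Setup.nilp_mul {q : ℕ} {O : Type*} [CommRing O] [UniformSpace O] [IsUniformAddGroup O]
    [IsTopologicalRing O] [CompleteSpace O] [T2Space O] [IsLinearTopology O O]
    (D : Setup q T O) {x : O} (hx : IsTopologicallyNilpotent x) :
    IsTopologicallyNilpotent (fapp D.mul x) := D.nilp_step hx

/-- Multiplication by `p` is onto the points. -/
theorem Target.exists_step_eq [IsAlgClosed L] (hn : 1 ≤ n)
    (hF : mulSeries (special p n k F) p = PowerSeries.X ^ p ^ n) (hπ : E.IsPointOf π)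
    (hl : Level E F π h) {x : unitBall L} (hx : IsTopologicallyNilpotent x) :
    ∃ t, IsTopologicallyNilpotent t ∧ (E.setup F hn hF π hπ).step t = x := by
  set D := E.setup F hn hF π hπ
  obtain ⟨a, ha0, ha1, hJ⟩ := hl.principal
  let f : PowerSeries (unitBall L) := D.mul - PowerSeries.C x
  have hx1 := isTopologicallyNilpotent_ball.mp hx
  obtain ⟨b, hb0, hb1, hba, hbx⟩ : ∃ b : unitBall L, (b : L) ≠ 0 ∧ ‖(b : L)‖ < 1 ∧
      ‖(a : L)‖ ≤ ‖(b : L)‖ ∧ ‖(x : L)‖ ≤ ‖(b : L)‖ := by
    rcases le_total ‖(x : L)‖ ‖(a : L)‖ with hxa | hxa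
    · exact ⟨a, ha0, ha1, le_rfl, hxa⟩
    · refine ⟨x, fun e => ha0 ?_, hx1, hxa, le_rfl⟩
      rw [e, norm_zero] at hxa
      exact norm_le_zero_iff.mp hxa
  have hmem : ∀ z ∈ E.J, ‖(z : L)‖ ≤ ‖(a : L)‖ := fun z hz => by
    rw [hJ] at hz
    simpa using (mem_span_pow_iff ha0 (m := 1)).mp (by simpa using hz)
  have hq : 0 < p ^ n := pow_pos (Fact.out : p.Prime).pos n
  have hlow : ∀ i < p ^ n, ‖((PowerSeries.coeff i f : unitBall L) : L)‖ ≤ ‖(b : L)‖ := by
    intro i hi
    rcases Nat.eq_zero_or_pos i with rfl | hpos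
    · simp only [f, map_sub, PowerSeries.coeff_zero_eq_constantCoeff, D.mul_zero',
        PowerSeries.constantCoeff_C, zero_sub, Subring.coe_neg, norm_neg]
      exact hbx
    · have := hmem _ (D.mul_coeff i)
      simp only [PowerSeries.coeff_X_pow, if_neg hi.ne, sub_zero] at this
      simpa [f, PowerSeries.coeff_C, hpos.ne'] using this.trans hba
  have htop : ‖((PowerSeries.coeff (p ^ n) f : unitBall L) : L)‖ = 1 := by
    have := (hmem _ (D.mul_coeff (p ^ n))).trans_lt ha1
    simp only [PowerSeries.coeff_X_pow, if_pos, AddSubgroupClass.coe_sub, Subring.coe_one] at this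
    simp only [f, map_sub, PowerSeries.coeff_C, if_neg hq.ne', sub_zero]
    set c := ((PowerSeries.coeff (p ^ n) D.mul : unitBall L) : L)
    calc ‖c‖ = ‖(c - 1) + 1‖ := by simp
      _ = 1 := by
        rw [IsUltrametricDist.norm_add_eq_max_of_norm_ne_norm (by simpa using this.ne),
          norm_one, max_eq_right this.le]
  obtain ⟨t, ht, h0⟩ := exists_zero hq hb0 hb1 hlow htop
  refine ⟨t, ht, ?_⟩
  rw [map_sub, nodeHom_C, sub_eq_zero, nodeHom_apply] at h0
  exact h0

theorem Target.exists_twist_hom (hn : 1 ≤ n)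
    (hF : mulSeries (special p n k F) p = PowerSeries.X ^ p ^ n) (hπ : E.IsPointOf π)
    (hl : Level E F π h) :
    ∃ F' : FormalGroup (unitBall L), IsHom (redSeries (E.setup F hn hF π hπ).mul (p ^ h)) F'
      (E.setup F hn hF π hπ).G := by
  set D := E.setup F hn hF π hπ
  have hP : p ^ h ≠ 0 := pow_ne_zero _ (Fact.out : p.Prime).ne_zero
  have hdiv : ∀ j, ¬ p ^ h ∣ j → PowerSeries.coeff j D.mul = 0 := fun j hj => by
    simpa [D, Target.setup, PowerSeries.coeff_map] using hl.div j hj
  have hexp := expand_redSeries hP hdiv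
  have hc0 : PowerSeries.constantCoeff (redSeries D.mul (p ^ h)) = 0 := by
    rw [← PowerSeries.coeff_zero_eq_constantCoeff_apply, redSeries, PowerSeries.coeff_mk, zero_mul,
      PowerSeries.coeff_zero_eq_constantCoeff_apply]
    exact D.mul_zero'
  rcases eq_or_ne h 0 with rfl | hne
  · refine ⟨D.G, ?_⟩
    have : redSeries D.mul (p ^ 0) = D.mul := PowerSeries.ext fun i => by simp [redSeries]
    rw [this]
    exact D.mul_hom
  · haveI : CharP (unitBall L) p :=
      (CharP.charP_iff_prime_eq_zero (Fact.out : p.Prime)).mpr (hl.char hne)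
    haveI : ExpChar (unitBall L) p := ExpChar.prime (Fact.out : p.Prime)
    refine ⟨D.G.map (iterateFrobenius (unitBall L) p h), hc0, ?_⟩
    have h2 := D.mul_hom.2
    rw [← hexp] at h2
    have hs : PowerSeries.HasSubst D.G.toPowerSeries :=
      PowerSeries.HasSubst.of_constantCoeff_zero D.G.zero_constantCoeff
    have hs' : PowerSeries.HasSubst (D.G.map (iterateFrobenius (unitBall L) p h)).toPowerSeries :=
      PowerSeries.HasSubst.of_constantCoeff_zero
        (D.G.map (iterateFrobenius (unitBall L) p h)).zero_constantCoeff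
    have hX : PowerSeries.HasSubst (PowerSeries.X ^ p ^ h : PowerSeries (unitBall L)) :=
      PowerSeries.HasSubst.X_pow hP
    have hsub : ∀ {τ : Type} (f : MvPowerSeries τ (unitBall L)) (hf : PowerSeries.HasSubst f),
        PowerSeries.subst f (PowerSeries.expand (p ^ h) hP (redSeries D.mul (p ^ h))) =
          PowerSeries.subst (f ^ p ^ h) (redSeries D.mul (p ^ h)) := fun f hf => by
      rw [PowerSeries.expand_apply, PowerSeries.subst_comp_subst_apply hX hf,
        PowerSeries.subst_pow hf, PowerSeries.subst_X hf]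
    have hF' : D.G.toPowerSeries ^ p ^ h =
        MvPowerSeries.expand (p ^ h) hP
          (D.G.map (iterateFrobenius (unitBall L) p h)).toPowerSeries := by
      rw [← MvPowerSeries.map_iterateFrobenius_expand p (Fact.out : p.Prime).ne_zero,
        FormalGroup.map_toPowerSeries, ← MvPowerSeries.map_expand]
    have hXi : ∀ i : Fin 2, PowerSeries.subst (X i : MvPowerSeries (Fin 2) (unitBall L))
        (PowerSeries.expand (p ^ h) hP (redSeries D.mul (p ^ h))) =
        MvPowerSeries.expand (p ^ h) hP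
          (PowerSeries.subst (X i : MvPowerSeries (Fin 2) (unitBall L))
            (redSeries D.mul (p ^ h))) := fun i => by
      rw [hsub _ (hasSubst_X_fin i), PowerSeries.subst_def, PowerSeries.subst_def,
        MvPowerSeries.expand_subst _ hP (hasSubst_X_fin i).const]
      simp
    rw [hsub _ hs, hF', hXi, hXi] at h2
    have hpair := hasSubst_pair
      (PowerSeries.constantCoeff_subst_eq_zero (by simp) _ hc0 :
        constantCoeff (PowerSeries.subst (X 0 : MvPowerSeries (Fin 2) (unitBall L))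
          (redSeries D.mul (p ^ h))) = 0)
      (PowerSeries.constantCoeff_subst_eq_zero (by simp) _ hc0 :
        constantCoeff (PowerSeries.subst (X 1 : MvPowerSeries (Fin 2) (unitBall L))
          (redSeries D.mul (p ^ h))) = 0)
    have hinj : Function.Injective
        (MvPowerSeries.expand (σ := Fin 2) (R := unitBall L) (p ^ h) hP) := fun a b hab => by
      ext d
      have := congrArg (MvPowerSeries.coeff ((p ^ h) • d)) hab
      simpa using this
    apply hinj
    rw [PowerSeries.subst_def, MvPowerSeries.expand_subst _ hP hs'.const,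
      MvPowerSeries.expand_subst _ hP hpair]
    rw [PowerSeries.subst_def] at h2
    refine h2.trans ?_
    congr 1
    funext s
    fin_cases s <;> rfl

/-- The derivative of the regrouped series does not vanish at its zeros. -/
theorem Target.deriv_redSeries_ne_zero (hn : 1 ≤ n)
    (hF : mulSeries (special p n k F) p = PowerSeries.X ^ p ^ n) (hπ : E.IsPointOf π)
    (hl : Level E F π h) {z : unitBall L} (hz : IsTopologicallyNilpotent z)
    (hz0 : fapp (redSeries (E.setup F hn hF π hπ).mul (p ^ h)) z = 0) :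
    fapp (PowerSeries.derivative (R := unitBall L) (redSeries (E.setup F hn hF π hπ).mul (p ^ h)))
      z ≠ 0 := by
  set D := E.setup F hn hF π hπ
  obtain ⟨F', hhom⟩ := E.exists_twist_hom hn hF hπ hl
  set Pz := redSeries D.mul (p ^ h)
  let Cst : unitBall L →+* MvPowerSeries Unit (unitBall L) := C
  let v : Unit → unitBall L := fun _ => 1
  let z' : MvPowerSeries Unit (unitBall L) := Cst z
  let w' : MvPowerSeries Unit (unitBall L) := X ()
  have hz' : IsTopologicallyNilpotent z' := hz.map MvPowerSeries.WithPiTopology.continuous_C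
  have hw' : IsTopologicallyNilpotent w' :=
    MvPowerSeries.LinearTopology.isTopologicallyNilpotent_of_constantCoeff (by
      simp only [w', constantCoeff_X]; exact .zero)
  have hid : ∀ f : PowerSeries (unitBall L),
      (f.map Cst).map (constantCoeff (σ := Unit) (R := unitBall L)) = f := fun f => by
    ext j
    simp [Cst, PowerSeries.coeff_map]
  have hd0 : ∀ f : PowerSeries (unitBall L),
      (PowerSeries.mk fun j => dirDeriv v (PowerSeries.coeff j (f.map Cst))) = 0 := fun f => by
    ext j
    simp [Cst, PowerSeries.coeff_map, dirDeriv_C]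
  have key := fapp_hom (hhom.map Cst) hz' hw'
  have hzz : fapp (Pz.map Cst) z' = 0 := by
    have h1 := map_ev (φ := RingHom.id _) Cst MvPowerSeries.WithPiTopology.continuous_C
      (hasEval1 hz) Pz
    rw [show ev (RingHom.id (unitBall L)) (fun _ : Unit => z) Pz = 0 from hz0, map_zero,
      RingHom.comp_id] at h1
    rw [fapp, ev1]
    simp only [PowerSeries.map]
    rw [ev_map _ (hasEval1 hz')]
    exact h1.symm
  have hc : constantCoeff (fadd (F'.map Cst) z' w') = z := by
    rw [fadd, map_ev _ (continuous_constantCoeff _) (hasEval2 hz' hw'),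
      FormalGroup.map_toPowerSeries]
    have he : MvPowerSeries.HasEval ![z, (0 : unitBall L)] := hasEval2 hz .zero
    rw [show (fun s => constantCoeff (![z', w'] s)) = ![z, (0 : unitBall L)] by
      funext s; fin_cases s <;> simp [z', w', Cst], ev_map _ he,
      show ((constantCoeff (σ := Unit) (R := unitBall L)).comp (RingHom.id _)).comp Cst =
        RingHom.id (unitBall L) from RingHom.ext fun x => by simp [Cst]]
    exact fadd_zero F' hz
  have hn' : IsTopologicallyNilpotent (fadd (F'.map Cst) z' w') :=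
    isTopologicallyNilpotent_fadd _ hz' hw'
  have hw0 : constantCoeff (fapp (Pz.map Cst) w') = 0 := by
    rw [constantCoeff_fapp hw', hid]
    simp only [w', constantCoeff_X]
    exact (hasSum_ev1 (φ := RingHom.id _) IsTopologicallyNilpotent.zero Pz).unique <| by
      refine hasSum_zero.congr_fun fun i => ?_
      cases i <;> simp [show PowerSeries.constantCoeff Pz = 0 from hhom.1]
  have hLHS : dirDeriv v (fapp (Pz.map Cst) (fadd (F'.map Cst) z' w')) =
      fapp (PowerSeries.derivative (R := unitBall L) Pz) z *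
        dirDeriv v (fadd (F'.map Cst) z' w') := by
    rw [dirDeriv_fapp v _ hn', hc, hid, hd0]
    rw [show fapp (0 : PowerSeries (unitBall L)) z = 0 from ev_zero (hasEval1 hz), zero_add]
  have hRHS : dirDeriv v (fadd (D.G.map Cst) (fapp (Pz.map Cst) z') (fapp (Pz.map Cst) w')) =
      PowerSeries.coeff 1 Pz := by
    rw [hzz, dirDeriv_fadd v _ (map_zero _) hw0, map_zero, zero_add, dirDeriv_fapp v _ hw', hid,
      hd0]
    simp only [w', constantCoeff_X]
    have e1 : fapp (0 : PowerSeries (unitBall L)) 0 = 0 := ev_zero (hasEval1 .zero)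
    have e2 : fapp (PowerSeries.derivative (R := unitBall L) Pz) 0 = PowerSeries.coeff 1 Pz := by
      refine (hasSum_ev1 (φ := RingHom.id _) IsTopologicallyNilpotent.zero _).unique ?_
      have := hasSum_ite_eq (0 : ℕ) (PowerSeries.coeff 1 Pz)
      refine this.congr_fun fun i => ?_
      cases i <;> simp [PowerSeries.coeff_derivative]
    have e3 : dirDeriv v (X () : MvPowerSeries Unit (unitBall L)) = 1 := by
      simp [dirDeriv_apply, v, X]
    rw [e1, e2, e3, mul_one, zero_add]
  rw [key, hRHS] at hLHS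
  intro h0
  rw [h0, zero_mul] at hLHS
  apply hl.lin
  simpa [Pz, redSeries, D, Target.setup, PowerSeries.coeff_map] using hLHS

/-- The kernel of `[p]` has `p^(n-h)` points. -/
theorem Target.natCard_kerP [IsAlgClosed L] (hn : 1 ≤ n)
    (hF : mulSeries (special p n k F) p = PowerSeries.X ^ p ^ n) (hπ : E.IsPointOf π)
    (hl : Level E F π h) [(E.setup F hn hF π hπ).G.IsComm] :
    Nat.card (kerP p (E.setup F hn hF π hπ).G) = p ^ (n - h) ∧
      Function.Injective fun x : kerP p (E.setup F hn hF π hπ).G => x.1.1 ^ p ^ h := by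
  set D := E.setup F hn hF π hπ
  obtain ⟨a, ha0, ha1, hJ⟩ := hl.principal
  have hp : p.Prime := Fact.out
  have hP : 0 < p ^ h := pow_pos hp.pos h
  set Pz := redSeries D.mul (p ^ h)
  have hdiv : ∀ j, ¬ p ^ h ∣ j → PowerSeries.coeff j D.mul = 0 := fun j hj => by
    simpa [D, Target.setup, PowerSeries.coeff_map] using hl.div j hj
  have hmem : ∀ z ∈ E.J, ‖(z : L)‖ ≤ ‖(a : L)‖ := fun z hz => by
    rw [hJ] at hz
    simpa using (mem_span_pow_iff ha0 (m := 1)).mp (by simpa using hz)
  have hpn : p ^ (n - h) * p ^ h = p ^ n := by rw [← pow_add, Nat.sub_add_cancel hl.le]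
  have hlow : ∀ i < p ^ (n - h), ‖((PowerSeries.coeff i Pz : unitBall L) : L)‖ ≤ ‖(a : L)‖ := by
    intro i hi
    have hlt : i * p ^ h < p ^ n := hpn ▸ Nat.mul_lt_mul_of_pos_right hi hP
    have := hmem _ (D.mul_coeff (i * p ^ h))
    simpa [Pz, redSeries, PowerSeries.coeff_X_pow, hlt.ne] using this
  have htop : ‖((PowerSeries.coeff (p ^ (n - h)) Pz : unitBall L) : L)‖ = 1 := by
    have := (hmem _ (D.mul_coeff (p ^ n))).trans_lt ha1
    simp only [PowerSeries.coeff_X_pow, if_pos, AddSubgroupClass.coe_sub, Subring.coe_one] at this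
    simp only [Pz, redSeries, PowerSeries.coeff_mk, hpn]
    set c := ((PowerSeries.coeff (p ^ n) D.mul : unitBall L) : L)
    calc ‖c‖ = ‖(c - 1) + 1‖ := by simp
      _ = 1 := by
        rw [IsUltrametricDist.norm_add_eq_max_of_norm_ne_norm (by simpa using this.ne),
          norm_one, max_eq_right this.le]
  obtain ⟨K, hK, hKiff⟩ := exists_zero_finset ha0 ha1 hlow htop fun z hz h0 => by
    rw [nodeHom_apply]
    exact E.deriv_redSeries_ne_zero hn hF hπ hl hz ((nodeHom_apply hz Pz).symm.trans h0)
  have hker : ∀ x : Pt D.G, x ∈ kerP p D.G ↔ fapp Pz (x.1 ^ p ^ h) = 0 := fun x => by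
    have hmul : mulSeries D.G p = D.mul := mulSeries_map F π p
    have e : (p • x).1 = fapp Pz (x.1 ^ p ^ h) := by
      rw [Pt.nsmul_val, hmul, fapp_of_multiples hP hdiv x.2 (hasEvalIdeal_pow x.2 hP)]
      rfl
    rw [mem_kerP]
    exact ⟨fun h0 => e ▸ congrArg Subtype.val h0, fun h0 => Subtype.ext (e.trans h0)⟩
  have hinj : Function.Injective fun x : kerP p D.G => (x : Pt D.G).1 ^ p ^ h := fun x y hxy => by
    refine Subtype.ext (Subtype.ext ?_)
    rcases eq_or_ne h 0 with rfl | hne
    · simpa using hxy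
    · haveI : CharP (unitBall L) p := (CharP.charP_iff_prime_eq_zero hp).mpr (hl.char hne)
      haveI : ExpChar (unitBall L) p := ExpChar.prime hp
      refine iterateFrobenius_inj (unitBall L) p h ?_
      simpa [iterateFrobenius_def] using hxy
  refine ⟨?_, hinj⟩
  let e : kerP p D.G → K := fun x => ⟨(x : Pt D.G).1 ^ p ^ h,
    (hKiff _).mpr ⟨hasEvalIdeal_pow (x : Pt D.G).2 hP, by
      rw [nodeHom_apply]; exact (hker _).mp x.2⟩⟩
  have he : Function.Bijective e := by
    refine ⟨fun x y hxy => hinj (congrArg Subtype.val hxy), fun ⟨z, hzK⟩ => ?_⟩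
    obtain ⟨hz, hz0⟩ := (hKiff z).mp hzK
    obtain ⟨t, ht⟩ := IsAlgClosed.exists_pow_nat_eq (z : L) hP
    have ht1 : ‖t‖ < 1 := by
      have h1 : ‖t‖ ^ p ^ h < 1 := by
        rw [← norm_pow, ht]
        exact isTopologicallyNilpotent_ball.mp hz
      exact lt_of_pow_lt_pow_left₀ _ zero_le_one (by simpa using h1)
    let x : Pt D.G := ⟨⟨t, ht1.le⟩, isTopologicallyNilpotent_ball.mpr ht1⟩
    have hxz : x.1 ^ p ^ h = z := Subtype.ext (by simpa [x] using ht)
    refine ⟨⟨x, (hker x).mpr ?_⟩, Subtype.ext hxz⟩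
    rw [hxz]
    rw [nodeHom_apply] at hz0
    exact hz0
  rw [Nat.card_eq_of_bijective e he, Nat.card_eq_finsetCard, hK]

/-- The level-one point of `y`. -/
def Setup.levelOne {q : ℕ} (D : Setup q T (unitBall L)) {y : T} (hy : IsTopologicallyNilpotent y) :
    Pt D.G :=
  ⟨D.theta (D.root y), D.nilp_theta (D.nilp_root hy)⟩

/-- The finite combinations of `x` in the group of the source. -/
inductive TateSpan (Γ : FormalGroup T) {ι : Type*} (x : ι → T) : T → Prop
  | zero : TateSpan Γ x 0
  | base (i : ι) : TateSpan Γ x (x i)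
  | add {y y' : T} : TateSpan Γ x y → TateSpan Γ x y' → TateSpan Γ x (fadd Γ y y')

/-- Tate vectors: `x` lifts a basis of the kernel of `[p]`. -/
structure TateBasis (D : Setup (p ^ n) T (unitBall L)) [D.G.IsComm] {ι : Type*} [Fintype ι]
    (x : ι → T) : Prop where
  nilp : ∀ i, IsTopologicallyNilpotent (x i)
  theta_eq_zero : ∀ i, D.theta (x i) = 0
  indep : ∀ c : ι → ℕ, (∑ i, c i • D.levelOne (nilp i)) = 0 → ∀ i, p ∣ c i
  span : ∀ t : Pt D.G, p • t = 0 → ∃ c : ι → ℕ, (∑ i, c i • D.levelOne (nilp i)) = t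

theorem Target.exists_tateBasis [IsAlgClosed L] (hn : 1 ≤ n)
    (hF : mulSeries (special p n k F) p = PowerSeries.X ^ p ^ n) (hπ : E.IsPointOf π)
    (hl : Level E F π h) (hlift : (E.setup F hn hF π hπ).Lifts)
    [(E.setup F hn hF π hπ).G.IsComm] :
    ∃ x : Fin (n - h) → T, TateBasis (E.setup F hn hF π hπ) x := by
  classical
  set D := E.setup F hn hF π hπ
  have hp : p.Prime := Fact.out
  obtain ⟨hcard, -⟩ := E.natCard_kerP hn hF hπ hl
  haveI : Finite (kerP p D.G) := Nat.finite_of_card_ne_zero (by rw [hcard]; exact pow_ne_zero _ hp.ne_zero)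
  obtain ⟨b, hindep, hgen⟩ := exists_indep_span (V := kerP p D.G)
    (fun x => Subtype.ext (mem_kerP.mp x.2)) hcard
  have hmul : mulSeries D.G p = D.mul := mulSeries_map F π p
  have htow : ∀ i, ∃ w : ℕ → unitBall L, (∀ l, IsTopologicallyNilpotent (w l)) ∧
      (∀ l, D.step (w (l + 1)) = w l) ∧ w 0 = 0 ∧ w 1 = (b i : Pt D.G).1 := by
    intro i
    have hchoose : ∀ z : {z : unitBall L // IsTopologicallyNilpotent z},
        ∃ t : {z : unitBall L // IsTopologicallyNilpotent z}, D.step t.1 = z.1 := fun z => by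
      obtain ⟨t, ht, h0⟩ := E.exists_step_eq hn hF hπ hl z.2
      exact ⟨⟨t, ht⟩, h0⟩
    choose g hg using hchoose
    let u : ℕ → {z : unitBall L // IsTopologicallyNilpotent z} :=
      fun l => g^[l] ⟨(b i : Pt D.G).1, (b i : Pt D.G).2⟩
    refine ⟨fun l => Nat.casesOn l 0 fun l => (u l).1, fun l => ?_, fun l => ?_, rfl, rfl⟩
    · cases l
      · exact .zero
      · exact (u _).2
    · cases l
      · have h1 := congrArg Subtype.val (mem_kerP.mp (b i).2)
        rw [Pt.nsmul_val, hmul] at h1
        exact h1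
      · simp only [u, Function.iterate_succ_apply']
        exact hg _
  choose w hwn hws hw0 hw1 using htow
  choose x hxn hxw using fun i => D.exists_theta_eq_tower hlift (w i) (hwn i) (hws i)
  refine ⟨x, hxn, fun i => by simpa [hw0] using hxw i 0, fun c hc i => ?_, fun t ht => ?_⟩
  all_goals
    have he : ∀ i, D.levelOne (hxn i) =
        (b i : Pt D.G) := fun i => Subtype.ext (by
      have := hxw i 1
      rw [hw1] at this
      simpa [Setup.levelOne] using this)
  · have e : ∑ i, c i • D.levelOne (hxn i) = ∑ i, c i • (b i : Pt D.G) :=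
      Finset.sum_congr rfl fun i _ => congrArg (c i • ·) (he i)
    exact hindep c (Subtype.ext (by simpa using e.symm.trans hc)) i
  · obtain ⟨c, hc⟩ := hgen ⟨t, mem_kerP.mpr ht⟩
    refine ⟨c, ?_⟩
    refine (Finset.sum_congr rfl fun i _ => congrArg (c i • ·) (he i)).trans ?_
    simpa using congrArg Subtype.val hc

/-- The first derivative of `theta` is injective on Tate vectors. -/
theorem TateBasis.exists_dirDeriv_ne_zero [IsAlgClosed L] (hn : 1 ≤ n)
    (hF : mulSeries (special p n k F) p = PowerSeries.X ^ p ^ n) (hπ : E.IsPointOf π)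
    (hl : Level E F π h) [(E.setup F hn hF π hπ).G.IsComm] {ι : Type*} [Fintype ι] {x : ι → T}
    (hx : TateBasis (E.setup F hn hF π hπ) x) {σ : Type*} [Fintype σ]
    {π' : E0 p n k →+* MvPowerSeries σ (unitBall L)} (hπ' : constantCoeff.comp π' = π)
    (hdiv' : ∀ j, ¬ p ^ h ∣ j → π' (PowerSeries.coeff j (mulSeries F p)) = 0)
    (v : σ → unitBall L) {e : ℕ} (he : h ≤ e) (hen : e < n)
    (htop : ‖((dirDeriv v (π' (PowerSeries.coeff (p ^ e) (mulSeries F p))) : unitBall L) : L)‖ = 1) :
    ∃ i, dirDeriv v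
      (((E.series σ).setup F hn hF π' (E.isPointOf_series hπ hπ')).theta (x i)) ≠ 0 := by
  classical
  set D := E.setup F hn hF π hπ
  set D' := (E.series σ).setup F hn hF π' (E.isPointOf_series hπ hπ')
  have hp : p.Prime := Fact.out
  by_contra hcon
  push Not at hcon
  have hspan : ∀ y, TateSpan D.Γ x y →
      IsTopologicallyNilpotent y ∧ D.theta y = 0 ∧ dirDeriv v (D'.theta y) = 0 := by
    intro y hy
    induction hy with
    | zero => exact ⟨.zero, D.theta_zero, by rw [D'.theta_zero, map_zero]⟩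
    | base i => exact ⟨hx.nilp i, hx.theta_eq_zero i, hcon i⟩
    | @add y y' _ _ ih ih' =>
      refine ⟨isTopologicallyNilpotent_fadd _ ih.1 ih'.1, ?_, ?_⟩
      · rw [D.theta_fadd ih.1 ih'.1, ih.2.1, ih'.2.1, fadd_zero _ .zero]
      · rw [show D.Γ = D'.Γ from rfl, D'.theta_fadd ih.1 ih'.1, dirDeriv_fadd v _
          (by rw [E.constantCoeff_theta F hn hF hπ hπ' ih.1]; exact ih.2.1)
          (by rw [E.constantCoeff_theta F hn hF hπ hπ' ih'.1]; exact ih'.2.1), ih.2.2, ih'.2.2,
          add_zero]
  let gen : ι → Pt D.G := fun i => D.levelOne (hx.nilp i)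
  have hclos : ∀ t ∈ AddSubmonoid.closure (Set.range gen),
      ∃ y, TateSpan D.Γ x y ∧ D.theta (D.root y) = t.1 := by
    intro t ht
    induction ht using AddSubmonoid.closure_induction with
    | mem t ht => obtain ⟨i, rfl⟩ := ht; exact ⟨x i, .base i, rfl⟩
    | zero => exact ⟨0, .zero, by rw [D.root_zero, D.theta_zero]; rfl⟩
    | add t t' _ _ ih ih' =>
      obtain ⟨y, hy, hyt⟩ := ih
      obtain ⟨y', hy', hyt'⟩ := ih'
      have n1 := (hspan y hy).1
      have n2 := (hspan y' hy').1
      refine ⟨fadd D.Γ y y', .add hy hy', ?_⟩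
      rw [D.root_fadd _ _ n1 n2, D.theta_fadd (D.nilp_root n1) (D.nilp_root n2), hyt, hyt']
      rfl
  obtain ⟨hcard, hinj⟩ := E.natCard_kerP hn hF hπ hl
  haveI : Finite (kerP p D.G) :=
    Nat.finite_of_card_ne_zero (by rw [hcard]; exact pow_ne_zero _ hp.ne_zero)
  haveI := Fintype.ofFinite (kerP p D.G)
  let Kall : Finset (unitBall L) := Finset.univ.image fun t : kerP p D.G => (t : Pt D.G).1 ^ p ^ h
  have hKall : p ^ (e - h) + 1 ≤ Kall.card := by
    rw [Finset.card_image_of_injective _ hinj, Finset.card_univ, ← Nat.card_eq_fintype_card, hcard]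
    exact Nat.pow_lt_pow_right hp.one_lt (by omega)
  obtain ⟨K, hKsub, hK⟩ := Finset.exists_subset_card_eq hKall
  obtain ⟨y, hy, -, -, hne⟩ := E.exists_dirDeriv_theta_ne_zero F hn hF hπ hπ' v
    {y | TateSpan D.Γ x y} hl.char hdiv' htop he hK fun z hz => by
      obtain ⟨t, -, rfl⟩ := Finset.mem_image.mp (hKsub hz)
      obtain ⟨c, hc⟩ := hx.span _ (mem_kerP.mp t.2)
      have htmem : (t : Pt D.G) ∈ AddSubmonoid.closure (Set.range gen) := by
        rw [← hc]
        exact sum_mem fun i _ => nsmul_mem (AddSubmonoid.subset_closure (Set.mem_range_self i)) _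
      obtain ⟨y, hy, hyt⟩ := hclos _ htmem
      exact ⟨y, hy, (hspan y hy).1, (hspan y hy).2.1, by
        rw [show S.root y = D.root y from rfl, hyt]⟩
  exact hne (hspan y hy).2.2

end Vale.Agent.P217
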