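import Vale.Agent.P217.Free
import Vale.Agent.P217.Tate

/-!
# Level-one independence of Tate vectors in the source
-/

noncomputable section

namespace Vale.Agent.P217

set_option linter.unusedSectionVars false

open Filter Topology

variable {p : ℕ} [hp : Fact p.Prime] {n : ℕ}
variable {L : Type*} [NormedField L] [IsUltrametricDist L] [CompleteSpace L]

/-- A topologically nilpotent element as a point. -/
def Pt.ofNilp (Γ : FormalGroup (unitBall L)) (y : unitBall L) (hy : IsTopologicallyNilpotent y) :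
    Pt Γ := ⟨y, hy⟩

/-- The level-one map `y ↦ theta (root y)` on points of the source. -/
def Setup.tauHom (D : Setup (p ^ n) (unitBall (Tilt p)) (unitBall L)) [D.G.IsComm]
    [D.Γ.IsComm] : Pt D.Γ →+ Pt D.G where
  toFun y := D.levelOne y.2
  map_zero' := Subtype.ext (show D.theta (D.root 0) = 0 by rw [D.root_zero, D.theta_zero])
  map_add' y y' := Subtype.ext <| by
    show D.theta (D.root (fadd D.Γ y.1 y'.1)) = fadd D.G _ _
    rw [D.root_fadd _ _ y.2 y'.2, D.theta_fadd (D.nilp_root y.2) (D.nilp_root y'.2)]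
    rfl

/-- Sums of Tate vectors with coefficients not all divisible by `p` stay away from zero. -/
theorem TateBasis.indep_small (D : Setup (p ^ n) (unitBall (Tilt p)) (unitBall L))
    [D.G.IsComm] [D.Γ.IsComm] (hmul : mulSeries D.G p = D.mul) {m : ℕ}
    {x : Fin m → unitBall (Tilt p)} (hx : TateBasis D x) (e : Fin m → ℕ) (he : ∃ j, ¬ p ∣ e j) :
    ∃ δ > 0, ∀ e' : Fin m → ℕ, (∀ j, e' j ≡ e j [MOD p]) →
      δ ≤ ‖(∑ j, e' j • Pt.ofNilp D.Γ (x j) (hx.nilp j)).co‖ := by
  refine indep_of_level_one (Γn := D.Γ) D.tauHom (fun a ha => ?_)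
    (fun j => Pt.ofNilp D.Γ (x j) (hx.nilp j)) (fun j => ?_) (fun c hc => hx.indep c hc) e he
  · obtain ⟨N, hN⟩ : ∃ N, a.1 ∉ D.J ^ N := by
      by_contra h
      push Not at h
      exact ha (Subtype.ext (eq_of_forall_sub_mem D.isAdic fun N => by
        show a.1 - (0 : unitBall L) ∈ _
        rw [sub_zero]; exact h N))
    have hev := D.theta_small N
    have hroot : ∀ᶠ y in 𝓝 (0 : unitBall (Tilt p)),
        IsTopologicallyNilpotent (D.root y) → D.theta (D.root y) ∈ D.J ^ N := by
      have ht := D.root_cont.tendsto 0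
      rw [D.root_zero] at ht
      exact ht.eventually hev
    obtain ⟨δ, hδ, hball⟩ := Metric.eventually_nhds_iff.mp hroot
    refine ⟨δ, hδ, fun z hz heq => hN ?_⟩
    have := hball (y := z.1) (by rwa [Subtype.dist_eq, dist_eq_norm, ZeroMemClass.coe_zero, sub_zero])
      (D.nilp_root z.2)
    rw [← heq]
    exact this
  · refine Subtype.ext ?_
    rw [Pt.nsmul_val, hmul]
    show D.step (D.theta (D.root (x j))) = 0
    rw [D.step_theta_root (hx.nilp j), hx.theta_eq_zero]

end Vale.Agent.P217
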