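import Vale.Agent.P217.Defs

/-!
# Homomorphisms of formal group laws and multiplication series
-/

noncomputable section

namespace Vale.Agent.P217

open MvPowerSeries

variable {A B : Type*} [CommRing A] [CommRing B]

theorem hasSubst_X_fin {σ : Type*} (i : σ) :
    PowerSeries.HasSubst (X i : MvPowerSeries σ A) :=
  PowerSeries.HasSubst.of_constantCoeff_zero (by simp)

theorem hasSubst_pair {σ : Type*} {f g : MvPowerSeries σ A} (hf : constantCoeff f = 0)
    (hg : constantCoeff g = 0) : MvPowerSeries.HasSubst ![f, g] :=
  hasSubst_of_constantCoeff_zero fun s => by fin_cases s <;> assumption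

theorem constantCoeff_subst_pair {σ : Type*} (F : FormalGroup A) {f g : MvPowerSeries σ A}
    (hf : constantCoeff f = 0) (hg : constantCoeff g = 0) :
    constantCoeff (F.toPowerSeries.subst ![f, g]) = 0 :=
  constantCoeff_subst_eq_zero (hasSubst_pair hf hg)
    (fun s => by fin_cases s <;> assumption) F.zero_constantCoeff

theorem IsHom.map {g : PowerSeries A} {F G : FormalGroup A} (h : IsHom g F G) (f : A →+* B) :
    IsHom (g.map f) (F.map f) (G.map f) := by
  have hX : ∀ i : Fin 2, (PowerSeries.subst (X i : MvPowerSeries (Fin 2) A) g).map f =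
      PowerSeries.subst (X i : MvPowerSeries (Fin 2) B) (g.map f) := fun i => by
    rw [PowerSeries.map_subst (hasSubst_X_fin i), map_X]
  refine ⟨?_, ?_⟩
  · rw [← PowerSeries.coeff_zero_eq_constantCoeff_apply, PowerSeries.coeff_map,
      PowerSeries.coeff_zero_eq_constantCoeff_apply, h.1, map_zero]
  · have := congrArg (MvPowerSeries.map f) h.2
    rw [PowerSeries.map_subst (PowerSeries.HasSubst.of_constantCoeff_zero F.zero_constantCoeff),
      map_subst (hasSubst_pair (PowerSeries.constantCoeff_subst_eq_zero (by simp) _ h.1)
        (PowerSeries.constantCoeff_subst_eq_zero (by simp) _ h.1))] at this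
    rw [FormalGroup.map_toPowerSeries, FormalGroup.map_toPowerSeries, this]
    congr 1
    funext s
    fin_cases s <;> simp [hX]

theorem IsHom.comp {g g' : PowerSeries A} {F G H : FormalGroup A} (h : IsHom g F G)
    (h' : IsHom g' G H) : IsHom (PowerSeries.subst g g') F H := by
  have hs : PowerSeries.HasSubst g := PowerSeries.HasSubst.of_constantCoeff_zero' h.1
  refine ⟨PowerSeries.constantCoeff_subst_eq_zero h.1 _ h'.1, ?_⟩
  have hF : PowerSeries.HasSubst F.toPowerSeries :=
    PowerSeries.HasSubst.of_constantCoeff_zero F.zero_constantCoeff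
  have hc : ∀ i : Fin 2, constantCoeff (PowerSeries.subst (X i : MvPowerSeries (Fin 2) A) g) = 0 :=
    fun i => PowerSeries.constantCoeff_subst_eq_zero (by simp) _ h.1
  have hp := hasSubst_pair (hc 0) (hc 1)
  have e : ∀ i : Fin 2, PowerSeries.subst (X i : MvPowerSeries (Fin 2) A)
      (PowerSeries.subst g g') =
      PowerSeries.subst (PowerSeries.subst (X i : MvPowerSeries (Fin 2) A) g) g' :=
    fun i => PowerSeries.subst_comp_subst_apply hs (hasSubst_X_fin i) g'
  rw [PowerSeries.subst_comp_subst_apply hs hF, h.2, e, e, PowerSeries.subst_def,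
    ← subst_comp_subst_apply
      (PowerSeries.HasSubst.of_constantCoeff_zero G.zero_constantCoeff).const hp,
    ← PowerSeries.subst_def, h'.2, subst_comp_subst_apply
      (hasSubst_pair (PowerSeries.constantCoeff_subst_eq_zero (by simp) _ h'.1)
        (PowerSeries.constantCoeff_subst_eq_zero (by simp) _ h'.1)) hp]
  congr 1
  funext s
  fin_cases s
  all_goals
    simp only [Matrix.cons_val_zero, Matrix.cons_val_one, Fin.zero_eta, Fin.mk_one,
      Fin.isValue, PowerSeries.subst_def]
    rw [subst_comp_subst_apply (hasSubst_X_fin (A := A) _).const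
      (by simpa only [PowerSeries.subst_def] using hp)]
    simp [subst_X (show HasSubst ![subst (fun _ : Unit => (X 0 : MvPowerSeries (Fin 2) A)) g,
      subst (fun _ : Unit => (X 1 : MvPowerSeries (Fin 2) A)) g]
      by simpa only [PowerSeries.subst_def] using hp)]

theorem constantCoeff_mulSeries (F : FormalGroup A) (j : ℕ) :
    PowerSeries.constantCoeff (mulSeries F j) = 0 := by
  induction j with
  | zero => simp [mulSeries]
  | succ j ih => exact constantCoeff_subst_pair F ih (by simp [PowerSeries.X])

theorem mulSeries_map (F : FormalGroup A) (f : A →+* B) (j : ℕ) :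
    mulSeries (F.map f) j = (mulSeries F j).map f := by
  induction j with
  | zero => simp [mulSeries]
  | succ j ih =>
    rw [mulSeries, mulSeries, ih]
    change _ = MvPowerSeries.map f _
    rw [map_subst (hasSubst_pair (constantCoeff_mulSeries F j) (by simp [PowerSeries.X]))]
    congr 1
    funext s
    fin_cases s <;> simp [PowerSeries.X, PowerSeries.map]

theorem nsmul_point_val {σ : Type*} (F : FormalGroup A) (x : F.Point σ) (j : ℕ) :
    (j • x).val = PowerSeries.subst x.val (mulSeries F j) := by
  induction j with
  | zero => simp [mulSeries, ← PowerSeries.coe_substAlgHom x.prop]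
  | succ j ih =>
    rw [succ_nsmul, FormalGroup.add_apply, ih, mulSeries, PowerSeries.subst_def,
      PowerSeries.subst_def, subst_comp_subst_apply
        (hasSubst_pair (constantCoeff_mulSeries F j) (by simp [PowerSeries.X])) x.prop.const]
    congr 1
    funext s
    fin_cases s <;> simp [PowerSeries.X, subst_X x.prop.const]

theorem mulSeries_hom (F : FormalGroup A) [F.IsComm] (j : ℕ) : IsHom (mulSeries F j) F F := by
  refine ⟨constantCoeff_mulSeries F j, ?_⟩
  let a : F.Point (Fin 2) := ⟨X 0, hasSubst_X_fin 0⟩
  let b : F.Point (Fin 2) := ⟨X 1, hasSubst_X_fin 1⟩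
  have h := congrArg Subtype.val (nsmul_add a b j)
  rw [nsmul_point_val, FormalGroup.add_apply, FormalGroup.add_apply, nsmul_point_val,
    nsmul_point_val] at h
  have e : subst ![a.val, b.val] F.toPowerSeries = F.toPowerSeries := by
    rw [show (![a.val, b.val] : Fin 2 → MvPowerSeries (Fin 2) A) = X by
      funext s; fin_cases s <;> rfl]
    exact congrFun subst_self _
  rw [e] at h
  exact h

theorem subst_mulSeries_comm {G : PowerSeries A} {F F' : FormalGroup A} (hG : IsHom G F F')
    (j : ℕ) :
    PowerSeries.subst (mulSeries F j) G = PowerSeries.subst G (mulSeries F' j) := by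
  have hGs : PowerSeries.HasSubst G := PowerSeries.HasSubst.of_constantCoeff_zero' hG.1
  induction j with
  | zero =>
    rw [mulSeries, mulSeries, ← PowerSeries.coe_substAlgHom hGs, map_zero,
      PowerSeries.subst_zero_of_constantCoeff_zero hG.1]
  | succ j ih =>
    have hj := hasSubst_pair (σ := Unit) (constantCoeff_mulSeries F j)
      (show constantCoeff (PowerSeries.X : PowerSeries A) = 0 by simp [PowerSeries.X])
    have hj' := hasSubst_pair (σ := Unit) (constantCoeff_mulSeries F' j)
      (show constantCoeff (PowerSeries.X : PowerSeries A) = 0 by simp [PowerSeries.X])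
    have hpair := hasSubst_pair (σ := Fin 2)
      (PowerSeries.constantCoeff_subst_eq_zero (by simp) _ hG.1 :
        constantCoeff (PowerSeries.subst (X 0 : MvPowerSeries (Fin 2) A) G) = 0)
      (PowerSeries.constantCoeff_subst_eq_zero (by simp) _ hG.1 :
        constantCoeff (PowerSeries.subst (X 1 : MvPowerSeries (Fin 2) A) G) = 0)
    rw [mulSeries, mulSeries, PowerSeries.subst_def, ← subst_comp_subst_apply
      (PowerSeries.HasSubst.of_constantCoeff_zero F.zero_constantCoeff).const hj,
      ← PowerSeries.subst_def, hG.2, subst_comp_subst_apply hpair hj, PowerSeries.subst_def G,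
      subst_comp_subst_apply hj' hGs.const]
    congr 1
    funext s
    fin_cases s
    · simp only [Fin.zero_eta, Fin.isValue, Matrix.cons_val_zero, PowerSeries.subst_def]
      rw [subst_comp_subst_apply (hasSubst_X_fin (A := A) _).const hj]
      simp only [subst_X hj, Matrix.cons_val_zero]
      exact ih
    · simp only [Fin.mk_one, Fin.isValue, Matrix.cons_val_one, Matrix.cons_val_fin_one,
        PowerSeries.subst_def]
      rw [subst_comp_subst_apply (hasSubst_X_fin (A := A) _).const hj]
      simp only [subst_X hj, Matrix.cons_val_one, Matrix.cons_val_fin_one]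
      rw [← PowerSeries.subst_def, ← PowerSeries.subst_def, PowerSeries.subst_X hGs,
        PowerSeries.X_subst]

end Vale.Agent.P217
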