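import Vale.Agent.P217.Perfect
import Vale.Agent.P217.Hom

/-!
# Honda laws on the tilt and the additivity of their periods
-/

noncomputable section

namespace Vale.Agent.P217

set_option linter.unusedSectionVars false

open Filter Topology

variable {p : ℕ} [hp : Fact p.Prime]

/-- A height `n` Honda law over the unit ball of the tilt: `[p] = X^(p^n)`, coefficients fixed by
Frobenius, the Teichmüller multiples are endomorphisms, and the logarithm
`Σ_i p^(-i) X^(p^(n i))` is additive up to a bounded error. -/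
structure Honda (n : ℕ) (Γ : FormalGroup (unitBall (Tilt p))) : Prop where
  pos : 1 ≤ n
  isComm : Γ.IsComm
  mul : mulSeries Γ p = PowerSeries.X ^ p ^ n
  frob : ∀ d, MvPowerSeries.coeff d Γ.toPowerSeries ^ p = MvPowerSeries.coeff d Γ.toPowerSeries
  zeta : ∀ z : unitBall (Tilt p), z ^ p ^ n = z → IsHom (PowerSeries.C z * PowerSeries.X) Γ Γ
  log_bdd : ∃ B : ℝ, ∀ x y : Pt Γ, ‖qev (ellCoeff n 0) ((x + y).co.coeff 0) -
    qev (ellCoeff n 0) (x.co.coeff 0) - qev (ellCoeff n 0) (y.co.coeff 0)‖ ≤ B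

variable {n : ℕ} {Γ : FormalGroup (unitBall (Tilt p))}

theorem norm_pow_lt_one_tilt {y : Tilt p} (hy : ‖y‖ < 1) (i : ℕ) : ‖y ^ p ^ i‖ < 1 := by
  rw [norm_pow]; exact pow_lt_one₀ (norm_nonneg _) hy (pow_ne_zero _ hp.1.ne_zero)

namespace Pt

/-- The `p^i`-th power of a point. -/
def powp (i : ℕ) (x : Pt Γ) : Pt Γ := Pt.mk' Γ (x.co ^ p ^ i) (norm_pow_lt_one_tilt x.norm_lt i)

@[simp] theorem co_powp (i : ℕ) (x : Pt Γ) : (powp i x).co = x.co ^ p ^ i := rfl

theorem nsmul_val_fapp [Γ.IsComm] (j : ℕ) (x : Pt Γ) : (j • x).1 = fapp (mulSeries Γ j) x.1 := by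
  induction j with
  | zero =>
    rw [zero_nsmul, mulSeries, fapp, ev1]
    exact (ev_zero (hasEval1 x.2)).symm
  | succ j ih =>
    rw [succ_nsmul, Pt.add_def, ih, mulSeries]
    refine Eq.symm ?_
    rw [fapp, ev1, ev_subst (hasSubst_pair (constantCoeff_mulSeries Γ j) (by simp [PowerSeries.X]))
      (hasEval1 x.2), fadd]
    congr 1
    funext s
    fin_cases s
    · rfl
    · exact fapp_X

theorem norm_add_le (x y : Pt Γ) : ‖(x + y).co‖ ≤ max ‖x.co‖ ‖y.co‖ := by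
  rw [← sub_add_cancel (x + y).co (x.co + y.co)]
  refine (IsUltrametricDist.norm_add_le_max _ _).trans (max_le ?_
    (IsUltrametricDist.norm_add_le_max _ _))
  exact (Pt.norm_add_sub_le x y).trans (pow_le_of_le_one (le_max_of_le_left (norm_nonneg _))
    (max_le x.norm_lt.le y.norm_lt.le) two_ne_zero)

theorem norm_root_lt (x : Pt Γ) (m : ℕ) : ‖Tilt.rootHom m x.co‖ < 1 := by
  rw [Tilt.norm_def, Tilt.coeff_rootHom, Nat.zero_add]
  exact norm_coeff_lt_one x.norm_lt m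

end Pt

namespace Honda

variable (hΓ : Honda n Γ)
include hΓ

theorem nsmul_p_co [Γ.IsComm] (x : Pt Γ) : (p • x).co = x.co ^ p ^ n := by
  rw [Pt.co, Pt.nsmul_val_fapp, hΓ.mul, fapp, ev1, ev_pow (hasEval1 x.2)]
  have h : ev (RingHom.id _) (fun _ : Unit => x.1) (PowerSeries.X : PowerSeries _) = x.1 := fapp_X
  rw [h, SubmonoidClass.coe_pow]
  rfl

theorem nsmul_p [Γ.IsComm] (x : Pt Γ) : p • x = Pt.powp n x :=
  Pt.ext' (by rw [Pt.co_powp, hΓ.nsmul_p_co])

theorem nsmul_p_pow [Γ.IsComm] (N : ℕ) (x : Pt Γ) : (p ^ N) • x = Pt.powp (n * N) x := by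
  induction N with
  | zero => exact Pt.ext' (by simp)
  | succ N ih =>
    rw [pow_succ', mul_nsmul', ih, hΓ.nsmul_p]
    exact Pt.ext' (by rw [Pt.co_powp, Pt.co_powp, Pt.co_powp, ← pow_mul, ← pow_add, Nat.mul_succ])

theorem map_frob (x y : Pt Γ) : (x + y).1 ^ p = (Pt.powp 1 x + Pt.powp 1 y).1 := by
  let φ : unitBall (Tilt p) →+* unitBall (Tilt p) := frobenius (unitBall (Tilt p)) p
  have hφ : ∀ z, φ z = z ^ p := fun z => frobenius_def p z
  have hc : Continuous φ := by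
    rw [show ⇑φ = fun z => z ^ p from funext hφ]
    exact continuous_pow _
  have h1 : ∀ u : Pt Γ, (Pt.powp 1 u).1 = u.1 ^ p := fun u => Subtype.ext (by
    show u.co ^ p ^ 1 = _
    rw [pow_one, SubmonoidClass.coe_pow]; rfl)
  rw [Pt.add_def, Pt.add_def, h1, h1, ← hφ, fadd, map_ev φ hc (hasEval2 x.2 y.2), fadd]
  have hs : (fun s => φ (![x.1, y.1] s)) = ![x.1 ^ p, y.1 ^ p] := by
    funext s; fin_cases s <;> simp [hφ]
  rw [hs, RingHom.comp_id]
  have he : MvPowerSeries.HasEval ![x.1 ^ p, y.1 ^ p] := by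
    simpa only [h1] using hasEval2 (Pt.powp 1 x).2 (Pt.powp 1 y).2
  conv_rhs => rw [show Γ.toPowerSeries = MvPowerSeries.map φ Γ.toPowerSeries by
    ext d; rw [MvPowerSeries.coeff_map, hφ, hΓ.frob]]
  rw [ev_map φ he, RingHom.id_comp]

theorem powp_add (i : ℕ) (x y : Pt Γ) :
    Pt.powp i (x + y) = Pt.powp i x + Pt.powp i y := by
  induction i generalizing x y with
  | zero =>
    have h : ∀ u : Pt Γ, Pt.powp 0 u = u := fun u => Pt.ext' (by simp)
    rw [h, h, h]
  | succ i ih =>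
    have h : ∀ u : Pt Γ, Pt.powp (i + 1) u = Pt.powp i (Pt.powp 1 u) := fun u =>
      Pt.ext' (by rw [Pt.co_powp, Pt.co_powp, Pt.co_powp, pow_one, ← pow_mul, pow_succ'])
    rw [h, h, h, ← ih]
    refine congrArg _ (Pt.ext' ?_)
    have := congrArg (fun z : unitBall (Tilt p) => (z : Tilt p)) (hΓ.map_frob x y)
    simp only [SubmonoidClass.coe_pow] at this
    rw [Pt.co_powp, pow_one]
    exact this

/-- The product of a point with a fixed element of the tilt. -/
def fmul {z : Tilt p} (hz : z ^ p ^ n = z) (x : Pt Γ) : Pt Γ :=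
  Pt.mk' Γ (z * x.co) (by
    rw [norm_mul]
    exact (mul_le_of_le_one_left (norm_nonneg _) (norm_le_one_of_fixed hΓ.pos hz)).trans_lt
      x.norm_lt)

@[simp] theorem co_fmul {z : Tilt p} (hz : z ^ p ^ n = z) (x : Pt Γ) :
    (hΓ.fmul hz x).co = z * x.co := rfl

theorem fmul_add {z : Tilt p} (hz : z ^ p ^ n = z) (x y : Pt Γ) :
    hΓ.fmul hz (x + y) = hΓ.fmul hz x + hΓ.fmul hz y := by
  set z' : unitBall (Tilt p) := ⟨z, norm_le_one_of_fixed hΓ.pos hz⟩
  have h := fapp_hom (hΓ.zeta z' (Subtype.ext (by rw [SubmonoidClass.coe_pow]; exact hz))) x.2 y.2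
  have hf : ∀ u : Pt Γ, fapp (PowerSeries.C z' * PowerSeries.X) u.1 = (hΓ.fmul hz u).1 := fun u => by
    rw [fapp, ev1, ev_mul (hasEval1 u.2)]
    have h1 : ev (RingHom.id _) (fun _ : Unit => u.1) (PowerSeries.C z' : PowerSeries _) = z' :=
      ev_C (φ := RingHom.id _) z'
    have h2 : ev (RingHom.id _) (fun _ : Unit => u.1) (PowerSeries.X : PowerSeries _) = u.1 :=
      fapp_X
    rw [h1, h2]
    exact Subtype.ext rfl
  rw [← Pt.add_def, hf, hf, hf] at h
  exact Subtype.ext h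

theorem root_add (m : ℕ) (x y : Pt Γ) :
    (x + y).co.coeff m = ((Pt.mk' Γ (Tilt.rootHom m x.co) (Pt.norm_root_lt x m)) +
      Pt.mk' Γ (Tilt.rootHom m y.co) (Pt.norm_root_lt y m)).co.coeff 0 := by
  set u := Pt.mk' Γ (Tilt.rootHom m x.co) (Pt.norm_root_lt x m)
  set v := Pt.mk' Γ (Tilt.rootHom m y.co) (Pt.norm_root_lt y m)
  have hx : Pt.powp m u = x := Pt.ext' (by simp [u, Tilt.rootHom_pow])
  have hy : Pt.powp m v = y := Pt.ext' (by simp [v, Tilt.rootHom_pow])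
  conv_lhs => rw [← hx, ← hy, ← hΓ.powp_add m u v, Pt.co_powp, Tilt.coeff_npow]
  rw [← Tilt.coeff_pow_pow (u + v).co 0 m, zero_add]

theorem Gper_add (c : ℕ) (x y : Pt Γ) :
    Gper n c (x + y).co = Gper n c x.co + Gper n c y.co := by
  have h0 : ∀ u v : Pt Γ, Gper n 0 (u + v).co = Gper n 0 u.co + Gper n 0 v.co := by
    intro u v
    obtain ⟨B, hB⟩ := hΓ.log_bdd
    have hq := qdata_ellCoeff (p := p) hΓ.pos 0
    have h := ((hq.tendsto (u + v).norm_lt).sub (hq.tendsto u.norm_lt)).sub (hq.tendsto v.norm_lt)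
    rw [← sub_eq_zero, ← sub_sub]
    refine tendsto_nhds_unique h ?_
    refine squeeze_zero_norm (fun J => ?_) (tendsto_tau_mul (p := p) B)
    rw [approxQ, approxQ, approxQ, ← mul_sub, ← mul_sub, norm_mul, norm_pow]
    refine mul_le_mul_of_nonneg_left ?_ (pow_nonneg (norm_nonneg _) _)
    rw [hΓ.root_add]
    have := hB (Pt.mk' Γ (Tilt.rootHom (n * J) u.co) (Pt.norm_root_lt u _))
      (Pt.mk' Γ (Tilt.rootHom (n * J) v.co) (Pt.norm_root_lt v _))
    simpa using this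
  have e : ∀ u : Pt Γ, Gper n c u.co = Gper n 0 (Pt.powp c u).co := fun u => by
    rw [Pt.co_powp, Gper_pow hΓ.pos 0 c u.norm_lt, Nat.zero_add]
  rw [e, e, e, hΓ.powp_add, h0]

theorem Gper_nsmul [Γ.IsComm] (c j : ℕ) (x : Pt Γ) :
    Gper n c (j • x).co = j * Gper n c x.co := by
  induction j with
  | zero =>
    have h := hΓ.Gper_add c 0 (0 : Pt Γ)
    rw [add_zero] at h
    simpa using h
  | succ j ih => rw [succ_nsmul, hΓ.Gper_add, ih]; push_cast; ring

end Honda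

end Vale.Agent.P217
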