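import Vale.Agent.P217.Cocycle
import Vale.Agent.P217.Hom

/-!
# Composition of series and transport of formal group laws
-/

noncomputable section

namespace Vale.Agent.P217

open MvPowerSeries

set_option linter.unusedSectionVars false

variable {A B : Type*} [CommRing A] [CommRing B] {σ τ : Type*}

theorem cc_ps {g : PowerSeries A} {x : MvPowerSeries σ A} (hg : PowerSeries.constantCoeff g = 0)
    (hx : constantCoeff x = 0) : constantCoeff (PowerSeries.subst x g) = 0 :=
  PowerSeries.constantCoeff_subst_eq_zero hx _ hg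

theorem cc_X {s : σ} : constantCoeff (X s : MvPowerSeries σ A) = 0 := constantCoeff_X s

theorem cc_PX : constantCoeff (PowerSeries.X : PowerSeries A) = 0 := PowerSeries.constantCoeff_X

theorem subst_ps_subst (g : PowerSeries A) {x : MvPowerSeries σ A} (hx : constantCoeff x = 0)
    {b : σ → MvPowerSeries τ A} (hb : HasSubst b) :
    subst b (PowerSeries.subst x g) = PowerSeries.subst (subst b x) g := by
  rw [PowerSeries.subst_def, PowerSeries.subst_def,
    subst_comp_subst_apply (PowerSeries.HasSubst.of_constantCoeff_zero hx).const hb]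

theorem subst_law_subst (F : FormalGroup A) {a b : MvPowerSeries σ A} (ha : constantCoeff a = 0)
    (hb : constantCoeff b = 0) {c : σ → MvPowerSeries τ A} (hc : HasSubst c) :
    subst c (subst ![a, b] F.toPowerSeries) = subst ![subst c a, subst c b] F.toPowerSeries := by
  rw [subst_comp_subst_apply (hasSubst_pair ha hb) hc]
  congr 1
  funext s
  fin_cases s <;> rfl

theorem subst_pair_XX (f : MvPowerSeries (Fin 2) A) :
    subst ![(X 0 : MvPowerSeries (Fin 2) A), X 1] f = f := by
  rw [show (![X 0, X 1] : Fin 2 → MvPowerSeries (Fin 2) A) = X by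
    funext s; fin_cases s <;> rfl]
  exact congrFun subst_self f

theorem ps_subst_ps (f g : PowerSeries A) (hg : PowerSeries.constantCoeff g = 0)
    {x : MvPowerSeries σ A} (hx : constantCoeff x = 0) :
    PowerSeries.subst x (PowerSeries.subst g f) =
      PowerSeries.subst (PowerSeries.subst x g) f :=
  PowerSeries.subst_comp_subst_apply (PowerSeries.HasSubst.of_constantCoeff_zero' hg)
    (PowerSeries.HasSubst.of_constantCoeff_zero hx) f

theorem ps_subst_X {x : MvPowerSeries σ A} (hx : constantCoeff x = 0) :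
    PowerSeries.subst x (PowerSeries.X : PowerSeries A) = x :=
  PowerSeries.subst_X (PowerSeries.HasSubst.of_constantCoeff_zero hx)

theorem ps_subst_zero {g : PowerSeries A} (hg : PowerSeries.constantCoeff g = 0) :
    PowerSeries.subst (0 : MvPowerSeries σ A) g = 0 :=
  PowerSeries.subst_zero_of_constantCoeff_zero hg

theorem IsHom.apply {g : PowerSeries A} {F G : FormalGroup A} (h : IsHom g F G)
    {a b : MvPowerSeries σ A} (ha : constantCoeff a = 0) (hb : constantCoeff b = 0) :
    PowerSeries.subst (subst ![a, b] F.toPowerSeries) g =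
      subst ![PowerSeries.subst a g, PowerSeries.subst b g] G.toPowerSeries := by
  have hab := hasSubst_pair ha hb
  have := congrArg (subst ![a, b]) h.2
  rwa [subst_ps_subst g F.zero_constantCoeff hab,
    subst_law_subst G (cc_ps h.1 cc_X) (cc_ps h.1 cc_X) hab, subst_ps_subst g cc_X hab,
    subst_ps_subst g cc_X hab, subst_X hab, subst_X hab] at this

theorem isHom_X (F : FormalGroup A) : IsHom PowerSeries.X F F := by
  refine ⟨PowerSeries.constantCoeff_X, ?_⟩
  rw [ps_subst_X F.zero_constantCoeff, ps_subst_X cc_X, ps_subst_X cc_X, subst_pair_XX]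

/-- `(a + b) + (c + d) = (a + c) + (b + d)` for a commutative law. -/
theorem law_four (F : FormalGroup A) [F.IsComm] {a b c d : MvPowerSeries σ A}
    (ha : constantCoeff a = 0) (hb : constantCoeff b = 0) (hc : constantCoeff c = 0)
    (hd : constantCoeff d = 0) :
    subst ![subst ![a, b] F.toPowerSeries, subst ![c, d] F.toPowerSeries] F.toPowerSeries =
      subst ![subst ![a, c] F.toPowerSeries, subst ![b, d] F.toPowerSeries] F.toPowerSeries := by
  have h := add_add_add_comm (G := F.Point σ) ⟨a, PowerSeries.HasSubst.of_constantCoeff_zero ha⟩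
    ⟨b, PowerSeries.HasSubst.of_constantCoeff_zero hb⟩
    ⟨c, PowerSeries.HasSubst.of_constantCoeff_zero hc⟩
    ⟨d, PowerSeries.HasSubst.of_constantCoeff_zero hd⟩
  exact congrArg Subtype.val h

instance map_isComm (F : FormalGroup A) [F.IsComm] (f : A →+* B) : (F.map f).IsComm where
  comm := by
    have hc : F.toPowerSeries = subst ![X 1, X 0] F.toPowerSeries := FormalGroup.IsComm.comm
    rw [FormalGroup.map_toPowerSeries]
    conv_lhs => rw [hc]
    rw [map_subst (HasSubst.X_X)]
    congr 1
    funext s
    fin_cases s <;> simp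

/-- The transport `g(F(g⁻¹ X, g⁻¹ Y))` of `F` along a series `g` with inverse `gi`. -/
def conjLaw (F : FormalGroup A) [F.IsComm] (g gi : PowerSeries A)
    (hg : PowerSeries.constantCoeff g = 0) (hgi : PowerSeries.constantCoeff gi = 0)
    (h₁ : PowerSeries.subst gi g = PowerSeries.X) (h₂ : PowerSeries.subst g gi = PowerSeries.X) :
    FormalGroup A where
  toPowerSeries := PowerSeries.subst (subst ![PowerSeries.subst (X 0) gi,
    PowerSeries.subst (X 1) gi] F.toPowerSeries : MvPowerSeries (Fin 2) A) g
  zero_constantCoeff :=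
    cc_ps hg (constantCoeff_subst_pair F (cc_ps hgi cc_X) (cc_ps hgi cc_X))
  lin_coeff_X := by
    set P := PowerSeries.subst (subst ![PowerSeries.subst (X 0) gi,
      PowerSeries.subst (X 1) gi] F.toPowerSeries : MvPowerSeries (Fin 2) A) g
    have h := coeff_subst_axis P 1
    rw [show Finsupp.single 0 1 = xy 1 0 by simp [xy], ← h]
    have hc : HasSubst ![(PowerSeries.X : PowerSeries A), 0] := hasSubst_pair cc_PX (map_zero _)
    simp only [P, subst_ps_subst g (constantCoeff_subst_pair F (cc_ps hgi cc_X) (cc_ps hgi cc_X)) hc,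
      subst_law_subst F (cc_ps hgi cc_X) (cc_ps hgi cc_X) hc, subst_ps_subst gi cc_X hc,
      subst_X hc]
    simp only [Matrix.cons_val_zero, Matrix.cons_val_one, Matrix.cons_val_fin_one,
      ps_subst_zero hgi, PowerSeries.X_subst, F.add_zero (PowerSeries.HasSubst.of_constantCoeff_zero' hgi),
      h₁, PowerSeries.coeff_one_X]
  lin_coeff_Y := by
    set P := PowerSeries.subst (subst ![PowerSeries.subst (X 0) gi,
      PowerSeries.subst (X 1) gi] F.toPowerSeries : MvPowerSeries (Fin 2) A) g
    have hs : HasSubst ![(X 1 : MvPowerSeries (Fin 2) A), X 0] := HasSubst.X_X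
    have hP : subst ![(X 1 : MvPowerSeries (Fin 2) A), X 0] P = P := by
      simp only [P, subst_ps_subst g (constantCoeff_subst_pair F (cc_ps hgi cc_X) (cc_ps hgi cc_X)) hs,
        subst_law_subst F (cc_ps hgi cc_X) (cc_ps hgi cc_X) hs, subst_ps_subst gi cc_X hs,
        subst_X hs]
      simp only [Matrix.cons_val_zero, Matrix.cons_val_one, Matrix.cons_val_fin_one]
      rw [isComm_subst_left F (cc_ps hgi cc_X) (cc_ps hgi cc_X)]
    rw [show Finsupp.single 1 1 = xy 0 1 by simp [xy], ← hP, coeff_subst_swap,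
      ← coeff_subst_axis]
    have hc : HasSubst ![(PowerSeries.X : PowerSeries A), 0] := hasSubst_pair cc_PX (map_zero _)
    simp only [P, subst_ps_subst g (constantCoeff_subst_pair F (cc_ps hgi cc_X) (cc_ps hgi cc_X)) hc,
      subst_law_subst F (cc_ps hgi cc_X) (cc_ps hgi cc_X) hc, subst_ps_subst gi cc_X hc,
      subst_X hc]
    simp only [Matrix.cons_val_zero, Matrix.cons_val_one, Matrix.cons_val_fin_one,
      ps_subst_zero hgi, PowerSeries.X_subst, F.add_zero (PowerSeries.HasSubst.of_constantCoeff_zero' hgi),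
      h₁, PowerSeries.coeff_one_X]
  assoc := by
    have key : ∀ a b : MvPowerSeries (Fin 3) A, constantCoeff a = 0 → constantCoeff b = 0 →
        subst ![a, b] (PowerSeries.subst (subst ![PowerSeries.subst (X 0) gi,
          PowerSeries.subst (X 1) gi] F.toPowerSeries : MvPowerSeries (Fin 2) A) g) =
        PowerSeries.subst (subst ![PowerSeries.subst a gi, PowerSeries.subst b gi]
          F.toPowerSeries) g := fun a b ha hb => by
      have hab := hasSubst_pair ha hb
      rw [subst_ps_subst g (constantCoeff_subst_pair F (cc_ps hgi cc_X) (cc_ps hgi cc_X)) hab,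
        subst_law_subst F (cc_ps hgi cc_X) (cc_ps hgi cc_X) hab, subst_ps_subst gi cc_X hab,
        subst_ps_subst gi cc_X hab, subst_X hab, subst_X hab]
      rfl
    have cc : ∀ a b : MvPowerSeries (Fin 3) A, constantCoeff a = 0 → constantCoeff b = 0 →
        constantCoeff (PowerSeries.subst (subst ![PowerSeries.subst a gi,
          PowerSeries.subst b gi] F.toPowerSeries) g) = 0 :=
      fun a b ha hb => cc_ps hg (constantCoeff_subst_pair F (cc_ps hgi ha) (cc_ps hgi hb))
    have inv : ∀ z : MvPowerSeries (Fin 3) A, constantCoeff z = 0 →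
        PowerSeries.subst (PowerSeries.subst z g) gi = z := fun z hz => by
      rw [← ps_subst_ps gi g hg hz, h₂, ps_subst_X hz]
    rw [key _ _ cc_X cc_X, key _ _ cc_X cc_X, key _ _ (cc _ _ cc_X cc_X) cc_X,
      key _ _ cc_X (cc _ _ cc_X cc_X),
      inv _ (constantCoeff_subst_pair F (cc_ps hgi cc_X) (cc_ps hgi cc_X)),
      inv _ (constantCoeff_subst_pair F (cc_ps hgi cc_X) (cc_ps hgi cc_X))]
    congr 1
    exact F.assoc' (PowerSeries.HasSubst.of_constantCoeff_zero (cc_ps hgi cc_X))
      (PowerSeries.HasSubst.of_constantCoeff_zero (cc_ps hgi cc_X))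
      (PowerSeries.HasSubst.of_constantCoeff_zero (cc_ps hgi cc_X))

variable (F : FormalGroup A) [F.IsComm] (g gi : PowerSeries A)
    (hg : PowerSeries.constantCoeff g = 0) (hgi : PowerSeries.constantCoeff gi = 0)
    (h₁ : PowerSeries.subst gi g = PowerSeries.X) (h₂ : PowerSeries.subst g gi = PowerSeries.X)

instance conjLaw_isComm : (conjLaw F g gi hg hgi h₁ h₂).IsComm where
  comm := by
    show PowerSeries.subst _ g = subst ![X 1, X 0] (PowerSeries.subst _ g)
    have hs : HasSubst ![(X 1 : MvPowerSeries (Fin 2) A), X 0] := HasSubst.X_X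
    rw [subst_ps_subst g (constantCoeff_subst_pair F (cc_ps hgi cc_X) (cc_ps hgi cc_X)) hs,
      subst_law_subst F (cc_ps hgi cc_X) (cc_ps hgi cc_X) hs, subst_ps_subst gi cc_X hs,
      subst_ps_subst gi cc_X hs, subst_X hs, subst_X hs,
      isComm_subst_left F (cc_ps hgi cc_X) (cc_ps hgi cc_X)]
    rfl

theorem isHom_conjLaw : IsHom g F (conjLaw F g gi hg hgi h₁ h₂) := by
  refine ⟨hg, ?_⟩
  show _ = subst _ (PowerSeries.subst _ g)
  have hs := hasSubst_pair (σ := Fin 2) (cc_ps (x := X 0) hg cc_X) (cc_ps (x := X 1) hg cc_X)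
  rw [subst_ps_subst g (constantCoeff_subst_pair F (cc_ps hgi cc_X) (cc_ps hgi cc_X)) hs,
    subst_law_subst F (cc_ps hgi cc_X) (cc_ps hgi cc_X) hs, subst_ps_subst gi cc_X hs,
    subst_ps_subst gi cc_X hs, subst_X hs, subst_X hs]
  simp only [Matrix.cons_val_zero, Matrix.cons_val_one, Matrix.cons_val_fin_one,
    ← ps_subst_ps gi g hg cc_X, h₂, ps_subst_X cc_X, subst_pair_XX]

theorem conjLaw_map {f : A →+* B} {Γ : FormalGroup B} (h : IsHom (g.map f) (F.map f) Γ) :
    (conjLaw F g gi hg hgi h₁ h₂).map f = Γ := by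
  have hgi' : PowerSeries.constantCoeff (gi.map f) = 0 := by
    rw [← PowerSeries.coeff_zero_eq_constantCoeff_apply, PowerSeries.coeff_map,
      PowerSeries.coeff_zero_eq_constantCoeff_apply, hgi, map_zero]
  have e₁ : PowerSeries.subst (gi.map f) (g.map f) = PowerSeries.X := by
    have := congrArg (PowerSeries.map f) h₁
    rw [PowerSeries.map_X] at this
    rw [← this]
    exact (PowerSeries.map_subst (PowerSeries.HasSubst.of_constantCoeff_zero' hgi) g).symm
  ext1
  rw [FormalGroup.map_toPowerSeries]
  show MvPowerSeries.map f (PowerSeries.subst _ g) = _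
  rw [PowerSeries.map_subst (PowerSeries.HasSubst.of_constantCoeff_zero
      (constantCoeff_subst_pair F (cc_ps hgi cc_X) (cc_ps hgi cc_X))),
    map_subst (hasSubst_pair (cc_ps hgi cc_X) (cc_ps hgi cc_X))]
  have hvec : (fun i => MvPowerSeries.map f (![PowerSeries.subst (X 0 : MvPowerSeries (Fin 2) A) gi,
      PowerSeries.subst (X 1) gi] i)) =
      ![PowerSeries.subst (X 0 : MvPowerSeries (Fin 2) B) (gi.map f),
        PowerSeries.subst (X 1) (gi.map f)] := by
    funext i
    fin_cases i <;>
      simp [PowerSeries.map_subst (PowerSeries.HasSubst.of_constantCoeff_zero cc_X)]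
  rw [hvec, ← FormalGroup.map_toPowerSeries, h.apply (cc_ps hgi' cc_X) (cc_ps hgi' cc_X)]
  simp only [← ps_subst_ps (g.map f) _ hgi' cc_X, e₁, ps_subst_X cc_X, subst_pair_XX]

end Vale.Agent.P217
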