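import Mathlib.FieldTheory.Finite.GaloisField
import Vale.Agent.P217.Honda
import Vale.Agent.P217.Laws
import Vale.Agent.P217.Universal

/-!
# The Honda law over the integers and the Honda laws on the tilt

`intLaw p n` is the formal group law over the integers with logarithm
`Σ_i p^(-i) X^(p^(n i))`.  Its images give the special fibre of the Hazewinkel law and the
Honda laws on the unit ball of the tilt.
-/

noncomputable section

namespace Vale.Agent.P217

open MvPowerSeries Finsupp Filter Topology

set_option linter.unusedSectionVars false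

section IntLaw

variable (p : ℕ) [hp : Fact p.Prime] (n : ℕ)

/-- The functional equation data of the Honda law over the integers. -/
def intData : FEData p ℤ where
  frob := RingHom.id ℤ
  frob_congr x := by
    rw [← ZMod.intCast_zmod_eq_zero_iff_dvd]
    simp [ZMod.pow_card]
  reg f hf := (mul_eq_zero.mp hf).resolve_left (Nat.cast_ne_zero.mpr hp.out.ne_zero)
  u i := if i = n then 1 else 0

/-- The Honda law of height `n` over the integers. -/
def intLaw : FormalGroup ℤ := (intData p n).law

instance intLaw_isComm : (intLaw p n).IsComm := FEData.law_isComm (intData p n)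

variable {p n}

theorem intData_c_eq_zero (hn : 1 ≤ n) : ∀ j, ¬ n ∣ j → (intData p n).c j = 0 := by
  intro j
  induction j using Nat.strong_induction_on with
  | _ j ih =>
  intro hj
  cases j with
  | zero => exact absurd (dvd_zero n) hj
  | succ j =>
    have h0 : (p : Kp p ℤ) * (intData p n).c (j + 1) = 0 := by
      rw [(intData p n).p_mul_c_succ hn (fun i _ => rfl)]
      split_ifs with h
      · exact ih _ (by omega) fun h2 => hj (by
          have := dvd_add h2 (dvd_refl n)
          rwa [Nat.sub_add_cancel h] at this)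
      · rfl
    calc (intData p n).c (j + 1)
        = ((p : Kp p ℤ) * (intData p n).invp) * (intData p n).c (j + 1) := by
          rw [(intData p n).natCast_mul_invp, one_mul]
      _ = (intData p n).invp * ((p : Kp p ℤ) * (intData p n).c (j + 1)) := by ring
      _ = 0 := by rw [h0, mul_zero]

theorem intData_c_mul (hn : 1 ≤ n) (i : ℕ) :
    (intData p n).c (n * i) = (intData p n).invp ^ i := by
  induction i with
  | zero => simp
  | succ i ih =>
    have hle : n * i + n = n * i + (n - 1) + 1 := by omega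
    have h := (intData p n).p_mul_c_succ hn (fun i _ => rfl) (n * i + (n - 1))
    rw [if_pos (by omega), ← hle, Nat.add_sub_cancel, ih] at h
    calc (intData p n).c (n * (i + 1))
        = ((p : Kp p ℤ) * (intData p n).invp) * (intData p n).c (n * i + n) := by
          rw [(intData p n).natCast_mul_invp, one_mul, Nat.mul_succ]
      _ = (intData p n).invp * ((p : Kp p ℤ) * (intData p n).c (n * i + n)) := by ring
      _ = _ := by rw [h, pow_succ']

theorem coeff_logAt_int (hn : 1 ≤ n) {τ : Type*} {a : MvPowerSeries τ (Kp p ℤ)}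
    (a0 : constantCoeff a = 0) {J : ℕ} {e : τ →₀ ℕ} (he : e.degree < p ^ (n * (J + 1))) :
    coeff e ((intData p n).logAt a) =
      ∑ i ∈ Finset.range (J + 1), (intData p n).invp ^ i * coeff e (a ^ p ^ (n * i)) := by
  classical
  let f : ℕ → Kp p ℤ := fun j => (intData p n).c j * coeff e (a ^ p ^ j)
  have hinj : Set.InjOn (fun i => n * i) (Finset.range (J + 1) : Finset ℕ) :=
    fun i _ j _ h => Nat.eq_of_mul_eq_mul_left hn h
  trans ∑ j ∈ (Finset.range (J + 1)).image (fun i => n * i), f j
  · rw [(intData p n).coeff_logAt a0,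
      Finset.sum_subset (Finset.subset_union_left (s₂ := (Finset.range (J + 1)).image fun i => n * i))
        (fun j _ hj => ?_), ← Finset.sum_subset (Finset.subset_union_right
        (s₁ := Finset.range (e.degree + 1))) (fun j _ hj => ?_)]
    · by_cases hd : n ∣ j
      · obtain ⟨i, rfl⟩ := hd
        have hi : J + 1 ≤ i := by
          by_contra h
          exact hj (Finset.mem_image.mpr ⟨i, Finset.mem_range.mpr (by omega), rfl⟩)
        rw [coeff_pow_eq_zero a0 (he.trans_le (Nat.pow_le_pow_right hp.out.pos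
          (Nat.mul_le_mul_left n hi))), mul_zero]
      · rw [intData_c_eq_zero hn j hd, zero_mul]
    · rw [Finset.mem_range] at hj
      have := Nat.lt_pow_self hp.out.one_lt (n := j)
      rw [coeff_pow_eq_zero a0 (by omega), mul_zero]
  · rw [Finset.sum_image hinj]
    exact Finset.sum_congr rfl fun i _ => by simp only [f, intData_c_mul hn]

variable (p n) in
/-- `p^J` times the defect of additivity of the `J`-th partial logarithm. -/
def intErr (J : ℕ) : MvPowerSeries (Fin 2) ℤ :=
  ∑ i ∈ Finset.range (J + 1), C ((p : ℤ) ^ (J - i)) *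
    ((intData p n).lawSeries ^ p ^ (n * i) - X 0 ^ p ^ (n * i) - X 1 ^ p ^ (n * i))

theorem coeff_intErr_eq_zero (hn : 1 ≤ n) {J : ℕ} {e : Fin 2 →₀ ℕ}
    (he : e.degree < p ^ (n * (J + 1))) : coeff e (intErr p n J) = 0 := by
  have F0 : constantCoeff (map (intData p n).ι (intData p n).lawSeries) = 0 := by
    rw [constantCoeff_map, (intData p n).constantCoeff_lawSeries, map_zero]
  have h2 := congrArg (coeff e) (intData p n).logAt_lawSeries
  rw [map_add, coeff_logAt_int hn F0 he, coeff_logAt_int hn (constantCoeff_X _) he,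
    coeff_logAt_int hn (constantCoeff_X _) he] at h2
  apply (intData p n).ι_injective
  rw [map_zero, ← coeff_map, intErr]
  simp only [map_sum, map_mul, map_C, coeff_C_mul]
  simp only [map_sub, map_pow, map_X, map_natCast]
  have hJ : ∀ i ∈ Finset.range (J + 1), (p : Kp p ℤ) ^ (J - i) =
      (p : Kp p ℤ) ^ J * (intData p n).invp ^ i := fun i hi => by
    rw [Finset.mem_range] at hi
    rw [show (p : Kp p ℤ) ^ J = (p : Kp p ℤ) ^ (J - i) * (p : Kp p ℤ) ^ i by
        rw [← pow_add]; congr 1; omega,
      mul_assoc, ← mul_pow, (intData p n).natCast_mul_invp, one_pow, mul_one]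
  rw [Finset.sum_congr rfl fun i hi => by rw [hJ i hi, mul_assoc], ← Finset.mul_sum]
  simp only [mul_sub, Finset.sum_sub_distrib]
  linear_combination (p : Kp p ℤ) ^ J * h2

variable (k : Type) [Field k] [CharP k p] [Finite k]

/-- The special fibre of the Hazewinkel law is the image of the integral Honda law. -/
theorem special_eq_intLaw {F : FormalGroup (E0 p n k)} (hF : IsHazewinkel p n k F) :
    special p n k F = (intLaw p n).map (Int.castRingHom k) := by
  rw [special_eq p n k hF, ← FEData.map_law (D := intData p n) (D' := hondaData p n k)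
    (Int.castRingHom (WittVector p k)) (fun a => (map_intCast (hondaData p n k).frob a).symm)
    (fun i _ => by simp only [intData, hondaData]; split_ifs <;> simp), intLaw]
  ext1
  ext e
  simp [FormalGroup.map_toPowerSeries]

end IntLaw

variable {p : ℕ} [hp : Fact p.Prime] {n : ℕ}

/-! ### The logarithm at points of `ℂ_[p]` -/

theorem norm_ev_intErr_le (hn : 1 ≤ n) {x y : unitBall ℂ_[p]} (hx : IsTopologicallyNilpotent x)
    (hy : IsTopologicallyNilpotent y) (J : ℕ) :
    ‖((ev (Int.castRingHom (unitBall ℂ_[p])) ![x, y] (intErr p n J) : unitBall ℂ_[p]) :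
      ℂ_[p])‖ ≤
      max ‖(x : ℂ_[p])‖ ‖(y : ℂ_[p])‖ ^ p ^ (n * (J + 1)) := by
  set m := max ‖(x : ℂ_[p])‖ ‖(y : ℂ_[p])‖
  have hm1 : m ≤ 1 := max_le x.2 y.2
  have hm0 : 0 ≤ m := le_max_of_le_left (norm_nonneg _)
  have h := (hasSum_ev (φ := Int.castRingHom (unitBall ℂ_[p])) (hasEval2 hx hy)
    (intErr p n J)).map (unitBall ℂ_[p]).subtype continuous_subtype_val
  refine norm_le_of_hasSum h (pow_nonneg hm0 _) fun d => ?_
  simp only [Function.comp_apply, Finsupp.prod_fintype, pow_zero, implies_true,
    Fin.prod_univ_two, Matrix.cons_val_zero, Matrix.cons_val_one, Matrix.cons_val_fin_one]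
  by_cases hd : d.degree < p ^ (n * (J + 1))
  · rw [coeff_intErr_eq_zero hn hd, map_zero, zero_mul, map_zero, norm_zero]
    exact pow_nonneg hm0 _
  · rw [degree_two] at hd
    simp only [map_mul, map_pow, norm_mul, norm_pow, Subring.subtype_apply]
    refine (mul_le_of_le_one_left (by positivity) (norm_coe_le_one _)).trans ?_
    calc ‖(x : ℂ_[p])‖ ^ d 0 * ‖(y : ℂ_[p])‖ ^ d 1 ≤ m ^ d 0 * m ^ d 1 := by
          gcongr
          · exact le_max_left _ _
          · exact le_max_right _ _
      _ = m ^ (d 0 + d 1) := (pow_add _ _ _).symm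
      _ ≤ _ := pow_le_pow_of_le_one hm0 hm1 (by omega)

/-- The logarithm is additive for the integral Honda law. -/
theorem qev_ell_fadd_intLaw (hn : 1 ≤ n) {x y : unitBall ℂ_[p]} (hx : IsTopologicallyNilpotent x)
    (hy : IsTopologicallyNilpotent y) :
    qev (ellCoeff n 0)
        (fadd ((intLaw p n).map (Int.castRingHom (unitBall ℂ_[p]))) x y : unitBall ℂ_[p]) =
      qev (ellCoeff n 0) (x : ℂ_[p]) + qev (ellCoeff n 0) (y : ℂ_[p]) := by
  set z := fadd ((intLaw p n).map (Int.castRingHom (unitBall ℂ_[p]))) x y with hzdef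
  have he := hasEval2 hx hy
  have hz : z = ev (Int.castRingHom (unitBall ℂ_[p])) ![x, y] (intData p n).lawSeries := by
    rw [hzdef, fadd, FormalGroup.map_toPowerSeries, ev_map _ he, RingHom.id_comp]
    rfl
  have hznil : IsTopologicallyNilpotent z := isTopologicallyNilpotent_fadd _ hx hy
  rw [isTopologicallyNilpotent_ball] at hznil
  have hxn := isTopologicallyNilpotent_ball.mp hx
  have hyn := isTopologicallyNilpotent_ball.mp hy
  let S : ℂ_[p] → ℕ → ℂ_[p] := fun w J =>
    ∑ i ∈ Finset.range (J + 1), ((p : ℂ_[p]) ^ i)⁻¹ * w ^ p ^ (0 + n * i)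
  have hS : ∀ w : ℂ_[p], ‖w‖ < 1 → Tendsto (S w) atTop (𝓝 (qev (ellCoeff n 0) w)) :=
    fun w hw => ((hasSum_ell hn 0 hw).tendsto_sum_nat).comp (tendsto_add_atTop_nat 1)
  rw [← sub_eq_zero]
  refine tendsto_nhds_unique ((hS _ hznil).sub ((hS _ hxn).add (hS _ hyn))) ?_
  set m := max ‖(x : ℂ_[p])‖ ‖(y : ℂ_[p])‖
  have hm : m < 1 := max_lt hxn hyn
  have hm0 : 0 ≤ m := le_max_of_le_left (norm_nonneg _)
  have hP : Tendsto (fun J : ℕ => p ^ (n * (J + 1))) atTop atTop :=
    tendsto_atTop_mono (fun J => le_trans (Nat.le_mul_of_pos_left J hn |>.trans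
      (Nat.mul_le_mul_left n (Nat.le_succ J))) (Nat.lt_pow_self hp.out.one_lt).le) tendsto_id
  refine squeeze_zero_norm (fun J => ?_)
    ((tendsto_self_mul_const_pow_of_lt_one hm0 hm).comp hP)
  have hval : ((ev (Int.castRingHom (unitBall ℂ_[p])) ![x, y] (intErr p n J) : unitBall ℂ_[p]) :
      ℂ_[p]) = (p : ℂ_[p]) ^ J * (S z J - (S x J + S y J)) := by
    rw [← evHom_apply he, intErr, map_sum]
    simp only [map_mul, map_sub, map_pow, evHom_apply, ev_X, ← hz, Matrix.cons_val_zero,
      Matrix.cons_val_one, Matrix.cons_val_fin_one, map_natCast, S, Finset.mul_sum,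
      ← Finset.sum_add_distrib, ← Finset.sum_sub_distrib]
    push_cast
    refine Finset.sum_congr rfl fun i hi => ?_
    rw [Finset.mem_range] at hi
    rw [Nat.zero_add, show (p : ℂ_[p]) ^ J = (p : ℂ_[p]) ^ (J - i) * (p : ℂ_[p]) ^ i by
      rw [← pow_add]; congr 1; omega]
    linear_combination (-((p : ℂ_[p]) ^ (J - i)) * ((z : ℂ_[p]) ^ p ^ (n * i) -
      (x : ℂ_[p]) ^ p ^ (n * i) - (y : ℂ_[p]) ^ p ^ (n * i))) *
      mul_inv_cancel₀ (pow_ne_zero i (natCast_ne_zero_Cp (p := p)))
  have h := norm_ev_intErr_le hn hx hy J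
  rw [hval, norm_mul, norm_pow, show ‖(p : ℂ_[p])‖ = (p : ℝ)⁻¹ from Tilt.tau_eq p, inv_pow,
    inv_mul_le_iff₀ (pow_pos (Nat.cast_pos.mpr hp.out.pos) J)] at h
  refine h.trans ?_
  simp only [Function.comp_apply, Nat.cast_pow]
  exact mul_le_mul_of_nonneg_right (pow_le_pow_right₀ (by exact_mod_cast hp.out.one_le)
    ((Nat.le_mul_of_pos_left J hn).trans (Nat.mul_le_mul_left n (Nat.le_succ J))))
    (pow_nonneg hm0 _)

theorem norm_qev_ell_sub_le (hn : 1 ≤ n) {a b : ℂ_[p]} (ha : ‖a‖ < 1) (hb : ‖b‖ < 1)
    (hab : ‖a - b‖ ≤ Tilt.tau p) : ‖qev (ellCoeff n 0) a - qev (ellCoeff n 0) b‖ ≤ 1 := by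
  refine norm_le_of_hasSum ((hasSum_ell hn 0 ha).sub (hasSum_ell hn 0 hb)) zero_le_one fun i => ?_
  have h := Tilt.norm_pow_pow_sub_le (Tilt.tau_pos p).le (Tilt.tau_lt_one p) hb.le
    (R := 1) (by rw [mul_one]; exact hab) (0 + n * i)
  rw [Tilt.rate_tau, one_pow, mul_one] at h
  rw [← mul_sub, norm_mul, norm_inv, norm_pow, show ‖(p : ℂ_[p])‖ = Tilt.tau p from rfl,
    inv_mul_le_iff₀ (pow_pos (Tilt.tau_pos p) i), mul_one]
  refine h.trans ((mul_le_of_le_one_right (pow_nonneg (Tilt.tau_pos p).le _)
    (Tilt.tau_lt_one p).le).trans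
    (pow_le_pow_of_le_one (Tilt.tau_pos p).le (Tilt.tau_lt_one p).le ?_))
  rw [Nat.zero_add]
  exact Nat.le_mul_of_pos_left i hn

/-! ### The Honda laws on the tilt -/

/-- The fixed points of `x ↦ x^(p^n)` in the tilt are the image of any field of `p^n` elements. -/
theorem exists_eq_of_fixed {k : Type*} [Field k] [Finite k] (hn : 1 ≤ n)
    (hk : Nat.card k = p ^ n) (ψ : k →+* Tilt p) {z : Tilt p} (hz : z ^ p ^ n = z) :
    ∃ a, ψ a = z := by
  classical
  have : Fintype k := Fintype.ofFinite k
  have hQ : 1 < p ^ n := one_lt_pow₀ hp.out.one_lt (by omega)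
  let f : Polynomial (Tilt p) := Polynomial.X ^ p ^ n - Polynomial.X
  have hdeg : f.natDegree = p ^ n := FiniteField.X_pow_card_sub_X_natDegree_eq (Tilt p) hQ
  have hf : f ≠ 0 := FiniteField.X_pow_card_sub_X_ne_zero (Tilt p) hQ
  have hroot : ∀ w : Tilt p, w ∈ f.roots.toFinset ↔ w ^ p ^ n = w := fun w => by
    simp [f, Multiset.mem_toFinset, Polynomial.mem_roots hf, sub_eq_zero]
  have hsub : Finset.univ.image ψ ⊆ f.roots.toFinset := fun w hw => by
    obtain ⟨a, -, rfl⟩ := Finset.mem_image.mp hw
    rw [hroot, ← map_pow, ← hk, Nat.card_eq_fintype_card, FiniteField.pow_card]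
  have hcard : f.roots.toFinset.card ≤ (Finset.univ.image ψ).card := by
    rw [Finset.card_image_of_injective _ ψ.injective, Finset.card_univ,
      ← Nat.card_eq_fintype_card, hk]
    exact (f.roots.toFinset_card_le).trans ((Polynomial.card_roots' f).trans_eq hdeg)
  have h := (hroot z).mpr hz
  rw [← Finset.eq_of_subset_of_card_le hsub hcard] at h
  obtain ⟨a, -, ha⟩ := Finset.mem_image.mp h
  exact ⟨a, ha⟩

theorem special_map_eq_intLaw (k : Type) [Field k] [CharP k p] [Finite k]
    {F : FormalGroup (E0 p n k)} (hF : IsHazewinkel p n k F) {T : Type*} [CommRing T]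
    (ψ : k →+* T) : (special p n k F).map ψ = (intLaw p n).map (Int.castRingHom T) := by
  rw [special_eq_intLaw k hF]
  ext1
  ext e
  simp [FormalGroup.map_toPowerSeries]

theorem exists_galois_map (hn : 1 ≤ n) :
    Nonempty (GaloisField p n →+* unitBall (Tilt p)) := by
  let _ : Algebra (ZMod p) (Tilt p) := ZMod.algebra _ p
  let ψ : GaloisField p n →ₐ[ZMod p] Tilt p := IsAlgClosed.lift
  refine ⟨ψ.toRingHom.codRestrict _ fun a => ?_⟩
  have := Fintype.ofFinite (GaloisField p n)
  refine mem_unitBall.mpr (norm_le_one_of_fixed hn ?_)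
  rw [← map_pow, ← GaloisField.card p n (by omega), Nat.card_eq_fintype_card, FiniteField.pow_card]

/-- The image of the integral Honda law on the tilt is a Honda law. -/
theorem honda_intLaw (hn : 1 ≤ n) :
    Honda n ((intLaw p n).map (Int.castRingHom (unitBall (Tilt p)))) where
  pos := hn
  isComm := inferInstance
  mul := by
    rw [mulSeries_map]
    ext1 d
    obtain ⟨c, hc⟩ := (intData p n).dvd_mulSeries_sub_X_pow hn (fun i _ => rfl) d
    rw [show (PowerSeries.X : PowerSeries (unitBall (Tilt p))) ^ p ^ n =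
      (PowerSeries.X ^ p ^ n : PowerSeries ℤ).map (Int.castRingHom _) by simp,
      PowerSeries.coeff_map, PowerSeries.coeff_map, ← sub_eq_zero, ← map_sub, intLaw, hc,
      map_mul, map_natCast, CharP.cast_eq_zero, zero_mul]
  frob d := by
    rw [FormalGroup.map_toPowerSeries, coeff_map, eq_intCast, ← frobenius_def, map_intCast]
  zeta z hz := by
    obtain ⟨ψ⟩ := exists_galois_map (p := p) hn
    have hk : Nat.card (GaloisField p n) = p ^ n := GaloisField.card p n (by omega)
    obtain ⟨F, -, hF⟩ := exists_hazewinkel p n (GaloisField p n)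
    obtain ⟨a, ha⟩ := exists_eq_of_fixed hn hk ((unitBall (Tilt p)).subtype.comp ψ)
      (z := (z : Tilt p)) (by rw [← SubmonoidClass.coe_pow, hz])
    have ha' : ψ a = z := Subtype.ext ha
    have h := (isHom_C_mul_X p n (GaloisField p n) hn hF hk a).map ψ
    rwa [special_map_eq_intLaw _ hF, map_mul, PowerSeries.map_C, PowerSeries.map_X, ha'] at h
  log_bdd := by
    refine ⟨1, fun x y => ?_⟩
    have hx : IsTopologicallyNilpotent (sharp x.1) := isTopologicallyNilpotent_sharp.mpr x.2
    have hy : IsTopologicallyNilpotent (sharp y.1) := isTopologicallyNilpotent_sharp.mpr y.2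
    set w := fadd ((intLaw p n).map (Int.castRingHom (unitBall ℂ_[p]))) (sharp x.1) (sharp y.1)
      with hw
    have hmem := sharp_ev_sub_mem (le_refl ‖(p : ℂ_[p])‖)
      (φ := RingHom.id (unitBall (Tilt p))) (φ' := RingHom.id (unitBall ℂ_[p]))
      (hasEval2 x.2 y.2) (hasEval2 hx hy)
      (f := ((intLaw p n).map (Int.castRingHom (unitBall (Tilt p)))).toPowerSeries)
      (f' := ((intLaw p n).map (Int.castRingHom (unitBall ℂ_[p]))).toPowerSeries)
      (fun s => by fin_cases s <;> simp)
      (fun d => by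
        rw [RingHom.id_apply, RingHom.id_apply, FormalGroup.map_toPowerSeries,
          FormalGroup.map_toPowerSeries, coeff_map, coeff_map, ← Ideal.Quotient.eq]
        exact (map_intCast (sharpMod (le_refl ‖(p : ℂ_[p])‖)) _).trans
          (map_intCast (Ideal.Quotient.mk (ballIdeal (K := ℂ_[p]) (norm_nonneg _))) _).symm)
    rw [mem_ballIdeal] at hmem
    have h := norm_qev_ell_sub_le (p := p) hn
      (a := ((sharp (x + y).1 : unitBall ℂ_[p]) : ℂ_[p])) (b := (w : ℂ_[p]))
      (by rw [norm_sharp]; exact (x + y).norm_lt)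
      (isTopologicallyNilpotent_ball.mp (isTopologicallyNilpotent_fadd _ hx hy)) hmem
    rw [hw, qev_ell_fadd_intLaw hn hx hy, ← sub_sub] at h
    exact h

/-- The special fibre of the Hazewinkel law gives a Honda law on the tilt. -/
theorem honda_special (hn : 1 ≤ n) (k : Type) [Field k] [CharP k p] [Finite k]
    {F : FormalGroup (E0 p n k)} (hF : IsHazewinkel p n k F) (kT : k →+* unitBall (Tilt p)) :
    Honda n ((special p n k F).map kT) := by
  rw [special_map_eq_intLaw k hF]
  exact honda_intLaw hn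

end Vale.Agent.P217
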