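import Mathlib.RingTheory.Ideal.KrullsHeightTheorem
import Mathlib.RingTheory.Ideal.Quotient.Index
import Mathlib.RingTheory.Ideal.MinimalPrime.Noetherian
import Mathlib.RingTheory.Filtration
import Mathlib.RingTheory.LocalRing.ResidueField.Basic
import Mathlib.RingTheory.IntegralClosure.Algebra.Basic
import Mathlib.FieldTheory.IsAlgClosed.Basic
import Mathlib.Analysis.Normed.Group.Ultra
import Mathlib.Analysis.Normed.Field.Basic
import Mathlib.RingTheory.Noetherian.Nilpotent

/-!
# Points of a Noetherian local domain in an algebraically closed valued field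

If `u ≠ 0` lies in the maximal ideal of a Noetherian local domain `R` with finite residue field,
and a base ring `A` with digit expansions maps to `R` with `ϖ ↦ u`, then `R` has a point in `L`
where `u` does not vanish.
-/

noncomputable section

namespace Vale.Agent.P217

open IsLocalRing

set_option linter.style.haveILetI false

variable {R : Type*} [CommRing R]

/-- A prime maximal among the ideals avoiding the powers of `u`. -/
theorem exists_prime_avoiding [IsNoetherianRing R] [IsDomain R] {u : R} (hu : u ≠ 0) :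
    ∃ Q : Ideal R, Q.IsPrime ∧ u ∉ Q ∧ ∀ Q' : Ideal R, Q'.IsPrime → Q < Q' → u ∈ Q' := by
  obtain ⟨Q, hQ, hmax⟩ : ∃ Q : Ideal R, (∀ m, u ^ m ∉ Q) ∧
      ∀ J : Ideal R, (∀ m, u ^ m ∉ J) → ¬ Q < J :=
    set_has_maximal_iff_noetherian.2 (inferInstance : IsNoetherian R R)
      {I : Ideal R | ∀ m, u ^ m ∉ I} ⟨⊥, fun m h => pow_ne_zero m hu (Ideal.mem_bot.1 h)⟩
  have hQp : Q.IsPrime := by
    refine Ideal.isPrime_of_maximally_disjoint Q (Submonoid.powers u) ?_ fun J hJ hd => ?_
    · rw [Set.disjoint_left]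
      rintro x hx ⟨m, rfl⟩
      exact hQ m hx
    · refine hmax J (fun m hm => ?_) hJ
      exact Set.disjoint_left.1 hd hm ⟨m, rfl⟩
  refine ⟨Q, hQp, fun h => hQ 1 (by simpa using h), fun Q' hQ' hlt => ?_⟩
  by_contra h
  exact hmax Q' (fun m hm => h (hQ'.mem_of_pow_mem m hm)) hlt

/-- If every nonzero prime contains `u`, the maximal ideal is the radical of `(u)`. -/
theorem maximalIdeal_le_radical_span [IsNoetherianRing R] [IsLocalRing R] [IsDomain R] {u : R}
    (hu0 : u ≠ 0)
    (h : ∀ Q : Ideal R, Q.IsPrime → Q ≠ ⊥ → u ∈ Q) :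
    maximalIdeal R ≤ (Ideal.span {u}).radical := by
  rw [← Ideal.sInf_minimalPrimes]
  refine le_sInf fun q hq => ?_
  by_contra hle
  have hfin := Ideal.finite_minimalPrimes_of_isNoetherianRing R (Ideal.span {u})
  obtain ⟨x, hxm, hx⟩ : ∃ x ∈ maximalIdeal R,
      ∀ q ∈ (Ideal.span {u}).minimalPrimes, x ∉ q := by
    by_contra! hcon
    have hsub : (maximalIdeal R : Set R) ⊆ ⋃ i ∈ (↑hfin.toFinset : Set (Ideal R)), (id i : Ideal R) :=
      fun y hy => by
        obtain ⟨q', hq', hy'⟩ := hcon y hy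
        exact Set.mem_biUnion (by simpa using hq') hy'
    obtain ⟨i, hi, hmi⟩ :=
      (Ideal.subset_union_prime q q fun i hi _ _ => (hfin.mem_toFinset.1 hi).isPrime).1 hsub
    rw [Set.Finite.mem_toFinset] at hi
    have hqm : q ≤ maximalIdeal R := le_maximalIdeal hq.isPrime.ne_top
    exact hle (hmi.trans (hi.2 ⟨hq.isPrime, hq.le⟩ (hqm.trans hmi)))
  have hx0 : x ≠ 0 := fun h0 => hx q hq (h0 ▸ q.zero_mem)
  obtain ⟨q', hq', -⟩ := Ideal.exists_minimalPrimes_le
    (I := Ideal.span {x}) (J := maximalIdeal R) (by simpa [Ideal.span_le] using hxm)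
  have hq'p : q'.IsPrime := hq'.isPrime
  have hxq' : x ∈ q' := hq'.le (Ideal.mem_span_singleton_self x)
  have huq' : u ∈ q' := h q' hq'p fun hb => hx0 (by simpa [hb] using hxq')
  obtain ⟨q'', hq'', hle'⟩ := Ideal.exists_minimalPrimes_le
    (I := Ideal.span {u}) (J := q') (by simpa [Ideal.span_le] using huq')
  have hq''p : q''.IsPrime := hq''.isPrime
  have hlt : q'' < q' := lt_of_le_of_ne hle' fun e => hx q'' hq'' (e ▸ hxq')
  have hpos : (⊥ : Ideal R) < q'' := bot_lt_iff_ne_bot.2 fun hb =>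
    hu0 (by simpa [hb] using hq''.le (Ideal.mem_span_singleton_self u))
  haveI : (⊥ : Ideal R).IsPrime := Ideal.isPrime_bot
  have h1 := Ideal.height_strict_mono_of_isPrime_of_isPrime hpos
  have h2 := (Ideal.height_strict_mono_of_isPrime_of_isPrime hlt).trans_le
    (Ideal.height_le_one_of_isPrincipal_of_mem_minimalPrimes (Ideal.span {x}) q' hq')
  rw [Ideal.height_bot] at h1
  exact absurd (Order.le_of_lt_add_one (by simpa using h2)) (not_le.2 h1)

/-- A ring with digit expansions in powers of `ϖ`. -/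
def HasDigits {A : Type*} [CommRing A] (ϖ : A) : Prop :=
  ∀ δ : ℕ → Bool, ∃ a : A, ∀ N, ∃ b,
    a = (∑ j ∈ Finset.range N, if δ j then ϖ ^ j else 0) + ϖ ^ N * b

/-- Complete Nakayama through digit expansions. -/
theorem moduleFinite_of_digits {A : Type*} [CommRing A] [Algebra A R] [IsNoetherianRing R]
    [IsLocalRing R] {ϖ : A} (hd : HasDigits ϖ) (hum : algebraMap A R ϖ ∈ maximalIdeal R)
    (hfin : Finite (R ⧸ Ideal.span {algebraMap A R ϖ})) : Module.Finite A R := by
  classical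
  set u := algebraMap A R ϖ
  haveI := Fintype.ofFinite (R ⧸ Ideal.span {u})
  let c : R ⧸ Ideal.span {u} → R := Function.surjInv Ideal.Quotient.mk_surjective
  have hc : ∀ x : R, ∃ y, x = c (Ideal.Quotient.mk _ x) + u * y := fun x => by
    have h : x - c (Ideal.Quotient.mk _ x) ∈ Ideal.span {u} := by
      rw [← Ideal.Quotient.eq]
      exact (Function.surjInv_eq Ideal.Quotient.mk_surjective _).symm
    obtain ⟨y, hy⟩ := Ideal.mem_span_singleton.1 h
    exact ⟨y, by rw [← hy]; ring⟩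
  choose next hnext using hc
  refine ⟨⟨Finset.univ.image c, eq_top_iff.2 fun x _ => ?_⟩⟩
  let xs : ℕ → R := fun j => next^[j] x
  let idx : ℕ → R ⧸ Ideal.span {u} := fun j => Ideal.Quotient.mk _ (xs j)
  have hexp : ∀ N, x = (∑ j ∈ Finset.range N, u ^ j * c (idx j)) + u ^ N * xs N := by
    intro N
    induction N with
    | zero => simp [xs]
    | succ N ih =>
      rw [Finset.sum_range_succ, show xs (N + 1) = next (xs N) from
        Function.iterate_succ_apply' next N x]
      conv_lhs => rw [ih, hnext (xs N)]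
      simp only [idx]
      ring
  choose a ha using fun i => hd fun j => decide (idx j = i)
  set y := ∑ i, a i • c i with hy
  have hmem : y ∈ Submodule.span A (↑(Finset.univ.image c) : Set R) :=
    Submodule.sum_mem _ fun i _ => Submodule.smul_mem _ _ (Submodule.subset_span (by simp))
  suffices h : x - y ∈ ⨅ N, Ideal.span {u} ^ N by
    rw [Ideal.iInf_pow_eq_bot_of_isLocalRing _
      (fun htop => (maximalIdeal.isMaximal R).ne_top
        (top_unique (htop ▸ (Ideal.span_le.2 (by simpa using hum))))),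
      Ideal.mem_bot, sub_eq_zero] at h
    rwa [h]
  rw [Ideal.mem_iInf]
  intro N
  rw [Ideal.span_singleton_pow, Ideal.mem_span_singleton]
  choose b hb using fun i => ha i N
  have hy' : y = (∑ j ∈ Finset.range N, u ^ j * c (idx j)) +
      u ^ N * ∑ i, algebraMap A R (b i) * c i := by
    rw [hy, Finset.mul_sum]
    simp only [Algebra.smul_def]
    rw [Finset.sum_congr rfl fun i _ => by rw [hb i, map_add, map_sum, map_mul, map_pow,
      add_mul, Finset.sum_mul]]
    rw [Finset.sum_add_distrib, Finset.sum_comm]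
    congr 1
    · refine Finset.sum_congr rfl fun j _ => ?_
      simp [apply_ite (algebraMap A R), ite_mul, u]
    · exact Finset.sum_congr rfl fun i _ => by ring
  exact ⟨xs N - ∑ i, algebraMap A R (b i) * c i, by rw [hy', hexp N]; ring⟩

/-- Roots of monic polynomials with small coefficients are small. -/
theorem norm_le_one_of_isIntegral {A S L : Type*} [CommRing A] [CommRing S] [Algebra A S]
    [NormedField L] [IsUltrametricDist L] (f : S →+* L)
    (hf : ∀ a, ‖f (algebraMap A S a)‖ ≤ 1) {x : S} (hx : IsIntegral A x) : ‖f x‖ ≤ 1 := by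
  obtain ⟨P, hP, hPx⟩ := hx
  by_contra! h
  rw [Polynomial.eval₂_eq_sum_range, Finset.sum_range_succ, hP.coeff_natDegree, map_one,
    one_mul, add_eq_zero_iff_neg_eq] at hPx
  have h1 := congrArg f hPx
  rw [map_neg, map_sum, map_pow] at h1
  have h2 : ‖f x ^ P.natDegree‖ ≤ ‖f x‖ ^ P.natDegree / ‖f x‖ := by
    rw [← h1, norm_neg]
    refine IsUltrametricDist.norm_sum_le_of_forall_le_of_nonneg (by positivity) fun i hi => ?_
    rw [map_mul, map_pow, norm_mul, norm_pow, le_div_iff₀ (one_pos.trans h), mul_assoc, ← pow_succ]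
    exact (mul_le_of_le_one_left (by positivity) (hf _)).trans
      (pow_le_pow_right₀ h.le (Finset.mem_range.1 hi))
  rw [norm_pow, le_div_iff₀ (one_pos.trans h)] at h2
  exact absurd h2 (not_le.2 (lt_mul_of_one_lt_right (pow_pos (one_pos.trans h) _) h))

theorem injective_of_dvd_pow {A B : Type*} [CommRing A] [CommRing B] [IsDomain B] {ϖ : A}
    (hdvd : ∀ a : A, a ≠ 0 → ∃ m, a ∣ ϖ ^ m) (g : A →+* B) (hg : g ϖ ≠ 0) :
    Function.Injective g := by
  rw [injective_iff_map_eq_zero]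
  intro a ha
  by_contra h0
  obtain ⟨m, c, hc⟩ := hdvd a h0
  exact pow_ne_zero m hg (by rw [← map_pow, hc, map_mul, ha, zero_mul])

/-- The point. -/
theorem exists_point_core {R : Type*} [CommRing R] [IsNoetherianRing R] [IsLocalRing R]
    [IsDomain R] [Finite (R ⧸ maximalIdeal R)] {A : Type*} [CommRing A] {L : Type*}
    [NormedField L] [IsUltrametricDist L] [IsAlgClosed L] (φ : A →+* R) (χ : A →+* L) {ϖ : A}
    (hd : HasDigits ϖ) (hdvd : ∀ a : A, a ≠ 0 → ∃ m, a ∣ ϖ ^ m) (hu0 : φ ϖ ≠ 0)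
    (hum : φ ϖ ∈ maximalIdeal R) (hχ : ∀ a, ‖χ a‖ ≤ 1) (hχ0 : χ ϖ ≠ 0) (hχ1 : ‖χ ϖ‖ < 1) :
    ∃ π : R →+* L, (∀ x, ‖π x‖ ≤ 1) ∧ (∀ x ∈ maximalIdeal R, ‖π x‖ < 1) ∧ π (φ ϖ) ≠ 0 := by
  obtain ⟨Q, hQp, huQ, hQmax⟩ := exists_prime_avoiding hu0
  haveI := hQp
  haveI : Nontrivial (R ⧸ Q) := Ideal.Quotient.nontrivial_iff.2 hQp.ne_top
  haveI : IsLocalRing (R ⧸ Q) :=
    IsLocalRing.of_surjective' (Ideal.Quotient.mk Q) Ideal.Quotient.mk_surjective
  set ψ : A →+* R ⧸ Q := (Ideal.Quotient.mk Q).comp φ with hψ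
  letI : Algebra A (R ⧸ Q) := ψ.toAlgebra
  letI : Algebra A L := χ.toAlgebra
  set v : R ⧸ Q := ψ ϖ with hv
  have hv0 : v ≠ 0 := fun h => huQ (Ideal.Quotient.eq_zero_iff_mem.1 h)
  have hmap : (maximalIdeal (R ⧸ Q)).comap (Ideal.Quotient.mk Q) = maximalIdeal R := by
    haveI : ((maximalIdeal (R ⧸ Q)).comap (Ideal.Quotient.mk Q)).IsMaximal :=
      Ideal.comap_isMaximal_of_surjective _ Ideal.Quotient.mk_surjective
    exact IsLocalRing.eq_maximalIdeal ‹_›
  have hvm : v ∈ maximalIdeal (R ⧸ Q) := by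
    rw [← hmap, Ideal.mem_comap] at hum
    exact hum
  haveI : Finite ((R ⧸ Q) ⧸ maximalIdeal (R ⧸ Q)) := by
    refine Finite.of_surjective
      (Ideal.quotientMap (maximalIdeal (R ⧸ Q)) (Ideal.Quotient.mk Q) hmap.ge) fun y => ?_
    obtain ⟨y, rfl⟩ := Ideal.Quotient.mk_surjective y
    obtain ⟨y, rfl⟩ := Ideal.Quotient.mk_surjective y
    exact ⟨Ideal.Quotient.mk _ y, rfl⟩
  have hrad : maximalIdeal (R ⧸ Q) ≤ (Ideal.span {v}).radical := by
    refine maximalIdeal_le_radical_span hv0 fun q hq hne => ?_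
    refine hQmax (q.comap (Ideal.Quotient.mk Q)) inferInstance (lt_of_le_of_ne ?_ fun e => hne ?_)
    · intro y hy
      rw [Ideal.mem_comap, Ideal.Quotient.eq_zero_iff_mem.2 hy]
      exact q.zero_mem
    · rw [← Ideal.map_comap_of_surjective _ Ideal.Quotient.mk_surjective q, ← e,
        Ideal.map_quotient_self]
  have hfinq : Finite ((R ⧸ Q) ⧸ Ideal.span {v}) := by
    obtain ⟨N, hN⟩ := Ideal.exists_radical_pow_le_of_fg (Ideal.span {v})
      (IsNoetherian.noetherian _)
    haveI := Ideal.finite_quotient_pow (IsNoetherian.noetherian (maximalIdeal (R ⧸ Q))) N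
    exact Finite.of_surjective _ (Ideal.Quotient.factor_surjective
      ((Ideal.pow_right_mono hrad N).trans hN))
  haveI := moduleFinite_of_digits (A := A) (R := R ⧸ Q) hd hvm hfinq
  haveI : Algebra.IsIntegral A (R ⧸ Q) := Algebra.IsIntegral.of_finite A (R ⧸ Q)
  haveI : FaithfulSMul A (R ⧸ Q) :=
    (faithfulSMul_iff_algebraMap_injective A (R ⧸ Q)).2 (injective_of_dvd_pow hdvd ψ hv0)
  haveI : FaithfulSMul A L := (faithfulSMul_iff_algebraMap_injective A L).2 (injective_of_dvd_pow hdvd χ hχ0)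
  haveI : IsDomain A := (injective_of_dvd_pow hdvd χ hχ0).isDomain χ
  let g : (R ⧸ Q) →ₐ[A] L := IsAlgClosed.lift
  have hg : ∀ a, g (ψ a) = χ a := fun a => g.commutes a
  have hle : ∀ y, ‖g y‖ ≤ 1 := fun y =>
    norm_le_one_of_isIntegral (A := A) (g : R ⧸ Q →+* L)
      (fun a => by simpa [hg] using hg a ▸ hχ a) (Algebra.IsIntegral.isIntegral y)
  refine ⟨(g : R ⧸ Q →+* L).comp (Ideal.Quotient.mk Q), fun x => hle _, fun x hx => ?_, ?_⟩
  · have hx' : Ideal.Quotient.mk Q x ∈ maximalIdeal (R ⧸ Q) := by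
      rw [← Ideal.mem_comap, hmap]; exact hx
    obtain ⟨N, hN⟩ := hrad hx'
    obtain ⟨c, hc⟩ := Ideal.mem_span_singleton.1 hN
    by_contra! h
    have h1 : ‖g (Ideal.Quotient.mk Q x)‖ ^ N < 1 := by
      rw [← norm_pow, ← map_pow, hc, map_mul, norm_mul, hg]
      exact lt_of_le_of_lt (mul_le_of_le_one_right (norm_nonneg _) (hle c)) hχ1
    exact absurd (one_le_pow₀ (n := N) h) (not_le.2 h1)
  · show g (ψ ϖ) ≠ 0
    rwa [hg]

end Vale.Agent.P217
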