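import Mathlib.NumberTheory.Padics.RingHoms
import Mathlib.RingTheory.PowerSeries.Inverse
import Mathlib.Topology.Algebra.InfiniteSum.Nonarchimedean
import Mathlib.Analysis.SpecificLimits.Basic
import Mathlib.RingTheory.PowerSeries.Order
import Vale.Agent.P217.PointCore

/-!
# Digit expansions in `ℤ_p` and `𝔽_p⟦X⟧`
-/

noncomputable section

namespace Vale.Agent.P217

open Filter Topology

variable {p : ℕ} [hp : Fact p.Prime]

theorem hasDigits_padicInt : HasDigits (p : ℤ_[p]) := by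
  intro δ
  have h : ∀ e : ℕ → Bool, Summable fun j => if e j then (p : ℤ_[p]) ^ j else 0 := fun e => by
    refine NonarchimedeanAddGroup.summable_of_tendsto_cofinite_zero ?_
    rw [Nat.cofinite_eq_atTop]
    refine squeeze_zero_norm (fun j => ?_) (tendsto_pow_atTop_nhds_zero_of_lt_one
      (inv_nonneg.2 (Nat.cast_nonneg p)) (inv_lt_one_of_one_lt₀
        (Nat.one_lt_cast.2 hp.1.one_lt)))
    split_ifs
    · rw [norm_pow, PadicInt.norm_p]
    · simp
  refine ⟨∑' j, if δ j then (p : ℤ_[p]) ^ j else 0, fun N =>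
    ⟨∑' j, if δ (j + N) then (p : ℤ_[p]) ^ j else 0, ?_⟩⟩
  rw [← (h fun j => δ (j + N)).tsum_mul_left, ← (h δ).sum_add_tsum_nat_add N]
  congr 1
  refine tsum_congr fun j => ?_
  split_ifs <;> simp [pow_add, mul_comm]

theorem dvd_pow_padicInt {a : ℤ_[p]} (ha : a ≠ 0) : ∃ m, a ∣ (p : ℤ_[p]) ^ m := by
  refine ⟨a.valuation, ((PadicInt.unitCoeff ha)⁻¹ : ℤ_[p]ˣ), ?_⟩
  have h : a = (PadicInt.unitCoeff ha : ℤ_[p]) * (p : ℤ_[p]) ^ a.valuation :=
    PadicInt.unitCoeff_spec ha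
  calc (p : ℤ_[p]) ^ a.valuation
      = ((PadicInt.unitCoeff ha : ℤ_[p]) * (p : ℤ_[p]) ^ a.valuation) *
          ((PadicInt.unitCoeff ha)⁻¹ : ℤ_[p]ˣ) := by
        rw [mul_comm _ ((p : ℤ_[p]) ^ _), mul_assoc, Units.mul_inv, mul_one]
    _ = a * ((PadicInt.unitCoeff ha)⁻¹ : ℤ_[p]ˣ) := by rw [← h]

theorem hasDigits_powerSeries {K : Type*} [CommRing K] :
    HasDigits (PowerSeries.X : PowerSeries K) := by
  intro δ
  refine ⟨PowerSeries.mk fun j => if δ j then 1 else 0, fun N =>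
    ⟨PowerSeries.mk fun j => if δ (j + N) then 1 else 0, ?_⟩⟩
  ext i
  rw [map_add, map_sum, PowerSeries.coeff_X_pow_mul', PowerSeries.coeff_mk]
  simp only [apply_ite (PowerSeries.coeff i), PowerSeries.coeff_X_pow, map_zero,
    PowerSeries.coeff_mk]
  rcases Nat.lt_or_ge i N with hi | hi
  · rw [Finset.sum_eq_single i (fun j _ hj => by simp [hj.symm])
      (fun h => absurd (Finset.mem_range.2 hi) h)]
    simp [not_le.2 hi]
  · rw [Finset.sum_eq_zero fun j hj => ?_]
    · simp [hi, Nat.sub_add_cancel hi]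
    · rw [if_neg (show i ≠ j by have := Finset.mem_range.1 hj; omega), ite_self]

theorem dvd_pow_powerSeries {K : Type*} [Field K] {a : PowerSeries K} (ha : a ≠ 0) :
    ∃ m, a ∣ PowerSeries.X ^ m := by
  obtain ⟨m, u, hu⟩ := IsDiscreteValuationRing.eq_unit_mul_pow_irreducible ha
    (PowerSeries.X_irreducible : Irreducible (PowerSeries.X : PowerSeries K))
  exact ⟨m, (u⁻¹ : (PowerSeries K)ˣ), by rw [hu, mul_comm _ (PowerSeries.X ^ m), mul_assoc,
    Units.mul_inv, mul_one]⟩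

end Vale.Agent.P217
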