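import Vale.Agent.P217.Theta
import Vale.Agent.P217.Hom

/-!
# The `theta` setup attached to a point of the deformation space

`Source` is the ring with unique `q`-th roots and an embedding of `k`; `Target` is a ring with a
section of its reduction modulo `J`; a point compatible with both gives a `Setup`.
-/

noncomputable section

namespace Vale.Agent.P217

set_option linter.unusedSectionVars false
set_option linter.style.haveILetI false

open Filter Topology

variable (p : ℕ) [Fact p.Prime] (n : ℕ) (k : Type) [Field k] [CharP k p]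

/-- The source ring: characteristic `p` with continuous `q`-th roots, containing `k`. -/
structure Source (T : Type*) [CommRing T] [TopologicalSpace T] where
  /-- The embedding of the residue field. -/
  kT : k →+* T
  charP : CharP T p
  /-- The inverse of the `q`-th power. -/
  root : T → T
  root_pow : ∀ y, root y ^ p ^ n = y
  root_pow' : ∀ y, root (y ^ p ^ n) = y
  root_cont : Continuous root
  kT_pow : ∀ c, kT c ^ p ^ n = kT c

variable {p n k} {T : Type*} [CommRing T] [UniformSpace T] [IsUniformAddGroup T]
  [IsTopologicalRing T] [CompleteSpace T] [T2Space T] [IsLinearTopology T T]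

/-- The target ring: a multiplicative map from the source which is additive modulo `J`. -/
structure Target (S : Source p n k T) (O : Type*) [CommRing O] [UniformSpace O] where
  /-- The ideal of congruences. -/
  J : Ideal O
  isAdic : IsAdic J
  p_mem : (p : O) ∈ J
  /-- The multiplicative section. -/
  sharp : T →* O
  sharp_cont : Continuous sharp
  sharp_zero : sharp 0 = 0
  sharp_add : ∀ a b, sharp (a + b) - (sharp a + sharp b) ∈ J

variable {O : Type*} [CommRing O] [UniformSpace O] [IsUniformAddGroup O] [IsTopologicalRing O]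
  [CompleteSpace O] [T2Space O] [IsLinearTopology O O]

/-- A point is compatible when it agrees with the section modulo `J`. -/
def Target.IsPointOf {S : Source p n k T} (E : Target S O) (π : E0 p n k →+* O) : Prop :=
  ∀ r, E.sharp (S.kT (res p n k r)) - π r ∈ E.J

theorem Target.IsPointOf.map_mem {S : Source p n k T} {E : Target S O} {π : E0 p n k →+* O}
    (hπ : E.IsPointOf π) {r : E0 p n k} (hr : res p n k r = 0) : π r ∈ E.J := by
  have h := hπ r
  rw [hr, map_zero, E.sharp_zero, zero_sub] at h
  simpa using E.J.neg_mem h

namespace Source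

variable (S : Source p n k T)

theorem pow_injective (S : Source p n k T) : Function.Injective fun y : T => y ^ p ^ n := fun a b h => by
  have := congrArg S.root h
  simpa [S.root_pow'] using this

theorem nilp_root' {y : T} (hy : IsTopologicallyNilpotent y) :
    IsTopologicallyNilpotent (S.root y) := by
  rw [IsTopologicallyNilpotent, IsLinearTopology.hasBasis_ideal.tendsto_right_iff]
  intro I hI
  obtain ⟨N, hN⟩ := (hy.eventually_mem hI).exists
  filter_upwards [eventually_ge_atTop (p ^ n * N)] with i hi
  refine I.pow_mem_of_pow_mem ?_ hi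
  rwa [pow_mul, S.root_pow]

/-- The special fibre over the source. -/
def fibre (F : FormalGroup (E0 p n k)) : FormalGroup T := (special p n k F).map S.kT

theorem pow_fadd_fibre (F : FormalGroup (E0 p n k)) {x y : T}
    (hx : IsTopologicallyNilpotent x) (hy : IsTopologicallyNilpotent y) :
    fadd (S.fibre F) x y ^ p ^ n = fadd (S.fibre F) (x ^ p ^ n) (y ^ p ^ n) := by
  haveI := S.charP
  let φ : T →+* T := iterateFrobenius T p n
  have hφ : ∀ z, φ z = z ^ p ^ n := fun z => iterateFrobenius_def p n z
  have hc : Continuous φ := by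
    rw [show ⇑φ = fun z => z ^ p ^ n from funext hφ]
    exact continuous_pow _
  rw [← hφ, fadd, map_ev φ hc (hasEval2 hx hy), fadd]
  rw [fibre, FormalGroup.map_toPowerSeries]
  have he : MvPowerSeries.HasEval ![x ^ p ^ n, y ^ p ^ n] := by
    refine hasEval_of_finite fun s => ?_
    fin_cases s
    · simpa [hφ] using hx.map hc
    · simpa [hφ] using hy.map hc
  have hs : (fun s => φ (![x, y] s)) = ![x ^ p ^ n, y ^ p ^ n] := by
    funext s; fin_cases s <;> simp [hφ]
  rw [hs, ev_map _ he, ev_map _ he]
  congr 1
  ext c
  simp [hφ, S.kT_pow]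

theorem root_fadd_fibre (F : FormalGroup (E0 p n k)) {x y : T}
    (hx : IsTopologicallyNilpotent x) (hy : IsTopologicallyNilpotent y) :
    S.root (fadd (S.fibre F) x y) = fadd (S.fibre F) (S.root x) (S.root y) := by
  apply S.pow_injective
  simp only [S.root_pow, S.pow_fadd_fibre F (S.nilp_root' hx) (S.nilp_root' hy)]

end Source

namespace Target

variable {S : Source p n k T} (E : Target S O)

theorem sharp_sum {ι : Type*} (s : Finset ι) (f : ι → T) :
    E.sharp (∑ i ∈ s, f i) - ∑ i ∈ s, E.sharp (f i) ∈ E.J := by
  induction s using Finset.cons_induction with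
  | empty => simp [E.sharp_zero]
  | cons a s ha ih =>
    rw [Finset.sum_cons, Finset.sum_cons]
    have := E.J.add_mem (E.sharp_add (f a) (∑ i ∈ s, f i)) ih
    convert this using 1
    ring

theorem nilp_sharp' {y : T} (hy : IsTopologicallyNilpotent y) :
    IsTopologicallyNilpotent (E.sharp y) := by
  simpa [IsTopologicallyNilpotent, Function.comp_def, E.sharp_zero] using
    ((E.sharp_cont.tendsto 0).comp hy)

theorem isOpen_J' : IsOpen (E.J : Set O) := by simpa using isOpen_pow_of_isAdic E.isAdic 1

/-- Evaluation commutes with the section modulo `J`. -/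
theorem sharp_ev_sub_mem {σ : Type*} [Finite σ] {π : E0 p n k →+* O} (hπ : E.IsPointOf π)
    (f : MvPowerSeries σ (E0 p n k)) {a : σ → T} (ha : ∀ s, IsTopologicallyNilpotent (a s)) :
    E.sharp (ev (S.kT.comp (res p n k)) a f) - ev π (fun s => E.sharp (a s)) f ∈ E.J := by
  have hb : MvPowerSeries.HasEval fun s => E.sharp (a s) :=
    hasEval_of_finite fun s => E.nilp_sharp' (ha s)
  refine (E.J.toAddSubgroup.isClosed_of_isOpen E.isOpen_J').mem_of_tendsto
    (((E.sharp_cont.tendsto _).comp (hasSum_ev (hasEval_of_finite ha) f)).sub (hasSum_ev hb f))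
    (Eventually.of_forall fun s => ?_)
  simp only [Function.comp_apply]
  refine (?_ : _ ∈ E.J)
  have h1 := E.sharp_sum s fun d =>
    S.kT (res p n k (MvPowerSeries.coeff d f)) * d.prod fun i e => a i ^ e
  have h2 : (∑ d ∈ s, E.sharp (S.kT (res p n k (MvPowerSeries.coeff d f)) *
        d.prod fun i e => a i ^ e)) -
      ∑ d ∈ s, π (MvPowerSeries.coeff d f) * (d.prod fun i e => E.sharp (a i) ^ e) ∈ E.J := by
    rw [← Finset.sum_sub_distrib]
    refine Ideal.sum_mem _ fun d _ => ?_
    rw [map_mul, map_finsuppProd]
    simp only [map_pow, ← sub_mul]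
    exact Ideal.mul_mem_right _ _ (hπ _)
  simpa using E.J.add_mem h1 h2

/-- The setup of a point. -/
def setup (F : FormalGroup (E0 p n k)) [F.IsComm] (hn : 1 ≤ n)
    (hF : mulSeries (special p n k F) p = PowerSeries.X ^ p ^ n) (π : E0 p n k →+* O)
    (hπ : E.IsPointOf π) : Setup (p ^ n) T O where
  J := E.J
  isAdic := E.isAdic
  two_le := le_trans (Fact.out : p.Prime).two_le (Nat.le_self_pow (by omega) p)
  natCast_mem := by
    rw [Nat.cast_pow]
    exact Ideal.pow_mem_of_mem _ E.p_mem _ hn
  G := F.map π
  mul := (mulSeries F p).map π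
  mul_zero' := by
    rw [← PowerSeries.coeff_zero_eq_constantCoeff_apply, PowerSeries.coeff_map,
      PowerSeries.coeff_zero_eq_constantCoeff_apply, constantCoeff_mulSeries, map_zero]
  mul_hom := (mulSeries_hom F p).map π
  mul_coeff j := by
    have h : res p n k (PowerSeries.coeff j (mulSeries F p)) =
        PowerSeries.coeff j (PowerSeries.X ^ p ^ n : PowerSeries k) := by
      rw [← PowerSeries.coeff_map, ← mulSeries_map, hF]
    rw [PowerSeries.coeff_map]
    have := hπ.map_mem (r := PowerSeries.coeff j (mulSeries F p) -
      PowerSeries.coeff j (PowerSeries.X ^ p ^ n : PowerSeries (E0 p n k))) <| by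
      rw [map_sub, h]
      simp [PowerSeries.coeff_X_pow, apply_ite (res p n k)]
    simpa [PowerSeries.coeff_X_pow, apply_ite π] using this
  Γ := S.fibre F
  root := S.root
  root_pow := S.root_pow
  root_pow' := S.root_pow'
  root_fadd _ _ hx hy := S.root_fadd_fibre F hx hy
  root_cont := S.root_cont
  sharp := E.sharp
  sharp_cont := E.sharp_cont
  sharp_zero := E.sharp_zero
  sharp_fadd x y hx hy := by
    have ha : ∀ s, IsTopologicallyNilpotent (![x, y] s) := fun s => by
      fin_cases s <;> assumption
    have h := E.sharp_ev_sub_mem hπ F.toPowerSeries ha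
    have hs : (fun s => E.sharp (![x, y] s)) = ![E.sharp x, E.sharp y] := by
      funext s; fin_cases s <;> simp
    rw [hs] at h
    have he : MvPowerSeries.HasEval ![E.sharp x, E.sharp y] :=
      hasEval2 (E.nilp_sharp' hx) (E.nilp_sharp' hy)
    rw [fadd, fadd, Source.fibre, FormalGroup.map_toPowerSeries, FormalGroup.map_toPowerSeries,
      FormalGroup.map_toPowerSeries, ev_map _ (hasEval_of_finite ha),
      ev_map _ (hasEval_of_finite ha), ev_map _ he]
    exact h

/-- The moved point: a lift `G` of the automorphism `g` of the special fibre carries `theta` of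
the point to `theta` of the moved point. -/
theorem theta_marking (F : FormalGroup (E0 p n k)) [F.IsComm] (hn : 1 ≤ n)
    (hF : mulSeries (special p n k F) p = PowerSeries.X ^ p ^ n) {π π' : E0 p n k →+* O}
    (hπ : E.IsPointOf π) (hπ' : E.IsPointOf π') {α : E0 p n k →+* E0 p n k}
    (hα : π' = π.comp α) {G : PowerSeries (E0 p n k)} (hG : IsHom G F (F.map α))
    {y : T} (hy : IsTopologicallyNilpotent y) :
    (E.setup F hn hF π' hπ').theta (fapp ((G.map (res p n k)).map S.kT) y) =
      fapp (G.map π) ((E.setup F hn hF π hπ).theta y) := by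
  haveI := S.charP
  set g := (G.map (res p n k)).map S.kT with hg
  have hg0 : PowerSeries.constantCoeff g = 0 := by
    rw [← PowerSeries.coeff_zero_eq_constantCoeff_apply]
    simp [hg, PowerSeries.coeff_map, PowerSeries.coeff_zero_eq_constantCoeff_apply, hG.1]
  have hG0 : PowerSeries.constantCoeff (G.map π) = 0 := by
    rw [← PowerSeries.coeff_zero_eq_constantCoeff_apply]
    simp [PowerSeries.coeff_map, PowerSeries.coeff_zero_eq_constantCoeff_apply, hG.1]
  let φ : T →+* T := iterateFrobenius T p n
  have hφ : ∀ z, φ z = z ^ p ^ n := fun z => iterateFrobenius_def p n z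
  have hc : Continuous φ := by
    rw [show ⇑φ = fun z => z ^ p ^ n from funext hφ]
    exact continuous_pow _
  have hpow : ∀ z, IsTopologicallyNilpotent z → fapp g z ^ p ^ n = fapp g (z ^ p ^ n) := by
    intro z hz
    have hzq : IsTopologicallyNilpotent (z ^ p ^ n) := by simpa [hφ] using hz.map hc
    rw [← hφ, fapp, ev1, map_ev φ hc (hasEval1 hz), fapp, ev1, hg]
    simp only [hφ, PowerSeries.map]
    rw [ev_map _ (hasEval1 hzq), ev_map _ (hasEval1 hzq), ev_map _ (hasEval1 hzq),
      ev_map _ (hasEval1 hzq)]
    congr 1
    ext c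
    simp [hφ, S.kT_pow]
  set D := E.setup F hn hF π hπ
  set D' := E.setup F hn hF π' hπ'
  refine D.theta_map D' (fapp g) (fapp (G.map π))
    (fun z hz => isTopologicallyNilpotent_fapp hg0 hz) (fun z hz => ?_)
    (fun x hx => isTopologicallyNilpotent_fapp hG0 hx) (fun x hx => ?_) (fun z hz => ?_) hy
  · apply S.pow_injective
    change S.root (fapp g z) ^ p ^ n = fapp g (S.root z) ^ p ^ n
    rw [S.root_pow, hpow _ (S.nilp_root' hz), S.root_pow]
  · have h1 : (mulSeries (F.map α) p).map π = (mulSeries F p).map π' := by
      rw [hα, mulSeries_map]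
      ext j
      simp [PowerSeries.coeff_map]
    have h2 : PowerSeries.subst (mulSeries F p) G = PowerSeries.subst G (mulSeries (F.map α) p) := by
      exact subst_mulSeries_comm hG p
    have h3 := congrArg (MvPowerSeries.map π) h2
    rw [PowerSeries.map_subst (PowerSeries.HasSubst.of_constantCoeff_zero'
        (constantCoeff_mulSeries F p)),
      PowerSeries.map_subst (PowerSeries.HasSubst.of_constantCoeff_zero' hG.1), h1] at h3
    have h4 := congrArg (fun f => fapp f x) h3
    rw [fapp_subst (show PowerSeries.constantCoeff (MvPowerSeries.map π (mulSeries F p)) = 0 from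
        (MvPowerSeries.constantCoeff_map π _).trans (by
          rw [show MvPowerSeries.constantCoeff (mulSeries F p) = 0 from constantCoeff_mulSeries F p,
            map_zero])) hx,
      fapp_subst (g := MvPowerSeries.map π G) hG0 hx] at h4
    exact h4
  · have hsz : IsTopologicallyNilpotent (E.sharp z) := E.nilp_sharp' hz
    have h1 : fapp (G.map π) (D.theta z) - fapp (G.map π) (E.sharp z) ∈ E.J :=
      fapp_sub_fapp_mem E.isOpen_J' (D.nilp_theta hz) hsz (D.theta_sub_sharp_mem hz) (by simp)
    have h2 := E.sharp_ev_sub_mem hπ G (a := fun _ : Unit => z) (fun _ => hz)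
    have e1 : ev (S.kT.comp (res p n k)) (fun _ : Unit => z) G = fapp g z := by
      rw [fapp, ev1, hg]
      simp only [PowerSeries.map]
      rw [ev_map _ (hasEval1 hz), ev_map _ (hasEval1 hz)]
      rfl
    have e2 : ev π (fun _ : Unit => E.sharp z) G = fapp (G.map π) (E.sharp z) := by
      rw [fapp, ev1]
      simp only [PowerSeries.map]
      rw [ev_map _ (hasEval1 hsz)]
      rfl
    rw [e1, e2] at h2
    change _ - E.sharp (fapp g z) ∈ E.J
    simpa using E.J.sub_mem h1 h2

end Target

end Vale.Agent.P217
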