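import Mathlib.NumberTheory.Padics.Complex
import Mathlib.FieldTheory.Perfect
import Mathlib.Data.Nat.Choose.Dvd
import Mathlib.Analysis.SpecificLimits.Basic
import Mathlib.Topology.Algebra.Polynomial
import Mathlib.RingTheory.WittVector.Teichmuller
import Vale.Agent.P217.Ball

/-!
# The tilt of `ℂ_[p]`

`Tilt p` is the set of compatible systems of `p`-power roots in `ℂ_[p]`.  Multiplication is
componentwise, the sum is the limit of `(x (n+k) + y (n+k)) ^ p ^ k`, the norm is the norm of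
component `0`.  It is a complete nonarchimedean, algebraically closed field of characteristic `p`.
-/

noncomputable section

namespace Vale.Agent.P217

open Filter Topology

variable (p : ℕ) [hp : Fact p.Prime]

/-- Compatible systems of `p`-power roots in `ℂ_[p]`. -/
def Tilt : Type := {f : ℕ → ℂ_[p] // ∀ n, f (n + 1) ^ p = f n}

namespace Tilt

/-- `‖p‖` in `ℂ_[p]`. -/
def tau : ℝ := ‖(p : ℂ_[p])‖

theorem tau_eq : tau p = (p : ℝ)⁻¹ := by
  have h : ((p : ℚ_[p]) : ℂ_[p]) = (p : ℂ_[p]) := map_natCast (algebraMap ℚ_[p] ℂ_[p]) p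
  rw [tau, ← h, PadicComplex.norm_extends', Padic.norm_p]

theorem tau_pos : 0 < tau p := by
  rw [tau_eq]
  exact inv_pos.mpr (Nat.cast_pos.mpr hp.1.pos)

theorem tau_lt_one : tau p < 1 := by
  rw [tau_eq]
  exact inv_lt_one_of_one_lt₀ (Nat.one_lt_cast.mpr hp.1.one_lt)

variable {p}

/-- The middle binomial terms in a `p`-th power are divisible by `p`. -/
theorem norm_add_pow_sub_le {x y : ℂ_[p]} {s R : ℝ} (hx : ‖x‖ ≤ s) (hs : s ≤ R) (hy : ‖y‖ ≤ R) :
    ‖(x + y) ^ p - x ^ p - y ^ p‖ ≤ tau p * (s * R ^ (p - 1)) := by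
  have hs0 : 0 ≤ s := (norm_nonneg x).trans hx
  have hR0 : 0 ≤ R := hs0.trans hs
  have hp1 := hp.1.one_le
  have e : (x + y) ^ p - x ^ p - y ^ p =
      ∑ m ∈ Finset.Ico 1 p, x ^ m * y ^ (p - m) * (p.choose m : ℂ_[p]) := by
    rw [add_pow, Finset.sum_range_succ, Finset.range_eq_Ico,
      Finset.sum_eq_sum_Ico_succ_bot hp.1.pos]
    simp
  rw [e]
  refine IsUltrametricDist.norm_sum_le_of_forall_le_of_nonneg
    (mul_nonneg (tau_pos p).le (mul_nonneg hs0 (pow_nonneg hR0 _))) fun m hm => ?_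
  rw [Finset.mem_Ico] at hm
  obtain ⟨c, hc⟩ := Nat.Prime.dvd_choose_self hp.1 (by omega : m ≠ 0) hm.2
  rw [norm_mul, norm_mul, norm_pow, norm_pow, hc, Nat.cast_mul, norm_mul, mul_comm (tau p)]
  refine mul_le_mul ?_ ?_ (by positivity) (mul_nonneg hs0 (pow_nonneg hR0 _))
  · have h : ‖x‖ ^ m * ‖y‖ ^ (p - m) ≤ (s * R ^ (m - 1)) * R ^ (p - m) := by
      refine mul_le_mul ?_ (pow_le_pow_left₀ (norm_nonneg y) hy _) (by positivity)
        (mul_nonneg hs0 (pow_nonneg hR0 _))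
      calc ‖x‖ ^ m ≤ s ^ m := pow_le_pow_left₀ (norm_nonneg x) hx _
        _ = s * s ^ (m - 1) := by rw [← pow_succ', Nat.sub_add_cancel hm.1]
        _ ≤ s * R ^ (m - 1) := mul_le_mul_of_nonneg_left (pow_le_pow_left₀ hs0 hs _) hs0
    refine h.trans_eq ?_
    rw [mul_assoc, ← pow_add]
    congr 2
    omega
  · exact mul_le_of_le_one_right (norm_nonneg _) (IsUltrametricDist.norm_natCast_le_one _ c)

theorem norm_pow_sub_pow_le {a b : ℂ_[p]} {t R : ℝ} (ht : t ≤ 1) (hb : ‖b‖ ≤ R)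
    (hab : ‖a - b‖ ≤ t * R) : ‖a ^ p - b ^ p‖ ≤ max (t ^ p) (tau p * t) * R ^ p := by
  have hR0 : 0 ≤ R := (norm_nonneg b).trans hb
  have h := norm_add_pow_sub_le hab (mul_le_of_le_one_left hR0 ht) hb
  rw [sub_add_cancel] at h
  rw [show a ^ p - b ^ p = (a ^ p - (a - b) ^ p - b ^ p) + (a - b) ^ p by ring]
  refine (IsUltrametricDist.norm_add_le_max _ _).trans (max_le ?_ ?_)
  · refine (h.trans_eq ?_).trans (mul_le_mul_of_nonneg_right (le_max_right _ _) (pow_nonneg hR0 _))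
    rw [← mul_pow_sub_one hp.1.ne_zero R]
    ring
  · rw [norm_pow]
    refine (pow_le_pow_left₀ (norm_nonneg _) hab p).trans ?_
    rw [mul_pow]
    exact mul_le_mul_of_nonneg_right (le_max_left _ _) (pow_nonneg hR0 _)

/-- The contraction factor of the `p`-th power on congruences of level `t`. -/
def rate (p : ℕ) [Fact p.Prime] (t : ℝ) : ℝ := max (tau p) (t ^ (p - 1))

theorem rate_nonneg (t : ℝ) : 0 ≤ rate p t := (tau_pos p).le.trans (le_max_left _ _)

theorem rate_lt_one {t : ℝ} (h0 : 0 ≤ t) (h1 : t < 1) : rate p t < 1 :=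
  max_lt (tau_lt_one p) (pow_lt_one₀ h0 h1 (Nat.sub_ne_zero_of_lt hp.1.one_lt))

theorem norm_pow_pow_sub_le {a b : ℂ_[p]} {t R : ℝ} (h0 : 0 ≤ t) (h1 : t < 1) (hb : ‖b‖ ≤ R)
    (hab : ‖a - b‖ ≤ t * R) (m : ℕ) :
    ‖a ^ p ^ m - b ^ p ^ m‖ ≤ rate p t ^ m * t * R ^ p ^ m := by
  have hR0 : 0 ≤ R := (norm_nonneg b).trans hb
  induction m with
  | zero => simpa using hab
  | succ m ih =>
    rw [pow_succ p m, pow_mul, pow_mul, pow_mul, pow_succ (rate p t) m]
    set t' := rate p t ^ m * t with ht'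
    have hle : t' ≤ t :=
      mul_le_of_le_one_left h0 (pow_le_one₀ (rate_nonneg t) (rate_lt_one h0 h1).le)
    have h0' : 0 ≤ t' := mul_nonneg (pow_nonneg (rate_nonneg t) _) h0
    refine (norm_pow_sub_pow_le (hle.trans h1.le)
      (by rw [norm_pow]; exact pow_le_pow_left₀ (norm_nonneg b) hb _) ih).trans ?_
    refine mul_le_mul_of_nonneg_right (le_of_le_of_eq (max_le ?_ ?_)
      (show rate p t * t' = rate p t ^ m * rate p t * t by rw [ht']; ring)) (by positivity)
    · rw [← mul_pow_sub_one hp.1.ne_zero t', mul_comm]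
      exact mul_le_mul_of_nonneg_right
        ((pow_le_pow_left₀ h0' hle _).trans (le_max_right _ _)) h0'
    · exact mul_le_mul_of_nonneg_right (le_max_left _ _) h0'

theorem max_pow {a b : ℝ} (ha : 0 ≤ a) (hb : 0 ≤ b) (m : ℕ) :
    max a b ^ m = max (a ^ m) (b ^ m) := by
  rcases le_total a b with h | h
  · rw [max_eq_right h, max_eq_right (pow_le_pow_left₀ ha h m)]
  · rw [max_eq_left h, max_eq_left (pow_le_pow_left₀ hb h m)]

omit hp in
/-- A compatible system of radii. -/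
theorem radius_pow {R : ℕ → ℝ} (hR : ∀ n, R (n + 1) ^ p = R n) (n k : ℕ) :
    R (n + k) ^ p ^ k = R n := by
  induction k with
  | zero => simp
  | succ k ih => rw [pow_succ' p k, pow_mul, ← add_assoc, hR, ih]

/-- The `n`-th component. -/
def coeff (x : Tilt p) (n : ℕ) : ℂ_[p] := x.1 n

theorem coeff_pow (x : Tilt p) (n : ℕ) : x.coeff (n + 1) ^ p = x.coeff n := x.2 n

theorem coeff_pow_pow (x : Tilt p) (n k : ℕ) : x.coeff (n + k) ^ p ^ k = x.coeff n := by
  induction k with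
  | zero => simp
  | succ k ih => rw [pow_succ' p k, pow_mul, ← add_assoc, coeff_pow, ih]

@[ext]
theorem ext {x y : Tilt p} (h : ∀ n, x.coeff n = y.coeff n) : x = y := Subtype.ext (funext h)

theorem eq_of_congr {R : ℕ → ℝ} (hR : ∀ n, R (n + 1) ^ p = R n) {t : ℝ} (h0 : 0 ≤ t) (h1 : t < 1)
    {x y : Tilt p} (hy : ∀ n, ‖y.coeff n‖ ≤ R n)
    (hxy : ∀ n, ‖x.coeff n - y.coeff n‖ ≤ t * R n) : x = y := by
  ext n
  have h : ∀ m, ‖x.coeff n - y.coeff n‖ ≤ rate p t ^ m * t * R n := fun m => by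
    have := norm_pow_pow_sub_le h0 h1 (hy (n + m)) (hxy (n + m)) m
    rwa [coeff_pow_pow, coeff_pow_pow, radius_pow hR] at this
  have hl : Tendsto (fun m => rate p t ^ m * t * R n) atTop (𝓝 (0 * t * R n)) :=
    ((tendsto_pow_atTop_nhds_zero_of_lt_one (rate_nonneg t) (rate_lt_one h0 h1)).mul_const
      t).mul_const _
  rw [zero_mul, zero_mul] at hl
  exact sub_eq_zero.mp (norm_le_zero_iff.mp (ge_of_tendsto' hl h))

theorem exists_approx {R : ℕ → ℝ} (hR : ∀ n, R (n + 1) ^ p = R n) {t : ℝ} (h0 : 0 ≤ t)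
    (h1 : t < 1) {s : ℕ → ℂ_[p]} (hs : ∀ n, ‖s n‖ ≤ R n)
    (hss : ∀ n, ‖s (n + 1) ^ p - s n‖ ≤ t * R n) :
    ∃ z : Tilt p, ∀ n, ‖z.coeff n - s n‖ ≤ t * R n := by
  let S : ℕ → ℕ → ℂ_[p] := fun n k => s (n + k) ^ p ^ k
  have hR0 : ∀ n, 0 ≤ R n := fun n => (norm_nonneg _).trans (hs n)
  have hd : ∀ n k, dist (S n k) (S n (k + 1)) ≤ t * R n * rate p t ^ k := fun n k => by
    rw [dist_comm, dist_eq_norm]
    have h := norm_pow_pow_sub_le h0 h1 (hs (n + k)) (hss (n + k)) k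
    rw [radius_pow hR] at h
    refine le_of_eq_of_le ?_ (h.trans_eq (by ring))
    simp only [S]
    rw [pow_succ' p k, pow_mul, ← add_assoc]
  have hC : ∀ n, ∃ z, Tendsto (S n) atTop (𝓝 z) := fun n =>
    cauchySeq_tendsto_of_complete
      (cauchySeq_of_le_geometric (rate p t) (t * R n) (rate_lt_one h0 h1) (hd n))
  choose z hz using hC
  refine ⟨⟨z, fun n => ?_⟩, fun n => ?_⟩
  · have h := ((hz (n + 1)).pow p)
    refine tendsto_nhds_unique h (((hz n).comp (tendsto_add_atTop_nat 1)).congr fun k => ?_)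
    simp only [S, Function.comp_apply]
    rw [pow_succ, pow_mul, show n + (k + 1) = n + 1 + k by omega]
  · refine le_of_tendsto' ((hz n).sub_const (s n)).norm fun k => ?_
    induction k with
    | zero => simpa [S] using mul_nonneg h0 (hR0 n)
    | succ k ih =>
      rw [← sub_add_sub_cancel _ (S n k)]
      refine (IsUltrametricDist.norm_add_le_max _ _).trans (max_le ?_ ih)
      rw [← dist_eq_norm, dist_comm]
      exact (hd n k).trans (mul_le_of_le_one_right (mul_nonneg h0 (hR0 n))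
        (pow_le_one₀ (rate_nonneg t) (rate_lt_one h0 h1).le))

/-- The radii of two elements. -/
def rad (x y : Tilt p) (n : ℕ) : ℝ := max ‖x.coeff n‖ ‖y.coeff n‖

theorem rad_pow (x y : Tilt p) (n : ℕ) : rad x y (n + 1) ^ p = rad x y n := by
  rw [rad, max_pow (norm_nonneg _) (norm_nonneg _), ← norm_pow, ← norm_pow, coeff_pow, coeff_pow,
    rad]

theorem exists_add (x y : Tilt p) : ∃ z : Tilt p,
    ∀ n, ‖z.coeff n - (x.coeff n + y.coeff n)‖ ≤ tau p * rad x y n :=
  exists_approx (rad_pow x y) (tau_pos p).le (tau_lt_one p)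
    (fun _ => IsUltrametricDist.norm_add_le_max _ _) fun n => by
      have h := norm_add_pow_sub_le (le_max_left _ _) le_rfl
        (le_max_right ‖x.coeff (n + 1)‖ ‖y.coeff (n + 1)‖)
      rw [coeff_pow, coeff_pow, mul_pow_sub_one hp.1.ne_zero, sub_sub] at h
      exact h.trans_eq (congrArg _ (rad_pow x y n))

instance : Zero (Tilt p) := ⟨⟨fun _ => 0, fun _ => zero_pow hp.1.ne_zero⟩⟩
instance : One (Tilt p) := ⟨⟨fun _ => 1, fun _ => one_pow p⟩⟩
instance : Mul (Tilt p) :=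
  ⟨fun x y => ⟨fun n => x.coeff n * y.coeff n, fun n => by rw [mul_pow, coeff_pow, coeff_pow]⟩⟩
instance : Add (Tilt p) := ⟨fun x y => (exists_add x y).choose⟩

/-- The element `-1`. -/
def negOne : Tilt p := ⟨fun _ => (-1) ^ p, fun _ => by
  rcases hp.1.eq_two_or_odd' with h | h
  · subst h; simp
  · rw [h.neg_one_pow, h.neg_one_pow]⟩

instance : Neg (Tilt p) := ⟨fun x => negOne * x⟩
instance : Inv (Tilt p) :=
  ⟨fun x => ⟨fun n => (x.coeff n)⁻¹, fun n => by rw [inv_pow, coeff_pow]⟩⟩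

@[simp] theorem coeff_zero (n : ℕ) : (0 : Tilt p).coeff n = 0 := rfl
@[simp] theorem coeff_one (n : ℕ) : (1 : Tilt p).coeff n = 1 := rfl
@[simp] theorem coeff_mul (x y : Tilt p) (n : ℕ) : (x * y).coeff n = x.coeff n * y.coeff n := rfl
@[simp] theorem coeff_inv (x : Tilt p) (n : ℕ) : x⁻¹.coeff n = (x.coeff n)⁻¹ := rfl
theorem coeff_negOne (n : ℕ) : (negOne : Tilt p).coeff n = (-1) ^ p := rfl
theorem neg_def (x : Tilt p) : -x = negOne * x := rfl

/-- The sum is componentwise modulo `p`. -/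
theorem norm_coeff_add_sub (x y : Tilt p) (n : ℕ) :
    ‖(x + y).coeff n - (x.coeff n + y.coeff n)‖ ≤ tau p * rad x y n :=
  (exists_add x y).choose_spec n

theorem norm_coeff_add (x y : Tilt p) (n : ℕ) :
    ‖(x + y).coeff n‖ ≤ max ‖x.coeff n‖ ‖y.coeff n‖ := by
  rw [← sub_add_cancel ((x + y).coeff n) (x.coeff n + y.coeff n)]
  exact (IsUltrametricDist.norm_add_le_max _ _).trans (max_le
    ((norm_coeff_add_sub x y n).trans (mul_le_of_le_one_left
      (le_max_of_le_left (norm_nonneg _)) (tau_lt_one p).le))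
    (IsUltrametricDist.norm_add_le_max _ _))

theorem norm_sub_le_max (a b : ℂ_[p]) : ‖a - b‖ ≤ max ‖a‖ ‖b‖ := by
  simpa [sub_eq_add_neg] using IsUltrametricDist.norm_add_le_max a (-b)

theorem add_assoc' (x y z : Tilt p) : x + y + z = x + (y + z) := by
  refine eq_of_congr (R := fun n => max (rad x y n) ‖z.coeff n‖) (fun n => ?_) (tau_pos p).le
    (tau_lt_one p) (fun n => ?_) fun n => ?_
  · simp only [rad]
    rw [max_pow (by positivity) (norm_nonneg _), ← norm_pow, coeff_pow]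
    exact congrArg (max · _) (rad_pow x y n)
  · refine (norm_coeff_add x (y + z) n).trans (max_le (le_max_of_le_left (le_max_left _ _)) ?_)
    exact (norm_coeff_add y z n).trans (max_le (le_max_of_le_left (le_max_right _ _))
      (le_max_right _ _))
  · have ht := (tau_pos p).le
    have h1 := norm_coeff_add_sub (x + y) z n
    have h2 := norm_coeff_add_sub x y n
    have h3 := norm_coeff_add_sub x (y + z) n
    have h4 := norm_coeff_add_sub y z n
    have e : (x + y + z).coeff n - (x + (y + z)).coeff n =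
        (((x + y + z).coeff n - ((x + y).coeff n + z.coeff n)) +
          ((x + y).coeff n - (x.coeff n + y.coeff n))) -
        (((x + (y + z)).coeff n - (x.coeff n + (y + z).coeff n)) +
          ((y + z).coeff n - (y.coeff n + z.coeff n))) := by ring
    rw [e]
    refine (norm_sub_le_max _ _).trans (max_le
      ((IsUltrametricDist.norm_add_le_max _ _).trans (max_le ?_ ?_))
      ((IsUltrametricDist.norm_add_le_max _ _).trans (max_le ?_ ?_)))
    · refine h1.trans (mul_le_mul_of_nonneg_left (max_le ?_ (le_max_right _ _)) ht)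
      exact (norm_coeff_add x y n).trans (le_max_left _ _)
    · exact h2.trans (mul_le_mul_of_nonneg_left (le_max_left _ _) ht)
    · refine h3.trans (mul_le_mul_of_nonneg_left (max_le ?_ ?_) ht)
      · exact le_max_of_le_left (le_max_left _ _)
      · exact (norm_coeff_add y z n).trans (max_le (le_max_of_le_left (le_max_right _ _))
          (le_max_right _ _))
    · exact h4.trans (mul_le_mul_of_nonneg_left
        (max_le (le_max_of_le_left (le_max_right _ _)) (le_max_right _ _)) ht)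

theorem add_comm' (x y : Tilt p) : x + y = y + x := by
  refine eq_of_congr (rad_pow x y) (tau_pos p).le (tau_lt_one p)
    (fun n => (norm_coeff_add y x n).trans_eq (max_comm _ _)) fun n => ?_
  rw [show (x + y).coeff n - (y + x).coeff n = ((x + y).coeff n - (x.coeff n + y.coeff n)) -
    ((y + x).coeff n - (y.coeff n + x.coeff n)) by ring]
  exact (norm_sub_le_max _ _).trans (max_le (norm_coeff_add_sub x y n)
    ((norm_coeff_add_sub y x n).trans_eq (congrArg _ (max_comm _ _))))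

theorem zero_add' (x : Tilt p) : 0 + x = x := by
  refine eq_of_congr (rad_pow 0 x) (tau_pos p).le (tau_lt_one p)
    (fun n => le_max_right _ _) fun n => ?_
  simpa using norm_coeff_add_sub 0 x n

theorem neg_add_cancel' (x : Tilt p) : -x + x = 0 := by
  have hn : ∀ n, ‖(-x).coeff n‖ = ‖x.coeff n‖ := fun n => by simp [neg_def, coeff_negOne]
  refine eq_of_congr (rad_pow (-x) x) (tau_pos p).le (tau_lt_one p)
    (fun n => by simp [rad]) fun n => ?_
  rw [coeff_zero, sub_zero,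
    ← sub_add_cancel ((-x + x).coeff n) ((-x).coeff n + x.coeff n)]
  refine (IsUltrametricDist.norm_add_le_max _ _).trans
    (max_le (norm_coeff_add_sub _ _ n) ?_)
  rw [neg_def, coeff_mul, coeff_negOne]
  rcases hp.1.eq_two_or_odd' with h | h
  · have e : ((-1 : ℂ_[p]) ^ p * x.coeff n + x.coeff n) = (p : ℂ_[p]) * x.coeff n := by
      subst h; push_cast; ring
    rw [e, norm_mul]
    exact mul_le_mul_of_nonneg_left (le_max_right _ _) (norm_nonneg _)
  · rw [h.neg_one_pow, neg_one_mul, neg_add_cancel, norm_zero]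
    exact mul_nonneg (tau_pos p).le (le_max_of_le_right (norm_nonneg _))

theorem left_distrib' (x y z : Tilt p) : x * (y + z) = x * y + x * z := by
  have hr : ∀ n, ‖x.coeff n‖ * rad y z n = rad (x * y) (x * z) n := fun n => by
    simp [rad, mul_max_of_nonneg _ _ (norm_nonneg (x.coeff n))]
  refine eq_of_congr (rad_pow (x * y) (x * z)) (tau_pos p).le (tau_lt_one p)
    (fun n => norm_coeff_add _ _ n) fun n => ?_
  rw [show (x * (y + z)).coeff n - (x * y + x * z).coeff n =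
    x.coeff n * ((y + z).coeff n - (y.coeff n + z.coeff n)) -
      ((x * y + x * z).coeff n - ((x * y).coeff n + (x * z).coeff n)) by
    simp only [coeff_mul]; ring]
  refine (norm_sub_le_max _ _).trans (max_le ?_ (norm_coeff_add_sub _ _ n))
  rw [norm_mul, ← hr, mul_left_comm]
  exact mul_le_mul_of_nonneg_left (norm_coeff_add_sub y z n) (norm_nonneg _)

instance : CommRing (Tilt p) where
  add_assoc := add_assoc'
  zero_add := zero_add'
  add_zero x := by rw [add_comm', zero_add']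
  add_comm := add_comm'
  neg_add_cancel := neg_add_cancel'
  left_distrib := left_distrib'
  right_distrib x y z := by
    have h : ∀ a b : Tilt p, a * b = b * a := fun a b => by ext n; simp [mul_comm]
    rw [h _ z, left_distrib', h z, h z]
  zero_mul x := by ext n; simp
  mul_zero x := by ext n; simp
  mul_assoc x y z := by ext n; simp [mul_assoc]
  one_mul x := by ext n; simp
  mul_one x := by ext n; simp
  mul_comm x y := by ext n; simp [mul_comm]
  nsmul := nsmulRec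
  zsmul := zsmulRec

instance : Nontrivial (Tilt p) := ⟨⟨0, 1, fun h => zero_ne_one (congrArg (coeff · 0) h)⟩⟩

theorem coeff_ne_zero {x : Tilt p} (hx : x ≠ 0) (n : ℕ) : x.coeff n ≠ 0 := by
  intro h
  refine hx (ext fun m => ?_)
  have h0 : x.coeff 0 = 0 := by
    rw [← coeff_pow_pow x 0 n, zero_add, h, zero_pow (pow_ne_zero _ hp.1.ne_zero)]
  rw [← coeff_pow_pow x 0 m, zero_add] at h0
  simpa using pow_eq_zero_iff (pow_ne_zero m hp.1.ne_zero) |>.mp h0

instance : Field (Tilt p) where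
  mul_inv_cancel x hx := by ext n; simp [coeff_ne_zero hx n]
  inv_zero := by ext n; simp
  nnqsmul := _
  qsmul := _

@[simp] theorem coeff_npow (x : Tilt p) (m n : ℕ) : (x ^ m).coeff n = x.coeff n ^ m := by
  induction m with
  | zero => simp
  | succ m ih => simp [pow_succ, ih]

theorem norm_coeff_natCast_le (m n : ℕ) : ‖(m : Tilt p).coeff n‖ ≤ 1 := by
  induction m with
  | zero => simp
  | succ m ih =>
    rw [Nat.cast_succ]
    exact (norm_coeff_add _ _ n).trans (max_le ih (by simp))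

theorem norm_coeff_natCast_sub (m n : ℕ) : ‖(m : Tilt p).coeff n - m‖ ≤ tau p := by
  induction m with
  | zero => simpa using (tau_pos p).le
  | succ m ih =>
    rw [Nat.cast_succ (R := Tilt p), Nat.cast_succ (R := ℂ_[p])]
    rw [show ((m : Tilt p) + 1).coeff n - ((m : ℂ_[p]) + 1) =
      (((m : Tilt p) + 1).coeff n - ((m : Tilt p).coeff n + (1 : Tilt p).coeff n)) +
        ((m : Tilt p).coeff n - m) by rw [coeff_one]; ring]
    refine (IsUltrametricDist.norm_add_le_max _ _).trans (max_le ?_ ih)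
    exact (norm_coeff_add_sub _ _ n).trans (mul_le_of_le_one_right (tau_pos p).le
      (max_le (norm_coeff_natCast_le m n) (by simp)))

theorem natCast_p : (p : Tilt p) = 0 := by
  refine eq_of_congr (R := fun _ => 1) (fun _ => one_pow p) (tau_pos p).le (tau_lt_one p)
    (fun n => by simp) fun n => ?_
  rw [coeff_zero, sub_zero, mul_one, ← sub_add_cancel ((p : Tilt p).coeff n) (p : ℂ_[p])]
  exact (IsUltrametricDist.norm_add_le_max _ _).trans
    (max_le (norm_coeff_natCast_sub p n) le_rfl)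

instance : CharP (Tilt p) p := (CharP.charP_iff_prime_eq_zero hp.1).2 natCast_p

instance : ExpChar (Tilt p) p := ExpChar.prime hp.1

/-- The absolute value of component `0`. -/
def absValue : AbsoluteValue (Tilt p) ℝ where
  toFun x := ‖x.coeff 0‖
  map_mul' x y := by simp
  nonneg' x := norm_nonneg _
  eq_zero' x := ⟨fun h => not_ne_iff.mp fun hx => coeff_ne_zero hx 0 (norm_eq_zero.mp h),
    fun h => by simp [h]⟩
  add_le' x y := (norm_coeff_add x y 0).trans (max_le_add_of_nonneg (norm_nonneg _) (norm_nonneg _))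

instance : NormedField (Tilt p) := (absValue (p := p)).toNormedField

theorem norm_def (x : Tilt p) : ‖x‖ = ‖x.coeff 0‖ := rfl

instance : IsUltrametricDist (Tilt p) :=
  IsUltrametricDist.isUltrametricDist_of_forall_norm_add_le_max_norm fun x y =>
    norm_coeff_add x y 0

theorem norm_coeff_pow (x : Tilt p) (n : ℕ) : ‖x.coeff n‖ ^ p ^ n = ‖x‖ := by
  rw [← norm_pow, norm_def, ← coeff_pow_pow x 0 n, zero_add]

theorem norm_coeff_le_iff (x : Tilt p) (n : ℕ) {r : ℝ} (hr : 0 ≤ r) :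
    ‖x.coeff n‖ ≤ r ↔ ‖x‖ ≤ r ^ p ^ n := by
  rw [← norm_coeff_pow x n,
    pow_le_pow_iff_left₀ (norm_nonneg _) hr (pow_ne_zero _ hp.1.ne_zero)]

theorem norm_coeff_mono {x y : Tilt p} (h : ‖x‖ ≤ ‖y‖) (n : ℕ) : ‖x.coeff n‖ ≤ ‖y.coeff n‖ := by
  rwa [norm_coeff_le_iff _ _ (norm_nonneg _), norm_coeff_pow]

theorem norm_coeff_le_one {x : Tilt p} (h : ‖x‖ ≤ 1) (n : ℕ) : ‖x.coeff n‖ ≤ 1 := by
  rwa [norm_coeff_le_iff _ _ zero_le_one, one_pow]

/-- The difference is componentwise modulo `p`. -/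
theorem norm_coeff_sub_sub {x y w : Tilt p} (hx : ‖x‖ ≤ ‖w‖) (hy : ‖y‖ ≤ ‖w‖) (n : ℕ) :
    ‖(x - y).coeff n - (x.coeff n - y.coeff n)‖ ≤ tau p * ‖w.coeff n‖ := by
  have h := norm_coeff_add_sub (x - y) y n
  rw [sub_add_cancel, norm_sub_rev] at h
  rw [show (x - y).coeff n - (x.coeff n - y.coeff n) = (x - y).coeff n + y.coeff n - x.coeff n
    by ring]
  refine h.trans (mul_le_mul_of_nonneg_left (max_le (norm_coeff_mono ?_ n)
    (norm_coeff_mono hy n)) (tau_pos p).le)
  calc ‖x - y‖ ≤ max ‖x‖ ‖y‖ := by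
        simpa [sub_eq_add_neg] using IsUltrametricDist.norm_add_le_max x (-y)
    _ ≤ ‖w‖ := max_le hx hy

theorem rate_tau : rate p (tau p) = tau p :=
  max_eq_left (pow_le_of_le_one (tau_pos p).le (tau_lt_one p).le
    (Nat.sub_ne_zero_of_lt hp.1.one_lt))

/-- Close elements have close components. -/
theorem norm_coeff_sub_le {x y w : Tilt p} (hx : ‖x‖ ≤ ‖w‖) (hy : ‖y‖ ≤ ‖w‖) {n m : ℕ}
    (h : ‖x - y‖ ≤ tau p ^ p ^ (n + m) * ‖w‖) :
    ‖x.coeff n - y.coeff n‖ ≤ tau p ^ (m + 1) * ‖w.coeff n‖ := by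
  have ht := (tau_pos p).le
  have hN : ‖x.coeff (n + m) - y.coeff (n + m)‖ ≤ tau p * ‖w.coeff (n + m)‖ := by
    rw [← sub_sub_cancel ((x - y).coeff (n + m)) (x.coeff (n + m) - y.coeff (n + m))]
    refine (norm_sub_le_max _ _).trans (max_le ?_ (norm_coeff_sub_sub hx hy _))
    rwa [norm_coeff_le_iff _ _ (mul_nonneg ht (norm_nonneg _)), mul_pow, norm_coeff_pow]
  have h' := norm_pow_pow_sub_le ht (tau_lt_one p) (norm_coeff_mono hy _) hN m
  rwa [coeff_pow_pow, coeff_pow_pow, ← norm_pow (w.coeff _), coeff_pow_pow, rate_tau,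
    ← pow_succ] at h'

/-- Close components give close elements. -/
theorem norm_sub_le_of_coeff {x y w : Tilt p} (hx : ‖x‖ ≤ ‖w‖) (hy : ‖y‖ ≤ ‖w‖) {n : ℕ}
    (h : ‖x.coeff n - y.coeff n‖ ≤ tau p * ‖w.coeff n‖) :
    ‖x - y‖ ≤ tau p ^ p ^ n * ‖w‖ := by
  rw [← norm_coeff_pow w n, ← mul_pow,
    ← norm_coeff_le_iff _ _ (mul_nonneg (tau_pos p).le (norm_nonneg _)),
    ← sub_add_cancel ((x - y).coeff n) (x.coeff n - y.coeff n)]
  exact (IsUltrametricDist.norm_add_le_max _ _).trans (max_le (norm_coeff_sub_sub hx hy n) h)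

/-- Every element of `ℂ_[p]` is any component of some element of the tilt. -/
theorem exists_coeff (a : ℂ_[p]) (n : ℕ) : ∃ x : Tilt p, x.coeff n = a := by
  choose r hr using fun b : ℂ_[p] => IsAlgClosed.exists_pow_nat_eq b hp.1.pos
  let y : Tilt p := ⟨fun m => r^[m] a, fun m => by simp only [Function.iterate_succ_apply', hr]⟩
  refine ⟨y ^ p ^ n, ?_⟩
  have h := coeff_pow_pow y 0 n
  rw [zero_add] at h
  rw [coeff_npow, h]
  rfl

theorem exists_norm_ge (r : ℝ) : ∃ w : Tilt p, 1 ≤ ‖w‖ ∧ r ≤ ‖w‖ := by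
  obtain ⟨N, hN⟩ := exists_nat_gt r
  obtain ⟨w, hw⟩ := exists_coeff ((p : ℂ_[p])⁻¹ ^ N) 0
  have h : ‖w‖ = (p : ℝ) ^ N := by
    rw [norm_def, hw, norm_pow, norm_inv]
    rw [show ‖(p : ℂ_[p])‖ = (p : ℝ)⁻¹ from tau_eq p, inv_inv]
  refine ⟨w, ?_⟩
  rw [h]
  refine ⟨one_le_pow₀ (mod_cast hp.1.one_le), hN.le.trans ?_⟩
  exact_mod_cast (Nat.lt_pow_self hp.1.one_lt).le

instance : CompleteSpace (Tilt p) := by
  refine Metric.complete_of_cauchySeq_tendsto fun u hu => ?_
  obtain ⟨B, hB⟩ := hu.norm_bddAbove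
  obtain ⟨w, hw1, hw⟩ := exists_norm_ge (p := p) B
  have hu' : ∀ j, ‖u j‖ ≤ ‖w‖ := fun j => (hB (Set.mem_range_self j)).trans hw
  have hw0 : 0 < ‖w‖ := one_pos.trans_le hw1
  have hwn : ∀ n, 0 < ‖w.coeff n‖ := fun n =>
    norm_pos_iff.mpr (coeff_ne_zero (norm_pos_iff.mp hw0) n)
  have ht := tau_pos p
  have hC : ∀ n, ∃ z, Tendsto (fun j => (u j).coeff n) atTop (𝓝 z) := fun n => by
    refine cauchySeq_tendsto_of_complete (Metric.cauchySeq_iff.mpr fun ε hε => ?_)
    obtain ⟨m, hm⟩ := exists_pow_lt_of_lt_one (div_pos hε (hwn n)) (tau_lt_one p)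
    obtain ⟨J, hJ⟩ := Metric.cauchySeq_iff.mp hu (tau p ^ p ^ (n + m) * ‖w‖)
      (mul_pos (pow_pos ht _) hw0)
    refine ⟨J, fun i hi j hj => ?_⟩
    rw [dist_eq_norm]
    refine (norm_coeff_sub_le (hu' i) (hu' j) (dist_eq_norm (u i) (u j) ▸ (hJ i hi j hj).le))
      |>.trans_lt ?_
    rw [← lt_div_iff₀ (hwn n)]
    exact lt_of_le_of_lt (pow_le_pow_of_le_one ht.le (tau_lt_one p).le (Nat.le_succ m)) hm
  choose z hz using hC
  let f : Tilt p := ⟨z, fun n => tendsto_nhds_unique ((hz (n + 1)).pow p)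
    ((hz n).congr fun j => (coeff_pow (u j) n).symm)⟩
  have hf : ‖f‖ ≤ ‖w‖ := le_of_tendsto' (hz 0).norm fun j => hu' j
  refine ⟨f, Metric.tendsto_atTop.mpr fun ε hε => ?_⟩
  obtain ⟨m, hm⟩ := exists_pow_lt_of_lt_one (div_pos hε hw0) (tau_lt_one p)
  obtain ⟨J, hJ⟩ := Metric.tendsto_atTop.mp (hz m) (tau p * ‖w.coeff m‖) (mul_pos ht (hwn m))
  refine ⟨J, fun j hj => ?_⟩
  rw [dist_eq_norm]
  refine (norm_sub_le_of_coeff (n := m) (hu' j) hf ?_).trans_lt ?_
  · have h := (hJ j hj).le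
    rwa [dist_eq_norm] at h
  · rw [← lt_div_iff₀ hw0]
    exact lt_of_le_of_lt
      (pow_le_pow_of_le_one ht.le (tau_lt_one p).le (Nat.lt_pow_self hp.1.one_lt).le) hm

/-- The `p`-th root. -/
def root (x : Tilt p) : Tilt p := ⟨fun n => x.coeff (n + 1), fun n => coeff_pow x (n + 1)⟩

@[simp] theorem coeff_root (x : Tilt p) (n : ℕ) : x.root.coeff n = x.coeff (n + 1) := rfl

theorem root_pow (x : Tilt p) : x.root ^ p = x := by ext n; simp [coeff_pow]

instance : PerfectRing (Tilt p) p :=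
  PerfectRing.ofSurjective _ p fun x => ⟨root x, by rw [frobenius_def, root_pow]⟩

/-- The sharp map: component `0`. -/
def sharp₀ : Tilt p →*₀ ℂ_[p] where
  toFun x := x.coeff 0
  map_zero' := rfl
  map_one' := rfl
  map_mul' _ _ := rfl

theorem continuous_coeff (n : ℕ) : Continuous fun x : Tilt p => x.coeff n := by
  rw [Metric.continuous_iff]
  intro y ε hε
  obtain ⟨w, hw1, hw⟩ := exists_norm_ge (p := p) (‖y‖ + 1)
  have hw0 : 0 < ‖w‖ := one_pos.trans_le hw1
  have hwn : 0 < ‖w.coeff n‖ := norm_pos_iff.mpr (coeff_ne_zero (norm_pos_iff.mp hw0) n)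
  obtain ⟨m, hm⟩ := exists_pow_lt_of_lt_one (div_pos hε hwn) (tau_lt_one p)
  refine ⟨min 1 (tau p ^ p ^ (n + m) * ‖w‖),
    lt_min one_pos (mul_pos (pow_pos (tau_pos p) _) hw0), fun x hx => ?_⟩
  rw [dist_eq_norm] at hx ⊢
  have hxw : ‖x‖ ≤ ‖w‖ := by
    linarith [norm_le_insert' x y, min_le_left 1 (tau p ^ p ^ (n + m) * ‖w‖)]
  refine (norm_coeff_sub_le hxw (by linarith) (hx.le.trans (min_le_right _ _))).trans_lt ?_
  rw [← lt_div_iff₀ hwn]
  exact lt_of_le_of_lt
    (pow_le_pow_of_le_one (tau_pos p).le (tau_lt_one p).le (Nat.le_succ m)) hm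

end Tilt

variable {p}

/-- The sharp map on unit balls. -/
def sharp : unitBall (Tilt p) →* unitBall ℂ_[p] where
  toFun x := ⟨(x : Tilt p).coeff 0, x.2⟩
  map_one' := rfl
  map_mul' _ _ := rfl

@[simp]
theorem coe_sharp (x : unitBall (Tilt p)) : (sharp x : ℂ_[p]) = (x : Tilt p).coeff 0 := rfl

theorem norm_sharp (x : unitBall (Tilt p)) : ‖(sharp x : ℂ_[p])‖ = ‖(x : Tilt p)‖ := rfl

theorem sharp_zero : sharp (0 : unitBall (Tilt p)) = 0 := rfl

theorem continuous_sharp : Continuous (sharp (p := p)) :=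
  ((Tilt.continuous_coeff 0).comp continuous_subtype_val).subtype_mk _

theorem norm_sharp_add_sub (x y : unitBall (Tilt p)) :
    ‖((sharp (x + y) - (sharp x + sharp y) : unitBall ℂ_[p]) : ℂ_[p])‖ ≤ ‖(p : ℂ_[p])‖ := by
  push_cast
  exact (Tilt.norm_coeff_add_sub (x : Tilt p) (y : Tilt p) 0).trans
    (mul_le_of_le_one_right (Tilt.tau_pos p).le (max_le x.2 y.2))

theorem natCast_dvd_iff {a : unitBall ℂ_[p]} :
    (p : unitBall ℂ_[p]) ∣ a ↔ ‖(a : ℂ_[p])‖ ≤ ‖(p : ℂ_[p])‖ := by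
  have hp0 : (p : ℂ_[p]) ≠ 0 := Nat.cast_ne_zero.mpr (Fact.out : p.Prime).ne_zero
  refine ⟨?_, fun h => ⟨⟨(a : ℂ_[p]) / p, ?_⟩, Subtype.ext ?_⟩⟩
  · rintro ⟨b, rfl⟩
    push_cast
    rw [norm_mul]
    exact mul_le_of_le_one_right (norm_nonneg _) b.2
  · rw [mem_unitBall, norm_div]
    exact div_le_one_of_le₀ h (norm_nonneg _)
  · push_cast
    rw [mul_div_cancel₀ _ hp0]

theorem natCast_dvd_sharp_add (x y : unitBall (Tilt p)) :
    (p : unitBall ℂ_[p]) ∣ sharp (x + y) - (sharp x + sharp y) :=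
  natCast_dvd_iff.mpr (norm_sharp_add_sub x y)

theorem sharp_surjective : Function.Surjective (sharp (p := p)) := fun a => by
  obtain ⟨x, hx⟩ := Tilt.exists_coeff (a : ℂ_[p]) 0
  exact ⟨⟨x, by rw [mem_unitBall, Tilt.norm_def, hx]; exact a.2⟩, Subtype.ext hx⟩

/-- A tilt element with given root system. -/
theorem exists_tilt_of_roots (a : ℕ → unitBall ℂ_[p]) (ha : ∀ j, a (j + 1) ^ p = a j) :
    ∃ x : unitBall (Tilt p), ∀ j, (x : Tilt p).coeff j = a j :=
  ⟨⟨⟨fun j => (a j : ℂ_[p]), fun j => congrArg Subtype.val (ha j)⟩, (a 0).2⟩, fun _ => rfl⟩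

end Vale.Agent.P217
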