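import Mathlib.FieldTheory.IsAlgClosed.Basic
import Mathlib.Analysis.SpecialFunctions.Pow.Real
import Vale.Agent.P217.Tilt

/-!
# The tilt of `ℂ_[p]` is algebraically closed

Roots of the reductions at all levels are linked by König's lemma.
-/

noncomputable section

namespace Vale.Agent.P217

open Filter Topology Polynomial

variable {p : ℕ} [hp : Fact p.Prime]

namespace Tilt

/-- Finite sums are componentwise modulo `p` on the unit ball. -/
theorem norm_coeff_sum_sub {ι : Type*} (s : Finset ι) (f : ι → Tilt p)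
    (hf : ∀ i ∈ s, ‖f i‖ ≤ 1) (n : ℕ) :
    ‖(∑ i ∈ s, f i).coeff n - ∑ i ∈ s, (f i).coeff n‖ ≤ tau p := by
  classical
  induction s using Finset.induction_on with
  | empty => simpa using (tau_pos p).le
  | @insert a s ha ih =>
    have hs : ∀ i ∈ s, ‖f i‖ ≤ 1 := fun i hi => hf i (Finset.mem_insert_of_mem hi)
    rw [Finset.sum_insert ha, Finset.sum_insert ha,
      show (f a + ∑ i ∈ s, f i).coeff n - ((f a).coeff n + ∑ i ∈ s, (f i).coeff n) =
        ((f a + ∑ i ∈ s, f i).coeff n - ((f a).coeff n + (∑ i ∈ s, f i).coeff n)) +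
          ((∑ i ∈ s, f i).coeff n - ∑ i ∈ s, (f i).coeff n) by ring]
    refine (IsUltrametricDist.norm_add_le_max _ _).trans (max_le ?_ (ih hs))
    refine (norm_coeff_add_sub _ _ n).trans (mul_le_of_le_one_right (tau_pos p).le (max_le ?_ ?_))
    · exact norm_coeff_le_one (hf a (Finset.mem_insert_self a s)) n
    · exact norm_coeff_le_one
        (IsUltrametricDist.norm_sum_le_of_forall_le_of_nonneg zero_le_one hs) n

theorem norm_sum_pow_sub {ι : Type*} (s : Finset ι) (f : ι → ℂ_[p])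
    (hf : ∀ i ∈ s, ‖f i‖ ≤ 1) :
    ‖(∑ i ∈ s, f i) ^ p - ∑ i ∈ s, f i ^ p‖ ≤ tau p := by
  classical
  induction s using Finset.induction_on with
  | empty => simpa [zero_pow hp.1.ne_zero] using (tau_pos p).le
  | @insert a s ha ih =>
    have hs : ∀ i ∈ s, ‖f i‖ ≤ 1 := fun i hi => hf i (Finset.mem_insert_of_mem hi)
    rw [Finset.sum_insert ha, Finset.sum_insert ha,
      show (f a + ∑ i ∈ s, f i) ^ p - (f a ^ p + ∑ i ∈ s, f i ^ p) =
        ((f a + ∑ i ∈ s, f i) ^ p - f a ^ p - (∑ i ∈ s, f i) ^ p) +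
          ((∑ i ∈ s, f i) ^ p - ∑ i ∈ s, f i ^ p) by ring]
    refine (IsUltrametricDist.norm_add_le_max _ _).trans (max_le ?_ (ih hs))
    refine (norm_add_pow_sub_le (hf a (Finset.mem_insert_self a s)) le_rfl
      (IsUltrametricDist.norm_sum_le_of_forall_le_of_nonneg zero_le_one hs)).trans_eq ?_
    rw [one_pow, mul_one, mul_one]

theorem norm_pow_sub_pow_le' {x y : ℂ_[p]} (hx : ‖x‖ ≤ 1) (hy : ‖y‖ ≤ 1) (i : ℕ) :
    ‖x ^ i - y ^ i‖ ≤ ‖x - y‖ := by
  rw [← geom_sum₂_mul, norm_mul]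
  refine mul_le_of_le_one_left (norm_nonneg _)
    (IsUltrametricDist.norm_sum_le_of_forall_le_of_nonneg zero_le_one fun j _ => ?_)
  rw [norm_mul, norm_pow, norm_pow]
  exact mul_le_one₀ (pow_le_one₀ (norm_nonneg _) hx) (pow_nonneg (norm_nonneg _) _)
    (pow_le_one₀ (norm_nonneg _) hy)

/-- The value of the level `m` reduction of `X ^ d + Σ a i X ^ i`. -/
def redVal (d : ℕ) (a : ℕ → Tilt p) (m : ℕ) (x : ℂ_[p]) : ℂ_[p] :=
  x ^ d + ∑ i ∈ Finset.range d, (a i).coeff m * x ^ i

theorem exists_roots (d : ℕ) (a : ℕ → Tilt p) (ha : ∀ i < d, ‖a i‖ ≤ 1) (m : ℕ) :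
    ∃ r : Fin d → ℂ_[p], (∀ x, redVal d a m x = ∏ i, (x - r i)) ∧ ∀ i, ‖r i‖ ≤ 1 := by
  set Q : ℂ_[p][X] := X ^ d + ∑ i ∈ Finset.range d, C ((a i).coeff m) * X ^ i with hQ
  have hdeg : (∑ i ∈ Finset.range d, C ((a i).coeff m) * X ^ i : ℂ_[p][X]).degree < d :=
    (degree_sum_le _ _).trans_lt ((Finset.sup_lt_iff (WithBot.bot_lt_coe d)).2 fun i hi =>
      (degree_C_mul_X_pow_le i _).trans_lt (WithBot.coe_lt_coe.2 (Finset.mem_range.1 hi)))
  have hm : Q.Monic := monic_X_pow_add hdeg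
  have hnd : Q.natDegree = d := by
    refine natDegree_eq_of_degree_eq_some ?_
    rw [hQ, degree_add_eq_left_of_degree_lt (by rw [degree_X_pow]; exact hdeg), degree_X_pow]
  have hs := IsAlgClosed.splits Q
  have hcard : Q.roots.toList.length = d := by
    rw [Multiset.length_toList, ← hs.natDegree_eq_card_roots, hnd]
  have hev : ∀ x, redVal d a m x = Q.eval x := fun x => by
    simp [redVal, hQ, eval_finsetSum]
  let r : Fin d → ℂ_[p] := fun i => Q.roots.toList[i.1]'(by rw [hcard]; exact i.2)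
  have hprod : ∀ x, redVal d a m x = ∏ i, (x - r i) := fun x => by
    rw [hev, hs.eval_eq_prod_roots_of_monic hm, ← Multiset.coe_toList Q.roots,
      Multiset.map_coe, Multiset.prod_coe, ← Fin.prod_univ_fun_getElem]
    exact Fintype.prod_equiv (finCongr hcard) _ _ fun i => rfl
  refine ⟨r, hprod, fun i => le_of_not_gt fun h1 => ?_⟩
  have h := hprod (r i)
  rw [Finset.prod_eq_zero (Finset.mem_univ i) (sub_self _), redVal, add_eq_zero_iff_eq_neg] at h
  have h2 : ‖r i ^ d‖ ≤ ‖r i‖ ^ (d - 1) := by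
    rw [h, norm_neg]
    refine IsUltrametricDist.norm_sum_le_of_forall_le_of_nonneg
      (pow_nonneg (norm_nonneg _) _) fun j hj => ?_
    rw [norm_mul, norm_pow]
    exact (mul_le_of_le_one_left (pow_nonneg (norm_nonneg _) _)
      (norm_coeff_le_one (ha j (Finset.mem_range.1 hj)) m)).trans
        (pow_le_pow_right₀ h1.le (by have := Finset.mem_range.1 hj; omega))
  rw [norm_pow] at h2
  exact absurd h2 (not_le.2 (pow_lt_pow_right₀ h1 (by have := i.2; omega)))

theorem exists_seq {d : ℕ} [NeZero d] (rel : ℕ → Fin d → Fin d → Prop)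
    (h : ∀ j b, ∃ c, rel j b c) : ∃ f : ℕ → Fin d, ∀ j, rel j (f (j + 1)) (f j) := by
  have hA : ∀ m j₀ : ℕ, ∃ f : ℕ → Fin d, ∀ j < m, rel (j₀ + j) (f (j + 1)) (f j) := by
    intro m
    induction m with
    | zero => exact fun _ => ⟨fun _ => 0, fun j hj => absurd hj (Nat.not_lt_zero j)⟩
    | succ m ih =>
      intro j₀
      obtain ⟨f, hf⟩ := ih (j₀ + 1)
      obtain ⟨c, hc⟩ := h j₀ (f 0)
      refine ⟨fun j => Nat.casesOn j c f, fun j hj => ?_⟩
      cases j with
      | zero => exact hc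
      | succ j => simpa [Nat.add_assoc, Nat.add_comm 1 j] using hf j (Nat.lt_of_succ_lt_succ hj)
  let A : ℕ → Set (ℕ → Fin d) := fun m => {f | ∀ j < m, rel j (f (j + 1)) (f j)}
  have hclosed : ∀ m, IsClosed (A m) := fun m => by
    have e : A m = ⋂ (j) (_ : j < m), {f : ℕ → Fin d | rel j (f (j + 1)) (f j)} := by
      ext f; simp [A]
    rw [e]
    exact isClosed_iInter fun j => isClosed_iInter fun _ =>
      IsClosed.preimage (f := fun f : ℕ → Fin d => (f (j + 1), f j)) (by fun_prop)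
        (isClosed_discrete {q : Fin d × Fin d | rel j q.1 q.2})
  obtain ⟨f, hf⟩ := IsCompact.nonempty_iInter_of_sequence_nonempty_isCompact_isClosed A
    (fun m f hf j hj => hf j (Nat.lt_succ_of_lt hj))
    (fun m => by obtain ⟨f, hf⟩ := hA m 0; exact ⟨f, fun j hj => by simpa using hf j hj⟩)
    (hclosed 0).isCompact hclosed
  exact ⟨f, fun j => Set.mem_iInter.1 hf (j + 1) j j.lt_succ_self⟩

theorem exists_root_of_le_one {d : ℕ} (hd : d ≠ 0) (a : ℕ → Tilt p)
    (ha : ∀ i < d, ‖a i‖ ≤ 1) :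
    ∃ x : Tilt p, x ^ d + ∑ i ∈ Finset.range d, a i * x ^ i = 0 := by
  have : NeZero d := ⟨hd⟩
  choose r hr hr1 using exists_roots d a ha
  set t : ℝ := tau p ^ ((d : ℝ)⁻¹) with ht
  have htd : t ^ d = tau p := Real.rpow_inv_natCast_pow (tau_pos p).le hd
  have ht0 : 0 ≤ t := Real.rpow_nonneg (tau_pos p).le _
  have ht1 : t < 1 := by
    by_contra! h
    exact absurd (htd ▸ one_le_pow₀ (n := d) h) (not_le.2 (tau_lt_one p))
  have hstep : ∀ j b, ∃ c, ‖r (j + 1) b ^ p - r j c‖ ≤ t := by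
    intro j b
    set s := r (j + 1) b
    by_contra! h
    have hlt : tau p < ‖redVal d a j (s ^ p)‖ := by
      rw [hr j, norm_prod, ← htd]
      calc t ^ d = ∏ _i : Fin d, t := by simp
        _ < ∏ i, ‖s ^ p - r j i‖ := by
          refine Finset.prod_lt_prod_of_nonempty (fun i _ => ?_) (fun i _ => h i)
            Finset.univ_nonempty
          exact Real.rpow_pos_of_pos (tau_pos p) _
    refine absurd ?_ (not_le.2 hlt)
    have hzero : redVal d a (j + 1) s = 0 := by
      rw [hr (j + 1)]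
      exact Finset.prod_eq_zero (Finset.mem_univ b) (sub_self _)
    have hs1 : ‖s‖ ≤ 1 := hr1 _ b
    have hterm : ∀ i ∈ Finset.range d, ‖(a i).coeff (j + 1) * s ^ i‖ ≤ 1 := fun i hi => by
      rw [norm_mul, norm_pow]
      exact mul_le_one₀ (norm_coeff_le_one (ha i (Finset.mem_range.1 hi)) _) (by positivity)
        (pow_le_one₀ (norm_nonneg _) hs1)
    have e : redVal d a j (s ^ p) =
        -(((s ^ d + ∑ i ∈ Finset.range d, (a i).coeff (j + 1) * s ^ i) ^ p - (s ^ d) ^ p -
            (∑ i ∈ Finset.range d, (a i).coeff (j + 1) * s ^ i) ^ p) +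
          ((∑ i ∈ Finset.range d, (a i).coeff (j + 1) * s ^ i) ^ p -
            ∑ i ∈ Finset.range d, ((a i).coeff (j + 1) * s ^ i) ^ p)) := by
      rw [show s ^ d + ∑ i ∈ Finset.range d, (a i).coeff (j + 1) * s ^ i = 0 from hzero,
        zero_pow hp.1.ne_zero, redVal]
      simp only [mul_pow, coeff_pow, ← pow_mul, mul_comm p]
      ring
    rw [e, norm_neg]
    refine (IsUltrametricDist.norm_add_le_max _ _).trans (max_le ?_ (norm_sum_pow_sub _ _ hterm))
    refine (norm_add_pow_sub_le (by rw [norm_pow]; exact pow_le_one₀ (norm_nonneg _) hs1) le_rfl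
      (IsUltrametricDist.norm_sum_le_of_forall_le_of_nonneg zero_le_one hterm)).trans_eq ?_
    rw [one_pow, mul_one, mul_one]
  obtain ⟨f, hf⟩ := exists_seq (fun j b c => ‖r (j + 1) b ^ p - r j c‖ ≤ t) hstep
  obtain ⟨z, hz⟩ := exists_approx (R := fun _ => 1) (fun _ => one_pow p) ht0 ht1
    (s := fun m => r m (f m)) (fun m => hr1 m _) (fun m => by simpa using hf m)
  have hz' : ∀ n, ‖z.coeff n - r n (f n)‖ ≤ t := fun n => by simpa using hz n
  have hz1 : ∀ n, ‖z.coeff n‖ ≤ 1 := fun n => by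
    rw [← sub_add_cancel (z.coeff n) (r n (f n))]
    exact (IsUltrametricDist.norm_add_le_max _ _).trans (max_le ((hz' n).trans ht1.le) (hr1 n _))
  have hzn : ‖z‖ ≤ 1 := hz1 0
  refine ⟨z, ?_⟩
  set T : ℝ := max t (tau p) with hT
  have hT0 : 0 ≤ T := ht0.trans (le_max_left _ _)
  have hT1 : T < 1 := max_lt ht1 (tau_lt_one p)
  set w := z ^ d + ∑ i ∈ Finset.range d, a i * z ^ i with hw
  have hbound : ∀ n, ‖w‖ ≤ T ^ p ^ n := fun n => by
    rw [← norm_coeff_le_iff _ _ hT0]
    have hval : ‖redVal d a n (z.coeff n)‖ ≤ T := by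
      have h0 : redVal d a n (r n (f n)) = 0 := by
        rw [hr n]
        exact Finset.prod_eq_zero (Finset.mem_univ (f n)) (sub_self _)
      rw [← sub_zero (redVal d a n _), ← h0, redVal, redVal, add_sub_add_comm,
        ← Finset.sum_sub_distrib]
      refine (IsUltrametricDist.norm_add_le_max _ _).trans (max_le ?_
        (IsUltrametricDist.norm_sum_le_of_forall_le_of_nonneg hT0 fun i hi => ?_))
      · exact (norm_pow_sub_pow_le' (hz1 n) (hr1 n _) d).trans
          ((hz' n).trans (le_max_left _ _))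
      · rw [← mul_sub, norm_mul]
        exact (mul_le_of_le_one_left (norm_nonneg _)
          (norm_coeff_le_one (ha i (Finset.mem_range.1 hi)) n)).trans
          ((norm_pow_sub_pow_le' (hz1 n) (hr1 n _) i).trans ((hz' n).trans (le_max_left _ _)))
    have hterm : ∀ i ∈ Finset.range d, ‖a i * z ^ i‖ ≤ 1 := fun i hi => by
      rw [norm_mul, norm_pow]
      exact mul_le_one₀ (ha i (Finset.mem_range.1 hi)) (by positivity)
        (pow_le_one₀ (norm_nonneg _) hzn)
    rw [← sub_add_cancel (w.coeff n) (redVal d a n (z.coeff n))]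
    refine (IsUltrametricDist.norm_add_le_max _ _).trans (max_le ?_ hval)
    refine le_trans ?_ (le_max_right t (tau p))
    have h1 := norm_coeff_add_sub (z ^ d) (∑ i ∈ Finset.range d, a i * z ^ i) n
    have h2 := norm_coeff_sum_sub _ _ hterm n
    simp only [coeff_mul, coeff_npow] at h1 h2
    rw [show w.coeff n - redVal d a n (z.coeff n) =
      (w.coeff n - (z.coeff n ^ d + (∑ i ∈ Finset.range d, a i * z ^ i).coeff n)) +
        ((∑ i ∈ Finset.range d, a i * z ^ i).coeff n -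
          ∑ i ∈ Finset.range d, (a i).coeff n * z.coeff n ^ i) by rw [redVal]; ring]
    refine (IsUltrametricDist.norm_add_le_max _ _).trans (max_le (h1.trans ?_) h2)
    refine mul_le_of_le_one_right (tau_pos p).le (max_le ?_ ?_)
    · rw [coeff_npow, norm_pow]
      exact pow_le_one₀ (norm_nonneg _) (hz1 n)
    · exact norm_coeff_le_one
        (IsUltrametricDist.norm_sum_le_of_forall_le_of_nonneg zero_le_one hterm) n
  have hl : Tendsto (fun n => T ^ p ^ n) atTop (𝓝 0) :=
    (tendsto_pow_atTop_nhds_zero_of_lt_one hT0 hT1).comp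
      (tendsto_pow_atTop_atTop_of_one_lt hp.1.one_lt)
  exact norm_le_zero_iff.1 (ge_of_tendsto' hl hbound)

instance : IsAlgClosed (Tilt p) := by
  refine IsAlgClosed.of_exists_root _ fun P hP hPi => ?_
  set d := P.natDegree with hd
  have hd0 : d ≠ 0 := hPi.natDegree_pos.ne'
  obtain ⟨w, hw1, hw⟩ := exists_norm_ge (p := p) (∑ i ∈ Finset.range d, ‖P.coeff i‖)
  have hw0 : w ≠ 0 := norm_pos_iff.1 (one_pos.trans_le hw1)
  obtain ⟨z, hz⟩ := exists_root_of_le_one hd0 (fun i => P.coeff i / w ^ (d - i)) fun i hi => by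
    rw [norm_div, norm_pow]
    refine div_le_one_of_le₀ ?_ (by positivity)
    refine le_trans ?_ (le_self_pow₀ hw1 (Nat.sub_ne_zero_of_lt hi))
    exact (Finset.single_le_sum (f := fun j => ‖P.coeff j‖) (fun j _ => norm_nonneg _)
      (Finset.mem_range.2 hi)).trans hw
  refine ⟨w * z, ?_⟩
  conv_lhs => rw [hP.as_sum]
  simp only [eval_add, eval_pow, eval_X, eval_finsetSum, eval_mul, eval_C]
  rw [← hd, show (w * z) ^ d + ∑ i ∈ Finset.range d, P.coeff i * (w * z) ^ i =
    w ^ d * (z ^ d + ∑ i ∈ Finset.range d, P.coeff i / w ^ (d - i) * z ^ i) from ?_, hz, mul_zero]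
  rw [mul_add, Finset.mul_sum, mul_pow]
  congr 1
  refine Finset.sum_congr rfl fun i hi => ?_
  have e : w ^ d = w ^ (d - i) * w ^ i := by
    rw [← pow_add, Nat.sub_add_cancel (Finset.mem_range.1 hi).le]
  rw [e]
  field_simp
  ring

end Tilt

end Vale.Agent.P217
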