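import Mathlib.RingTheory.WittVector.Complete
import Mathlib.FieldTheory.Perfect
import Vale.Agent.P217.TiltAlg
import Vale.Agent.P217.Ev

/-!
# Maps into and out of the unit ball of the tilt

The `p`-power roots, the lifting of root systems, compatibility of `sharp` with evaluation of
series, and the map `k → 𝓞` attached to a map `W(k) → 𝓞_{ℂ_p}`.
-/

noncomputable section

namespace Vale.Agent.P217

open Filter Topology

variable {p : ℕ} [hp : Fact p.Prime]

theorem coe_pow_ball (x : unitBall (Tilt p)) (m : ℕ) : ((x ^ m : unitBall (Tilt p)) : Tilt p) =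
    (x : Tilt p) ^ m := SubmonoidClass.coe_pow x m

instance : CharP (unitBall (Tilt p)) p :=
  (CharP.charP_iff_prime_eq_zero hp.1).2 (Subtype.ext (by simp))

namespace Tilt

/-- The underlying function of the `p ^ m`-th root. -/
def shift (m : ℕ) (x : Tilt p) : Tilt p :=
  ⟨fun j => x.coeff (j + m), fun j => by
    show x.coeff (j + 1 + m) ^ p = _
    rw [Nat.add_right_comm]; exact coeff_pow x (j + m)⟩

@[simp] theorem coeff_shift (m : ℕ) (x : Tilt p) (j : ℕ) :
    (shift m x).coeff j = x.coeff (j + m) := rfl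

theorem shift_pow (m : ℕ) (x : Tilt p) : shift m x ^ p ^ m = x := by
  ext j; rw [coeff_npow, coeff_shift, coeff_pow_pow]

/-- The `p ^ m`-th root, a ring endomorphism of the tilt. -/
def rootHom (m : ℕ) : Tilt p →+* Tilt p where
  toFun := shift m
  map_one' := by ext j; simp
  map_mul' x y := by ext j; simp
  map_zero' := by ext j; simp
  map_add' x y := iterateFrobenius_inj (Tilt p) p m <| by
    simp only [iterateFrobenius_def]
    rw [add_pow_expChar_pow, shift_pow, shift_pow, shift_pow]

@[simp] theorem coeff_rootHom (m : ℕ) (x : Tilt p) (j : ℕ) :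
    (rootHom m x).coeff j = x.coeff (j + m) := rfl

theorem rootHom_pow (m : ℕ) (x : Tilt p) : rootHom m x ^ p ^ m = x := shift_pow m x

theorem continuous_rootHom (m : ℕ) : Continuous (rootHom (p := p) m) := by
  refine continuous_of_continuousAt_zero (rootHom (p := p) m) ?_
  rw [ContinuousAt, map_zero, tendsto_zero_iff_norm_tendsto_zero]
  have h := ((continuous_coeff (p := p) m).norm).tendsto 0
  rw [coeff_zero, norm_zero] at h
  exact h.congr fun x => by rw [norm_def, coeff_rootHom, zero_add]

end Tilt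

/-- The `p ^ m`-th root on the unit ball. -/
def rootBall (m : ℕ) : unitBall (Tilt p) →+* unitBall (Tilt p) :=
  ((Tilt.rootHom m).comp (unitBall (Tilt p)).subtype).codRestrict _ fun x => by
    rw [RingHom.comp_apply, mem_unitBall, Tilt.norm_def, Tilt.coeff_rootHom, zero_add]
    exact Tilt.norm_coeff_le_one x.2 m

@[simp] theorem coe_rootBall (m : ℕ) (x : unitBall (Tilt p)) :
    (rootBall m x : Tilt p) = Tilt.rootHom m x := rfl

theorem rootBall_pow (m : ℕ) (x : unitBall (Tilt p)) : rootBall m x ^ p ^ m = x :=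
  Subtype.ext (by push_cast; exact Tilt.rootHom_pow m (x : Tilt p))

theorem rootBall_pow' (m : ℕ) (x : unitBall (Tilt p)) : rootBall m (x ^ p ^ m) = x := by
  rw [map_pow, rootBall_pow]

theorem continuous_rootBall (m : ℕ) : Continuous (rootBall (p := p) m) :=
  ((Tilt.continuous_rootHom m).comp continuous_subtype_val).subtype_mk _

theorem sharp_iterate_rootBall (m l : ℕ) (x : unitBall (Tilt p)) :
    (sharp ((rootBall m)^[l] x) : ℂ_[p]) = (x : Tilt p).coeff (m * l) := by
  have h : ∀ j, (((rootBall m)^[l] x : unitBall (Tilt p)) : Tilt p).coeff j =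
      (x : Tilt p).coeff (j + m * l) := by
    induction l generalizing x with
    | zero => simp
    | succ l ih =>
      intro j
      rw [Function.iterate_succ_apply, ih, coe_rootBall, Tilt.coeff_rootHom, Nat.mul_succ,
        add_assoc]
  rw [coe_sharp, h, zero_add]

/-- Every compatible system of `p ^ n`-th roots in `ℂ_[p]` comes from the tilt. -/
theorem exists_lift_roots {n : ℕ} (hn : 1 ≤ n) (v : ℕ → unitBall ℂ_[p])
    (hv : ∀ l, v (l + 1) ^ p ^ n = v l) :
    ∃ y : unitBall (Tilt p), ∀ l, sharp ((rootBall n)^[l] y) = v l := by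
  have hvk : ∀ l k, v (l + k) ^ (p ^ n) ^ k = v l := by
    intro l k
    induction k with
    | zero => simp
    | succ k ih => rw [pow_succ' (p ^ n) k, pow_mul, ← add_assoc, hv, ih]
  obtain ⟨y, hy⟩ := exists_tilt_of_roots (fun j => v j ^ p ^ (n * j - j)) fun j => by
    rw [← hv j, ← pow_mul, ← pow_mul, ← pow_succ, ← pow_add]
    congr 2
    have h1 : j ≤ n * j := Nat.le_mul_of_pos_left j hn
    rw [Nat.mul_succ]
    omega
  refine ⟨y, fun l => Subtype.ext ?_⟩
  rw [sharp_iterate_rootBall, hy]
  congr 1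
  have h1 : l ≤ n * l := Nat.le_mul_of_pos_left l hn
  have h2 := hvk l (n * l - l)
  rw [Nat.add_sub_cancel' h1, ← pow_mul, Nat.mul_sub] at h2
  exact h2

theorem isTopologicallyNilpotent_sharp {x : unitBall (Tilt p)} :
    IsTopologicallyNilpotent (sharp x) ↔ IsTopologicallyNilpotent x := by
  rw [isTopologicallyNilpotent_ball, isTopologicallyNilpotent_ball, norm_sharp]

/-- Modulo an ideal containing `p`, `sharp` is a ring homomorphism. -/
def sharpMod {r : ℝ} (hr : ‖(p : ℂ_[p])‖ ≤ r) :
    unitBall (Tilt p) →+* unitBall ℂ_[p] ⧸ ballIdeal (K := ℂ_[p]) ((norm_nonneg _).trans hr) where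
  toFun x := Ideal.Quotient.mk _ (sharp x)
  map_one' := by rw [map_one, map_one]
  map_mul' x y := by rw [map_mul, map_mul]
  map_zero' := by rw [sharp_zero, map_zero]
  map_add' x y := by
    rw [← map_add, Ideal.Quotient.eq, mem_ballIdeal]
    exact (norm_sharp_add_sub x y).trans hr

variable {R R' σ : Type*} [CommRing R] [CommRing R']

/-- `sharp` commutes with evaluation of series, up to congruence. -/
theorem sharp_ev_sub_mem {r : ℝ} (hr : ‖(p : ℂ_[p])‖ ≤ r) {φ : R →+* unitBall (Tilt p)}
    {φ' : R' →+* unitBall ℂ_[p]} {a : σ → unitBall (Tilt p)} {b : σ → unitBall ℂ_[p]}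
    (ha : MvPowerSeries.HasEval a) (hb : MvPowerSeries.HasEval b)
    {f : MvPowerSeries σ R} {f' : MvPowerSeries σ R'}
    (hab : ∀ s, sharp (a s) - b s ∈ ballIdeal ((norm_nonneg _).trans hr))
    (hf : ∀ d, sharp (φ (MvPowerSeries.coeff d f)) - φ' (MvPowerSeries.coeff d f') ∈
      ballIdeal ((norm_nonneg _).trans hr)) :
    sharp (ev φ a f) - ev φ' b f' ∈ ballIdeal ((norm_nonneg _).trans hr) := by
  set I := ballIdeal (K := ℂ_[p]) ((norm_nonneg _).trans hr) with hI
  have hr0 : 0 < r := (norm_pos_iff.2 (Nat.cast_ne_zero.2 hp.1.ne_zero)).trans_le hr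
  refine (I.toAddSubgroup.isClosed_of_isOpen (isOpen_ballIdeal hr0)).mem_of_tendsto
    (((continuous_sharp.tendsto _).comp (hasSum_ev ha f)).sub (hasSum_ev hb f'))
    (Eventually.of_forall fun s => ?_)
  have hterm : ∀ d, sharpMod hr (φ (MvPowerSeries.coeff d f) * d.prod fun t e => a t ^ e) =
      Ideal.Quotient.mk I (φ' (MvPowerSeries.coeff d f') * d.prod fun t e => b t ^ e) := by
    intro d
    rw [map_mul, map_mul, map_finsuppProd, map_finsuppProd]
    refine congrArg₂ (· * ·) (Ideal.Quotient.eq.2 (hf d)) (Finsupp.prod_congr fun t _ => ?_)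
    rw [map_pow, map_pow]
    exact congrArg (· ^ _) (Ideal.Quotient.eq.2 (hab t))
  show sharp _ - _ ∈ I
  rw [← Ideal.Quotient.eq, map_sum (Ideal.Quotient.mk I)]
  exact (map_sum (sharpMod hr) _ _).trans (Finset.sum_congr rfl fun d _ => hterm d)

section ResidueField

variable {k : Type*} [Field k] [CharP k p] [PerfectRing k p]

omit hp in
theorem natCast_dvd_of_constantCoeff_eq_zero [Fact p.Prime] {w : WittVector p k}
    (hw : WittVector.constantCoeff w = 0) : (p : WittVector p k) ∣ w :=
  Ideal.mem_span_singleton.1 ((WittVector.mem_span_p_iff_coeff_zero_eq_zero w).2 hw)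

omit [CharP k p] [PerfectRing k p] in
theorem constantCoeff_teichmuller (a : k) :
    WittVector.constantCoeff (WittVector.teichmuller p a) = a :=
  WittVector.teichmuller_coeff_zero p a

variable (ι : WittVector p k →+* unitBall ℂ_[p])

theorem norm_map_le_of_constantCoeff_eq_zero {w : WittVector p k}
    (hw : WittVector.constantCoeff w = 0) : ‖((ι w : unitBall ℂ_[p]) : ℂ_[p])‖ ≤ ‖(p : ℂ_[p])‖ := by
  obtain ⟨v, rfl⟩ := natCast_dvd_of_constantCoeff_eq_zero hw
  exact natCast_dvd_iff.1 ⟨ι v, by rw [map_mul, map_natCast]⟩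

/-- The `p ^ j`-th root in `k`. -/
def rootK (j : ℕ) (a : k) : k := (frobeniusEquiv k p).symm^[j] a

/-- The tilt element `(ι [a ^ (p ^ -j)])_j`. -/
def kTFun (a : k) : Tilt p :=
  ⟨fun j => ι (WittVector.teichmuller p (rootK (p := p) j a)), fun j => by
    rw [← SubmonoidClass.coe_pow, ← map_pow, ← map_pow, rootK, Function.iterate_succ_apply',
      frobeniusEquiv_symm_pow_p]
    rfl⟩

theorem coeff_kTFun (a : k) (j : ℕ) :
    (kTFun ι a).coeff j = ι (WittVector.teichmuller p (rootK (p := p) j a)) := rfl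

theorem kTFun_add (a b : k) : kTFun ι (a + b) = kTFun ι a + kTFun ι b := by
  refine (Tilt.eq_of_congr (R := fun _ => 1) (fun _ => one_pow p) (Tilt.tau_pos p).le
    (Tilt.tau_lt_one p) (fun j => ?_) fun j => ?_).symm
  · exact (ι _).2
  rw [mul_one, ← sub_add_sub_cancel _ ((kTFun ι a).coeff j + (kTFun ι b).coeff j)]
  refine (IsUltrametricDist.norm_add_le_max _ _).trans (max_le ?_ ?_)
  · exact (Tilt.norm_coeff_add_sub _ _ j).trans
      (mul_le_of_le_one_right (Tilt.tau_pos p).le (max_le (ι _).2 (ι _).2))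
  · rw [coeff_kTFun, coeff_kTFun, coeff_kTFun, ← Subring.coe_add, ← map_add,
      ← AddSubgroupClass.coe_sub, ← map_sub]
    refine norm_map_le_of_constantCoeff_eq_zero ι ?_
    have hroot : rootK (p := p) j (a + b) = rootK j a + rootK j b :=
      iterate_map_add _ j a b
    rw [hroot, map_sub, map_add, constantCoeff_teichmuller, constantCoeff_teichmuller,
      constantCoeff_teichmuller, sub_self]

/-- The ring homomorphism `k → 𝓞` of the tilt attached to `W(k) → 𝓞_{ℂ_p}`. -/
def kTilt : k →+* unitBall (Tilt p) where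
  toFun a := ⟨kTFun ι a, (ι _).2⟩
  map_one' := by
    refine Subtype.ext (Tilt.ext fun j => ?_)
    simp [coeff_kTFun, rootK]
  map_mul' a b := by
    refine Subtype.ext (Tilt.ext fun j => ?_)
    simp [coeff_kTFun, rootK, iterate_map_mul]
  map_zero' := by
    refine Subtype.ext (Tilt.ext fun j => ?_)
    simp [coeff_kTFun, rootK, iterate_map_zero]
  map_add' a b := Subtype.ext (kTFun_add ι a b)

theorem sharp_kTilt (a : k) : sharp (kTilt ι a) = ι (WittVector.teichmuller p a) := rfl

theorem map_sub_sharp_kTilt (w : WittVector p k) :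
    ‖((ι w - sharp (kTilt ι (WittVector.constantCoeff w)) : unitBall ℂ_[p]) : ℂ_[p])‖ ≤
      ‖(p : ℂ_[p])‖ := by
  rw [sharp_kTilt, ← map_sub]
  refine norm_map_le_of_constantCoeff_eq_zero ι ?_
  rw [map_sub, constantCoeff_teichmuller, sub_self]

omit [CharP k p] [PerfectRing k p] in
theorem rootBall_kTilt {n : ℕ} {a : k} (ha : a ^ p ^ n = a)
    (κ : k →+* unitBall (Tilt p)) : rootBall n (κ a) = κ a := by
  conv_lhs => rw [← ha, map_pow, rootBall_pow']

end ResidueField

end Vale.Agent.P217
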