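import Mathlib.FieldTheory.Finite.Basic
import Vale.Agent.P217.TiltMaps
import Vale.Agent.P217.PointSetup

/-!
# Sources and targets for `theta` from the tilt and `ℂ_[p]`
-/

noncomputable section

namespace Vale.Agent.P217

open Filter Topology

section Ball

variable {K : Type*} [NormedField K] [IsUltrametricDist K]

/-- The elements of norm at most `‖ϖ‖`. -/
def normIdeal (ϖ : unitBall K) : Ideal (unitBall K) := ballIdeal (norm_nonneg (ϖ : K))

theorem mem_normIdeal {ϖ x : unitBall K} : x ∈ normIdeal ϖ ↔ ‖(x : K)‖ ≤ ‖(ϖ : K)‖ := Iff.rfl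

theorem span_singleton_eq_normIdeal {ϖ : unitBall K} (h0 : (ϖ : K) ≠ 0) :
    Ideal.span {ϖ} = normIdeal ϖ := by
  refine le_antisymm (Ideal.span_le.2 (Set.singleton_subset_iff.2 (mem_normIdeal.2 le_rfl)))
    fun x hx => Ideal.mem_span_singleton.2 ⟨⟨(x : K) / ϖ, ?_⟩, Subtype.ext ?_⟩
  · rw [mem_unitBall, norm_div]
    exact div_le_one_of_le₀ hx (norm_nonneg _)
  · push_cast
    rw [mul_div_cancel₀ _ h0]

theorem normIdeal_pow {ϖ : unitBall K} (h0 : (ϖ : K) ≠ 0) (m : ℕ) :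
    normIdeal ϖ ^ m = normIdeal (ϖ ^ m) := by
  rw [← span_singleton_eq_normIdeal h0, Ideal.span_singleton_pow,
    span_singleton_eq_normIdeal (by push_cast; exact pow_ne_zero m h0)]

theorem isAdic_normIdeal {ϖ : unitBall K} (h0 : (ϖ : K) ≠ 0) (h1 : ‖(ϖ : K)‖ < 1) :
    IsAdic (normIdeal ϖ) := by
  refine isAdic_iff.2 ⟨fun m => ?_, fun s hs => ?_⟩
  · rw [normIdeal_pow h0]
    exact isOpen_ballIdeal (norm_pos_iff.2 (by push_cast; exact pow_ne_zero m h0))
  · obtain ⟨r, hr, h⟩ := Metric.nhds_basis_closedBall.mem_iff.mp hs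
    obtain ⟨m, hm⟩ := exists_pow_lt_of_lt_one hr h1
    refine ⟨m, fun x hx => h ?_⟩
    rw [normIdeal_pow h0, SetLike.mem_coe, mem_normIdeal, SubmonoidClass.coe_pow, norm_pow] at hx
    rw [Metric.mem_closedBall, Subtype.dist_eq, dist_eq_norm]
    simpa using hx.trans hm.le

end Ball

variable {p : ℕ} [hp : Fact p.Prime] {n : ℕ} {k : Type} [Field k] [CharP k p]

/-- The unit ball of the tilt as a source. -/
def tiltSource [Finite k] (hk : Nat.card k = p ^ n) (κ : k →+* unitBall (Tilt p)) :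
    Source p n k (unitBall (Tilt p)) where
  kT := κ
  charP := inferInstance
  root := rootBall n
  root_pow := rootBall_pow n
  root_pow' := rootBall_pow' n
  root_cont := continuous_rootBall n
  kT_pow c := by
    have := Fintype.ofFinite k
    rw [← map_pow, ← hk, Nat.card_eq_fintype_card, FiniteField.pow_card]

theorem p_ne_zero_cp : (p : ℂ_[p]) ≠ 0 := Nat.cast_ne_zero.2 hp.1.ne_zero

variable (S : Source p n k (unitBall (Tilt p)))

/-- The target `𝓞_{ℂ_p}` with congruences of radius `‖ϖ‖ ≥ ‖p‖`. -/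
def cpTarget (ϖ : unitBall ℂ_[p]) (h1 : ‖(ϖ : ℂ_[p])‖ < 1)
    (hp' : ‖(p : ℂ_[p])‖ ≤ ‖(ϖ : ℂ_[p])‖) : Target S (unitBall ℂ_[p]) where
  J := normIdeal ϖ
  isAdic := isAdic_normIdeal (norm_pos_iff.1 ((norm_pos_iff.2 p_ne_zero_cp).trans_le hp')) h1
  p_mem := by
    rw [mem_normIdeal, SubringClass.coe_natCast]
    exact hp'
  sharp := sharp
  sharp_cont := continuous_sharp
  sharp_zero := sharp_zero
  sharp_add a b := (norm_sharp_add_sub a b).trans hp'

/-- The target `𝓞` of the tilt itself, `sharp` being the identity. -/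
def tiltTarget (ϖ : unitBall (Tilt p)) (h0 : (ϖ : Tilt p) ≠ 0)
    (h1 : ‖(ϖ : Tilt p)‖ < 1) : Target S (unitBall (Tilt p)) where
  J := normIdeal ϖ
  isAdic := isAdic_normIdeal h0 h1
  p_mem := by
    rw [CharP.cast_eq_zero]
    exact Ideal.zero_mem _
  sharp := MonoidHom.id _
  sharp_cont := continuous_id
  sharp_zero := rfl
  sharp_add a b := by simp

theorem cpTarget_lifts [Finite k] (hk : Nat.card k = p ^ n) (κ : k →+* unitBall (Tilt p))
    (ϖ : unitBall ℂ_[p]) (h1 : ‖(ϖ : ℂ_[p])‖ < 1) (hp' : ‖(p : ℂ_[p])‖ ≤ ‖(ϖ : ℂ_[p])‖)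
    (F : FormalGroup (E0 p n k)) [F.IsComm] (hn : 1 ≤ n)
    (hF : mulSeries (special p n k F) p = PowerSeries.X ^ p ^ n) {π : E0 p n k →+* unitBall ℂ_[p]}
    (hπ : (cpTarget (tiltSource hk κ) ϖ h1 hp').IsPointOf π) :
    ((cpTarget (tiltSource hk κ) ϖ h1 hp').setup F hn hF π hπ).Lifts := by
  intro v hv hvn
  obtain ⟨y, hy⟩ := exists_lift_roots hn v hv
  refine ⟨y, isTopologicallyNilpotent_sharp.1 ?_, hy⟩
  have h := hy 0
  rw [Function.iterate_zero_apply] at h
  rw [h]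
  exact hvn 0

theorem tiltTarget_lifts [Finite k] (hk : Nat.card k = p ^ n) (κ : k →+* unitBall (Tilt p))
    (ϖ : unitBall (Tilt p)) (h0 : (ϖ : Tilt p) ≠ 0) (h1 : ‖(ϖ : Tilt p)‖ < 1)
    (F : FormalGroup (E0 p n k)) [F.IsComm] (hn : 1 ≤ n)
    (hF : mulSeries (special p n k F) p = PowerSeries.X ^ p ^ n)
    {π : E0 p n k →+* unitBall (Tilt p)}
    (hπ : (tiltTarget (tiltSource hk κ) ϖ h0 h1).IsPointOf π) :
    ((tiltTarget (tiltSource hk κ) ϖ h0 h1).setup F hn hF π hπ).Lifts := by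
  intro v hv hvn
  refine ⟨v 0, hvn 0, fun l => ?_⟩
  show (rootBall n)^[l] (v 0) = v l
  induction l with
  | zero => rfl
  | succ l ih => rw [Function.iterate_succ_apply', ih, ← hv l, rootBall_pow']

end Vale.Agent.P217
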