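import Mathlib.RingTheory.WittVector.Compare
import Mathlib.RingTheory.MvPowerSeries.Equiv
import Vale.Agent.P217.E0Adic
import Vale.Agent.P217.PointBase
import Vale.Agent.P217.TiltSource

/-!
# Points of a prime of `E0`

A prime `P` with `p ∉ P` has a point in `ℂ_[p]`; a prime containing `p` but not `u_h` has a point
in the tilt with `u_h ≠ 0`.
-/

noncomputable section

namespace Vale.Agent.P217

open IsLocalRing

set_option linter.style.haveILetI false
set_option linter.unusedSectionVars false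

variable {p : ℕ} [hp : Fact p.Prime] {n : ℕ} {k : Type} [Field k] [CharP k p]

theorem res_uE {i : ℕ} (hi : i < n) : res p n k (uE p n k i) = 0 := by
  unfold uE
  split_ifs with h0 h1 h2
  · rw [map_natCast, CharP.cast_eq_zero]
  · simp [res]
  · exact absurd h2 (Nat.ne_of_lt hi)
  · exact map_zero _

theorem uE_eq_X {h : ℕ} (h1 : 1 ≤ h) (hn : h < n) :
    uE p n k h = MvPowerSeries.X ⟨h - 1, by omega⟩ := by
  rw [uE, if_neg (by omega), dif_pos]

theorem res_sub_C (r : E0 p n k) :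
    res p n k (r - MvPowerSeries.C (MvPowerSeries.constantCoeff r)) = 0 := by
  rw [map_sub]
  simp [res]

variable [PerfectRing k p] [Finite k]

theorem ker_res : RingHom.ker (res p n k) = maximalIdeal (E0 p n k) :=
  haveI := RingHom.ker_isMaximal_of_surjective (res p n k) (res_surjective p n k)
  IsLocalRing.eq_maximalIdeal ‹_›

theorem mem_maximalIdeal_mk {P : Ideal (E0 p n k)} [IsLocalRing (E0 p n k ⧸ P)] {f : E0 p n k}
    (hf : res p n k f = 0) : Ideal.Quotient.mk P f ∈ maximalIdeal (E0 p n k ⧸ P) := by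
  haveI : ((maximalIdeal (E0 p n k ⧸ P)).comap (Ideal.Quotient.mk P)).IsMaximal :=
    Ideal.comap_isMaximal_of_surjective _ Ideal.Quotient.mk_surjective
  rw [← Ideal.mem_comap, IsLocalRing.eq_maximalIdeal
    (I := (maximalIdeal (E0 p n k ⧸ P)).comap (Ideal.Quotient.mk P)) inferInstance, ← ker_res]
  exact hf

theorem finite_residue (P : Ideal (E0 p n k)) [IsLocalRing (E0 p n k ⧸ P)] :
    Finite ((E0 p n k ⧸ P) ⧸ maximalIdeal (E0 p n k ⧸ P)) := by
  set f := (Ideal.Quotient.mk (maximalIdeal (E0 p n k ⧸ P))).comp (Ideal.Quotient.mk P)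
  haveI : Finite (E0 p n k ⧸ RingHom.ker (res p n k)) :=
    Finite.of_equiv k (RingHom.quotientKerEquivOfSurjective (res_surjective p n k)).symm.toEquiv
  refine Finite.of_surjective
    (Ideal.Quotient.lift (RingHom.ker (res p n k)) f fun x hx =>
      Ideal.Quotient.eq_zero_iff_mem.2 (mem_maximalIdeal_mk hx)) fun y => ?_
  obtain ⟨y, rfl⟩ := Ideal.Quotient.mk_surjective y
  obtain ⟨y, rfl⟩ := Ideal.Quotient.mk_surjective y
  exact ⟨Ideal.Quotient.mk _ y, rfl⟩

/-- A prime not containing `p` has a point in `ℂ_[p]`. -/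
theorem exists_point_zero {P : Ideal (E0 p n k)} [P.IsPrime]
    (hpP : (p : E0 p n k) ∉ P) :
    ∃ π : E0 p n k →+* unitBall ℂ_[p], (∀ f ∈ P, π f = 0) ∧
      ∀ f, res p n k f = 0 → ‖(π f : ℂ_[p])‖ < 1 := by
  haveI : Nontrivial (E0 p n k ⧸ P) :=
    Ideal.Quotient.nontrivial_iff.2 (Ideal.IsPrime.ne_top ‹_›)
  haveI : IsLocalRing (E0 p n k ⧸ P) :=
    IsLocalRing.of_surjective' (Ideal.Quotient.mk P) Ideal.Quotient.mk_surjective
  haveI := finite_residue P
  let φ : ℤ_[p] →+* E0 p n k ⧸ P :=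
    (Ideal.Quotient.mk P).comp (MvPowerSeries.C.comp
      ((WittVector.map (ZMod.castHom dvd_rfl k)).comp (WittVector.equiv p).symm.toRingHom))
  let χ : ℤ_[p] →+* ℂ_[p] := (algebraMap ℚ_[p] ℂ_[p]).comp PadicInt.Coe.ringHom
  have hφ : φ (p : ℤ_[p]) = Ideal.Quotient.mk P (p : E0 p n k) := by
    rw [map_natCast φ, map_natCast (Ideal.Quotient.mk P)]
  have hχn : ∀ a, ‖χ a‖ = ‖a‖ := fun a => by
    show ‖((a : ℚ_[p]) : ℂ_[p])‖ = ‖a‖
    rw [PadicComplex.norm_extends']
    rfl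
  obtain ⟨ρ, h1, h2, -⟩ := exists_point_core φ χ hasDigits_padicInt
    (fun a => dvd_pow_padicInt) (by rw [hφ]; exact fun h => hpP (Ideal.Quotient.eq_zero_iff_mem.1 h))
    (by rw [hφ]; exact mem_maximalIdeal_mk (by rw [map_natCast, CharP.cast_eq_zero]))
    (fun a => (hχn a).trans_le (PadicInt.norm_le_one a))
    (by rw [map_natCast]; exact p_ne_zero_cp)
    (by
      rw [hχn, PadicInt.norm_p]
      exact inv_lt_one_of_one_lt₀ (Nat.one_lt_cast.2 hp.1.one_lt))
  refine ⟨(ρ.comp (Ideal.Quotient.mk P)).codRestrict (unitBall ℂ_[p]) fun f => h1 _,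
    fun f hf => Subtype.ext ?_, fun f hf => h2 _ (mem_maximalIdeal_mk hf)⟩
  show ρ (Ideal.Quotient.mk P f) = 0
  rw [Ideal.Quotient.eq_zero_iff_mem.2 hf, map_zero]

/-- A prime containing `p` but not `u_h` has a point in the tilt with `u_h ≠ 0`. -/
theorem exists_point_pos {P : Ideal (E0 p n k)} [P.IsPrime] {h : ℕ} (hh : 1 ≤ h)
    (hhn : h < n) (hpP : (p : E0 p n k) ∈ P) (hu : uE p n k h ∉ P) :
    ∃ π : E0 p n k →+* unitBall (Tilt p), (∀ f ∈ P, π f = 0) ∧
      (∀ f, res p n k f = 0 → ‖(π f : Tilt p)‖ < 1) ∧ π (uE p n k h) ≠ 0 := by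
  haveI : Nontrivial (E0 p n k ⧸ P) :=
    Ideal.Quotient.nontrivial_iff.2 (Ideal.IsPrime.ne_top ‹_›)
  haveI : IsLocalRing (E0 p n k ⧸ P) :=
    IsLocalRing.of_surjective' (Ideal.Quotient.mk P) Ideal.Quotient.mk_surjective
  haveI := finite_residue P
  have hu0 : PowerSeries.HasSubst (uE p n k h : MvPowerSeries (Fin (n - 1)) (WittVector p k)) :=
    PowerSeries.HasSubst.of_constantCoeff_zero (by rw [uE_eq_X hh hhn]; simp)
  let ψ : PowerSeries ℤ →+* E0 p n k ⧸ P :=
    (Ideal.Quotient.mk P).comp (PowerSeries.substAlgHom (R := ℤ) hu0).toRingHom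
  have hsurj : Function.Surjective (PowerSeries.map (Int.castRingHom (ZMod p))) := fun f =>
    ⟨PowerSeries.mk fun i => ((PowerSeries.coeff i f).val : ℤ), by ext i; simp⟩
  have hker : RingHom.ker (PowerSeries.map (Int.castRingHom (ZMod p))) ≤ RingHom.ker ψ := by
    intro f hf
    have hc : ∀ i, (p : ℤ) ∣ PowerSeries.coeff i f := fun i => by
      rw [← ZMod.intCast_zmod_eq_zero_iff_dvd]
      simpa using congrArg (PowerSeries.coeff i) (RingHom.mem_ker.1 hf)
    choose g hg using hc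
    have e : f = (p : PowerSeries ℤ) * PowerSeries.mk g := by
      ext i
      rw [show (p : PowerSeries ℤ) = PowerSeries.C (p : ℤ) by simp, PowerSeries.coeff_C_mul,
        PowerSeries.coeff_mk, hg i]
    rw [RingHom.mem_ker, e, map_mul, map_natCast ψ, ← map_natCast (Ideal.Quotient.mk P),
      Ideal.Quotient.eq_zero_iff_mem.2 hpP, zero_mul]
  let φ : PowerSeries (ZMod p) →+* E0 p n k ⧸ P :=
    RingHom.liftOfSurjective _ hsurj ⟨ψ, hker⟩
  have hφ : φ PowerSeries.X = Ideal.Quotient.mk P (uE p n k h) := by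
    have h1 := RingHom.liftOfRightInverse_comp_apply (PowerSeries.map (Int.castRingHom (ZMod p)))
      _ (Function.rightInverse_surjInv hsurj) ⟨ψ, hker⟩ PowerSeries.X
    rw [PowerSeries.map_X] at h1
    refine h1.trans ?_
    show Ideal.Quotient.mk P (PowerSeries.substAlgHom (R := ℤ) hu0 PowerSeries.X) = _
    rw [PowerSeries.substAlgHom_X]
  obtain ⟨w, hw⟩ := Tilt.exists_coeff (p : ℂ_[p]) 0
  have hwn : ‖w‖ = ‖(p : ℂ_[p])‖ := by rw [Tilt.norm_def, hw]
  have hw1 : ‖w‖ < 1 := by rw [hwn]; exact Tilt.tau_lt_one p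
  let wb : unitBall (Tilt p) := ⟨w, hw1.le⟩
  have hev : MvPowerSeries.HasEval (fun _ : Unit => wb) :=
    hasEval1 (isTopologicallyNilpotent_ball.2 hw1)
  let χ : PowerSeries (ZMod p) →+* Tilt p :=
    (unitBall (Tilt p)).subtype.comp (evHom (ZMod.castHom dvd_rfl (unitBall (Tilt p))) hev)
  have hχ : χ PowerSeries.X = w := by
    show ((evHom _ hev PowerSeries.X : unitBall (Tilt p)) : Tilt p) = w
    rw [evHom_apply, PowerSeries.X, ev_X]
  obtain ⟨ρ, h1, h2, h3⟩ := exists_point_core φ χ hasDigits_powerSeries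
    (fun a => dvd_pow_powerSeries)
    (by rw [hφ]; exact fun h => hu (Ideal.Quotient.eq_zero_iff_mem.1 h))
    (by rw [hφ]; exact mem_maximalIdeal_mk (res_uE hhn))
    (fun a => (evHom (ZMod.castHom dvd_rfl (unitBall (Tilt p))) hev a).2)
    (by rw [hχ, ← norm_pos_iff, hwn]; exact Tilt.tau_pos p)
    (by rwa [hχ])
  refine ⟨(ρ.comp (Ideal.Quotient.mk P)).codRestrict (unitBall (Tilt p)) fun f => h1 _,
    fun f hf => Subtype.ext ?_, fun f hf => h2 _ (mem_maximalIdeal_mk hf), fun hz => h3 ?_⟩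
  · show ρ (Ideal.Quotient.mk P f) = 0
    rw [Ideal.Quotient.eq_zero_iff_mem.2 hf, map_zero]
  · rw [hφ]
    exact congrArg Subtype.val hz

/-- In characteristic `p` a hom out of `E0` factors through `k` on constants. -/
theorem exists_kHom {T : Type*} [CommRing T] [CharP T p] (π : E0 p n k →+* T) :
    ∃ κ : k →+* T, ∀ c, κ (WittVector.constantCoeff c) = π (MvPowerSeries.C c) := by
  have hsurj : Function.Surjective (WittVector.constantCoeff (p := p) (R := k)) :=
    WittVector.constantCoeff_surjective p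
  refine ⟨RingHom.liftOfSurjective _ hsurj ⟨π.comp MvPowerSeries.C, fun c hc => ?_⟩, fun c => ?_⟩
  · obtain ⟨d, rfl⟩ := natCast_dvd_of_constantCoeff_eq_zero (RingHom.mem_ker.1 hc)
    rw [RingHom.mem_ker, RingHom.comp_apply, map_mul, map_natCast, map_mul, map_natCast,
      CharP.cast_eq_zero, zero_mul]
  · exact RingHom.liftOfRightInverse_comp_apply _ _ (Function.rightInverse_surjInv hsurj) _ c

/-- A radius of congruence for a point. -/
theorem exists_radius {K : Type*} [NormedField K] [IsUltrametricDist K]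
    (π : E0 p n k →+* unitBall K) (hπ : ∀ f, res p n k f = 0 → ‖(π f : K)‖ < 1)
    (ϖ₀ : unitBall K) (h0 : (ϖ₀ : K) ≠ 0) (h1 : ‖(ϖ₀ : K)‖ < 1) :
    ∃ ϖ : unitBall K, (ϖ : K) ≠ 0 ∧ ‖(ϖ : K)‖ < 1 ∧ ‖(ϖ₀ : K)‖ ≤ ‖(ϖ : K)‖ ∧
      ∀ f, res p n k f = 0 → π f ∈ normIdeal ϖ := by
  classical
  obtain ⟨s, hs⟩ := IsNoetherian.noetherian (RingHom.ker (res p n k))
  obtain ⟨ϖ, hϖ, hmax⟩ := (insert ϖ₀ (s.image π)).exists_max_image
    (fun x : unitBall K => ‖(x : K)‖) ⟨ϖ₀, Finset.mem_insert_self _ _⟩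
  have hge := hmax ϖ₀ (Finset.mem_insert_self _ _)
  refine ⟨ϖ, norm_pos_iff.1 ((norm_pos_iff.2 h0).trans_le hge), ?_, hge, fun f hf => ?_⟩
  · rcases Finset.mem_insert.1 hϖ with rfl | h
    · exact h1
    · obtain ⟨g, hg, rfl⟩ := Finset.mem_image.1 h
      exact hπ g (RingHom.mem_ker.1 (hs ▸ Submodule.subset_span hg))
  · have hle : RingHom.ker (res p n k) ≤ (normIdeal ϖ).comap π := by
      rw [← hs]
      exact Submodule.span_le.2 fun g hg =>
        hmax _ (Finset.mem_insert_of_mem (Finset.mem_image_of_mem π hg))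
    exact hle hf

/-- A point is continuous for the adic topology. -/
theorem map_mem_normIdeal_pow {K : Type*} [NormedField K] [IsUltrametricDist K]
    (π : E0 p n k →+* unitBall K) {ϖ : unitBall K}
    (hϖ : ∀ f, res p n k f = 0 → π f ∈ normIdeal ϖ) {s : ℕ} {f : E0 p n k}
    (hf : f ∈ RingHom.ker (res p n k) ^ s) : π f ∈ normIdeal ϖ ^ s := by
  have h := Ideal.mem_map_of_mem π hf
  rw [Ideal.map_pow] at h
  exact Ideal.pow_right_mono (show (RingHom.ker (res p n k)).map π ≤ normIdeal ϖ from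
    Ideal.map_le_iff_le_comap.2 fun x hx => hϖ x (RingHom.mem_ker.1 hx)) s h

/-- Two homomorphisms out of `E0` agreeing on constants and variables, the latter going to
elements of norm `< 1`, agree. -/
theorem hom_ext_E0 {K : Type*} [NormedField K] [IsUltrametricDist K]
    (π π' : E0 p n k →+* unitBall K)
    (hC : ∀ c, π (MvPowerSeries.C c) = π' (MvPowerSeries.C c))
    (hX : ∀ i, π (MvPowerSeries.X i) = π' (MvPowerSeries.X i))
    (hnil : ∀ i, ‖(π (MvPowerSeries.X i) : K)‖ < 1) : π = π' := by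
  ext f
  obtain ⟨r, hr, hr1, hrX⟩ : ∃ r : ℝ, 0 ≤ r ∧ r < 1 ∧
      ∀ i, ‖(π (MvPowerSeries.X i) : K)‖ ≤ r := by
    rcases isEmpty_or_nonempty (Fin (n - 1)) with h | h
    · exact ⟨0, le_rfl, one_pos, fun i => isEmptyElim i⟩
    · obtain ⟨i₀, hi₀⟩ := Finite.exists_max fun i => ‖(π (MvPowerSeries.X i) : K)‖
      exact ⟨_, norm_nonneg _, hnil i₀, hi₀⟩
  have key : ∀ N : ℕ, ∀ g, ‖((π g - π' g : unitBall K) : K)‖ ≤ r ^ N := by
    intro N
    induction N with
    | zero => intro g; rw [pow_zero]; exact (π g - π' g).2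
    | succ N ih =>
      intro g
      have e : π g - π' g = ∑ i, π (MvPowerSeries.X i) * (π (divX i g) - π' (divX i g)) := by
        conv_lhs => rw [E0_decomp g]
        simp only [map_add, map_sum, map_mul, hC, ← hX, mul_sub, Finset.sum_sub_distrib]
        ring
      rw [e]
      simp only [AddSubmonoidClass.coe_finsetSum, Subring.coe_mul, pow_succ']
      refine IsUltrametricDist.norm_sum_le_of_forall_le_of_nonneg (by positivity) fun i _ => ?_
      rw [norm_mul]
      exact mul_le_mul (hrX i) (ih _) (norm_nonneg _) hr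
  have hlim := tendsto_pow_atTop_nhds_zero_of_lt_one hr hr1
  have := norm_le_zero_iff.1 (ge_of_tendsto' hlim fun N => key N f)
  simpa [sub_eq_zero] using this

/-- A point is evaluation at its coordinates. -/
theorem point_eq_ev {K : Type*} [NormedField K] [IsUltrametricDist K] [CompleteSpace K]
    (π : E0 p n k →+* unitBall K) (hnil : ∀ i, ‖(π (MvPowerSeries.X i) : K)‖ < 1)
    (f : E0 p n k) :
    π f = ev (π.comp MvPowerSeries.C) (fun i => π (MvPowerSeries.X i)) f := by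
  have ha : MvPowerSeries.HasEval fun i => π (MvPowerSeries.X i) :=
    hasEval_of_finite fun i => isTopologicallyNilpotent_ball.2 (hnil i)
  have h : π = evHom (π.comp MvPowerSeries.C) ha := by
    refine hom_ext_E0 π _ (fun c => ?_) (fun i => ?_) hnil <;> simp
  conv_lhs => rw [h]
  rw [evHom_apply]

section PointOf

variable {T O : Type*} [CommRing T] [UniformSpace T] [CommRing O] [UniformSpace O]
  {S : Source p n k T} {E : Target S O} {π : E0 p n k →+* O}

omit [PerfectRing k p] in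
theorem isPointOf_of_res (hX : ∀ f, res p n k f = 0 → π f ∈ E.J)
    (hC : ∀ c, E.sharp (S.kT (WittVector.constantCoeff c)) - π (MvPowerSeries.C c) ∈ E.J) :
    E.IsPointOf π := fun r => by
  have h := E.J.sub_mem (hC (MvPowerSeries.constantCoeff r)) (hX _ (res_sub_C r))
  rw [map_sub] at h
  rw [show res p n k r = WittVector.constantCoeff (MvPowerSeries.constantCoeff r) from rfl]
  convert h using 1
  ring

omit [PerfectRing k p] in
theorem isPointOf_comp (hπ : E.IsPointOf π) {α : E0 p n k →+* E0 p n k}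
    (hα : ∀ r, res p n k (α r) = res p n k r) : E.IsPointOf (π.comp α) := fun r => by
  have h := hπ (α r)
  rwa [hα r] at h

end PointOf

theorem isPointOf_cp (hk : Nat.card k = p ^ n) (π : E0 p n k →+* unitBall ℂ_[p])
    (ϖ : unitBall ℂ_[p]) (h1 : ‖(ϖ : ℂ_[p])‖ < 1) (hp' : ‖(p : ℂ_[p])‖ ≤ ‖(ϖ : ℂ_[p])‖)
    (hϖ : ∀ f, res p n k f = 0 → π f ∈ normIdeal ϖ) :
    (cpTarget (tiltSource hk (kTilt (π.comp MvPowerSeries.C))) ϖ h1 hp').IsPointOf π := by
  refine isPointOf_of_res hϖ fun c => ?_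
  show _ ∈ normIdeal ϖ
  rw [← Ideal.neg_mem_iff, neg_sub]
  exact (map_sub_sharp_kTilt (π.comp MvPowerSeries.C) c).trans hp'

theorem isPointOf_tilt (hk : Nat.card k = p ^ n)
    (π : E0 p n k →+* unitBall (Tilt p)) (κ : k →+* unitBall (Tilt p))
    (hκ : ∀ c, κ (WittVector.constantCoeff c) = π (MvPowerSeries.C c))
    (ϖ : unitBall (Tilt p)) (h0 : (ϖ : Tilt p) ≠ 0) (h1 : ‖(ϖ : Tilt p)‖ < 1)
    (hϖ : ∀ f, res p n k f = 0 → π f ∈ normIdeal ϖ) :
    (tiltTarget (tiltSource hk κ) ϖ h0 h1).IsPointOf π := by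
  refine isPointOf_of_res hϖ fun c => ?_
  show κ (WittVector.constantCoeff c) - _ ∈ normIdeal ϖ
  rw [hκ, sub_self]
  exact Ideal.zero_mem _

end Vale.Agent.P217
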