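import Vale.Agent.P217.Contract

/-!
# The map from the universal cover of the special fibre to the points of a deformation

`Setup q T O` records a source ring `T` with compatible `q`-th roots (the tilt), a multiplicative
map `sharp : T → O` and a formal group over `O` whose `[p]` is congruent to `X^q` modulo `J`.
`theta` is `lim [p^l] (sharp (y^(q^(-l))))`.
-/

noncomputable section

namespace Vale.Agent.P217

set_option linter.unusedSectionVars false

open Filter Topology

variable {T : Type*} [CommRing T] [UniformSpace T] [IsUniformAddGroup T] [IsTopologicalRing T]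
  [CompleteSpace T] [T2Space T] [IsLinearTopology T T]
variable {O : Type*} [CommRing O] [UniformSpace O] [IsUniformAddGroup O] [IsTopologicalRing O]
  [CompleteSpace O] [T2Space O] [IsLinearTopology O O]

/-- The data needed to define `theta`. -/
structure Setup (q : ℕ) (T O : Type*) [CommRing T] [UniformSpace T] [IsUniformAddGroup T]
    [IsTopologicalRing T] [CompleteSpace T] [T2Space T] [IsLinearTopology T T] [CommRing O]
    [UniformSpace O] [IsUniformAddGroup O] [IsTopologicalRing O] [CompleteSpace O] [T2Space O]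
    [IsLinearTopology O O] where
  /-- The ideal of congruences. -/
  J : Ideal O
  isAdic : IsAdic J
  two_le : 2 ≤ q
  natCast_mem : (q : O) ∈ J
  /-- The formal group over `O`. -/
  G : FormalGroup O
  /-- Its multiplication by `p`. -/
  mul : PowerSeries O
  mul_zero' : PowerSeries.constantCoeff mul = 0
  mul_hom : IsHom mul G G
  mul_coeff : ∀ j,
    PowerSeries.coeff j mul - PowerSeries.coeff j (PowerSeries.X ^ q : PowerSeries O) ∈ J
  /-- The special fibre, seen over `T`. -/
  Γ : FormalGroup T
  /-- The inverse of the `q`-th power. -/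
  root : T → T
  root_pow : ∀ y, root y ^ q = y
  root_pow' : ∀ y, root (y ^ q) = y
  root_fadd : ∀ x y, IsTopologicallyNilpotent x → IsTopologicallyNilpotent y →
    root (fadd Γ x y) = fadd Γ (root x) (root y)
  root_cont : Continuous root
  /-- The multiplicative section. -/
  sharp : T →* O
  sharp_cont : Continuous sharp
  sharp_zero : sharp 0 = 0
  sharp_fadd : ∀ x y, IsTopologicallyNilpotent x → IsTopologicallyNilpotent y →
    sharp (fadd Γ x y) - fadd G (sharp x) (sharp y) ∈ J

namespace Setup

variable {q : ℕ} (D : Setup q T O)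

theorem isOpen_J : IsOpen (D.J : Set O) := by simpa using isOpen_pow_of_isAdic D.isAdic 1

theorem root_zero : D.root 0 = 0 := by
  simpa [zero_pow (show q ≠ 0 from (lt_of_lt_of_le two_pos D.two_le).ne')] using D.root_pow' 0

theorem iterate_root_zero (l : ℕ) : D.root^[l] 0 = 0 :=
  Function.iterate_fixed D.root_zero l

theorem nilp_root {y : T} (hy : IsTopologicallyNilpotent y) :
    IsTopologicallyNilpotent (D.root y) := by
  rw [IsTopologicallyNilpotent, IsLinearTopology.hasBasis_ideal.tendsto_right_iff]
  intro I hI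
  obtain ⟨N, hN⟩ := (hy.eventually_mem hI).exists
  filter_upwards [eventually_ge_atTop (q * N)] with i hi
  refine I.pow_mem_of_pow_mem ?_ hi
  rwa [pow_mul, D.root_pow]

theorem nilp_iterate {y : T} (hy : IsTopologicallyNilpotent y) (l : ℕ) :
    IsTopologicallyNilpotent (D.root^[l] y) := by
  induction l with
  | zero => simpa using hy
  | succ l ih => rw [Function.iterate_succ_apply']; exact D.nilp_root ih

theorem nilp_sharp {y : T} (hy : IsTopologicallyNilpotent y) :
    IsTopologicallyNilpotent (D.sharp y) := by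
  simpa [IsTopologicallyNilpotent, Function.comp_def, D.sharp_zero] using
    ((D.sharp_cont.tendsto 0).comp hy)

theorem iterate_root_fadd {x y : T} (hx : IsTopologicallyNilpotent x)
    (hy : IsTopologicallyNilpotent y) (l : ℕ) :
    D.root^[l] (fadd D.Γ x y) = fadd D.Γ (D.root^[l] x) (D.root^[l] y) := by
  induction l with
  | zero => simp
  | succ l ih =>
    simp only [Function.iterate_succ_apply', ih,
      D.root_fadd _ _ (D.nilp_iterate hx l) (D.nilp_iterate hy l)]

/-- Multiplication by `p` on points. -/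
def step (x : O) : O := fapp D.mul x

theorem nilp_step {x : O} (hx : IsTopologicallyNilpotent x) :
    IsTopologicallyNilpotent (D.step x) :=
  isTopologicallyNilpotent_fapp D.mul_zero' hx

theorem nilp_iterate_step {x : O} (hx : IsTopologicallyNilpotent x) (l : ℕ) :
    IsTopologicallyNilpotent (D.step^[l] x) := by
  induction l with
  | zero => simpa using hx
  | succ l ih => rw [Function.iterate_succ_apply']; exact D.nilp_step ih

theorem iterate_step_sub_mem {x y : O} (hx : IsTopologicallyNilpotent x)
    (hy : IsTopologicallyNilpotent y) (hxy : x - y ∈ D.J) (l : ℕ) :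
    D.step^[l] x - D.step^[l] y ∈ D.J ^ (l + 1) := by
  induction l with
  | zero => simpa using hxy
  | succ l ih =>
    simp only [Function.iterate_succ_apply']
    exact fapp_contract D.isAdic D.mul_coeff D.natCast_mem (D.nilp_iterate_step hx l)
      (D.nilp_iterate_step hy l) (Nat.le_add_left 1 l) ih

theorem continuous_step : ContinuousOn D.step {x | IsTopologicallyNilpotent x} := by
  intro x hx
  rw [ContinuousWithinAt, (D.isAdic.hasBasis_nhds _).tendsto_right_iff]
  intro m _
  have h : {z | z - x ∈ D.J ^ m} ∈ 𝓝 x := by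
    refine ((isOpen_pow_of_isAdic D.isAdic m).preimage (continuous_sub_right x)).mem_nhds ?_
    simp
  filter_upwards [self_mem_nhdsWithin, mem_nhdsWithin_of_mem_nhds h] with z hz hzx
  exact ⟨D.step z - D.step x,
    fapp_sub_fapp_mem (isOpen_pow_of_isAdic D.isAdic m) hz hx hzx (by simp), by simp⟩

theorem iterate_step_fadd {x y : O} (hx : IsTopologicallyNilpotent x)
    (hy : IsTopologicallyNilpotent y) (l : ℕ) :
    D.step^[l] (fadd D.G x y) = fadd D.G (D.step^[l] x) (D.step^[l] y) := by
  induction l with
  | zero => simp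
  | succ l ih =>
    simp only [Function.iterate_succ_apply', ih]
    exact fapp_hom D.mul_hom (D.nilp_iterate_step hx l) (D.nilp_iterate_step hy l)

/-- The `l`-th approximation. -/
def approx (l : ℕ) (y : T) : O := D.step^[l] (D.sharp (D.root^[l] y))

theorem nilp_approx {y : T} (hy : IsTopologicallyNilpotent y) (l : ℕ) :
    IsTopologicallyNilpotent (D.approx l y) :=
  D.nilp_iterate_step (D.nilp_sharp (D.nilp_iterate hy l)) l

theorem approx_succ_sub_mem {y : T} (hy : IsTopologicallyNilpotent y) (l : ℕ) :
    D.approx (l + 1) y - D.approx l y ∈ D.J ^ (l + 1) := by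
  rw [approx, Function.iterate_succ_apply, approx]
  refine D.iterate_step_sub_mem (D.nilp_step (D.nilp_sharp (D.nilp_iterate hy (l + 1))))
    (D.nilp_sharp (D.nilp_iterate hy l)) ?_ l
  have h : D.sharp (D.root^[l] y) = D.sharp (D.root^[l + 1] y) ^ q := by
    rw [← map_pow, Function.iterate_succ_apply', D.root_pow]
  rw [h]
  exact fapp_sub_pow_mem D.isAdic D.mul_coeff (D.nilp_sharp (D.nilp_iterate hy (l + 1)))

theorem approx_sub_mem {y : T} (hy : IsTopologicallyNilpotent y) {l m : ℕ} (h : l ≤ m) :
    D.approx m y - D.approx l y ∈ D.J ^ (l + 1) := by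
  induction m, h using Nat.le_induction with
  | base => simp
  | succ m hm ih =>
    have h1 := Ideal.pow_le_pow_right (Nat.add_le_add_right hm 1) (D.approx_succ_sub_mem hy m)
    simpa using (D.J ^ (l + 1)).add_mem h1 ih

theorem cauchySeq_approx {y : T} (hy : IsTopologicallyNilpotent y) :
    CauchySeq fun l => D.approx l y := by
  rw [D.isAdic.hasBasis_nhds_zero.uniformity_of_nhds_zero.cauchySeq_iff']
  intro m _
  refine ⟨m, fun i hi => ?_⟩
  simp only [Set.mem_ofPred_eq]
  have := Ideal.pow_le_pow_right (Nat.le_add_right m 1) (D.approx_sub_mem hy hi)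
  rw [← neg_sub]
  exact (D.J ^ m).neg_mem this

/-- The map `theta`. -/
def theta (y : T) : O := limUnder atTop fun l => D.approx l y

theorem tendsto_approx {y : T} (hy : IsTopologicallyNilpotent y) :
    Tendsto (fun l => D.approx l y) atTop (𝓝 (D.theta y)) :=
  (D.cauchySeq_approx hy).tendsto_limUnder

theorem theta_sub_approx_mem {y : T} (hy : IsTopologicallyNilpotent y) (l : ℕ) :
    D.theta y - D.approx l y ∈ D.J ^ (l + 1) :=
  ((D.J ^ (l + 1)).toAddSubgroup.isClosed_of_isOpen
    (isOpen_pow_of_isAdic D.isAdic (l + 1))).mem_of_tendsto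
      ((D.tendsto_approx hy).sub tendsto_const_nhds)
      ((eventually_ge_atTop l).mono fun _ hm => D.approx_sub_mem hy hm)

theorem theta_sub_sharp_mem {y : T} (hy : IsTopologicallyNilpotent y) :
    D.theta y - D.sharp y ∈ D.J := by
  simpa [approx] using D.theta_sub_approx_mem hy 0

theorem nilp_theta {y : T} (hy : IsTopologicallyNilpotent y) :
    IsTopologicallyNilpotent (D.theta y) :=
  isTopologicallyNilpotent_of_sub_mem D.isAdic (D.theta_sub_sharp_mem hy) (D.nilp_sharp hy)

theorem approx_zero_arg (l : ℕ) : D.approx l 0 = 0 := by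
  rw [approx, D.iterate_root_zero, D.sharp_zero]
  refine Function.iterate_fixed ?_ l
  exact (hasSum_ev1 (φ := RingHom.id O) IsTopologicallyNilpotent.zero D.mul).unique <| by
    refine hasSum_zero.congr_fun fun i => ?_
    cases i <;> simp [D.mul_zero']

theorem theta_zero : D.theta 0 = 0 :=
  tendsto_nhds_unique (D.tendsto_approx .zero) (by simp [D.approx_zero_arg])

/-- A tower of `[p]`-preimages congruent to the root sequence is `theta`. -/
theorem theta_eq_of_tower {y : T} (hy : IsTopologicallyNilpotent y) (w : ℕ → O)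
    (hn : ∀ l, IsTopologicallyNilpotent (w l)) (hstep : ∀ l, D.step (w (l + 1)) = w l)
    (hw : ∀ l, w l - D.sharp (D.root^[l] y) ∈ D.J) : D.theta y = w 0 := by
  have hit : ∀ l, D.step^[l] (w l) = w 0 := by
    intro l
    induction l with
    | zero => rfl
    | succ l ih => rw [Function.iterate_succ_apply, hstep, ih]
  refine eq_of_forall_sub_mem D.isAdic fun m => Ideal.pow_le_pow_right (Nat.le_add_right m 1) ?_
  have h1 := D.theta_sub_approx_mem hy m
  have h2 := D.iterate_step_sub_mem (hn m) (D.nilp_sharp (D.nilp_iterate hy m)) (hw m) m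
  rw [hit] at h2
  simpa [approx] using (D.J ^ (m + 1)).sub_mem h1 h2

theorem theta_pow {y : T} (hy : IsTopologicallyNilpotent y) :
    D.theta (y ^ q) = D.step (D.theta y) := by
  have hyq : IsTopologicallyNilpotent (y ^ q) := by
    rw [IsTopologicallyNilpotent] at hy ⊢
    simp only [← pow_mul]
    exact hy.comp (Filter.tendsto_atTop_mono
      (fun i => Nat.le_mul_of_pos_left i (lt_of_lt_of_le two_pos D.two_le)) tendsto_id)
  have hs : ∀ l, D.approx (l + 1) (y ^ q) = D.step (D.approx l y) := fun l => by
    rw [approx, Function.iterate_succ_apply D.root, D.root_pow', Function.iterate_succ_apply']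
    rfl
  refine tendsto_nhds_unique ((D.tendsto_approx hyq).comp (tendsto_add_atTop_nat 1)) ?_
  simp only [Function.comp_def, hs]
  exact ((D.continuous_step _ (D.nilp_theta hy)).tendsto).comp
    (tendsto_nhdsWithin_iff.mpr
      ⟨D.tendsto_approx hy, Eventually.of_forall fun l => D.nilp_approx hy l⟩)

theorem step_theta_root {y : T} (hy : IsTopologicallyNilpotent y) :
    D.step (D.theta (D.root y)) = D.theta y := by
  rw [← D.theta_pow (D.nilp_root hy), D.root_pow]

theorem step_theta_iterate {y : T} (hy : IsTopologicallyNilpotent y) (l : ℕ) :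
    D.step (D.theta (D.root^[l + 1] y)) = D.theta (D.root^[l] y) := by
  rw [Function.iterate_succ_apply', D.step_theta_root (D.nilp_iterate hy l)]

theorem theta_fadd {x y : T} (hx : IsTopologicallyNilpotent x)
    (hy : IsTopologicallyNilpotent y) :
    D.theta (fadd D.Γ x y) = fadd D.G (D.theta x) (D.theta y) := by
  refine D.theta_eq_of_tower (isTopologicallyNilpotent_fadd _ hx hy)
    (fun l => fadd D.G (D.theta (D.root^[l] x)) (D.theta (D.root^[l] y)))
    (fun l => isTopologicallyNilpotent_fadd _ (D.nilp_theta (D.nilp_iterate hx l))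
      (D.nilp_theta (D.nilp_iterate hy l))) (fun l => ?_) (fun l => ?_)
  · rw [← D.step_theta_iterate hx l, ← D.step_theta_iterate hy l]
    exact fapp_hom D.mul_hom (D.nilp_theta (D.nilp_iterate hx _))
      (D.nilp_theta (D.nilp_iterate hy _))
  · have hxl := D.nilp_iterate hx l
    have hyl := D.nilp_iterate hy l
    rw [D.iterate_root_fadd hx hy l]
    have h1 := fadd_sub_fadd_mem D.isOpen_J D.G (D.nilp_theta hxl) (D.nilp_theta hyl)
      (D.nilp_sharp hxl) (D.nilp_sharp hyl) (D.theta_sub_sharp_mem hxl)
      (D.theta_sub_sharp_mem hyl)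
    simpa using D.J.sub_mem h1 (D.sharp_fadd _ _ hxl hyl)

/-- `theta` is continuous at zero. -/
theorem theta_small (m : ℕ) :
    ∀ᶠ y in 𝓝 (0 : T), IsTopologicallyNilpotent y → D.theta y ∈ D.J ^ m := by
  have hc : Continuous fun y => D.sharp (D.root^[m] y) := D.sharp_cont.comp (D.root_cont.iterate m)
  have h : {y | D.sharp (D.root^[m] y) ∈ D.J ^ m} ∈ 𝓝 (0 : T) :=
    ((isOpen_pow_of_isAdic D.isAdic m).preimage hc).mem_nhds <| by
      simp [D.iterate_root_zero, D.sharp_zero]
  filter_upwards [h] with y hy hyn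
  have h1 := Ideal.pow_le_pow_right (Nat.le_add_right m 1) (D.theta_sub_approx_mem hyn m)
  have h2 : D.approx m y ∈ D.J ^ m := by
    rw [approx]
    generalize D.sharp (D.root^[m] y) = x at hy ⊢
    have hx : ∀ i, (D.step^[i] x) ∈ D.J ^ m ∧ (0 < m → IsTopologicallyNilpotent (D.step^[i] x)) := by
      intro i
      rcases Nat.eq_zero_or_pos m with rfl | hm
      · simp
      have hnil : ∀ z ∈ D.J ^ m, IsTopologicallyNilpotent z := fun z hz =>
        isTopologicallyNilpotent_of_mem D.isAdic (Ideal.pow_le_self hm.ne' hz)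
      induction i with
      | zero => exact ⟨hy, fun _ => hnil _ hy⟩
      | succ i ih =>
        have := fapp_mem (isOpen_pow_of_isAdic D.isAdic m) (hnil _ ih.1) D.mul_zero' ih.1
        rw [Function.iterate_succ_apply']
        exact ⟨this, fun _ => hnil _ this⟩
    exact (hx m).1
  simpa using (D.J ^ m).add_mem h1 h2

/-- Equivariance: a homomorphism of the deformations congruent to a map `γ` of the sources. -/
theorem theta_map {O' : Type*} [CommRing O'] [UniformSpace O'] [IsUniformAddGroup O']
    [IsTopologicalRing O'] [CompleteSpace O'] [T2Space O'] [IsLinearTopology O' O']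
    (D' : Setup q T O') (γ : T → T) (φ : O → O')
    (hγn : ∀ z, IsTopologicallyNilpotent z → IsTopologicallyNilpotent (γ z))
    (hγr : ∀ z, IsTopologicallyNilpotent z → D'.root (γ z) = γ (D.root z))
    (hφn : ∀ x, IsTopologicallyNilpotent x → IsTopologicallyNilpotent (φ x))
    (hφs : ∀ x, IsTopologicallyNilpotent x → φ (D.step x) = D'.step (φ x))
    (hφ : ∀ z, IsTopologicallyNilpotent z → φ (D.theta z) - D'.sharp (γ z) ∈ D'.J)
    {y : T} (hy : IsTopologicallyNilpotent y) : D'.theta (γ y) = φ (D.theta y) := by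
  have hit : ∀ l, D'.root^[l] (γ y) = γ (D.root^[l] y) := by
    intro l
    induction l with
    | zero => rfl
    | succ l ih =>
      rw [Function.iterate_succ_apply', ih, hγr _ (D.nilp_iterate hy l),
        Function.iterate_succ_apply']
  refine D'.theta_eq_of_tower (hγn y hy) (fun l => φ (D.theta (D.root^[l] y)))
    (fun l => hφn _ (D.nilp_theta (D.nilp_iterate hy l))) (fun l => ?_) (fun l => ?_)
  · rw [← hφs _ (D.nilp_theta (D.nilp_iterate hy _)), D.step_theta_iterate hy l]
  · rw [hit]
    exact hφ _ (D.nilp_iterate hy l)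

theorem pow_sub_pow_mem {a b : O} (h : a - b ∈ D.J) (i : ℕ) :
    a ^ q ^ i - b ^ q ^ i ∈ D.J ^ (i + 1) := by
  induction i with
  | zero => simpa using h
  | succ i ih =>
    rw [pow_succ q i, pow_mul, pow_mul, ← geom_sum₂_mul, pow_succ' D.J (i + 1)]
    refine Ideal.mul_mem_mul ?_ ih
    have h1 : a ^ q ^ i - b ^ q ^ i ∈ D.J := Ideal.pow_le_self (Nat.succ_ne_zero i) ih
    have hab : Ideal.Quotient.mk D.J (a ^ q ^ i) = Ideal.Quotient.mk D.J (b ^ q ^ i) :=
      Ideal.Quotient.eq.mpr h1
    rw [← Ideal.Quotient.eq_zero_iff_mem, map_sum]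
    simp only [map_mul, map_pow] at hab ⊢
    simp only [hab, ← pow_add]
    rw [Finset.sum_congr rfl fun j hj => congrArg (((Ideal.Quotient.mk D.J b) ^ q ^ i) ^ ·)
      (Nat.add_sub_cancel' (Nat.le_sub_one_of_lt (Finset.mem_range.mp hj)))]
    rw [Finset.sum_const, Finset.card_range, nsmul_eq_mul,
      ← map_natCast (Ideal.Quotient.mk D.J), Ideal.Quotient.eq_zero_iff_mem.mpr D.natCast_mem,
      zero_mul]

/-- Every compatible system of `q`-th roots comes from the source. -/
def Lifts : Prop :=
  ∀ v : ℕ → O, (∀ l, v (l + 1) ^ q = v l) → (∀ l, IsTopologicallyNilpotent (v l)) →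
    ∃ y, IsTopologicallyNilpotent y ∧ ∀ l, D.sharp (D.root^[l] y) = v l

/-- Every tower of `[p]`-preimages is `theta` of some point of the source. -/
theorem exists_theta_eq_tower (hlift : D.Lifts) (w : ℕ → O)
    (hn : ∀ l, IsTopologicallyNilpotent (w l)) (hstep : ∀ l, D.step (w (l + 1)) = w l) :
    ∃ y, IsTopologicallyNilpotent y ∧ ∀ l, D.theta (D.root^[l] y) = w l := by
  have hpos : q ≠ 0 := (lt_of_lt_of_le two_pos D.two_le).ne'
  have hw : ∀ l, w (l + 1) ^ q - w l ∈ D.J := fun l => by
    have := fapp_sub_pow_mem D.isAdic D.mul_coeff (hn (l + 1))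
    rw [← hstep l, ← neg_sub]
    exact D.J.neg_mem this
  have hsucc : ∀ l i, w (l + (i + 1)) ^ q ^ (i + 1) - w (l + i) ^ q ^ i ∈ D.J ^ (i + 1) := by
    intro l i
    rw [pow_succ' q i, pow_mul]
    exact D.pow_sub_pow_mem (hw (l + i)) i
  have hle : ∀ l {i m}, i ≤ m →
      w (l + m) ^ q ^ m - w (l + i) ^ q ^ i ∈ D.J ^ (i + 1) := by
    intro l i m h
    induction m, h using Nat.le_induction with
    | base => simp
    | succ m hm ih =>
      simpa using (D.J ^ (i + 1)).add_mem
        (Ideal.pow_le_pow_right (Nat.add_le_add_right hm 1) (hsucc l m)) ih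
  have hcauchy : ∀ l, CauchySeq fun i => w (l + i) ^ q ^ i := fun l => by
    rw [D.isAdic.hasBasis_nhds_zero.uniformity_of_nhds_zero.cauchySeq_iff']
    intro m _
    refine ⟨m, fun i hi => ?_⟩
    simp only [Set.mem_ofPred_eq]
    rw [← neg_sub]
    exact (D.J ^ m).neg_mem (Ideal.pow_le_pow_right (Nat.le_add_right m 1) (hle l hi))
  choose v hv using fun l => cauchySeq_tendsto_of_complete (hcauchy l)
  have hvw : ∀ l, v l - w l ∈ D.J := fun l => by
    refine (D.J.toAddSubgroup.isClosed_of_isOpen D.isOpen_J).mem_of_tendsto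
      ((hv l).sub tendsto_const_nhds) (Eventually.of_forall fun i => ?_)
    simpa using hle l (Nat.zero_le i)
  have hvn : ∀ l, IsTopologicallyNilpotent (v l) := fun l =>
    isTopologicallyNilpotent_of_sub_mem D.isAdic (hvw l) (hn l)
  have hvq : ∀ l, v (l + 1) ^ q = v l := fun l => by
    refine tendsto_nhds_unique ((hv (l + 1)).pow q) ?_
    refine ((hv l).comp (tendsto_add_atTop_nat 1)).congr fun i => ?_
    rw [Function.comp_apply, ← pow_mul, ← pow_succ, show l + (i + 1) = l + 1 + i by ring]
  obtain ⟨y, hy, hyv⟩ := hlift v hvq hvn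
  refine ⟨y, hy, fun l => ?_⟩
  refine D.theta_eq_of_tower (D.nilp_iterate hy l) (fun i => w (l + i)) (fun i => hn _)
    (fun i => hstep _) (fun i => ?_) |>.trans (by simp)
  rw [← Function.iterate_add_apply, hyv, Nat.add_comm l i]
  rw [← neg_sub]
  exact D.J.neg_mem (hvw _)

end Setup

end Vale.Agent.P217
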