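import Vale.Agent.P217.IotaPoint
import Vale.Agent.P217.Theta
import Vale.Agent.P217.Roots
import Vale.Agent.P217.TwistPt

/-!
# The map `η = ι ∘ θ` on points

It is additive, close to `ι`, and its image contains a ball around zero.
-/

noncomputable section

namespace Vale.Agent.P217

open Filter Topology

set_option linter.unusedSectionVars false

variable {L : Type*} [NormedField L] [IsUltrametricDist L] [CompleteSpace L]

theorem fapp_zero {f : PowerSeries (unitBall L)} (hf : PowerSeries.constantCoeff f = 0) :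
    fapp f (0 : unitBall L) = 0 :=
  (hasSum_ev1 (φ := RingHom.id _) IsTopologicallyNilpotent.zero f).unique <| by
    refine hasSum_zero.congr_fun fun i => ?_
    cases i <;> simp [hf]

/-- A series with linear coefficient `c` attains every value of norm less than `‖c‖ ^ 2`. -/
theorem exists_fapp_eq [IsAlgClosed L] {f : PowerSeries (unitBall L)}
    (hf0 : PowerSeries.constantCoeff f = 0) {c : unitBall L} (hc : PowerSeries.coeff 1 f = c)
    {z : unitBall L} (hz : ‖(z : L)‖ < ‖(c : L)‖ ^ 2) :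
    ∃ s, IsTopologicallyNilpotent s ∧ fapp f s = z := by
  have hc0 : (c : L) ≠ 0 := fun e => by
    rw [e, norm_zero, zero_pow two_ne_zero] at hz
    exact absurd hz (norm_nonneg _).not_gt
  have hq : ‖(z : L) / (c : L) ^ 2‖ < 1 := by
    rwa [norm_div, norm_pow, div_lt_one (pow_pos (norm_pos_iff.2 hc0) 2)]
  set w : unitBall L := ⟨(z : L) / (c : L) ^ 2, hq.le⟩ with hw
  have hwz : c ^ 2 * w = z := Subtype.ext (by
    simp only [Subring.coe_mul, SubmonoidClass.coe_pow, hw]
    rw [mul_div_cancel₀ _ (pow_ne_zero 2 hc0)])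
  let g : PowerSeries (unitBall L) := PowerSeries.mk fun j =>
    if j = 0 then -w else if j = 1 then 1 else PowerSeries.coeff j f * c ^ (j - 2)
  have hg : ∀ j, c ^ 2 * PowerSeries.coeff j g =
      PowerSeries.coeff j f * c ^ j - if j = 0 then z else 0 := by
    intro j
    rw [PowerSeries.coeff_mk]
    match j with
    | 0 => simp [hf0, hwz]
    | 1 => simp [hc, sq]
    | j + 2 => simp [pow_add]; ring
  rcases eq_or_ne (w : L) 0 with hw0 | hw0
  · refine ⟨0, .zero, ?_⟩
    rw [fapp_zero hf0, ← hwz, show w = 0 from Subtype.ext hw0, mul_zero]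
  obtain ⟨t, ht, h0⟩ := exists_zero (f := g) (d := 1) one_pos hw0 hq
    (fun i hi => by
      obtain rfl : i = 0 := by omega
      simp [g])
    (by simp [g])
  have hct : IsTopologicallyNilpotent (c * t) := isTopologicallyNilpotent_ball.2 (by
    rw [Subring.coe_mul, norm_mul]
    exact (mul_le_of_le_one_left (norm_nonneg _) (norm_coe_le_one c)).trans_lt
      (isTopologicallyNilpotent_ball.1 ht))
  refine ⟨c * t, hct, sub_eq_zero.1 ?_⟩
  rw [nodeHom_apply] at h0
  have h1 := (hasSum_ev1 (φ := RingHom.id _) ht g).mul_left (c ^ 2)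
  rw [h0, mul_zero] at h1
  refine ((hasSum_ev1 (φ := RingHom.id _) hct f).sub
    (hasSum_ite_eq 0 z)).unique (h1.congr_fun fun j => ?_)
  simp only [RingHom.id_apply]
  rw [← mul_assoc, hg j]
  split_ifs with hj
  · subst hj; simp
  · ring

variable {T : Type*} [CommRing T] [UniformSpace T] [IsUniformAddGroup T] [IsTopologicalRing T]
  [CompleteSpace T] [T2Space T] [IsLinearTopology T T]
variable {K : Type*} [NormedField K] [IsUltrametricDist K] [CompleteSpace K]

/-- `y ↦ ι (θ y)` as a map of points. -/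
def etaHom {q : ℕ} (D : Setup q (unitBall K) (unitBall L)) {Γh : FormalGroup (unitBall L)}
    [D.Γ.IsComm] [Γh.IsComm] {ι : PowerSeries (unitBall L)} (hι : IsHom ι D.G Γh) :
    Pt D.Γ →+ Pt Γh where
  toFun y := ⟨fapp ι (D.theta y.1), isTopologicallyNilpotent_fapp hι.1 (D.nilp_theta y.2)⟩
  map_zero' := Subtype.ext <| by
    show fapp ι (D.theta 0) = 0
    rw [D.theta_zero, fapp_zero hι.1]
  map_add' x y := Subtype.ext <| by
    show fapp ι (D.theta (fadd D.Γ x.1 y.1)) = fadd Γh _ _
    rw [D.theta_fadd x.2 y.2, fapp_hom hι (D.nilp_theta x.2) (D.nilp_theta y.2)]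

variable {q : ℕ} {D : Setup q (unitBall K) (unitBall L)} {Γh : FormalGroup (unitBall L)}
  [D.Γ.IsComm] [Γh.IsComm] {ι : PowerSeries (unitBall L)} (hι : IsHom ι D.G Γh)

theorem etaHom_val (y : Pt D.Γ) : (etaHom D hι y).1 = fapp ι (D.theta y.1) := rfl

theorem norm_etaHom_sub_le {r : ℝ} (hr : ∀ x ∈ D.J, ‖(x : L)‖ ≤ r) (y : Pt D.Γ) :
    ‖(etaHom D hι y).co - ((fapp ι (D.sharp y.1) : unitBall L) : L)‖ ≤ r := by
  have h := fapp_sub_fapp_mem D.isOpen_J (D.nilp_theta y.2) (D.nilp_sharp y.2)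
    (D.theta_sub_sharp_mem y.2) (f := ι) (g := ι) fun j => by simp
  exact (le_of_eq (by rfl)).trans (hr _ h)

theorem exists_etaHom_eq [IsAlgClosed L]
    (hθ : ∀ t, IsTopologicallyNilpotent t → ∃ y, IsTopologicallyNilpotent y ∧ D.theta y = t)
    {z : Pt Γh} (hz : ‖z.co‖ < ‖((PowerSeries.coeff 1 ι : unitBall L) : L)‖ ^ 2) :
    ∃ y, etaHom D hι y = z := by
  obtain ⟨s, hs, he⟩ := exists_fapp_eq hι.1 rfl (z := z.1) hz
  obtain ⟨y, hy, rfl⟩ := hθ s hs
  exact ⟨⟨y, hy⟩, Subtype.ext he⟩

end Vale.Agent.P217
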