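import Vale.Agent.P217.IotaHom
import Vale.Agent.P217.Point
import Vale.Agent.P217.Action

/-!
# The homomorphism to the height `h` law at a tilt point, and its coefficient equations
-/

noncomputable section

namespace Vale.Agent.P217

open MvPowerSeries Finsupp

set_option linter.unusedSectionVars false
set_option linter.style.haveILetI false

variable {p : ℕ} [hp : Fact p.Prime]

/-- The coefficients of `((X^q + Y^q) - (X + Y)^q) / p` in degree `q = p ^ h`. -/
def shapeCoeff (p h : ℕ) (d : Fin 2 →₀ ℕ) : ℤ :=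
  if d 0 = 0 ∨ d 1 = 0 ∨ d.degree ≠ p ^ h then 0 else -(((p ^ h).choose (d 0) / p : ℕ) : ℤ)

/-- The law looks like the height `h` Honda law through degree `p ^ h`. -/
def HasShape {A : Type*} [CommRing A] (p h : ℕ) (u : A) (G : FormalGroup A) : Prop :=
  ∀ d : Fin 2 →₀ ℕ, 2 ≤ d.degree → d.degree ≤ p ^ h →
    coeff d G.toPowerSeries = u * (shapeCoeff p h d : A)

theorem HasShape.map {A B : Type*} [CommRing A] [CommRing B] {h : ℕ} {u : A} {G : FormalGroup A}
    (hG : HasShape p h u G) (f : A →+* B) : HasShape p h (f u) (G.map f) := fun d h1 h2 => by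
  rw [FormalGroup.map_toPowerSeries, coeff_map, hG d h1 h2, map_mul, map_intCast]

section Stratum

variable {n : ℕ} {k : Type} [Field k] [CharP k p] [Finite k] {F : FormalGroup (E0 p n k)}

theorem hasShape_of_kill (hF : IsHazewinkel p n k F) {h : ℕ} (h1 : 1 ≤ h) (hh : h ≤ n)
    {A : Type*} [CommRing A] (f : E0 p n k →+* A) (hf : ∀ x ∈ hIdeal p n k h, f x = 0) :
    HasShape p h (f (uE p n k h)) (F.map f) := fun d hd2 hd => by
  have hm := hf _ (coeff_law_sub_mem p n k hF h1 hh hd2 hd)
  rw [map_sub, map_mul, sub_eq_zero] at hm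
  rw [FormalGroup.map_toPowerSeries, coeff_map, hm]
  congr 1
  have e : firstCoeff p k h d = (shapeCoeff p h d : WittVector p k) := by
    unfold firstCoeff shapeCoeff
    split_ifs <;> push_cast <;> rfl
  rw [e, map_intCast (C : WittVector p k →+* E0 p n k), map_intCast]

theorem hasShape_special (hF : IsHazewinkel p n k F) (hn : 1 ≤ n) :
    HasShape p n (1 : k) (special p n k F) := by
  have h := hasShape_of_kill hF hn le_rfl (res p n k)
    (fun x hx => by
      rw [hIdeal_top_eq_ker_res p n k hn] at hx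
      exact RingHom.mem_ker.1 hx)
  rwa [uE_top p n k hn, map_one] at h

end Stratum

theorem HasShape.sub_lin_mem {A : Type*} [CommRing A] {h : ℕ} {u : A} {G : FormalGroup A}
    (hG : HasShape p h u G) : G.toPowerSeries - (X 0 + X 1) ∈ cI (⊥ : Ideal A) (p ^ h) := by
  classical
  intro d hd
  rw [Ideal.mem_bot, map_sub, map_add, coeff_X, coeff_X, eq_xy d]
  have hdeg := degree_two d
  rcases Nat.lt_or_ge d.degree 2 with h2 | h2
  · rcases Nat.lt_or_ge (d 0) 1 with h0 | h0
    · rcases Nat.lt_or_ge (d 1) 1 with h1 | h1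
      · rw [show d 0 = 0 by omega, show d 1 = 0 by omega, show xy 0 0 = 0 by simp [xy],
          coeff_zero_eq_constantCoeff_apply, G.zero_constantCoeff]
        simp [eq_comm (a := (0 : Fin 2 →₀ ℕ))]
      · rw [show d 0 = 0 by omega, show d 1 = 1 by omega, show xy 0 1 = single 1 1 by simp [xy],
          G.lin_coeff_Y]
        simp [single_left_inj]
    · rw [show d 0 = 1 by omega, show d 1 = 0 by omega, show xy 1 0 = single 0 1 by simp [xy],
        G.lin_coeff_X]
      simp [single_left_inj]
  · rw [← eq_xy d, hG d h2 hd.le, shapeCoeff, if_pos (Or.inr (Or.inr hd.ne)),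
      if_neg (fun e => by rw [e, degree_single] at h2; omega),
      if_neg (fun e => by rw [e, degree_single] at h2; omega)]
    simp

theorem HasShape.sub_mul_mem {A : Type*} [CommRing A] {h : ℕ} {u : A} {G G' : FormalGroup A}
    (hh : 1 ≤ h) (hG : HasShape p h u G) (hG' : HasShape p h 1 G') :
    G.toPowerSeries - (X 0 + X 1) - C u * (G'.toPowerSeries - (X 0 + X 1)) ∈
      cI (⊥ : Ideal A) (p ^ h + 1) := by
  classical
  intro d hd
  rcases Nat.lt_or_ge d.degree (p ^ h) with hlt | hge
  · exact Ideal.sub_mem _ (hG.sub_lin_mem) (Ideal.mul_mem_left _ _ hG'.sub_lin_mem) d hlt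
  · have h2 : 2 ≤ d.degree := le_trans
      (le_trans hp.1.two_le (Nat.le_self_pow (by omega) p)) hge
    have hz : ∀ i : Fin 2, d ≠ single i 1 := fun i e => by rw [e, degree_single] at h2; omega
    rw [Ideal.mem_bot, map_sub, coeff_C_mul, map_sub, map_sub, map_add, coeff_X, coeff_X,
      if_neg (hz 0), if_neg (hz 1), hG d h2 (by omega), hG' d h2 (by omega)]
    ring

/-- The equation of the coefficient of degree `d`. -/
theorem coeff_pow_eq_of_subst_eq {A : Type*} [CommRing A] [CharP A p] {h : ℕ}
    {ι f : PowerSeries A} (hf : ∀ j, ¬ p ^ h ∣ j → PowerSeries.coeff j f = 0)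
    (hf0 : PowerSeries.constantCoeff f = 0)
    (he : PowerSeries.subst f ι = ι ^ p ^ h) (d : ℕ) :
    PowerSeries.coeff d ι ^ p ^ h = PowerSeries.coeff (p ^ h) f ^ d * PowerSeries.coeff d ι +
      ∑ j ∈ Finset.range d, PowerSeries.coeff j ι * PowerSeries.coeff (p ^ h * d) (f ^ j) := by
  classical
  have : ExpChar A p := ExpChar.prime hp.1
  set P := p ^ h with hP
  have hPpos : 0 < P := pow_pos hp.1.pos h
  have hfP : f ∈ cI (σ := Unit) (⊥ : Ideal A) P := by
    rw [mem_cI_ps]
    intro j hj
    rw [Ideal.mem_bot]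
    rcases Nat.eq_zero_or_pos j with rfl | h0
    · rwa [PowerSeries.coeff_zero_eq_constantCoeff_apply]
    · exact hf j fun hd => absurd (Nat.le_of_dvd h0 hd) (not_le.2 hj)
  have hfj : ∀ j, f ^ j ∈ cI (σ := Unit) (⊥ : Ideal A) (P * j) := fun j => by
    induction j with
    | zero => exact mem_cI_zero
    | succ j ih =>
      rw [pow_succ, Nat.mul_succ]
      exact mul_mem_cI_add ih hfP
  have hlead : ∀ j, PowerSeries.coeff (P * j) (f ^ j) = PowerSeries.coeff P f ^ j := by
    intro j
    induction j with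
    | zero => simp
    | succ j ih =>
      rw [pow_succ f, pow_succ (PowerSeries.coeff P f), PowerSeries.coeff_mul,
        Finset.sum_eq_single (P * j, P)]
      · rw [ih]
      · intro x hx hne
        rw [Finset.HasAntidiagonal.mem_antidiagonal, Nat.mul_succ] at hx
        rcases Nat.lt_or_ge x.1 (P * j) with h1 | h1
        · rw [show PowerSeries.coeff x.1 (f ^ j) = 0 from
            Ideal.mem_bot.1 ((mem_cI_ps.1 (hfj j)) _ h1), zero_mul]
        · rw [show PowerSeries.coeff x.2 f = 0 from Ideal.mem_bot.1 ((mem_cI_ps.1 hfP) _ ?_),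
            mul_zero]
          by_contra h2
          exact hne (Prod.ext (by simp only; omega) (by simp only; omega))
      · intro hne
        exact absurd (Finset.HasAntidiagonal.mem_antidiagonal.2 (Nat.mul_succ P j).symm) hne
  have hl : PowerSeries.coeff (P * d) (ι ^ P) = PowerSeries.coeff d ι ^ P := by
    have h1 := MvPowerSeries.map_iterateFrobenius_expand p hp.1.ne_zero (ι : MvPowerSeries Unit A) h
    have h2 := congrArg (coeff (P • Finsupp.single () d)) h1
    rw [coeff_map, MvPowerSeries.coeff_expand_smul, iterateFrobenius_def, Finsupp.smul_single,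
      smul_eq_mul] at h2
    exact h2.symm
  rw [← hl, ← he, PowerSeries.coeff, coeff_ps_subst_eq_sum (show constantCoeff f = 0 from hf0),
    Finsupp.degree_single, ← Finset.sum_range_add_sum_Ico _ (show d + 1 ≤ P * d + 1 from
      Nat.succ_le_succ (Nat.le_mul_of_pos_left d hPpos))]
  rw [Finset.sum_eq_zero (s := Finset.Ico (d + 1) (P * d + 1)) (fun j hj => ?_), add_zero,
    Finset.sum_range_succ, add_comm]
  · congr 1
    · rw [show coeff (single () (P * d)) (f ^ d) = PowerSeries.coeff (P * d) (f ^ d) from rfl,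
        hlead, mul_comm]
  · have hj' := (Finset.mem_Ico.1 hj).1
    rw [show coeff (single () (P * d)) (f ^ j) = 0 from Ideal.mem_bot.1 (hfj j _ (by
      rw [Finsupp.degree_single]
      exact Nat.mul_lt_mul_of_pos_left (by omega) hPpos)), mul_zero]

/-- The multiplication series of a law with `[p] = X ^ P` turns into the `P`-th power. -/
theorem subst_mulSeries_eq_pow {A : Type*} [CommRing A] {h : ℕ} {G Γ : FormalGroup A}
    (hΓ : mulSeries Γ p = PowerSeries.X ^ p ^ h) {ι : PowerSeries A} (hι : IsHom ι G Γ) :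
    PowerSeries.subst (mulSeries G p) ι = ι ^ p ^ h := by
  have hs : PowerSeries.HasSubst ι := PowerSeries.HasSubst.of_constantCoeff_zero' hι.1
  rw [subst_mulSeries_comm hι p, hΓ, PowerSeries.subst_pow hs, PowerSeries.subst_X hs]

variable {L : Type*} [NormedField L] [IsUltrametricDist L] [CharP L p]

/-- The homomorphism onto the height `h` law, with coefficients in the unit ball. -/
theorem exists_iota [IsAlgClosed L] {h : ℕ} (hh : 1 ≤ h) (G Γ : FormalGroup (unitBall L))
    [G.IsComm] [Γ.IsComm] {u : unitBall L} (hu : (u : L) ≠ 0) (hG : HasShape p h u G)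
    (hΓ : HasShape p h 1 Γ) (hΓp : mulSeries Γ p = PowerSeries.X ^ p ^ h)
    (hdiv : ∀ j, ¬ p ^ h ∣ j → PowerSeries.coeff j (mulSeries G p) = 0)
    (hlead : PowerSeries.coeff (p ^ h) (mulSeries G p) = u) :
    ∃ ι : PowerSeries (unitBall L), IsHom ι G Γ ∧ PowerSeries.coeff 1 ι ^ (p ^ h - 1) = u := by
  classical
  set φ := (unitBall L).subtype
  have hP2 : 2 ≤ p ^ h := hp.1.two_le.trans (Nat.le_self_pow (by omega) p)
  have hΓ' : HasShape p h (1 : L) (Γ.map φ) := by simpa using hΓ.map φ
  have htop : coeff (xy (p ^ (h - 1)) (p ^ h - p ^ (h - 1)))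
      ((Γ.map φ).toPowerSeries - (X 0 + X 1)) ≠ 0 := by
    have hlt : p ^ (h - 1) < p ^ h := Nat.pow_lt_pow_right hp.1.one_lt (by omega)
    have hpos : 0 < p ^ (h - 1) := pow_pos hp.1.pos _
    set e := xy (p ^ (h - 1)) (p ^ h - p ^ (h - 1))
    have hdeg : e.degree = p ^ h := by rw [degree_xy]; omega
    have hz : ∀ i : Fin 2, e ≠ single i 1 := fun i he => by
      rw [he, degree_single] at hdeg; omega
    rw [map_sub, map_add, coeff_X, coeff_X, if_neg (hz 0), if_neg (hz 1),
      hΓ' e (by omega) hdeg.le]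
    have he0 : e 0 = p ^ (h - 1) := by simp [e]
    have he1 : e 1 = p ^ h - p ^ (h - 1) := by simp [e]
    rw [add_zero, sub_zero, one_mul, shapeCoeff, if_neg (by rw [he0, he1]; omega),
      he0, Int.cast_neg, neg_ne_zero, Int.cast_natCast, Ne, CharP.cast_eq_zero_iff L p]
    exact not_dvd_choose_div p hh
  obtain ⟨ιL, hιL, hc1⟩ := exists_hom_to_shape (F := G.map φ) (Γ := Γ.map φ) hh (u := (u : L)) hu
    hΓ'.sub_lin_mem htop ((hG.map φ).sub_mul_mem hh hΓ')
  have hΓpL : mulSeries (Γ.map φ) p = PowerSeries.X ^ p ^ h := by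
    rw [mulSeries_map, hΓp, map_pow, PowerSeries.map_X]
  have heq := subst_mulSeries_eq_pow hΓpL hιL
  rw [mulSeries_map] at heq
  have hint : ∀ d, ‖PowerSeries.coeff d ιL‖ ≤ 1 := by
    intro d
    induction d using Nat.strong_induction_on with
    | _ d ih =>
    have hrec := coeff_pow_eq_of_subst_eq (ι := ιL) (f := (mulSeries G p).map φ)
      (fun j hj => by rw [PowerSeries.coeff_map, hdiv j hj, map_zero])
      (by
        rw [← PowerSeries.coeff_zero_eq_constantCoeff_apply, PowerSeries.coeff_map,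
          PowerSeries.coeff_zero_eq_constantCoeff_apply, constantCoeff_mulSeries, map_zero])
      heq d
    rw [PowerSeries.coeff_map, hlead] at hrec
    by_contra! h1
    have h2 : ‖PowerSeries.coeff d ιL ^ p ^ h‖ ≤ ‖PowerSeries.coeff d ιL‖ := by
      rw [hrec]
      refine (IsUltrametricDist.norm_add_le_max _ _).trans (max_le ?_ ?_)
      · rw [norm_mul, norm_pow]
        exact mul_le_of_le_one_left (norm_nonneg _) (pow_le_one₀ (norm_nonneg _) u.2)
      · refine IsUltrametricDist.norm_sum_le_of_forall_le_of_nonneg (norm_nonneg _) fun j hj => ?_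
        rw [← map_pow, PowerSeries.coeff_map, norm_mul]
        exact (mul_le_one₀ (ih j (Finset.mem_range.1 hj)) (norm_nonneg _)
          (norm_coe_le_one _)).trans h1.le
    rw [norm_pow] at h2
    exact absurd h2 (not_le.2 (lt_self_pow₀ h1 (by omega)))
  let ι : PowerSeries (unitBall L) := PowerSeries.mk fun d => ⟨PowerSeries.coeff d ιL, hint d⟩
  have hmap : ι.map φ = ιL := by
    ext d
    rw [PowerSeries.coeff_map, PowerSeries.coeff_mk]
    rfl
  have hinj : Function.Injective φ := Subtype.val_injective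
  have h0 : PowerSeries.constantCoeff ι = 0 := by
    refine hinj ?_
    rw [← PowerSeries.coeff_zero_eq_constantCoeff_apply, ← PowerSeries.coeff_map, hmap,
      PowerSeries.coeff_zero_eq_constantCoeff_apply, hιL.1, map_zero]
  refine ⟨ι, ⟨h0, MvPowerSeries.ext fun d => hinj ?_⟩, hinj ?_⟩
  · have h2 := hιL.2
    rw [← hmap, FormalGroup.map_toPowerSeries, FormalGroup.map_toPowerSeries] at h2
    rw [← coeff_map, ← coeff_map,
      PowerSeries.map_subst (PowerSeries.HasSubst.of_constantCoeff_zero G.zero_constantCoeff),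
      map_subst (hasSubst_pair (cc_ps h0 cc_X) (cc_ps h0 cc_X)), h2]
    refine congrArg (fun t => coeff d (subst t _)) (funext fun s => ?_)
    fin_cases s <;> simp [PowerSeries.map_subst (PowerSeries.HasSubst.of_constantCoeff_zero cc_X)]
  · rw [map_pow, ← PowerSeries.coeff_map, hmap]
    exact hc1

end Vale.Agent.P217
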