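import Vale.Agent.P217.TwistSub

/-!
# The twist theorem

A series which is small to all orders on the `p`-power multiples of a free subgroup of points of
`Γ^m` vanishes.
-/

noncomputable section

namespace Vale.Agent.P217

open MvPolynomial Filter Topology

set_option linter.unusedSectionVars false

variable {L : Type*} [NormedField L] [IsUltrametricDist L] [CompleteSpace L] [IsAlgClosed L]
  {p h : ℕ} [Fact p.Prime] [CharP L p] {Γ : FormalGroup (unitBall L)} [Γ.IsComm] {m r : ℕ}
  {ι : Type*} [Fintype ι]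

/-- The induction hypothesis on the degree. -/
def Below (p h : ℕ) (Γ : FormalGroup (unitBall L)) [Γ.IsComm] (m r : ℕ) : Prop :=
  ∀ (Λ : AddSubmonoid (Fin m → Pt Γ)) (G : MvPowerSeries (Fin m) L),
    FreeHom (Λ : Set (Fin m → Pt Γ)) → (∃ ρ < (1 : ℝ), ∀ z ∈ Λ, ∀ i, ‖(z i).co‖ ≤ ρ) →
      AV (p ^ h) (Λ : Set (Fin m → Pt Γ)) G →
        ∀ d : Fin m →₀ ℕ, d.degree < r → MvPowerSeries.coeff d G = 0

/-- Invariants of the descent: `a` counts twists, `ys` is the test list. -/
structure St (p h : ℕ) (ρ ε : ℝ) (Λ : AddSubmonoid (Fin m → Pt Γ))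
    (ys : ι → (Fin m → Pt Γ)) (a : Fin m → ℕ) (G : MvPowerSeries (Fin m) L) : Prop where
  free : FreeHom (Λ : Set (Fin m → Pt Γ))
  sup : ∀ z ∈ Λ, ∀ i, ‖(z i).co‖ ≤ ρ
  av : AV (p ^ h) (Λ : Set (Fin m → Pt Γ)) G
  mem : ∀ s, ys s ∈ Λ
  bound : ∀ s i, ‖(ys s i).co‖ ≤ ρ ^ p ^ a i
  lower : ∀ f : Fin m → (Pt Γ →+ Pt Γ), (∀ j, IsSer (f j)) →
    (∃ j, a j = 0 ∧ ∃ c, c ≠ 0 ∧ Lin1 (f j) c) → ∃ s, ε ≤ ‖(∑ j, f j (ys s j)).co‖

theorem frobHom_surjective (hd : HD p h Γ) : Function.Surjective (frobHom hd) := fun x => by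
  obtain ⟨r, hr⟩ := IsAlgClosed.exists_pow_nat_eq x.co (Fact.out : p.Prime).pos
  have hr1 : ‖r‖ < 1 := by
    by_contra hcon
    have h1 := one_le_pow₀ (not_lt.mp hcon) (n := p)
    rw [← norm_pow, hr] at h1
    exact h1.not_gt x.norm_lt
  exact ⟨Pt.mk r hr1, Pt.ext' (by simp [hr])⟩

theorem twist_step (hd : HD p h Γ) {ρ ε : ℝ}
    {Λ : AddSubmonoid (Fin m → Pt Γ)} {ys : ι → (Fin m → Pt Γ)} {a : Fin m → ℕ}
    {G : MvPowerSeries (Fin m) L} (hst : St p h ρ ε Λ ys a G) (J : Finset (Fin m))
    (hG' : AV (p ^ h) (Λ : Set (Fin m → Pt Γ)) (filtSer p J G)) :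
    St p h ρ ε (Λ.map (twistHom hd J)) (fun s => twistHom hd J (ys s))
      (fun i => if i ∈ J then a i + 1 else a i) (shrinkSer p J G) where
  free f hs hne := by
    classical
    set g : Fin m → (Pt Γ →+ Pt Γ) := fun i => if i ∈ J then (f i).comp (frobHom hd) else f i with hg
    have hgs : ∀ i, IsSer (g i) := fun i => by
      simp only [hg]; split_ifs
      · exact (hs i).comp (isSer_frob hd)
      · exact hs i
    have hgne : ∃ i, g i ≠ 0 := by
      obtain ⟨i, hi⟩ := hne
      refine ⟨i, ?_⟩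
      simp only [hg]; split_ifs
      · intro e
        refine hi (AddMonoidHom.ext fun x => ?_)
        obtain ⟨y, rfl⟩ := frobHom_surjective hd x
        exact DFunLike.congr_fun e y
      · exact hi
    obtain ⟨z, hz, hne⟩ := hst.free g hgs hgne
    refine ⟨twistHom hd J z, AddSubmonoid.mem_map_of_mem _ hz, ?_⟩
    rwa [Finset.sum_congr rfl fun i _ => show f i (twistHom hd J z i) = g i (z i) by
      rw [twistHom_apply]; simp only [hg]; split_ifs <;> rfl]
  sup z hz i := by
    obtain ⟨w, hw, rfl⟩ := AddSubmonoid.mem_map.mp hz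
    rw [twistHom_apply]; split_ifs
    · rw [co_frobHom, norm_pow]
      exact (pow_le_of_le_one (norm_nonneg _) (w i).norm_lt.le (Fact.out : p.Prime).ne_zero).trans
        (hst.sup w hw i)
    · exact hst.sup w hw i
  av := hG'.shrinkSer hd
  mem s := AddSubmonoid.mem_map_of_mem _ (hst.mem s)
  bound s i := by
    rw [twistHom_apply]; split_ifs
    · rw [co_frobHom, norm_pow, pow_succ p, pow_mul]
      exact pow_le_pow_left₀ (norm_nonneg _) (hst.bound s i) p
    · exact hst.bound s i
  lower f hs := by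
    classical
    rintro ⟨j, hj, c, hc, hl⟩
    have hjJ : j ∉ J := fun hjJ => by rw [if_pos hjJ] at hj; omega
    rw [if_neg hjJ] at hj
    set g : Fin m → (Pt Γ →+ Pt Γ) := fun i => if i ∈ J then (f i).comp (frobHom hd) else f i with hg
    obtain ⟨s, hs'⟩ := hst.lower g (fun i => by
      simp only [hg]; split_ifs
      · exact (hs i).comp (isSer_frob hd)
      · exact hs i) ⟨j, hj, c, hc, by simp only [hg, if_neg hjJ]; exact hl⟩
    refine ⟨s, hs'.trans (le_of_eq ?_)⟩
    congr 2
    refine Finset.sum_congr rfl fun i _ => ?_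
    rw [twistHom_apply]; simp only [hg]; split_ifs <;> rfl

theorem normalise_step (hd : HD p h Γ) (IH : Below p h Γ m r) {ρ ε : ℝ} (hρ : ρ < 1)
    {Λ : AddSubmonoid (Fin m → Pt Γ)} {ys : ι → (Fin m → Pt Γ)} {a : Fin m → ℕ}
    {G : MvPowerSeries (Fin m) L} (hst : St p h ρ ε Λ ys a G)
    (ζ : Fin m → L) (hζ : ∀ i, ζ i ^ p ^ h = ζ i) (i₀ : Fin m) (hζ₀ : ζ i₀ = 1)
    (hmin : ∀ j, ζ j ≠ 0 → a i₀ ≤ a j) :
    ∃ (Λ' : AddSubmonoid (Fin m → Pt Γ)) (ys' : ι → (Fin m → Pt Γ))
      (G' : MvPowerSeries (Fin m) L), St p h ρ ε Λ' ys' a G' ∧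
      (∀ s j, j ≠ i₀ → ys' s j = ys s j) ∧
      (∀ s, (ys' s i₀) = ∑ j, zetaHom hd (ζ j) (hζ j) (ys s j)) ∧
      ((∀ d : Fin m →₀ ℕ, d.degree = r → (∀ i, a i ≠ 0 → d i = 0) →
          MvPowerSeries.coeff d G' = 0) →
        ∀ d : Fin m →₀ ℕ, d.degree = r → (∀ i, a i ≠ 0 → d i = 0) →
          MvPowerSeries.coeff d G = 0) := by
  classical
  obtain ⟨ng, hngS, hng⟩ := hd.exists_neg
  set Z : Fin m → (Pt Γ →+ Pt Γ) := fun j => zetaHom hd (ζ j) (hζ j) with hZ
  have hZ0 : ∀ x, Z i₀ x = x := fun x => Pt.ext' (by simp [hZ, hζ₀])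
  have hZz : ∀ j, ζ j = 0 → Z j = 0 := fun j hj => AddMonoidHom.ext fun x => Pt.ext' (by
    simp [hZ, hj])
  set Nh : (Fin m → Pt Γ) →+ (Fin m → Pt Γ) := AddMonoidHom.pi fun i =>
    if i = i₀ then ∑ j, (Z j).comp (Pi.evalAddMonoidHom (fun _ => Pt Γ) j)
    else Pi.evalAddMonoidHom (fun _ => Pt Γ) i with hNh
  have hN1 : ∀ z j, j ≠ i₀ → Nh z j = z j := fun z j hj => by simp [hNh, hj]
  have hN0 : ∀ z, Nh z i₀ = z i₀ + ∑ j ∈ Finset.univ.erase i₀, Z j (z j) := fun z => by
    have : Nh z i₀ = ∑ j, Z j (z j) := by simp [hNh, AddMonoidHom.finsetSum_apply]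
    rw [this, ← Finset.add_sum_erase _ _ (Finset.mem_univ i₀), hZ0]
  set T : (Fin m → Pt Γ) → (Fin m → Pt Γ) := fun w i =>
    if i = i₀ then w i₀ + ∑ j ∈ Finset.univ.erase i₀, ng (Z j (w j)) else w i with hT
  have hTN : ∀ z, T (Nh z) = z := fun z => funext fun i => by
    simp only [hT]
    split_ifs with hi
    · subst hi
      rw [hN0, add_assoc, ← Finset.sum_add_distrib]
      refine (congrArg (z i + ·) (Finset.sum_eq_zero fun j hj => ?_)).trans (add_zero _)
      rw [hN1 z j (Finset.ne_of_mem_erase hj)]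
      exact hng _
    · exact hN1 z i hi
  have hTrep : ∀ i, Rep fun w => T w i := fun i => by
    simp only [hT]
    split_ifs
    · refine rep_add (rep_proj i₀) (rep_sum _ (fun j w => ng (Z j (w j))) fun j _ => ?_)
      exact rep_comp (g := fun _ : Unit => fun w : Fin m → Pt Γ => Z j (w j)) hngS fun _ =>
        rep_comp (g := fun _ : Unit => fun w : Fin m → Pt Γ => w j) (isSer_zeta hd _ _) fun _ =>
          rep_proj j
    · exact rep_proj i
  choose S hS0 hS using hTrep
  set G' := pullSer S G with hG'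
  have hav : AV (p ^ h) (Λ.map Nh : Set (Fin m → Pt Γ)) G' := hst.av.pullSer hd Nh hS0 hS hTN
  set β : (Fin m → (Pt Γ →+ Pt Γ)) → Fin m → (Pt Γ →+ Pt Γ) := fun f j =>
    if j = i₀ then f i₀ else f j + (f i₀).comp (Z j) with hβ
  have hβsum : ∀ f z, ∑ j, f j (Nh z j) = ∑ j, β f j (z j) := fun f z => by
    rw [← Finset.add_sum_erase _ _ (Finset.mem_univ i₀),
      ← Finset.add_sum_erase _ (fun j => β f j (z j)) (Finset.mem_univ i₀), hN0, map_add, map_sum,
      add_assoc]
    simp only [hβ, if_pos]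
    congr 1
    rw [← Finset.sum_add_distrib]
    refine Finset.sum_congr rfl fun j hj => ?_
    rw [hN1 z j (Finset.ne_of_mem_erase hj), if_neg (Finset.ne_of_mem_erase hj), add_comm]
    rfl
  have hβs : ∀ f, (∀ j, IsSer (f j)) → ∀ j, IsSer (β f j) := fun f hs j => by
    simp only [hβ]
    split_ifs
    · exact hs i₀
    · exact (hs j).add ((hs i₀).comp (isSer_zeta hd _ _))
  have hfree : FreeHom (Λ.map Nh : Set (Fin m → Pt Γ)) := fun f hs hne => by
    have hne' : ∃ j, β f j ≠ 0 := by
      by_cases h0 : f i₀ = 0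
      · obtain ⟨j, hj⟩ := hne
        have hji : j ≠ i₀ := fun e => hj (e ▸ h0)
        exact ⟨j, by simp [hβ, hji, h0, hj]⟩
      · exact ⟨i₀, by simpa [hβ] using h0⟩
    obtain ⟨z, hz, hzne⟩ := hst.free (β f) (hβs f hs) hne'
    exact ⟨Nh z, AddSubmonoid.mem_map_of_mem _ hz, by rwa [hβsum]⟩
  have hsup : ∀ z ∈ Λ.map Nh, ∀ i, ‖(z i).co‖ ≤ ρ := fun z' hz' i => by
    obtain ⟨z, hz, rfl⟩ := AddSubmonoid.mem_map.mp hz'
    rcases eq_or_ne i i₀ with rfl | hi
    · have : Nh z i = ∑ j, Z j (z j) := by simp [hNh, AddMonoidHom.finsetSum_apply]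
      rw [this]
      exact (co_sum_le _ _ ((norm_nonneg _).trans (hst.sup z hz i)) fun j _ =>
        ((isSer_zeta hd _ _).norm_le (z j)).trans (hst.sup z hz j)).1
    · rw [hN1 z i hi]; exact hst.sup z hz i
  refine ⟨Λ.map Nh, fun s => Nh (ys s), G',
    ⟨hfree, hsup, hav, fun s => AddSubmonoid.mem_map_of_mem _ (hst.mem s), fun s i => ?_,
      fun f hs hex => ?_⟩,
    fun s j hj => hN1 _ j hj, fun s => by simp [hNh, AddMonoidHom.finsetSum_apply, hZ], fun hvan => ?_⟩
  · rcases eq_or_ne i i₀ with rfl | hi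
    · have : Nh (ys s) i = ∑ j, Z j (ys s j) := by simp [hNh, AddMonoidHom.finsetSum_apply]
      rw [this]
      refine (co_sum_le _ _ ((norm_nonneg _).trans (hst.bound s i)) fun j _ => ?_).1
      by_cases hj : ζ j = 0
      · rw [hZz j hj, AddMonoidHom.zero_apply, Pt.co_zero, norm_zero]
        exact (norm_nonneg _).trans (hst.bound s i)
      · refine ((isSer_zeta hd _ _).norm_le _).trans ((hst.bound s j).trans ?_)
        exact pow_le_pow_of_le_one ((norm_nonneg _).trans (hst.sup _ (hst.mem s) i)) hρ.le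
          (Nat.pow_le_pow_right (Fact.out : p.Prime).pos (hmin j hj))
    · rw [hN1 _ i hi]; exact hst.bound s i
  · obtain ⟨j, hj, c, hc, hl⟩ := hex
    obtain ⟨c₀, -, hl₀⟩ := (hs i₀).exists_lin
    have hex' : ∃ j, a j = 0 ∧ ∃ c, c ≠ 0 ∧ Lin1 (β f j) c := by
      by_cases hi : a i₀ = 0 ∧ c₀ ≠ 0
      · exact ⟨i₀, hi.1, c₀, hi.2, by simpa [hβ] using hl₀⟩
      · have hji : j ≠ i₀ := by
          rintro rfl
          exact hi ⟨hj, fun e => hc ((hl.eq hd hl₀).trans e)⟩
        have hz : c₀ * ζ j = 0 := by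
          by_cases h0 : ζ j = 0
          · simp [h0]
          · have := hmin j h0
            have : c₀ = 0 := not_not.mp fun e => hi ⟨by omega, e⟩
            simp [this]
        refine ⟨j, hj, c + c₀ * ζ j, by rw [hz, add_zero]; exact hc, ?_⟩
        simp only [hβ, if_neg hji]
        exact hl.add (hs j) ((hs i₀).comp (isSer_zeta hd _ _))
          (hl₀.comp (isSer_zeta hd _ _) (hl₀.norm_le hd (hs i₀)) (lin1_zeta hd _ _))
    obtain ⟨s, hs'⟩ := hst.lower (β f) (hβs f hs) hex'
    exact ⟨s, by rwa [hβsum]⟩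
  · -- the untwisted part of degree `r` transforms by an invertible linear map
    intro d hdr hdU
    have hρ' : ∃ ρ' < (1 : ℝ), ∀ z ∈ Λ, ∀ i, ‖(z i).co‖ ≤ ρ' := ⟨ρ, hρ, hst.sup⟩
    have hlowG := IH Λ G hst.free hρ' hst.av
    have hlowG' := IH _ G' hfree ⟨ρ, hρ, hsup⟩ hav
    set Q := G.truncTotal (r + 1) with hQ
    set R := G'.truncTotal (r + 1) with hR
    obtain ⟨C, hC, hQC⟩ := exists_coeff_bound Q
    obtain ⟨C', hC', hRC⟩ := exists_coeff_bound
      (R - bind₁ (fun i => (MvPowerSeries.map (unitBall L).subtype (S i)).truncTotal (r + 1)) Q)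
    have homo : ∀ {F : MvPowerSeries (Fin m) L},
        (∀ e : Fin m →₀ ℕ, e.degree < r → MvPowerSeries.coeff e F = 0) →
        ∀ e, (F.truncTotal (r + 1)).coeff e ≠ 0 → e.degree = r := fun {F} hF e he => by
      rw [MvPowerSeries.coeff_truncTotal_eq_ite] at he
      split_ifs at he with hlt
      · exact le_antisymm (Nat.lt_succ_iff.mp hlt) (not_lt.mp fun hl => he (hF e hl))
      · simp at he
    set K := max C C'
    have hK0 : 0 ≤ K := (zero_le_one.trans hC).trans (le_max_left _ _)
    have hlng : Lin1 ng (-1) := fun x => by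
      have h1 := norm_co_add_sub_le x (ng x)
      rw [hng, Pt.co_zero] at h1
      have h2 := h1.trans (pow_le_pow_left₀ (by positivity) (max_le le_rfl (hngS.norm_le x)) 2)
      rw [← norm_neg] at h2
      rw [show (ng x).co - -1 * x.co = -(0 - x.co - (ng x).co) by ring]
      exact h2
    set ell : (Fin m → L) → (Fin m → L) := fun x i =>
      if i = i₀ then x i₀ - ∑ j ∈ Finset.univ.erase i₀, ζ j * x j else x i with hell
    have hellT : ∀ w, ‖coV (T w) - ell (coV w)‖ ≤ ‖coV w‖ ^ 2 := fun w => by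
      refine (pi_norm_le_iff_of_nonneg (sq_nonneg _)).mpr fun i => ?_
      rw [Pi.sub_apply, coV_apply]
      simp only [hT, hell]
      split_ifs with hi
      · have hw : ∀ j, ‖(w j).co‖ ≤ ‖coV w‖ := fun j => norm_le_pi_norm (coV w) j
        have hjb : ∀ j, ‖(ng (Z j (w j))).co‖ ≤ ‖coV w‖ := fun j =>
          (hngS.norm_le _).trans (((isSer_zeta hd _ _).norm_le _).trans (hw j))
        obtain ⟨h1, h2⟩ := co_sum_le (Finset.univ.erase i₀) (fun j => ng (Z j (w j))) (norm_nonneg _)
          fun j _ => hjb j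
        have h3 := (norm_co_add_sub_le (w i₀) (∑ j ∈ Finset.univ.erase i₀, ng (Z j (w j)))).trans
          (pow_le_pow_left₀ (by positivity) (max_le (hw i₀) h1) 2)
        have h4 : ‖∑ j ∈ Finset.univ.erase i₀, ((ng (Z j (w j))).co + ζ j * (w j).co)‖ ≤
            ‖coV w‖ ^ 2 :=
          IsUltrametricDist.norm_sum_le_of_forall_le_of_nonneg (sq_nonneg _) fun j _ => by
            have := (hlng (Z j (w j))).trans (pow_le_pow_left₀ (norm_nonneg _)
              (((isSer_zeta hd _ _).norm_le _).trans (hw j)) 2)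
            simpa [hZ] using this
        rw [Finset.sum_add_distrib] at h4
        refine le_of_eq_of_le (congrArg norm ?_) (ultra_add_le (ultra_add_le h3 h2) h4)
        simp only [coV_apply]; ring
      · simp [coV]
    have hell_smul : ∀ (s : L) x, ell (s • x) = s • ell x := fun s x => funext fun i => by
      simp only [hell, Pi.smul_apply, smul_eq_mul]
      split_ifs
      · rw [mul_sub, Finset.mul_sum]
        congr 1
        exact Finset.sum_congr rfl fun j _ => by ring
      · rfl
    obtain ⟨t, ht0, ht⟩ := hd.exists_t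
    have hzero : ∀ x : Fin m → L, ‖x‖ ≤ 1 → (∀ i, a i ≠ 0 → x i = 0) → eval (ell x) Q = 0 := by
      intro x hx hxU
      have hRx : eval x R = 0 := by
        rw [eval_eq']
        refine Finset.sum_eq_zero fun e he => ?_
        have hne := MvPolynomial.mem_support_iff.mp he
        by_cases heU : ∀ i, a i ≠ 0 → e i = 0
        · refine absurd ?_ hne
          rw [hR, MvPowerSeries.coeff_truncTotal _ (by rw [homo hlowG' e hne]; omega)]
          exact hvan e (homo hlowG' e hne) heU
        · push Not at heU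
          obtain ⟨i, hi, hei⟩ := heU
          exact mul_eq_zero_of_right _ (Finset.prod_eq_zero (Finset.mem_univ i)
            (by rw [hxU i hi, zero_pow hei]))
      refine norm_le_zero_iff.mp ?_ |> fun e => e
      suffices hs : ∀ n : ℕ, ‖eval (ell x) Q - eval x R‖ ≤ K * ‖t ^ (n + 1)‖ by
        rw [hRx] at hs
        simp only [sub_zero] at hs
        rw [eq_zero_of_norm_le_mul ht hs, norm_zero]
      intro n
      set s := t ^ (n + 1) with hs_def
      have hs0 : (0 : ℝ) < ‖s‖ := norm_pos_iff.mpr (pow_ne_zero _ ht0)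
      have hs1 : ‖s‖ < 1 := by rw [hs_def, norm_pow]; exact pow_lt_one₀ (norm_nonneg _) ht (by simp)
      let w : Fin m → Pt Γ := fun i => Pt.mk (s * x i) (by
        rw [norm_mul]
        exact (mul_le_of_le_one_right (norm_nonneg _) ((norm_le_pi_norm x i).trans hx)).trans_lt hs1)
      have hw : coV w = s • x := rfl
      have hws : ‖coV w‖ ≤ ‖s‖ := by
        rw [hw, norm_smul]; exact mul_le_of_le_one_right (norm_nonneg _) hx
      have h1 := eval_bind_sub_le hS (zero_le_one.trans hC) hQC (r + 1) w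
      have h2 := norm_eval_le_pow (zero_le_one.trans hC') hRC (D := r + 1) (fun e he => by
        rw [coeff_sub, hR, MvPowerSeries.coeff_truncTotal _ he, hQ, hG', pullSer,
          coeff_subst_eq_bind (fun i => by rw [MvPowerSeries.constantCoeff_map, hS0, map_zero]) G he,
          sub_self]) (norm_coV_lt w).le
      rw [map_sub] at h2
      have h3 := ultra_add_le (h1.trans (mul_le_mul (le_max_left C C')
        (pow_le_pow_left₀ (norm_nonneg _) hws _) (by positivity) hK0))
        (h2.trans (mul_le_mul (le_max_right C C') (pow_le_pow_left₀ (norm_nonneg _) hws _)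
          (by positivity) hK0))
      set b := s⁻¹ • coV (T w) with hb
      have hTb : coV (T w) = s • b := by rw [hb, smul_inv_smul₀ (pow_ne_zero _ ht0)]
      have hbd : ‖b - ell x‖ ≤ ‖s‖ := by
        have h4 := hellT w
        rw [hw, hell_smul, hTb, ← smul_sub, norm_smul] at h4
        refine le_of_mul_le_mul_left (h4.trans ?_) hs0
        rw [← pow_two]
        exact pow_le_pow_left₀ (norm_nonneg _) (hw ▸ hws) 2
      have hb1 : ‖b‖ ≤ 1 := by
        have h5 : ‖coV (T w)‖ ≤ ‖s‖ := (pi_norm_le_iff_of_nonneg hs0.le).mpr fun i =>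
          (Rep.norm_le ⟨S i, hS0 i, hS i⟩ w).trans hws
        rw [hTb, norm_smul] at h5
        exact le_of_mul_le_mul_left (h5.trans (mul_one _).ge) hs0
      have hel1 : ‖ell x‖ ≤ 1 := (pi_norm_le_iff_of_nonneg zero_le_one).mpr fun i => by
        simpa using ultra_sub_le ((norm_le_pi_norm b i).trans hb1)
          (((norm_le_pi_norm (b - ell x) i).trans hbd).trans hs1.le)
      have hA : ‖eval b Q - eval x R‖ ≤ K * ‖s‖ := by
        rw [add_comm, sub_add_sub_cancel, hTb, hw, eval_smul_of_homogeneous (homo hlowG),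
          eval_smul_of_homogeneous (homo hlowG'), ← mul_sub, norm_mul, norm_pow, norm_sub_rev,
          pow_succ ‖s‖ r, mul_left_comm K] at h3
        exact le_of_mul_le_mul_left h3 (pow_pos hs0 r)
      have hB := (norm_eval_sub_le (zero_le_one.trans hC) hQC hel1 hb1).trans
        (mul_le_mul (le_max_left C C') ((norm_sub_rev _ _).le.trans hbd) (norm_nonneg _) hK0)
      simpa using ultra_add_le hB hA
    have hQzero : Q.coeff d = 0 := by
      refine coeff_eq_zero_of_eval_eq_zero ht0 ht {i | a i = 0} (fun u hu huU => ?_) (fun i hi => hdU i hi)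
      set x : Fin m → L := fun i =>
        if i = i₀ then u i₀ + ∑ j ∈ Finset.univ.erase i₀, ζ j * u j else u i with hx
      have hxU : ∀ i, a i ≠ 0 → x i = 0 := fun i hi => by
        simp only [hx]
        split_ifs with e
        · subst e
          rw [huU i hi, zero_add]
          refine Finset.sum_eq_zero fun j _ => ?_
          by_cases hj : ζ j = 0
          · simp [hj]
          · rw [huU j (by have := hmin j hj; simp; omega), mul_zero]
        · exact huU i hi
      have hx1 : ‖x‖ ≤ 1 := (pi_norm_le_iff_of_nonneg zero_le_one).mpr fun i => by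
        simp only [hx]
        split_ifs
        · refine ultra_add_le ((norm_le_pi_norm u i₀).trans hu)
            (IsUltrametricDist.norm_sum_le_of_forall_le_of_nonneg zero_le_one fun j _ => ?_)
          rw [norm_mul]
          exact mul_le_one₀ (norm_le_one_of_pow_eq hd.two_le (hζ j)) (norm_nonneg _)
            ((norm_le_pi_norm u j).trans hu)
        · exact (norm_le_pi_norm u i).trans hu
      have hxu : ell x = u := funext fun i => by
        simp only [hell]
        split_ifs with e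
        · subst e
          have : ∑ j ∈ Finset.univ.erase i, ζ j * x j = ∑ j ∈ Finset.univ.erase i, ζ j * u j :=
            Finset.sum_congr rfl fun j hj => by simp [hx, Finset.ne_of_mem_erase hj]
          rw [this]; simp [hx]
        · simp [hx, e]
      exact hxu ▸ hzero x hx1 hxU
    rwa [hQ, MvPowerSeries.coeff_truncTotal _ (by omega)] at hQzero

theorem descent (hd : HD p h Γ) (hr : 1 ≤ r) (IH : Below p h Γ m r) {ρ ε : ℝ} (hρ0 : 0 ≤ ρ)
    (hρ : ρ < 1) (hε : 0 < ε) {A : ℕ} (hA : ρ ^ p ^ A < ε) :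
    ∀ (n : ℕ) (Λ : AddSubmonoid (Fin m → Pt Γ)) (ys : ι → (Fin m → Pt Γ)) (a : Fin m → ℕ)
      (G : MvPowerSeries (Fin m) L), St p h ρ ε Λ ys a G →
      (∑ i, (A - a i)) * (m + 1) +
        {i | ‖fun s => (ys s i).co‖ = ‖fun i => ‖fun s => (ys s i).co‖‖}.ncard = n →
      ∀ d : Fin m →₀ ℕ, d.degree = r → (∀ i, a i ≠ 0 → d i = 0) →
        MvPowerSeries.coeff d G = 0 := by
  classical
  intro n
  induction n using Nat.strong_induction_on with
  | _ n ih =>
    intro Λ ys a G hst hn d hdr hdU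
    obtain ⟨i₁, hi₁⟩ : ∃ i, d i ≠ 0 := by
      by_contra hcon
      push Not at hcon
      have : d = 0 := Finsupp.ext hcon
      rw [this, map_zero] at hdr
      omega
    have ha₁ : a i₁ = 0 := not_not.mp fun e => hi₁ (hdU i₁ e)
    set ν : Fin m → ℝ := fun i => ‖fun s => (ys s i).co‖ with hν
    set Y := ‖ν‖ with hY
    have hνY : ∀ i, ν i ≤ Y := fun i => (Real.norm_of_nonneg (norm_nonneg _)).ge.trans (norm_le_pi_norm ν i)
    have hle : ∀ s i, ‖(ys s i).co‖ ≤ Y := fun s i =>
      (norm_le_pi_norm (fun s => (ys s i).co) s).trans (hνY i)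
    have hYρ : Y ≤ ρ := (pi_norm_le_iff_of_nonneg hρ0).mpr fun i => by
      rw [Real.norm_of_nonneg (norm_nonneg _)]
      exact (pi_norm_le_iff_of_nonneg hρ0).mpr fun s => hst.sup _ (hst.mem s) i
    have hεY : ε ≤ Y := by
      obtain ⟨s, hs⟩ := hst.lower (fun j => if j = i₁ then AddMonoidHom.id _ else 0)
        (fun j => by
          split_ifs
          · exact isSer_id
          · exact isSer_zero)
        ⟨i₁, ha₁, 1, one_ne_zero, by rw [if_pos rfl]; exact lin1_id⟩
      rw [Finset.sum_eq_single i₁ (fun j _ hj => by simp [hj]) (by simp)] at hs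
      simp only [if_pos] at hs
      exact hs.trans (hle s i₁)
    have hY0 : 0 < Y := hε.trans_le hεY
    have hY1 : Y < 1 := hYρ.trans_lt hρ
    set J := Finset.univ.filter fun i => ν i = Y with hJ
    have hJcard : {i | ν i = Y}.ncard = J.card := by
      rw [← Set.ncard_coe_finset]; congr 1; ext i; simp [hJ]
    have hlt : ∀ i ∉ J, ∀ s, ‖(ys s i).co‖ < Y := fun i hi s =>
      (norm_le_pi_norm (fun s => (ys s i).co) s).trans_lt
        (lt_of_le_of_ne (hνY i) fun e => hi (Finset.mem_filter.mpr ⟨Finset.mem_univ _, e⟩))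
    have hJne : J.Nonempty := by
      have : Nonempty (Fin m) := ⟨i₁⟩
      obtain ⟨i, -, hi⟩ := Finset.univ.exists_max_image ν Finset.univ_nonempty
      refine ⟨i, Finset.mem_filter.mpr ⟨Finset.mem_univ _, le_antisymm (hνY i) ?_⟩⟩
      exact (pi_norm_le_iff_of_nonneg (norm_nonneg _)).mpr fun j =>
        (Real.norm_of_nonneg (norm_nonneg _)).le.trans (hi j (Finset.mem_univ _))
    have haJ : ∀ i ∈ J, a i < A := fun i hi => by
      by_contra hcon
      have h1 : Y ≤ ρ ^ p ^ a i := (Finset.mem_filter.mp hi).2.ge.trans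
        ((pi_norm_le_iff_of_nonneg (by positivity)).mpr fun s => hst.bound s i)
      have h2 : ρ ^ p ^ a i ≤ ρ ^ p ^ A := pow_le_pow_of_le_one hρ0 hρ.le
        (Nat.pow_le_pow_right (Fact.out : p.Prime).pos (not_lt.mp hcon))
      linarith
    by_cases hind : Indep (p ^ h) J (fun s i => (ys s i).co) Y
    · have hD : ∀ i ∈ J, ∀ F, AV (p ^ h) (Λ : Set (Fin m → Pt Γ)) F →
          AV (p ^ h) (Λ : Set (Fin m → Pt Γ)) (dser i F) := fun i hi F hF =>
        hF.dser hd hst.mem hY0 hY1 hle hlt hind hi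
      by_contra hne
      have hp : ∀ i ∈ J, p ∣ d i := fun i hi => by
        by_contra hdi
        have hd0 : d i ≠ 0 := fun e => hdi (e ▸ dvd_zero p)
        have h1 : d - Finsupp.single i 1 + Finsupp.single i 1 = d :=
          Finsupp.sub_add_single_one_cancel hd0
        have h2 : (d - Finsupp.single i 1).degree < r := by
          have := congrArg Finsupp.degree h1
          rw [map_add, Finsupp.degree_single] at this
          omega
        have h3 := IH Λ (dser i G) hst.free ⟨ρ, hρ, hst.sup⟩ (hD i hi G hst.av) _ h2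
        rw [coeff_dser, h1, mul_eq_zero] at h3
        refine hdi ((CharP.cast_eq_zero_iff L p (d i)).mp ?_)
        have h4 := congrArg (fun e => ((e i : ℕ) : L)) h1
        simp only [Finsupp.add_apply, Finsupp.single_eq_same, Nat.cast_add, Nat.cast_one] at h4
        rw [← h4]
        exact h3.resolve_left hne
      have hst' := twist_step hd hst J (hst.av.filtSer hd hD)
      set d' : Fin m →₀ ℕ := Finsupp.equivFunOnFinite.symm fun i =>
        if i ∈ J then d i / p else d i with hd'
      have hsc : scaleExp p J d' = d := Finsupp.ext fun i => by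
        rw [scaleExp_apply, hd']
        by_cases hi : i ∈ J
        · simp [hi, Nat.mul_div_cancel' (hp i hi)]
        · simp [hi]
      have hco : MvPowerSeries.coeff d' (shrinkSer p J G) = MvPowerSeries.coeff d G := by
        rw [coeff_shrinkSer, hsc]
      by_cases hsupp : ∀ i ∈ J, d i = 0
      · have hdd : d' = d := Finsupp.ext fun i => by
          by_cases hi : i ∈ J <;> simp [hd', hi, hsupp]
        rw [hdd] at hco
        refine hne (hco ▸ ih _ ?_ _ _ _ _ hst' rfl d hdr fun i hi => ?_)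
        · have hsum : (∑ i, (A - (if i ∈ J then a i + 1 else a i))) < ∑ i, (A - a i) := by
            refine Finset.sum_lt_sum (fun i _ => ?_) ?_
            · split_ifs <;> omega
            · obtain ⟨i, hi⟩ := hJne
              exact ⟨i, Finset.mem_univ i, by rw [if_pos hi]; have := haJ i hi; omega⟩
          have hc : ∀ S : Set (Fin m), S.ncard ≤ m := fun S => by
            simpa using Set.ncard_le_card S
          have h5 := Nat.mul_le_mul_right (m + 1) (Nat.succ_le_of_lt hsum)
          rw [Nat.succ_mul] at h5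
          rw [← hn]
          refine lt_of_le_of_lt (Nat.add_le_add_left (hc _) _) ?_
          omega
        · by_cases hiJ : i ∈ J
          · exact hsupp i hiJ
          · rw [if_neg hiJ] at hi; exact hdU i hi
      · push Not at hsupp
        obtain ⟨i, hi, hdi⟩ := hsupp
        have h1 : d'.degree < r := by
          rw [← hdr, Finsupp.degree_eq_sum, Finsupp.degree_eq_sum]
          refine Finset.sum_lt_sum (fun j _ => ?_) ⟨i, Finset.mem_univ i, ?_⟩
          · by_cases hj : j ∈ J <;> simp [hd', hj, Nat.div_le_self]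
          · simp only [hd', Finsupp.equivFunOnFinite_symm_apply_apply, if_pos hi]
            exact Nat.div_lt_self (Nat.pos_of_ne_zero hdi) (Fact.out : p.Prime).one_lt
        exact hne (hco ▸ IH _ _ hst'.free ⟨ρ, hρ, hst'.sup⟩ hst'.av d' h1)
    · simp only [Indep, not_forall, not_exists, not_le] at hind
      obtain ⟨ζ, hζ, hζJ, hζne, hsmall⟩ := hind
      obtain ⟨i₀, hi₀, hmin⟩ := (Finset.univ.filter fun i => ζ i ≠ 0).exists_min_image a (by
        obtain ⟨i, hi⟩ := Function.ne_iff.mp hζne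
        exact ⟨i, by simpa using hi⟩)
      have hz₀ : ζ i₀ ≠ 0 := (Finset.mem_filter.mp hi₀).2
      have hi₀J : i₀ ∈ J := not_not.mp fun e => hz₀ (hζJ i₀ e)
      set η : Fin m → L := fun i => ζ i / ζ i₀ with hη
      have hηfix : ∀ i, η i ^ p ^ h = η i := fun i => by simp [hη, div_pow, hζ]
      have hη0 : η i₀ = 1 := div_self hz₀
      obtain ⟨Λ', ys', G', hst', hys, hys0, hback⟩ := normalise_step hd IH hρ hst η hηfix i₀ hη0
        fun j hj => hmin j (Finset.mem_filter.mpr ⟨Finset.mem_univ _, fun e => hj (by simp [hη, e])⟩)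
      have hnew : ∀ s, ‖(ys' s i₀).co‖ < Y := fun s => by
        rw [hys0]
        have hηJ : ∑ j, η j * (ys s j).co = ∑ j ∈ J, η j * (ys s j).co :=
          (Finset.sum_subset (Finset.subset_univ J) fun j _ hj => by simp [hη, hζJ j hj]).symm
        have h1 : ‖∑ j ∈ J, η j * (ys s j).co‖ < Y := by
          have : ∑ j ∈ J, η j * (ys s j).co = (∑ j ∈ J, ζ j * (ys s j).co) / ζ i₀ := by
            rw [Finset.sum_div]; exact Finset.sum_congr rfl fun j _ => by simp [hη]; ring
          rw [this, norm_div, norm_eq_one_of_pow_eq hd.two_le (hζ i₀) hz₀, div_one]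
          exact hsmall s
        have h2 := (co_sum_le Finset.univ (fun j => zetaHom hd (η j) (hηfix j) (ys s j)) hY0.le
          fun j _ => ((isSer_zeta hd _ _).norm_le _).trans (hle s j)).2
        simp only [co_zetaHom, hηJ] at h2
        have h3 := (IsUltrametricDist.norm_add_le_max _ _).trans_lt
          (max_lt (h2.trans_lt (by nlinarith : Y ^ 2 < Y)) h1)
        simpa using h3
      have hν' : ∀ j, j ≠ i₀ → (fun s => (ys' s j).co) = fun s => (ys s j).co := fun j hj =>
        funext fun s => by rw [hys s j hj]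
      have hν0 : ‖fun s => (ys' s i₀).co‖ < Y := (pi_norm_lt_iff hY0).mpr hnew
      obtain ⟨j₁, hj₁, hj₁0⟩ : ∃ j ∈ J, j ≠ i₀ := by
        by_contra hcon
        push Not at hcon
        have hJ1 : J = {i₀} := Finset.eq_singleton_iff_unique_mem.mpr ⟨hi₀J, hcon⟩
        have : ν i₀ < Y := (pi_norm_lt_iff hY0).mpr fun s => by
          have := hsmall s
          rwa [hJ1, Finset.sum_singleton, norm_mul,
            norm_eq_one_of_pow_eq hd.two_le (hζ i₀) hz₀, one_mul] at this
        exact this.ne (Finset.mem_filter.mp hi₀J).2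
      have hY' : ‖fun i => ‖fun s => (ys' s i).co‖‖ = Y := by
        refine le_antisymm ((pi_norm_le_iff_of_nonneg hY0.le).mpr fun j => ?_) ?_
        · rw [Real.norm_of_nonneg (norm_nonneg _)]
          rcases eq_or_ne j i₀ with rfl | hj
          · exact hν0.le
          · rw [hν' j hj]; exact hνY j
        · have h1 := norm_le_pi_norm (fun i => ‖fun s => (ys' s i).co‖) j₁
          rw [Real.norm_of_nonneg (norm_nonneg _), hν' j₁ hj₁0] at h1
          exact (Finset.mem_filter.mp hj₁).2.ge.trans h1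
      refine hback (fun e he heU => ih _ ?_ Λ' ys' a G' hst' rfl e he heU) d hdr hdU
      rw [← hn, hY']
      refine Nat.add_lt_add_left (Set.ncard_lt_ncard ⟨fun j (hj : _ = Y) => ?_, fun hsub => ?_⟩
        (Set.toFinite _)) _
      · rcases eq_or_ne j i₀ with rfl | hj'
        · exact absurd hj hν0.ne
        · rw [hν' j hj'] at hj; exact hj
      · exact hν0.ne (hsub (Finset.mem_filter.mp hi₀J).2)

/-- **Twist theorem.** A series which is small to every order on the `p`-power multiples of a free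
subgroup of points vanishes. -/
theorem twist_zero {L : Type*} [NormedField L] [IsUltrametricDist L] [CompleteSpace L]
    [IsAlgClosed L] {p : ℕ} [Fact p.Prime] [CharP L p] {h m : ℕ} (hh : 1 ≤ h)
    {Γ : FormalGroup (unitBall L)} [Γ.IsComm]
    (hΓp : mulSeries Γ p = PowerSeries.X ^ p ^ h)
    (hΓF : ∀ d, MvPowerSeries.coeff d Γ.toPowerSeries ^ p = MvPowerSeries.coeff d Γ.toPowerSeries)
    (hζ : ∀ ζ : unitBall L, ζ ^ p ^ h = ζ → IsHom (PowerSeries.C ζ * PowerSeries.X) Γ Γ)
    (Λ : AddSubmonoid (Fin m → Pt Γ)) (hΛ : ∃ ρ < (1 : ℝ), ∀ z ∈ Λ, ∀ i, ‖(z i).co‖ ≤ ρ)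
    (hfree : FreeRows (p ^ h) (Λ : Set (Fin m → Pt Γ)))
    (G : MvPowerSeries (Fin m) L) (hG : AV (p ^ h) (Λ : Set (Fin m → Pt Γ)) G) : G = 0 := by
  classical
  have hG0 : MvPowerSeries.constantCoeff G = 0 := by
    obtain ⟨k, C, hC⟩ := hG 1
    have h1 := hC 0 Λ.zero_mem
    have e : (fun i : Fin m => ((0 : Fin m → Pt Γ) i).co ^ (p ^ h) ^ k) = 0 := funext fun i => by
      simp [(Fact.out : p.Prime).ne_zero]
    rw [e, norm_zero, pow_one, mul_zero, norm_le_zero_iff, MvPolynomial.eval_zero,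
      MvPowerSeries.constantCoeff_truncTotal_eq_ite, if_pos one_pos] at h1
    exact h1
  rcases eq_or_ne m 0 with hm | hm
  · subst hm
    ext d
    rw [Subsingleton.elim d 0, map_zero, MvPowerSeries.coeff_zero_eq_constantCoeff_apply]
    exact hG0
  obtain ⟨t, ht0, ht⟩ : ∃ t : L, t ≠ 0 ∧ ‖t‖ < 1 := by
    let α : Fin m → PowerSeries (unitBall L) := fun j =>
      if j = ⟨0, Nat.pos_of_ne_zero hm⟩ then PowerSeries.X else 0
    have hX : IsHom (PowerSeries.X : PowerSeries (unitBall L)) Γ Γ := by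
      have := hζ 1 (one_pow _)
      simpa using this
    have hz : IsHom (0 : PowerSeries (unitBall L)) Γ Γ := by
      have := hζ 0 (zero_pow (pow_ne_zero h (Fact.out : p.Prime).ne_zero))
      simpa using this
    obtain ⟨z, -, hne⟩ := hfree α (fun j => by simp only [α]; split_ifs <;> assumption)
      (fun j i => by
        simp only [α]
        split_ifs
        · rw [PowerSeries.coeff_X]; split_ifs <;> simp [(Fact.out : p.Prime).ne_zero]
        · simp [(Fact.out : p.Prime).ne_zero])
      ⟨⟨0, Nat.pos_of_ne_zero hm⟩, by simp [α]⟩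
    by_contra hcon
    push Not at hcon
    refine hne (Finset.sum_eq_zero fun j _ => Pt.ext' ?_)
    by_contra h0
    exact absurd (Pt.norm_lt _) (hcon _ h0).not_gt
  have hd : HD p h Γ := ⟨hh, hΓp, hΓF, hζ, t, ht0, ht⟩
  suffices hall : ∀ r, Below p h Γ m r by
    ext d
    rw [map_zero]
    exact hall (d.degree + 1) Λ G (hfree.freeHom hd) hΛ hG d (Nat.lt_succ_self _)
  intro r
  induction r with
  | zero => intro _ _ _ _ _ d hdd; omega
  | succ r IH =>
    intro Λ' G' hf hsup hav d hdd
    rcases (Nat.lt_succ_iff.mp hdd).lt_or_eq with hlt | heq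
    · exact IH Λ' G' hf hsup hav d hlt
    rcases Nat.eq_zero_or_pos r with hr0 | hr0
    · obtain rfl : d = 0 := (Finsupp.degree_eq_zero_iff d).mp (heq.trans hr0)
      obtain ⟨k, C, -, hb⟩ := hav.exists_bound hd 1
      have h1 := hb 0 Λ'.zero_mem
      rw [smul_zero, show coV (0 : Fin m → Pt Γ) = 0 from rfl, norm_zero, pow_one, mul_zero,
        norm_le_zero_iff, MvPolynomial.eval_zero, MvPowerSeries.constantCoeff_truncTotal_eq_ite,
        if_pos one_pos] at h1
      exact h1
    obtain ⟨ρ, hρ, hρb⟩ := hsup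
    obtain ⟨T, hT, ε, hε, hlist⟩ := exists_list hd hf
    obtain ⟨A, hA⟩ := exists_pow_lt_of_lt_one hε (max_lt hρ (zero_lt_one : (0 : ℝ) < 1))
    have hρ1 : max ρ 0 < 1 := max_lt hρ zero_lt_one
    have hA' : max ρ 0 ^ p ^ A < ε :=
      (pow_le_pow_of_le_one (le_max_right _ _) hρ1.le
        (Nat.lt_pow_self (Fact.out : p.Prime).one_lt).le).trans_lt hA
    refine descent (ι := T) hd hr0 IH (le_max_right ρ 0) hρ1 hε hA' _ Λ' (fun s => s.1) (fun _ => 0)
      G' ⟨hf, fun z hz i => (hρb z hz i).trans (le_max_left _ _), hav, fun s => hT s.2,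
        fun s i => by
          rw [pow_zero, pow_one]; exact (hρb _ (hT s.2) i).trans (le_max_left _ _),
        fun f hs hl => ?_⟩ rfl d heq fun i hi => absurd rfl hi
    obtain ⟨j, -, c, hc, hl⟩ := hl
    obtain ⟨z, hz, hzn⟩ := hlist f hs ⟨j, c, hc, hl⟩
    exact ⟨⟨z, hz⟩, hzn⟩

end Vale.Agent.P217
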