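import Vale.Agent.P217.PrimeClass
import Vale.Agent.P217.IotaPoint
import Vale.Agent.P217.IotaEta
import Vale.Agent.P217.HondaLaw
import Vale.Agent.P217.FreeTate
import Vale.Agent.P217.Action
import Vale.Agent.P217.Twist

/-!
# The data attached to a tilt point of the stratum `h`
-/

noncomputable section

namespace Vale.Agent.P217

set_option linter.unusedSectionVars false

open Filter Topology MvPowerSeries

variable {p : ℕ} [hp : Fact p.Prime] {n : ℕ} {k : Type} [Field k] [CharP k p] [Finite k]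

instance Source.fibre_isComm {T : Type*} [CommRing T] [UniformSpace T] [IsUniformAddGroup T]
    [IsTopologicalRing T] [CompleteSpace T] [T2Space T] [IsLinearTopology T T]
    (S : Source p n k T) (F : FormalGroup (E0 p n k)) [F.IsComm] : (S.fibre F).IsComm :=
  inferInstanceAs ((special p n k F).map S.kT).IsComm

section Setup

variable {T : Type*} [CommRing T] [UniformSpace T] [IsUniformAddGroup T] [IsTopologicalRing T]
  [CompleteSpace T] [T2Space T] [IsLinearTopology T T] {O : Type*} [CommRing O] [UniformSpace O]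
  [IsUniformAddGroup O] [IsTopologicalRing O] [CompleteSpace O] [T2Space O] [IsLinearTopology O O]
  {S : Source p n k T} (E : Target S O) (F : FormalGroup (E0 p n k)) [F.IsComm] (hn : 1 ≤ n)
  (hF : mulSeries (special p n k F) p = PowerSeries.X ^ p ^ n) (π : E0 p n k →+* O)
  (hπ : E.IsPointOf π)

instance Target.setup_Γ_isComm : (E.setup F hn hF π hπ).Γ.IsComm :=
  inferInstanceAs ((special p n k F).map S.kT).IsComm

instance Target.setup_G_isComm : (E.setup F hn hF π hπ).G.IsComm :=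
  inferInstanceAs (F.map π).IsComm

end Setup

/-- The height `h` Honda law over the tilt. -/
def hondaTilt (p : ℕ) [Fact p.Prime] (h : ℕ) : FormalGroup (unitBall (Tilt p)) :=
  (intLaw p h).map (Int.castRingHom (unitBall (Tilt p)))

instance hondaTilt_isComm (h : ℕ) : (hondaTilt p h).IsComm :=
  inferInstanceAs ((intLaw p h).map (Int.castRingHom (unitBall (Tilt p)))).IsComm

theorem honda_hondaTilt {h : ℕ} (hh : 1 ≤ h) : Honda h (hondaTilt p h) := honda_intLaw hh

theorem hasShape_hondaTilt {h : ℕ} (hh : 1 ≤ h) : HasShape p h 1 (hondaTilt p h) := by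
  obtain ⟨F', -, hF'⟩ := exists_hazewinkel p h (ZMod p)
  have h1 := (hasShape_special hF' hh).map (ZMod.castHom dvd_rfl (unitBall (Tilt p)))
  rw [map_one, special_eq_intLaw (ZMod p) hF'] at h1
  convert h1 using 1
  rw [hondaTilt]
  ext1
  simp only [FormalGroup.map_toPowerSeries]
  rw [RingHom.ext_int (Int.castRingHom (unitBall (Tilt p)))
    ((ZMod.castHom dvd_rfl (unitBall (Tilt p))).comp (Int.castRingHom (ZMod p))),
    MvPowerSeries.map_comp, RingHom.comp_apply]

/-- A tilt point of the stratum `h` with its congruence radius, homomorphism to the height `h`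
Honda law and Tate vectors. -/
structure TiltData (F : FormalGroup (E0 p n k)) [F.IsComm] (hn : 1 ≤ n)
    (hF : IsHazewinkel p n k F) (hk : Nat.card k = p ^ n) (h : ℕ)
    (π : E0 p n k →+* unitBall (Tilt p)) where
  /-- The residue field in the tilt. -/
  κ : k →+* unitBall (Tilt p)
  hκ : ∀ c, κ (WittVector.constantCoeff c) = π (C c)
  /-- The radius of congruence. -/
  ϖ : unitBall (Tilt p)
  h0 : (ϖ : Tilt p) ≠ 0
  h1 : ‖(ϖ : Tilt p)‖ < 1
  rad : ∀ f, res p n k f = 0 → π f ∈ normIdeal ϖ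
  point : (tiltTarget (tiltSource hk κ) ϖ h0 h1).IsPointOf π
  /-- The homomorphism to the Honda law of height `h`. -/
  iota : PowerSeries (unitBall (Tilt p))
  iota_hom : IsHom iota (F.map π) (hondaTilt p h)
  iota_lin : PowerSeries.coeff 1 iota ≠ 0
  level : Level (tiltTarget (tiltSource hk κ) ϖ h0 h1) F π h
  /-- The Tate vectors. -/
  x : Fin (n - h) → unitBall (Tilt p)
  tate : TateBasis ((tiltTarget (tiltSource hk κ) ϖ h0 h1).setup F hn
    (mulSeries_special p n k hn hF) π point) x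

variable {F : FormalGroup (E0 p n k)} [F.IsComm] {hn : 1 ≤ n} {hF : IsHazewinkel p n k F}
  {hk : Nat.card k = p ^ n} {h : ℕ} {π : E0 p n k →+* unitBall (Tilt p)}

theorem exists_tiltData (hn : 1 ≤ n) (hF : IsHazewinkel p n k F) (hk : Nat.card k = p ^ n)
    (hh1 : 1 ≤ h) (hhn : h < n) (hπ : ∀ f, res p n k f = 0 → ‖(π f : Tilt p)‖ < 1)
    (hker : ∀ i < h, π (uE p n k i) = 0) (hu : π (uE p n k h) ≠ 0) :
    Nonempty (TiltData F hn hF hk h π) := by
  obtain ⟨κ, hκ⟩ := exists_kHom π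
  obtain ⟨w, hw⟩ := Tilt.exists_coeff (p : ℂ_[p]) 0
  have hwn : ‖w‖ = ‖(p : ℂ_[p])‖ := by rw [Tilt.norm_def, hw]
  have hw1 : ‖w‖ < 1 := by rw [hwn]; exact Tilt.tau_lt_one p
  have hw0 : w ≠ 0 := by rw [← norm_pos_iff, hwn]; exact Tilt.tau_pos p
  obtain ⟨ϖ, h0, h1, -, hrad⟩ := exists_radius π hπ ⟨w, hw1.le⟩ hw0 hw1
  have hpt := isPointOf_tilt hk π κ hκ ϖ h0 h1 hrad
  have hl : Level (tiltTarget (tiltSource hk κ) ϖ h0 h1) F π h :=
    level_of_point hF hhn.le hker hu
      ⟨ϖ, h0, h1, (span_singleton_eq_normIdeal h0).symm⟩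
  have hkill : ∀ x ∈ hIdeal p n k h, π x = 0 := fun x hx => map_eq_zero_of_mem_hIdeal π hker hx
  obtain ⟨ι, hι, hι1⟩ := exists_iota hh1 (F.map π) (hondaTilt p h)
    (u := π (uE p n k h)) (fun e => hu (Subtype.ext e))
    (hasShape_of_kill hF hh1 hhn.le π hkill) (hasShape_hondaTilt hh1) (honda_hondaTilt hh1).mul
    (fun j hj => by rw [mulSeries_map, PowerSeries.coeff_map]; exact hl.div j hj)
    (by
      rw [mulSeries_map, PowerSeries.coeff_map, ← sub_eq_zero, ← map_sub]
      exact hkill _ (coeff_mulSeries_sub_uE_mem p n k hF hhn.le))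
  have hlin : PowerSeries.coeff 1 ι ≠ 0 := fun e => hu (by
    have hP := Nat.pow_le_pow_right hp.1.pos hh1
    have := hp.1.two_le
    rw [← hι1, e, zero_pow (by rw [pow_one] at hP; omega)])
  obtain ⟨x, hx⟩ := Target.exists_tateBasis hn (mulSeries_special p n k hn hF) hpt hl
    (tiltTarget_lifts hk κ ϖ h0 h1 F hn (mulSeries_special p n k hn hF) hpt)
  exact ⟨⟨κ, hκ, ϖ, h0, h1, hrad, hpt, ι, hι, hlin, hl, x, hx⟩⟩

namespace TiltData

variable (d : TiltData F hn hF hk h π)

/-- The source. -/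
abbrev src : Source p n k (unitBall (Tilt p)) := tiltSource hk d.κ

/-- The target. -/
abbrev tgt : Target d.src (unitBall (Tilt p)) := tiltTarget (tiltSource hk d.κ) d.ϖ d.h0 d.h1

/-- The setup of the point. -/
abbrev setup : Setup (p ^ n) (unitBall (Tilt p)) (unitBall (Tilt p)) :=
  d.tgt.setup F hn (mulSeries_special p n k hn hF) π d.point

/-- The composite of `theta` and the homomorphism to the Honda law. -/
abbrev eta : Pt d.setup.Γ →+ Pt (hondaTilt p h) := etaHom d.setup d.iota_hom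

/-- The Tate vectors as points. -/
abbrev vec (j : Fin (n - h)) : Pt d.setup.Γ := Pt.ofNilp d.setup.Γ (d.x j) (d.tate.nilp j)

theorem honda_source : Honda n d.setup.Γ := honda_special hn k hF d.κ

/-- The rows of `Λ` are free. -/
theorem freeRows (hh1 : 1 ≤ h) (hhn : h < n) (Λ : Set (Fin (n - h) → Pt (hondaTilt p h)))
    (hΛ : ∀ (z : Tilt p) (hz : z ^ p ^ n = z), ∀ t < n,
      (fun j => d.eta (d.honda_source.fmul hz (Pt.powp t (d.vec j)))) ∈ Λ) :
    FreeRows (p ^ h) Λ := by
  have hc : 0 < ‖((PowerSeries.coeff 1 d.iota : unitBall (Tilt p)) : Tilt p)‖ :=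
    norm_pos_iff.mpr fun e => d.iota_lin (Subtype.ext e)
  refine freeRows_of_approx (by omega) d.honda_source (honda_hondaTilt hh1) d.eta d.iota
    d.iota_hom.1 (r := ‖(d.ϖ : Tilt p)‖) d.h1
    (fun y => norm_etaHom_sub_le (D := d.setup) (hι := d.iota_hom) (fun x hx => hx) y)
    (pow_pos hc 2) (fun z hz => exists_etaHom_eq (D := d.setup) (hι := d.iota_hom)
      (fun t ht => exists_theta_eq hn (mulSeries_special p n k hn hF) d.point d.level
        (tiltTarget_lifts hk d.κ d.ϖ d.h0 d.h1 F hn (mulSeries_special p n k hn hF) d.point) ht)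
      hz) d.vec ?_ Λ hΛ
  exact TateBasis.indep_small d.setup (mulSeries_map F π p) d.tate

/-- Every point of the image of `eta` is uniformly small at the Tate vectors. -/
theorem norm_eta_le (y : Pt d.setup.Γ) : ‖(d.eta y).co‖ ≤ max ‖y.co‖ ‖(d.ϖ : Tilt p)‖ := by
  set r := max ‖y.co‖ ‖(d.ϖ : Tilt p)‖
  have hr : 0 < r := (norm_pos_iff.mpr d.h0).trans_le (le_max_right _ _)
  have h1 : d.setup.theta y.1 ∈ ballIdeal (K := Tilt p) (norm_nonneg (d.ϖ : Tilt p)) ⊔
      ballIdeal (norm_nonneg y.co) := by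
    rw [← sub_add_cancel (d.setup.theta y.1) (d.setup.sharp y.1)]
    exact Submodule.add_mem_sup (d.setup.theta_sub_sharp_mem y.2) ((mem_ballIdeal _).2 le_rfl)
  have h2 : d.setup.theta y.1 ∈ ballIdeal (K := Tilt p) hr.le := by
    refine (sup_le ?_ ?_ : _ ≤ ballIdeal (K := Tilt p) hr.le) h1
    · exact fun x hx => (mem_ballIdeal _).2 (((mem_ballIdeal _).1 hx).trans (le_max_right _ _))
    · exact fun x hx => (mem_ballIdeal _).2 (((mem_ballIdeal _).1 hx).trans (le_max_left _ _))
  exact fapp_mem (isOpen_ballIdeal hr) (d.setup.nilp_theta y.2) d.iota_hom.1 h2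

end TiltData

/-- A series approximately vanishing on a free `Λ` vanishes. -/
theorem eq_zero_of_chart {h m : ℕ} (hh : 1 ≤ h)
    (Λ : AddSubmonoid (Fin m → Pt (hondaTilt p h)))
    (hbd : ∃ ρ < (1 : ℝ), ∀ z ∈ Λ, ∀ i, ‖(z i).co‖ ≤ ρ)
    (hfree : FreeRows (p ^ h) (Λ : Set (Fin m → Pt (hondaTilt p h))))
    {Φ : Fin m → MvPowerSeries (Fin m) (Tilt p)} (hΦ : ∀ j, constantCoeff (Φ j) = 0)
    {f : MvPowerSeries (Fin m) (Tilt p)}
    (hG : ∃ G, subst Φ G = f ∧ AV (p ^ h) (Λ : Set (Fin m → Pt (hondaTilt p h))) G) : f = 0 := by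
  obtain ⟨G, rfl, hAV⟩ := hG
  have H := honda_hondaTilt (p := p) hh
  rw [twist_zero hh H.mul H.frob H.zeta Λ hbd hfree G hAV,
    ← substAlgHom_apply (hasSubst_of_constantCoeff_zero hΦ), map_zero]

end Vale.Agent.P217
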