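import Vale.Agent.P217.Action
import Vale.Agent.P217.HondaLaw
import Vale.Agent.P217.Point
import Vale.Agent.P217.TiltData

/-!
# Moved points and the lattice of endomorphism values

At a point of stratum `h` over the tilt, a homomorphism `ι₀` onto a height `h` law turns `theta`
into `η`.  High `p`-power multiples of the values `η (c x_j)`, `c` an endomorphism of the special
fibre, are values at `theta` of nearby moved points of homomorphisms close to `ι₀`.
-/

noncomputable section

namespace Vale.Agent.P217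

open Filter Topology

set_option linter.style.haveILetI false
set_option linter.unusedSectionVars false

variable {p : ℕ} [hp : Fact p.Prime] {n h m : ℕ} {k : Type} [Field k] [CharP k p] [Finite k]

/-! ### Endomorphisms acting on points -/

section Act

variable {O : Type*} [CommRing O] [UniformSpace O] [IsUniformAddGroup O] [IsTopologicalRing O]
  [CompleteSpace O] [T2Space O] [IsLinearTopology O O]

theorem map_constantCoeff_zero {A B : Type*} [CommRing A] [CommRing B] (φ : A →+* B)
    {a : PowerSeries A} (ha : PowerSeries.constantCoeff a = 0) :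
    PowerSeries.constantCoeff (PowerSeries.map φ a) = 0 := by
  rw [← PowerSeries.coeff_zero_eq_constantCoeff_apply, PowerSeries.coeff_map,
    PowerSeries.coeff_zero_eq_constantCoeff_apply, ha, map_zero]

theorem fapp_adj (Γ : FormalGroup O) {a b : PowerSeries O}
    (ha : PowerSeries.constantCoeff a = 0) (hb : PowerSeries.constantCoeff b = 0) {y : O}
    (hy : IsTopologicallyNilpotent y) : fapp (adj Γ a b) y = fadd Γ (fapp a y) (fapp b y) := by
  rw [fapp, ev1, adj, ev_subst (hasSubst_pair ha hb) (hasEval1 hy), fadd]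
  congr 1
  funext s
  fin_cases s <;> rfl

theorem map_adj {A B : Type*} [CommRing A] [CommRing B] (φ : A →+* B) (Γ : FormalGroup A)
    {a b : PowerSeries A} (ha : PowerSeries.constantCoeff a = 0)
    (hb : PowerSeries.constantCoeff b = 0) :
    PowerSeries.map φ (adj Γ a b) = adj (Γ.map φ) (PowerSeries.map φ a) (PowerSeries.map φ b) := by
  rw [adj, adj, FormalGroup.map_toPowerSeries]
  change MvPowerSeries.map φ _ = _
  rw [MvPowerSeries.map_subst (hasSubst_pair ha hb)]
  congr 1
  funext s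
  fin_cases s <;> rfl

theorem fapp_zero_series {y : O} (hy : IsTopologicallyNilpotent y) :
    fapp (0 : PowerSeries O) y = 0 :=
  ev_zero (hasEval1 hy)

theorem fapp_pow (a : PowerSeries O) {y : O} (hy : IsTopologicallyNilpotent y) (i : ℕ) :
    fapp (a ^ i) y = fapp a y ^ i :=
  ev_pow (hasEval1 hy) a i

end Act

variable {S : Source p n k (unitBall (Tilt p))} {F : FormalGroup (E0 p n k)} [F.IsComm]
  {Γh : FormalGroup (unitBall (Tilt p))} [Γh.IsComm]

/-- The value at a point of an endomorphism of the special fibre. -/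
def endApp (S : Source p n k (unitBall (Tilt p))) {F : FormalGroup (E0 p n k)} {c : PowerSeries k}
    (hc : IsHom c (special p n k F) (special p n k F)) (y : Pt (S.fibre F)) : Pt (S.fibre F) :=
  sapp (PowerSeries.map S.kT c) (map_constantCoeff_zero _ hc.1) y

theorem co_endApp {c : PowerSeries k} (hc : IsHom c (special p n k F) (special p n k F))
    (y : Pt (S.fibre F)) : (endApp S hc y).1 = fapp (PowerSeries.map S.kT c) y.1 := rfl

/-- The values `(η (c x_j))_j`, `c` running through the endomorphisms of the special fibre. -/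
def endLattice (η : Pt (S.fibre F) →+ Pt Γh) (x : Fin m → Pt (S.fibre F)) :
    AddSubmonoid (Fin m → Pt Γh) where
  carrier := {z | ∃ (c : PowerSeries k) (hc : IsHom c (special p n k F) (special p n k F)),
    z = fun j => η (endApp S hc (x j))}
  zero_mem' := by
    refine ⟨mulSeries (special p n k F) 0, mulSeries_hom _ 0, funext fun j => ?_⟩
    have h0 : endApp S (mulSeries_hom (special p n k F) 0) (x j) = 0 := Subtype.ext (by
      rw [co_endApp, mulSeries, map_zero, fapp_zero_series (x j).2]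
      rfl)
    rw [h0, map_zero]
    rfl
  add_mem' := by
    rintro _ _ ⟨a, ha, rfl⟩ ⟨b, hb, rfl⟩
    refine ⟨adj (special p n k F) a b, ha.add hb, funext fun j => ?_⟩
    rw [Pi.add_apply, ← map_add]
    refine congrArg η (Subtype.ext ?_)
    rw [co_endApp, Pt.add_def, co_endApp, co_endApp, map_adj _ _ ha.1 hb.1,
      fapp_adj _ (map_constantCoeff_zero _ ha.1) (map_constantCoeff_zero _ hb.1) (x j).2]
    rfl

theorem mem_endLattice {η : Pt (S.fibre F) →+ Pt Γh} {x : Fin m → Pt (S.fibre F)}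
    {z : Fin m → Pt Γh} : z ∈ endLattice η x ↔
      ∃ (c : PowerSeries k) (hc : IsHom c (special p n k F) (special p n k F)),
        z = fun j => η (endApp S hc (x j)) := Iff.rfl

/-- `η (ζ x_j^(p^t))` lies in the lattice. -/
theorem fmul_powp_mem_endLattice (hn : 1 ≤ n) (hF : IsHazewinkel p n k F)
    (hk : Nat.card k = p ^ n) (hΓn : Honda n (S.fibre F)) (η : Pt (S.fibre F) →+ Pt Γh)
    (x : Fin m → Pt (S.fibre F)) {z : Tilt p} (hz : z ^ p ^ n = z) (t : ℕ) :
    (fun j => η (hΓn.fmul hz (Pt.powp t (x j)))) ∈ endLattice η x := by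
  obtain ⟨a, ha⟩ := exists_eq_of_fixed hn hk ((unitBall (Tilt p)).subtype.comp S.kT) hz
  have h1 := isHom_X_pow p (F := special p n k F) (fun d => coeff_special_pow p n k hF d) t
  have h2 := isHom_C_mul_X p n k hn hF hk a
  refine ⟨_, h1.comp h2, funext fun j => congrArg η (Subtype.ext (Subtype.ext ?_))⟩
  have hy := (x j).2
  have hpow : IsTopologicallyNilpotent (fapp (PowerSeries.map S.kT (PowerSeries.X ^ p ^ t)) (x j).1) :=
    isTopologicallyNilpotent_fapp (map_constantCoeff_zero _ h1.1) hy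
  change z * (x j).co ^ p ^ t = _
  rw [co_endApp, ps_map_subst _ h1.1, fapp_subst (map_constantCoeff_zero _ h1.1) hy, map_mul,
    PowerSeries.map_C, PowerSeries.map_X]
  rw [fapp, ev1, ev_mul (hasEval1 hpow)]
  rw [show ev (RingHom.id _) (fun _ : Unit => fapp (PowerSeries.map S.kT (PowerSeries.X ^ p ^ t))
      (x j).1) (PowerSeries.C (S.kT a) : PowerSeries _) = S.kT a from ev_C (φ := RingHom.id _) _,
    show ev (RingHom.id _) (fun _ : Unit => fapp (PowerSeries.map S.kT (PowerSeries.X ^ p ^ t))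
      (x j).1) (PowerSeries.X : PowerSeries _) = _ from fapp_X,
    map_pow, PowerSeries.map_X, fapp_pow _ hy, fapp_X, ← ha]
  rfl

variable {ϖ : unitBall (Tilt p)} {h0 : (ϖ : Tilt p) ≠ 0} {h1 : ‖(ϖ : Tilt p)‖ < 1}
  {hn : 1 ≤ n} {hF' : mulSeries (special p n k F) p = PowerSeries.X ^ p ^ n}
  {π : E0 p n k →+* unitBall (Tilt p)} {hπ : (tiltTarget S ϖ h0 h1).IsPointOf π}
  {ι₀ : PowerSeries (unitBall (Tilt p))} {η : Pt (S.fibre F) →+ Pt Γh}

/-- The lattice lies in a smaller disc. -/
theorem endLattice_bound (hι0 : PowerSeries.constantCoeff ι₀ = 0)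
    (hη : ∀ y, (η y).1 = fapp ι₀ (((tiltTarget S ϖ h0 h1).setup F hn hF' π hπ).theta y.1))
    (x : Fin m → Pt (S.fibre F)) :
    ∃ ρ < (1 : ℝ), ∀ z ∈ endLattice η x, ∀ i, ‖(z i).co‖ ≤ ρ := by
  set D := (tiltTarget S ϖ h0 h1).setup F hn hF' π hπ
  set ρ := max ‖(ϖ : Tilt p)‖ ‖fun j => (x j).co‖ with hρdef
  have hρ : 0 < ρ := (norm_pos_iff.mpr h0).trans_le (le_max_left _ _)
  refine ⟨ρ, max_lt h1 ((pi_norm_lt_iff zero_lt_one).mpr fun j => (x j).norm_lt), ?_⟩
  rintro _ ⟨c, hc, rfl⟩ i
  have hopen : IsOpen (ballIdeal (K := Tilt p) hρ.le : Set (unitBall (Tilt p))) :=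
    isOpen_ballIdeal hρ
  have hx : (x i).1 ∈ ballIdeal (K := Tilt p) hρ.le :=
    (norm_le_pi_norm (fun j => (x j).co) i).trans (le_max_right _ _)
  have hy : (endApp S hc (x i)).1 ∈ ballIdeal (K := Tilt p) hρ.le :=
    fapp_mem hopen (x i).2 (map_constantCoeff_zero _ hc.1) hx
  have ht : D.theta (endApp S hc (x i)).1 ∈ ballIdeal (K := Tilt p) hρ.le := by
    have h2 : D.theta (endApp S hc (x i)).1 - (endApp S hc (x i)).1 ∈
        ballIdeal (K := Tilt p) hρ.le :=
      (mem_ballIdeal _).mpr ((mem_normIdeal.mp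
        (D.theta_sub_sharp_mem (endApp S hc (x i)).2)).trans (le_max_left _ _))
    simpa using Ideal.add_mem _ h2 hy
  show (η (endApp S hc (x i))).1 ∈ ballIdeal (K := Tilt p) hρ.le
  rw [hη]
  exact fapp_mem hopen (D.nilp_theta (endApp S hc (x i)).2) hι0 ht

/-- High multiples in the lattice are values at `theta` of nearby moved points. -/
theorem exists_moved (hF : IsHazewinkel p n k F) (hΓn : Honda n (S.fibre F))
    (hΓh : Honda h Γh) (hι0 : IsHom ι₀ (F.map π) Γh)
    (hη : ∀ y, (η y).1 = fapp ι₀ (((tiltTarget S ϖ h0 h1).setup F hn hF' π hπ).theta y.1))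
    (x : Fin m → Pt (S.fibre F))
    (hx : ∀ j, ((tiltTarget S ϖ h0 h1).setup F hn hF' π hπ).theta (x j).1 = 0) (N s : ℕ) :
    ∃ k₀, ∀ l ≥ k₀, ∀ z ∈ endLattice η x,
      ∃ (g : PowerSeries k) (α : E0 p n k →ₐ[WittVector p k] E0 p n k)
        (ι' : PowerSeries (unitBall (Tilt p)))
        (hπ' : (tiltTarget S ϖ h0 h1).IsPointOf (π.comp α.toRingHom)),
        IsAut g (special p n k F) ∧ IsMarkingChange p n k F g α ∧
          g - PowerSeries.X ∈ cI (⊥ : Ideal k) N ∧
          (∀ f, α f - f ∈ RingHom.ker (res p n k) ^ s) ∧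
          IsHom ι' (F.map (π.comp α.toRingHom)) Γh ∧
          (∀ j < s, PowerSeries.coeff j ι' - PowerSeries.coeff j ι₀ ∈ normIdeal ϖ ^ s) ∧
          ∀ j, (z j).co ^ (p ^ h) ^ l = ((fapp ι'
            (((tiltTarget S ϖ h0 h1).setup F hn hF' (π.comp α.toRingHom) hπ').theta (x j).1) :
              unitBall (Tilt p)) : Tilt p) := by
  set E := tiltTarget S ϖ h0 h1 with hE
  set D := E.setup F hn hF' π hπ with hD
  have hS := isShape_of_isHazewinkel hn hF
  obtain ⟨N₀, hN₀⟩ := markingChange_continuous hS s s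
  refine ⟨max N N₀ + 1, fun l hl z hz => ?_⟩
  obtain ⟨c, hc, rfl⟩ := hz
  set M := p ^ (n * l) with hMdef
  have hM : max N N₀ ≤ M := le_trans (le_trans (by omega) (Nat.le_mul_of_pos_left l hn))
    (Nat.lt_pow_self hp.out.one_lt).le
  obtain ⟨he, hgi, hgiX⟩ := isAut_add_pow p (F := special p n k F)
    (fun d => coeff_special_pow p n k hF d) hc (m := n * l)
    (Nat.one_le_iff_ne_zero.mpr (Nat.mul_ne_zero (by omega) (by omega)))
  set gi := adj (special p n k F) PowerSeries.X (c ^ M) with hgidef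
  obtain ⟨g, hghom, h₁, h₂, hgu⟩ := hgi.1.exists_inverse hgi.2
  have hg : IsAut g (special p n k F) := ⟨hghom, hgu⟩
  have hgX : g - PowerSeries.X ∈ cI (⊥ : Ideal k) (p ^ (n * l)) := by
    have h3 := ps_subst_congr (J := (⊥ : Ideal k)) (N := p ^ (n * l)) (G := g) (H := g)
      (x := (PowerSeries.X : PowerSeries k)) (y := gi) cc_PX hgi.1.1 (by simp)
      (by rw [← neg_sub]; exact neg_mem hgiX)
    rwa [PowerSeries.X_subst, h₂] at h3
  obtain ⟨α, hα, -⟩ := existsUnique_markingChange hS hg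
  have hmc := hα
  obtain ⟨G, hG, hhom⟩ := hα
  obtain ⟨hclose, hGclose⟩ := hN₀ g α G (cI_anti (le_trans (le_max_right _ _) hM) hgX) hG hhom
  obtain ⟨Gi, hGi, hi₁, hi₂, -⟩ := hhom.exists_inverse ((isBase_res (p := p) (n := n)).isUnit (by
    rw [← PowerSeries.coeff_map, hG]; exact hgu.ne_zero))
  have hπ' : E.IsPointOf (π.comp α.toRingHom) :=
    isPointOf_comp hπ (fun r => algHom_res isBase_res α r)
  set D' := E.setup F hn hF' (π.comp α.toRingHom) hπ'
  have hGiπ : IsHom (PowerSeries.map π Gi) (F.map (π.comp α.toRingHom)) (F.map π) := by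
    have := hGi.map π
    convert this using 1
    ext1
    ext e
    simp [FormalGroup.map_toPowerSeries]
  refine ⟨g, α, PowerSeries.subst (PowerSeries.map π Gi) ι₀, hπ', hg, hmc,
    cI_anti (le_trans (le_max_left _ _) hM) hgX, hclose, hGiπ.comp hι0, ?_, fun j => ?_⟩
  · -- closeness
    have hX : G - PowerSeries.X ∈ cI (RingHom.ker (res p n k) ^ s) s :=
      mem_cI_ps.mpr fun i hi => by rw [map_sub]; exact hGclose i hi
    have hGiX : Gi - PowerSeries.X ∈ cI (RingHom.ker (res p n k) ^ s) s := by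
      have h3 := ps_subst_congr (G := Gi) (H := Gi) (x := (PowerSeries.X : PowerSeries (E0 p n k)))
        (y := G) cc_PX hhom.1 (by simp) (by rw [← neg_sub]; exact neg_mem hX)
      rwa [PowerSeries.X_subst, hi₂] at h3
    have hπX : PowerSeries.map π Gi - PowerSeries.X ∈ cI (normIdeal ϖ ^ s) s := by
      rw [← PowerSeries.map_X π, ← map_sub]
      refine map_mem_cI_of (J' := normIdeal ϖ ^ s) π (fun r hr => ?_) hGiX
      have h4 := Ideal.mem_map_of_mem π hr
      rw [Ideal.map_pow] at h4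
      exact Ideal.pow_right_mono (Ideal.map_le_iff_le_comap.mpr fun r hr => hπ.map_mem hr) s h4
    have h5 := ps_subst_congr (G := ι₀) (H := ι₀) (x := PowerSeries.map π Gi)
      (y := (PowerSeries.X : PowerSeries (unitBall (Tilt p)))) hGiπ.1 cc_PX (by simp) hπX
    rw [PowerSeries.X_subst] at h5
    intro i hi
    rw [← map_sub]
    exact mem_cI_ps.mp h5 i hi
  · -- values
    set y := endApp S hc (x j) with hy
    set w : Pt (S.fibre F) := Pt.powp (n * l) y with hw
    have hgi0 := map_constantCoeff_zero S.kT hgi.1.1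
    have hxw : fapp (PowerSeries.map S.kT gi) (x j).1 = (x j + w).1 := by
      rw [hgidef, map_adj _ _ cc_PX he.1, fapp_adj _ (map_constantCoeff_zero _ cc_PX)
        (map_constantCoeff_zero _ he.1) (x j).2, PowerSeries.map_X, fapp_X, map_pow,
        fapp_pow _ (x j).2, Pt.add_def]
      refine congrArg (fadd _ _) (Subtype.ext ?_)
      rw [SubmonoidClass.coe_pow]
      rfl
    have hgx : fapp ((PowerSeries.map (res p n k) G).map S.kT) (x j + w).1 = (x j).1 := by
      rw [hG, ← hxw, ← fapp_subst hgi0 (x j).2, ← ps_map_subst _ hgi.1.1, h₂,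
        PowerSeries.map_X, fapp_X]
    have hθ := E.theta_marking F hn hF' hπ hπ' rfl hhom (x j + w).2
    rw [hgx] at hθ
    have hθw : D.theta (x j + w).1 = D.theta w.1 := by
      rw [Pt.add_def]
      refine (D.theta_fadd (x j).2 w.2).trans ?_
      haveI : D.G.IsComm := map_isComm F π
      rw [hx j, fadd_zero_left _ (D.nilp_theta w.2)]
    rw [hθw] at hθ
    have hGπ0 := map_constantCoeff_zero π hhom.1
    have hval : fapp (PowerSeries.subst (PowerSeries.map π Gi) ι₀) (D'.theta (x j).1) =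
        (η w).1 := by
      rw [hη, fapp_subst hGiπ.1 (D'.nilp_theta (x j).2)]
      refine congrArg (fapp ι₀) ?_
      rw [hθ, ← fapp_subst hGπ0 (D.nilp_theta w.2), ← ps_map_subst _ hhom.1, hi₂,
        PowerSeries.map_X, fapp_X]
    rw [hval, hw, ← hΓn.nsmul_p_pow, map_nsmul, hΓh.nsmul_p_pow, ← pow_mul]
    rfl

namespace TiltData

variable {hn : 1 ≤ n} {hF : IsHazewinkel p n k F} {hk : Nat.card k = p ^ n}
  {π : E0 p n k →+* unitBall (Tilt p)} (d : TiltData F hn hF hk h π)

/-- The lattice of a tilt point. -/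
abbrev lattice : AddSubmonoid (Fin (n - h) → Pt (hondaTilt p h)) :=
  endLattice (S := d.src) (F := F) d.eta d.vec

theorem lattice_bound : ∃ ρ < (1 : ℝ), ∀ z ∈ d.lattice, ∀ i, ‖(z i).co‖ ≤ ρ :=
  endLattice_bound (S := d.src) (F := F) (h0 := d.h0) (h1 := d.h1) (hn := hn)
    (hF' := mulSeries_special p n k hn hF) (hπ := d.point) d.iota_hom.1 (fun _ => rfl) d.vec

theorem freeRows_lattice (hh1 : 1 ≤ h) (hhn : h < n) :
    FreeRows (p ^ h) (d.lattice : Set (Fin (n - h) → Pt (hondaTilt p h))) :=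
  d.freeRows hh1 hhn _ fun _ hz t _ =>
    fmul_powp_mem_endLattice (S := d.src) (F := F) hn hF hk d.honda_source d.eta d.vec hz t

theorem exists_moved_lattice (hh1 : 1 ≤ h) (N s : ℕ) :
    ∃ k₀, ∀ l ≥ k₀, ∀ z ∈ d.lattice,
      ∃ (g : PowerSeries k) (α : E0 p n k →ₐ[WittVector p k] E0 p n k)
        (ι' : PowerSeries (unitBall (Tilt p)))
        (hπ' : d.tgt.IsPointOf (π.comp α.toRingHom)),
        IsAut g (special p n k F) ∧ IsMarkingChange p n k F g α ∧
          g - PowerSeries.X ∈ cI (⊥ : Ideal k) N ∧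
          (∀ f, α f - f ∈ RingHom.ker (res p n k) ^ s) ∧
          IsHom ι' (F.map (π.comp α.toRingHom)) (hondaTilt p h) ∧
          (∀ j < s, PowerSeries.coeff j ι' - PowerSeries.coeff j d.iota ∈ normIdeal d.ϖ ^ s) ∧
          ∀ j, (z j).co ^ (p ^ h) ^ l = ((fapp ι'
            ((d.tgt.setup F hn (mulSeries_special p n k hn hF) (π.comp α.toRingHom) hπ').theta
              (d.x j)) : unitBall (Tilt p)) : Tilt p) :=
  exists_moved (S := d.src) (F := F) (h0 := d.h0) (h1 := d.h1) (hn := hn)
    (hF' := mulSeries_special p n k hn hF) (hπ := d.point) hF d.honda_source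
    (honda_hondaTilt hh1) d.iota_hom (fun _ => rfl) d.vec (fun j => d.tate.theta_eq_zero j) N s

end TiltData

end Vale.Agent.P217
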