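import Vale.Agent.P217.IotaRoots
import Vale.Agent.P217.TiltData
import Vale.Agent.P217.Moved
import Vale.Agent.P217.Chart

/-!
# The chart at a tilt point of the stratum `h`

An element vanishing at all moved points near a tilt point has vanishing expansion at that point.
-/

noncomputable section

namespace Vale.Agent.P217

open Filter Topology MvPowerSeries MvPowerSeries.WithPiTopology

set_option linter.unusedSectionVars false
set_option linter.style.haveILetI false

section General

variable {L : Type*} [NormedField L] [IsUltrametricDist L] [CompleteSpace L]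
variable {σ : Type*} [Fintype σ]

theorem norm_fapp_sub_sum_le (g : PowerSeries (unitBall L)) {x : unitBall L}
    (hx : IsTopologicallyNilpotent x) (D : ℕ) :
    ‖((fapp g x : unitBall L) : L) - ∑ q ∈ Finset.range D,
      ((PowerSeries.coeff q g : unitBall L) : L) * (x : L) ^ q‖ ≤ ‖(x : L)‖ ^ D := by
  have h := ((hasSum_ev1 (φ := RingHom.id _) hx g).map (unitBall L).subtype
    continuous_subtype_val).tendsto_sum_nat
  refine le_of_tendsto (h.sub_const _).norm ?_
  filter_upwards [eventually_ge_atTop D] with N hN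
  simp only [Function.comp_apply, RingHom.id_apply, Subring.subtype_apply, Subring.coe_mul,
    SubmonoidClass.coe_pow]
  rw [← Finset.sum_sdiff (Finset.range_subset_range.2 hN), add_sub_cancel_right]
  refine IsUltrametricDist.norm_sum_le_of_forall_le_of_nonneg (by positivity) fun i hi => ?_
  rw [Finset.mem_sdiff, Finset.mem_range, Finset.mem_range, not_lt] at hi
  rw [norm_mul, norm_pow]
  exact (mul_le_of_le_one_left (by positivity) (norm_coe_le_one _)).trans
    (pow_le_pow_of_le_one (norm_nonneg _) (norm_coe_le_one _) hi.2)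

theorem norm_ev_sub_constantCoeff_le {δ : σ → unitBall L}
    (hδ : ∀ s, IsTopologicallyNilpotent (δ s)) (G : MvPowerSeries σ (unitBall L)) :
    ‖((ev (RingHom.id _) δ G - constantCoeff G : unitBall L) : L)‖ ≤
      ‖fun s => (δ s : L)‖ := by
  have h1 : ‖fun s => (δ s : L)‖ ≤ 1 :=
    (pi_norm_le_iff_of_nonneg zero_le_one).2 fun s => norm_coe_le_one _
  have h := norm_ev_sub_truncTotal_le hδ (norm_nonneg _) h1
    (fun s => norm_le_pi_norm (fun s => (δ s : L)) s) G 1
  have e : G.truncTotal 1 = MvPolynomial.C (constantCoeff G) := MvPolynomial.ext _ _ fun d => by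
    classical
    rw [coeff_truncTotal_eq_ite, MvPolynomial.coeff_C]
    by_cases hd : d = 0
    · subst hd; simp
    · rw [if_neg (fun h => hd ((Finsupp.degree_eq_zero_iff d).1 (by omega))),
        if_neg (Ne.symm hd)]
  rw [e, MvPolynomial.eval_C, pow_one] at h
  exact h

theorem ev_zero_arg (G : MvPowerSeries σ (unitBall L)) :
    ev (RingHom.id _) (fun _ => (0 : unitBall L)) G = constantCoeff G := by
  have h := norm_ev_sub_constantCoeff_le (δ := fun _ : σ => (0 : unitBall L))
    (fun _ => IsTopologicallyNilpotent.zero) G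
  rw [show (fun s : σ => (((fun _ => (0 : unitBall L)) s : unitBall L) : L)) = 0 from rfl,
    norm_zero, norm_le_zero_iff] at h
  exact sub_eq_zero.1 (Subtype.ext h)

theorem norm_eval_trunc_sub_const_le {L : Type*} [NormedField L] [IsUltrametricDist L]
    {σ : Type*} [Fintype σ] (g : MvPowerSeries σ L) (D : ℕ) :
    ∃ C : ℝ, 0 ≤ C ∧ ∀ δ : σ → L, ‖δ‖ ≤ 1 → 0 < D →
      ‖MvPolynomial.eval δ (g.truncTotal D) - constantCoeff g‖ ≤ C * ‖δ‖ := by
  obtain ⟨C, hC, hb⟩ := exists_coeff_bound (g.truncTotal D - MvPolynomial.C (constantCoeff g))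
  refine ⟨C, by linarith, fun δ hδ hD => ?_⟩
  rw [← MvPolynomial.eval_C (f := δ) (constantCoeff g), ← map_sub, ← pow_one ‖δ‖]
  refine norm_eval_le_pow (by linarith) hb (fun d hd => ?_) hδ
  obtain rfl := (Finsupp.degree_eq_zero_iff d).1 (Nat.lt_one_iff.1 hd)
  rw [MvPolynomial.coeff_sub, coeff_truncTotal _ (by simpa using hD), MvPolynomial.coeff_zero_C,
    coeff_zero_eq_constantCoeff_apply, sub_self]

theorem Appr.sum' {Z κ : Type*} {D : ℕ} {δ : Z → σ → L} (s : Finset κ)
    {g : κ → MvPowerSeries σ L} {a : κ → Z → L} {a' : Z → L}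
    (h : ∀ i ∈ s, Appr D δ (g i) (a i)) (e : ∀ z, a' z = ∑ i ∈ s, a i z) :
    Appr D δ (∑ i ∈ s, g i) a' := by
  rw [funext e]
  exact Appr.sum s h

end General

variable {p : ℕ} [hp : Fact p.Prime] {n : ℕ} {k : Type} [Field k] [CharP k p] [Finite k]
variable {F : FormalGroup (E0 p n k)} [F.IsComm] {hn : 1 ≤ n} {hF : IsHazewinkel p n k F}
  {hk : Nat.card k = p ^ n} {h : ℕ} {π : E0 p n k →+* unitBall (Tilt p)}

theorem hIdeal_algHom_mem (hn : 1 ≤ n) (hF : IsHazewinkel p n k F) (hh : h ≤ n) {g : PowerSeries k}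
    {α : E0 p n k →ₐ[WittVector p k] E0 p n k} (hg : IsAut g (special p n k F))
    (hα : IsMarkingChange p n k F g α) {f : E0 p n k} (hf : f ∈ hIdeal p n k h) :
    α f ∈ hIdeal p n k h :=
  stable_hIdeal hn hF hh g α hg hα f hf

/-- An element vanishing at all moved points near a tilt point has vanishing expansion there. -/
theorem TiltData.exists_chart (d : TiltData F hn hF hk h π) (hh1 : 1 ≤ h) (hhn : h < n)
    (hker : ∀ i < h, π (uE p n k i) = 0) {idx : Fin (n - h) → Fin (n - 1)}
    (hidx : Function.Injective idx) (hrange : ∀ i, i ∈ Set.range idx ↔ h ≤ (i : ℕ) + 1)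
    {hX : ∀ i, IsTopologicallyNilpotent (π (X i))} {f : E0 p n k} {N : ℕ}
    (hf : ∀ (g : PowerSeries k) (α : E0 p n k →ₐ[WittVector p k] E0 p n k),
      IsAut g (special p n k F) → IsMarkingChange p n k F g α →
      g - PowerSeries.X ∈ cI (⊥ : Ideal k) N → π (α f) = 0) :
    ∃ Φ : Fin (n - h) → MvPowerSeries (Fin (n - h)) (Tilt p), (∀ j, constantCoeff (Φ j) = 0) ∧
      ∃ G, subst Φ G = MvPowerSeries.map (unitBall (Tilt p)).subtype (shiftPoint π idx hX f) ∧
        AV (p ^ h) (d.lattice : Set (Fin (n - h) → Pt (hondaTilt p h))) G := by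
  classical
  set φ := (unitBall (Tilt p)).subtype with hφ
  set S := shiftPoint π idx hX with hS
  set SL := (MvPowerSeries.map φ).comp S with hSL
  set μs := mulSeries F p with hμs
  set a := PowerSeries.coeff (p ^ h) μs with ha
  set P := p ^ h with hP
  have hP2 : 2 ≤ P := hp.1.two_le.trans (Nat.le_self_pow (by omega) p)
  have hpL : CharP (Tilt p) p := inferInstance
  have hkerX : ∀ i : Fin (n - 1), (i : ℕ) + 1 < h → π (X i) = 0 := fun i hi => by
    rw [← hker _ hi, uE_eq_X (by omega) (by omega)]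
    rfl
  have hkill : ∀ x ∈ hIdeal p n k h, S x = 0 := fun x hx =>
    shiftPoint_eq_zero_of_mem_hIdeal hhn.le d.level.char hkerX
      (fun s => (hrange _).1 ⟨s, rfl⟩) hx
  have hconst : ∀ x, constantCoeff (SL x) = φ (π x) := fun x => by
    rw [hSL, RingHom.comp_apply, constantCoeff_map]
    exact congrArg φ (RingHom.congr_fun (constantCoeff_shiftPoint (hX := hX)) x)
  have ha0 : φ (π a) ≠ 0 := fun e => d.level.lin (Subtype.ext e)
  set ρ := ‖φ (π a)‖ with hρ
  have hρ0 : 0 < ρ := norm_pos_iff.2 ha0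
  have hρ1 : ρ ≤ 1 := norm_coe_le_one _
  -- the equations at the point
  have heq : ∀ (π'' : E0 p n k →+* unitBall (Tilt p)) (ι : PowerSeries (unitBall (Tilt p))),
      (∀ x ∈ hIdeal p n k h, π'' x = 0) → IsHom ι (F.map π'') (hondaTilt p h) → ∀ q,
      φ (PowerSeries.coeff q ι) ^ P = φ (π'' a) ^ q * φ (PowerSeries.coeff q ι) +
        ∑ j ∈ Finset.range q,
          φ (PowerSeries.coeff j ι) * φ (π'' (PowerSeries.coeff (P * q) (μs ^ j))) := by
    intro π'' ι hk'' hι q
    have hH : mulSeries ((hondaTilt p h).map φ) p = PowerSeries.X ^ P := by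
      rw [mulSeries_map, (honda_hondaTilt hh1).mul, map_pow, PowerSeries.map_X]
    have h1 := subst_mulSeries_eq_pow hH (hι.map φ)
    rw [mulSeries_map, mulSeries_map, ← RingHom.comp_apply, ← PowerSeries.map_comp] at h1
    have h2 := coeff_pow_eq_of_subst_eq (fun j hj => by
        rw [PowerSeries.coeff_map, RingHom.comp_apply,
          hk'' _ (coeff_mulSeries_mem_hIdeal p n k hF hhn.le hj), map_zero])
      (by rw [← PowerSeries.coeff_zero_eq_constantCoeff_apply, PowerSeries.coeff_map,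
          PowerSeries.coeff_zero_eq_constantCoeff_apply, constantCoeff_mulSeries, map_zero])
      h1 q
    simp only [← map_pow, PowerSeries.coeff_map, RingHom.comp_apply] at h2
    simpa [hμs, ha, hP, map_pow] using h2
  -- the series roots
  let root : (q : ℕ) → ((j : ℕ) → j < q → MvPowerSeries (Fin (n - h)) (Tilt p)) →
      MvPowerSeries (Fin (n - h)) (Tilt p) := fun q prev =>
    if q = 0 then 0 else
      if hex : ∃ c, constantCoeff c = φ (PowerSeries.coeff q d.iota) ∧ c ^ P = SL a ^ q * c +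
          ∑ j ∈ (Finset.range q).attach,
            prev j.1 (Finset.mem_range.1 j.2) * SL (PowerSeries.coeff (P * q) (μs ^ j.1))
      then hex.choose else 0
  let c : ℕ → MvPowerSeries (Fin (n - h)) (Tilt p) := fun q =>
    Nat.strongRecOn (motive := fun _ => MvPowerSeries (Fin (n - h)) (Tilt p)) q root
  have hcdef : ∀ q, c q = root q fun j _ => c j := fun q => by
    show Nat.strongRecOn (motive := fun _ => MvPowerSeries (Fin (n - h)) (Tilt p)) q root = _
    rw [Nat.strongRecOn_eq]
  have hc0 : c 0 = 0 := by rw [hcdef]; simp [root]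
  have hc : ∀ q, constantCoeff (c q) = φ (PowerSeries.coeff q d.iota) ∧
      c q ^ P = SL a ^ q * c q +
        ∑ j ∈ Finset.range q, c j * SL (PowerSeries.coeff (P * q) (μs ^ j)) := by
    intro q
    induction q using Nat.strong_induction_on with
    | _ q ih =>
    rcases Nat.eq_zero_or_pos q with rfl | hq
    · rw [hc0, map_zero, PowerSeries.coeff_zero_eq_constantCoeff_apply, d.iota_hom.1, map_zero,
        zero_pow (by omega)]
      simp
    have hex : ∃ e, constantCoeff e = φ (PowerSeries.coeff q d.iota) ∧ e ^ P = SL a ^ q * e +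
        ∑ j ∈ (Finset.range q).attach, c j.1 * SL (PowerSeries.coeff (P * q) (μs ^ j.1)) := by
      refine exists_series_root hh1 (by rw [map_pow, hconst]; exact pow_ne_zero _ ha0) ?_
      rw [Finset.sum_attach (Finset.range q)
        (fun j => c j * SL (PowerSeries.coeff (P * q) (μs ^ j))),
        map_pow, map_sum, hconst, heq π d.iota (fun x hx => map_eq_zero_of_mem_hIdeal π hker hx)
          d.iota_hom q]
      congr 1
      refine Finset.sum_congr rfl fun j hj => ?_
      rw [map_mul, (ih j (Finset.mem_range.1 hj)).1, hconst]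
    rw [hcdef q]
    simp only [root, if_neg hq.ne', dif_pos hex]
    exact ⟨hex.choose_spec.1, hex.choose_spec.2.trans (congrArg (_ + ·)
      (Finset.sum_attach (Finset.range q)
        (fun j => c j * SL (PowerSeries.coeff (P * q) (μs ^ j)))))⟩
  -- the chart
  have hπs : (d.tgt.series (Fin (n - h))).IsPointOf S :=
    d.tgt.isPointOf_series d.point constantCoeff_shiftPoint
  set Θ := ((d.tgt.series (Fin (n - h))).setup F hn (mulSeries_special p n k hn hF) S hπs).theta
    with hΘ
  let θL : Fin (n - h) → MvPowerSeries (Fin (n - h)) (Tilt p) := fun j =>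
    MvPowerSeries.map φ (Θ (d.x j))
  have hθ0 : ∀ j, constantCoeff (Θ (d.x j)) = 0 := fun j => by
    rw [← ev_zero_arg, hΘ, ← theta_nearby hn (mulSeries_special p n k hn hF) d.point d.point hidx
      (fun _ => rfl) (fun s => (add_zero _).symm) (fun _ _ => rfl)
      (fun _ => IsTopologicallyNilpotent.zero) (d.tate.nilp j)]
    exact d.tate.theta_eq_zero j
  have hθL0 : ∀ j, constantCoeff (θL j) = 0 := fun j => by
    simp only [θL, constantCoeff_map, hθ0, map_zero]
  let Φ : Fin (n - h) → MvPowerSeries (Fin (n - h)) (Tilt p) := fun j e =>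
    coeff e (∑ q ∈ Finset.range (Finsupp.degree e + 1), c q * θL j ^ q)
  have hΦ : ∀ j D e, Finsupp.degree e < D →
      coeff e (∑ q ∈ Finset.range D, c q * θL j ^ q) = coeff e (Φ j) := by
    intro j D e he
    show _ = coeff e (∑ q ∈ Finset.range (Finsupp.degree e + 1), c q * θL j ^ q)
    rw [← Finset.sum_sdiff (Finset.range_subset_range.2 (show Finsupp.degree e + 1 ≤ D by omega)),
      map_add, add_eq_right, map_sum]
    refine Finset.sum_eq_zero fun q hq => ?_
    rw [Finset.mem_sdiff, Finset.mem_range, Finset.mem_range, not_lt] at hq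
    exact Ideal.mem_bot.1 (Ideal.mul_mem_left _ (c q) (pow_mem_cI_bot (hθL0 j) q) e (by omega))
  have hΦ0 : ∀ j, constantCoeff (Φ j) = 0 := fun j => by
    rw [← coeff_zero_eq_constantCoeff_apply, ← hΦ j 1 0 (by simp)]
    simp [hc0]
  have hΦlin : ∀ j s, coeff (Finsupp.single s 1) (Φ j) =
      φ (PowerSeries.coeff 1 d.iota) * coeff (Finsupp.single s 1) (θL j) := fun j s => by
    have hm : (c 1 - C (φ (PowerSeries.coeff 1 d.iota))) * θL j ∈ cI (⊥ : Ideal (Tilt p)) (1 + 1) :=
      mul_mem_cI_add (mem_cI_bot_one_iff.2 (by rw [map_sub, constantCoeff_C, (hc 1).1, sub_self]))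
        (mem_cI_bot_one_iff.2 (hθL0 j))
    have h2 := Ideal.mem_bot.1 (hm (Finsupp.single s 1) (by simp))
    rw [sub_mul, map_sub, coeff_C_mul, sub_eq_zero] at h2
    rw [← hΦ j 2 (Finsupp.single s 1) (by simp), Finset.sum_range_succ, Finset.sum_range_one,
      hc0, zero_mul, zero_add, pow_one, h2]
  have hι1 : φ (PowerSeries.coeff 1 d.iota) ≠ 0 := fun e => d.iota_lin (Subtype.ext e)
  have hlin : ∀ v : Fin (n - h) → Tilt p, v ≠ 0 →
      ∃ j, ∑ s, v s * coeff (Finsupp.single s 1) (Φ j) ≠ 0 := fun v hv => by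
    haveI : d.setup.G.IsComm := inferInstance
    obtain ⟨j, hj⟩ := exists_linear_theta_ne_zero (ι := idx) (hX := hX) hn hF
      (mulSeries_special p n k hn hF) d.point d.level d.tate hidx
      (fun s => (hrange _).1 ⟨s, rfl⟩) hkerX hv
    refine ⟨j, ?_⟩
    rw [Finset.sum_congr rfl fun s _ => by rw [hΦlin, mul_left_comm], ← Finset.mul_sum]
    refine mul_ne_zero hι1 ?_
    simp only [θL, coeff_map, hΘ, hS]
    exact hj
  -- approximate vanishing
  refine ⟨Φ, hΦ0, ?_⟩
  refine exists_chart_AV P _ ⟨(d.ϖ : Tilt p), d.h0, d.h1⟩ Φ hΦ0 hlin _ fun D => ?_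
  rcases Nat.eq_zero_or_pos D with rfl | hD
  · refine ⟨1, fun ε hε => ⟨0, fun z _ => ⟨0, by simpa using hε.le, ?_, ?_⟩⟩⟩
    · simp only [pow_zero, mul_one]
      refine (pi_norm_le_iff_of_nonneg zero_le_one).2 fun i => ?_
      have e : (Φ i).truncTotal 0 = 0 := MvPolynomial.ext _ _ fun q => by
        simp [coeff_truncTotal_eq_ite]
      simp only [Pi.sub_apply, e, map_zero, sub_zero]
      simpa using (z i).norm_lt.le
    · have e : (MvPowerSeries.map φ (S f)).truncTotal 0 = 0 := MvPolynomial.ext _ _ fun q => by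
        simp [coeff_truncTotal_eq_ite]
      rw [e]
      simp
  -- smallness for this order
  choose Cb hCb0 hCb using fun q => norm_eval_trunc_sub_const_le (c q) D
  set M := 1 + ∑ q ∈ Finset.range D, Cb q with hM
  have hM1 : 1 ≤ M := le_add_of_nonneg_right (Finset.sum_nonneg fun q _ => hCb0 q)
  set μ := ρ ^ D * ρ / (2 * M) with hμ
  have hμ0 : 0 < μ := by positivity
  have hMμ : M * μ = ρ ^ D * ρ / 2 := by rw [hμ]; field_simp
  have hμρ : μ < ρ := by
    have : ρ ^ D ≤ 1 := pow_le_one₀ hρ0.le hρ1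
    have h2 : μ ≤ ρ ^ D * ρ / 2 := hMμ ▸ le_mul_of_one_le_left hμ0.le hM1
    nlinarith
  let Z := {z : (E0 p n k →+* unitBall (Tilt p)) × PowerSeries (unitBall (Tilt p)) //
    d.tgt.IsPointOf z.1 ∧ (∀ w, z.1 (C w) = π (C w)) ∧
    (∀ i, i ∉ Set.range idx → z.1 (X i) = π (X i)) ∧
    ‖fun s => ((z.1 (X (idx s)) - π (X (idx s)) : unitBall (Tilt p)) : Tilt p)‖ ≤ μ ∧
    IsHom z.2 (F.map z.1) (hondaTilt p h) ∧
    ∀ q < D, ‖φ (PowerSeries.coeff q z.2) - φ (PowerSeries.coeff q d.iota)‖ ≤ μ}
  let δu : Z → Fin (n - h) → unitBall (Tilt p) := fun z s =>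
    z.1.1 (X (idx s)) - π (X (idx s))
  let δ : Z → Fin (n - h) → Tilt p := fun z s => (δu z s : Tilt p)
  have hδμ : ∀ z : Z, ‖δ z‖ ≤ μ := fun z => z.2.2.2.2.1
  have hδ1 : ∀ z : Z, ‖δ z‖ ≤ 1 := fun z => (hδμ z).trans (hμρ.le.trans hρ1)
  have hδn : ∀ (z : Z) s, IsTopologicallyNilpotent (δu z s) := fun z s =>
    isTopologicallyNilpotent_ball.2 (((norm_le_pi_norm (δ z) s).trans (hδμ z)).trans_lt
      (hμρ.trans_le hρ1))
  have hev : ∀ (z : Z) x, z.1.1 x = ev (RingHom.id _) (δu z) (S x) := fun z x => by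
    rw [← RingHom.congr_fun (ev_shiftPoint_eq (hX := hX) hidx z.2.2.1
      (fun s => (add_sub_cancel _ _).symm) z.2.2.2.1 (hδn z)) x, RingHom.comp_apply,
      evHom_apply]
  have hAS : ∀ x, Appr D δ (SL x) (fun z => φ (z.1.1 x)) := fun x => by
    have h1 := Appr.ev (D := D) hδn (S x)
    simp only [← hev] at h1
    exact h1
  have hkz : ∀ z : Z, ∀ x ∈ hIdeal p n k h, z.1.1 x = 0 := fun z x hx => by
    rw [hev, hkill x hx, ev_zero (hasEval_of_finite (hδn z))]
  have hza : ∀ z : Z, ‖φ (z.1.1 a)‖ = ρ := fun z => by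
    have h1 : ‖((z.1.1 a - π a : unitBall (Tilt p)) : Tilt p)‖ < ρ := by
      have h2 := norm_ev_sub_constantCoeff_le (hδn z) (S a)
      rw [← hev, show constantCoeff (S a) = π a from
        RingHom.congr_fun (constantCoeff_shiftPoint (hX := hX)) a] at h2
      exact (h2.trans (hδμ z)).trans_lt hμρ
    replace h1 : ‖φ (z.1.1 a) - φ (π a)‖ < ρ := by rw [← map_sub]; exact h1
    calc ‖φ (z.1.1 a)‖ = ‖(φ (z.1.1 a) - φ (π a)) + φ (π a)‖ := by rw [sub_add_cancel]
      _ = ρ := by
        rw [IsUltrametricDist.norm_add_eq_max_of_norm_ne_norm h1.ne, max_eq_right h1.le]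
  have hAc : ∀ q < D, Appr D δ (c q) (fun z => φ (PowerSeries.coeff q z.1.2)) := by
    intro q
    induction q using Nat.strong_induction_on with
    | _ q ih =>
    intro hqD
    rcases Nat.eq_zero_or_pos q with rfl | hq
    · rw [hc0]
      have : (fun z : Z => φ (PowerSeries.coeff 0 z.1.2)) = 0 := funext fun z => by
        rw [PowerSeries.coeff_zero_eq_constantCoeff_apply, z.2.2.2.2.2.1.1, map_zero]
        rfl
      rw [this]
      exact Appr.zero
    refine Appr.root hh1 hδ1 (hc q).2 ((hAS a).pow hδ1 q)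
      (Appr.sum' (Finset.range q) (fun j hj => (ih j (Finset.mem_range.1 hj)
        ((Finset.mem_range.1 hj).trans hqD)).mul hδ1 (hAS _)) fun z => rfl)
      (fun z => by
        simp only [Pi.pow_apply, Pi.mul_apply]
        exact heq z.1.1 z.1.2 (hkz z) z.2.2.2.2.2.1 q)
      (ρ := ρ ^ q) (pow_pos hρ0 q) (fun z => by rw [Pi.pow_apply, norm_pow, hza z]) fun z => ?_
    set x := φ (PowerSeries.coeff q z.1.2) - MvPolynomial.eval (δ z) ((c q).truncTotal D)
    have hx : ‖x‖ ≤ M * μ := by
      have h2 := hCb q (δ z) (hδ1 z) hD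
      rw [(hc q).1] at h2
      rw [show x = (φ (PowerSeries.coeff q z.1.2) - φ (PowerSeries.coeff q d.iota)) -
        (MvPolynomial.eval (δ z) ((c q).truncTotal D) - φ (PowerSeries.coeff q d.iota)) by
        simp only [x]; ring]
      refine ultra_sub_le ((z.2.2.2.2.2.2 q hqD).trans (le_mul_of_one_le_left hμ0.le hM1))
        (h2.trans ?_)
      have := Finset.single_le_sum (fun i _ => hCb0 i) (Finset.mem_range.2 hqD)
      exact mul_le_mul (by linarith) (hδμ z) (norm_nonneg _) (by linarith)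
    have hlt : M * μ < ρ ^ q := by
      rw [hMμ]
      have h1 : ρ ^ D * ρ ≤ ρ ^ q :=
        (mul_le_of_le_one_right (by positivity) hρ1).trans
          (pow_le_pow_of_le_one hρ0.le hρ1 hqD.le)
      have := pow_pos hρ0 D
      nlinarith
    calc ‖x‖ ^ (P - 1) ≤ ‖x‖ := pow_le_of_le_one (norm_nonneg _)
          ((hx.trans hlt.le).trans (pow_le_one₀ hρ0.le hρ1)) (by omega)
      _ ≤ M * μ := hx
      _ < ρ ^ q := hlt
  -- the values
  let th : Z → Fin (n - h) → unitBall (Tilt p) := fun z j =>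
    ev (RingHom.id _) (δu z) (Θ (d.x j))
  have hth : ∀ z j, ‖(th z j : Tilt p)‖ ≤ ‖δ z‖ := fun z j => by
    have h2 := norm_ev_sub_constantCoeff_le (hδn z) (Θ (d.x j))
    rwa [hθ0, sub_zero] at h2
  have hthn : ∀ z j, IsTopologicallyNilpotent (th z j) := fun z j =>
    isTopologicallyNilpotent_ball.2 (((hth z j).trans (hδμ z)).trans_lt (hμρ.trans_le hρ1))
  have hAΦ : ∀ j, Appr D δ (Φ j) (fun z => φ (fapp z.1.2 (th z j))) := fun j => by
    refine Appr.of_close (Appr.congr (Appr.sum (Finset.range D) fun q hq =>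
      (hAc q (Finset.mem_range.1 hq)).mul hδ1
        ((Appr.ev (D := D) hδn (Θ (d.x j))).pow hδ1 q)) (hΦ j D)) zero_le_one fun z => ?_
    simp only [Pi.mul_apply, Pi.pow_apply, one_mul]
    exact (norm_fapp_sub_sum_le _ (hthn z j) D).trans
      (pow_le_pow_left₀ (norm_nonneg _) (hth z j) D)
  choose Cj hCj0 hCj using hAΦ
  obtain ⟨Cf, hCf0, hCf⟩ := hAS f
  refine ⟨max Cf (∑ j, Cj j), fun ε hε => ?_⟩
  obtain ⟨s₁, hs₁⟩ := exists_pow_lt_of_lt_one (lt_min hμ0 hε) d.h1
  set s := max D (max s₁ 1) with hs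
  obtain ⟨k₀, hk₀⟩ := d.exists_moved_lattice hh1 N s
  refine ⟨k₀, fun z hz => ?_⟩
  obtain ⟨g, α, ι', hπ', hg, hα, hgN, hclose, hι', hcoef, hval⟩ := hk₀ k₀ le_rfl z hz
  have hsmall : ∀ {x : unitBall (Tilt p)}, x ∈ normIdeal d.ϖ ^ s → ‖(x : Tilt p)‖ ≤ min μ ε := by
    intro x hx
    rw [normIdeal_pow d.h0, mem_normIdeal, SubmonoidClass.coe_pow, norm_pow] at hx
    exact hx.trans ((pow_le_pow_of_le_one (norm_nonneg _) d.h1.le (by omega)).trans hs₁.le)
  set π'' := π.comp α.toRingHom with hπ''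
  have hπC : ∀ w, π'' (C w) = π (C w) := fun w => congrArg π (α.commutes w)
  have hπout : ∀ i, i ∉ Set.range idx → π'' (X i) = π (X i) := fun i hi => by
    have hlt : (i : ℕ) + 1 < h := not_le.1 fun e => hi ((hrange i).2 e)
    have hm : (X i : E0 p n k) ∈ hIdeal p n k h := by
      have := uE_mem_hIdeal p n k hlt
      rwa [uE_eq_X (by omega) (by omega)] at this
    rw [hkerX i hlt]
    exact map_eq_zero_of_mem_hIdeal π hker (hIdeal_algHom_mem hn hF hhn.le hg hα hm)
  have hδε : ‖fun t => ((π'' (X (idx t)) - π (X (idx t)) : unitBall (Tilt p)) : Tilt p)‖ ≤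
      min μ ε :=
    (pi_norm_le_iff_of_nonneg (lt_min hμ0 hε).le).2 fun t => hsmall (by
      rw [hπ'', RingHom.comp_apply, ← map_sub]
      exact map_mem_normIdeal_pow π d.rad (hclose _))
  let z' : Z := ⟨(π'', ι'), hπ', hπC, hπout, hδε.trans (min_le_left _ _), hι', fun q hq => by
    rw [← map_sub]
    exact (hsmall (hcoef q (by omega))).trans (min_le_left _ _)⟩
  refine ⟨δ z', hδε.trans (min_le_right _ _), ?_, ?_⟩
  · have hpos : 0 ≤ max Cf (∑ j, Cj j) * ‖δ z'‖ ^ D :=
      mul_nonneg (hCf0.trans (le_max_left _ _)) (pow_nonneg (norm_nonneg _) _)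
    refine (pi_norm_le_iff_of_nonneg hpos).2 fun j => ?_
    have e : (z j).co ^ P ^ k₀ = φ (fapp ι' (th z' j)) := by
      rw [hval j]
      simp only [th, hΘ]
      rw [← theta_nearby hn (mulSeries_special p n k hn hF) d.point hπ' hidx hπC
        (fun t => (add_sub_cancel _ _).symm) hπout (hδn z') (d.tate.nilp j)]
      rfl
    rw [Pi.sub_apply, e]
    exact (hCj j z').trans (mul_le_mul_of_nonneg_right
      ((Finset.single_le_sum (fun i _ => hCj0 i) (Finset.mem_univ j)).trans (le_max_right _ _))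
      (pow_nonneg (norm_nonneg _) _))
  · have h2 := hCf z'
    have e0 : φ (π'' f) = 0 := by
      rw [show π'' f = π (α f) from rfl, hf g α hg hα hgN, map_zero]
    simp only [show z'.1.1 = π'' from rfl, e0, zero_sub, norm_neg] at h2
    exact h2.trans (mul_le_mul_of_nonneg_right (le_max_left _ _) (pow_nonneg (norm_nonneg _) _))

end Vale.Agent.P217
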