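import Mathlib.FieldTheory.IsAlgClosed.Basic
import Mathlib.RingTheory.MvPowerSeries.Expand
import Vale.Agent.P217.Laws
import Vale.Agent.P217.Universal

/-!
# An isomorphism onto a law of the same shape over an algebraically closed field

If, through degree `P = p ^ h`, the law `Γ` is `X + Y + K` with `K` homogeneous of degree `P` and
nonzero, and `F` is `X + Y + u K`, then some series `ι` with `ι'(0) ^ (P - 1) = u` is a
homomorphism from `F` to `Γ`.
-/

noncomputable section

namespace Vale.Agent.P217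

open MvPowerSeries Finsupp

set_option linter.unusedSectionVars false
set_option maxRecDepth 2000

variable {L : Type*} [Field L] {p : ℕ} [hp : Fact p.Prime] [CharP L p]

/-- A series small in the arguments and small arguments give a small composite. -/
theorem subst_mem_cI_bot_mul {A : Type*} [CommRing A] {σ τ : Type*} [Finite σ]
    {f : MvPowerSeries σ A} {x : σ → MvPowerSeries τ A} {M N : ℕ} (hN : 1 ≤ N)
    (hx : ∀ s, x s ∈ cI (⊥ : Ideal A) N) (hf : f ∈ cI (⊥ : Ideal A) M) :
    subst x f ∈ cI (⊥ : Ideal A) (N * M) := by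
  classical
  have hx0 : ∀ s, constantCoeff (x s) = 0 := fun s => by
    simpa [coeff_zero_eq_constantCoeff_apply] using hx s 0 (by simp; omega)
  have hprod : ∀ d : σ →₀ ℕ, (d.prod fun s e => x s ^ e) ∈ cI (⊥ : Ideal A) (N * d.degree) := by
    intro d
    induction d using Finsupp.induction with
    | zero => simpa using mem_cI_zero
    | single_add s e d hs he ih =>
      rw [Finsupp.prod_add_index' (fun _ => pow_zero _) (fun _ _ _ => pow_add _ _ _),
        Finsupp.prod_single_index (h := fun s e => x s ^ e) (pow_zero _), map_add,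
        Finsupp.degree_single, mul_add]
      refine mul_mem_cI_add ?_ ih
      clear he
      induction e with
      | zero => simpa using mem_cI_zero
      | succ e ihe =>
        rw [pow_succ, Nat.mul_succ]
        exact mul_mem_cI_add ihe (hx s)
  intro e he
  refine coeff_subst_mem hx0 fun d _ => ?_
  by_cases hd : d.degree < M
  · exact Ideal.mul_mem_right _ _ (hf d hd)
  · exact Ideal.mul_mem_left _ _
      (hprod d e (he.trans_le (Nat.mul_le_mul_left _ (not_lt.1 hd))))

/-- The failure of `g` to be a homomorphism. -/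
def hdiff (F Γ : FormalGroup L) (g : PowerSeries L) : MvPowerSeries (Fin 2) L :=
  PowerSeries.subst F.toPowerSeries g -
    subst ![PowerSeries.subst (X 0 : MvPowerSeries (Fin 2) L) g,
      PowerSeries.subst (X 1 : MvPowerSeries (Fin 2) L) g] Γ.toPowerSeries

variable {F Γ : FormalGroup L}

/-- The addition of the series `w` to `g` along `Γ`. -/
def gadd (Γ : FormalGroup L) (g w : PowerSeries L) : PowerSeries L :=
  subst ![g, w] Γ.toPowerSeries

theorem constantCoeff_gadd {g w : PowerSeries L} (hg : PowerSeries.constantCoeff g = 0)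
    (hw : PowerSeries.constantCoeff w = 0) : PowerSeries.constantCoeff (gadd Γ g w) = 0 :=
  constantCoeff_subst2 Γ hg hw

theorem ps_subst_gadd {g w : PowerSeries L} (hg : PowerSeries.constantCoeff g = 0)
    (hw : PowerSeries.constantCoeff w = 0) {σ : Type*} {x : MvPowerSeries σ L}
    (hx : constantCoeff x = 0) :
    PowerSeries.subst x (gadd Γ g w) =
      subst ![PowerSeries.subst x g, PowerSeries.subst x w] Γ.toPowerSeries := by
  have hs := (PowerSeries.HasSubst.of_constantCoeff_zero hx).const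
  rw [PowerSeries.subst_def, gadd, subst_comp_subst_apply (hasSubst_pair hg hw) hs]
  congr 1
  funext s
  fin_cases s <;> rfl

theorem hdiff_gadd [Γ.IsComm] {g w : PowerSeries L} {N : ℕ}
    (hg : PowerSeries.constantCoeff g = 0) (hw : PowerSeries.constantCoeff w = 0)
    (hd : hdiff F Γ g ∈ cI (⊥ : Ideal L) N) (he : hdiff F Γ w ∈ cI (⊥ : Ideal L) N) :
    hdiff F Γ (gadd Γ g w) - (hdiff F Γ g + hdiff F Γ w) ∈ cI (⊥ : Ideal L) (N + 1) := by
  set A := PowerSeries.subst F.toPowerSeries g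
  set B := PowerSeries.subst F.toPowerSeries w
  set a₀ := PowerSeries.subst (X 0 : MvPowerSeries (Fin 2) L) g
  set a₁ := PowerSeries.subst (X 1 : MvPowerSeries (Fin 2) L) g
  set b₀ := PowerSeries.subst (X 0 : MvPowerSeries (Fin 2) L) w
  set b₁ := PowerSeries.subst (X 1 : MvPowerSeries (Fin 2) L) w
  have hA : constantCoeff A = 0 := cc_ps hg F.zero_constantCoeff
  have hB : constantCoeff B = 0 := cc_ps hw F.zero_constantCoeff
  have ha₀ : constantCoeff a₀ = 0 := cc_ps hg cc_X
  have ha₁ : constantCoeff a₁ = 0 := cc_ps hg cc_X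
  have hb₀ : constantCoeff b₀ = 0 := cc_ps hw cc_X
  have hb₁ : constantCoeff b₁ = 0 := cc_ps hw cc_X
  set A' := subst ![a₀, a₁] Γ.toPowerSeries
  set B' := subst ![b₀, b₁] Γ.toPowerSeries
  have hA' : constantCoeff A' = 0 := constantCoeff_subst2 Γ ha₀ ha₁
  have hB' : constantCoeff B' = 0 := constantCoeff_subst2 Γ hb₀ hb₁
  have e : hdiff F Γ (gadd Γ g w) =
      subst ![A, B] Γ.toPowerSeries - subst ![A', B'] Γ.toPowerSeries := by
    rw [hdiff, ps_subst_gadd hg hw F.zero_constantCoeff, ps_subst_gadd hg hw cc_X,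
      ps_subst_gadd hg hw cc_X, law_four Γ ha₀ hb₀ ha₁ hb₁]
  have h1 := subst_sub_left_mem Γ hA hA' hB hd
  have h2 := subst_sub_left_mem Γ hB hB' hA' he
  rw [← isComm_subst_left Γ hA' hB, ← isComm_subst_left Γ hA' hB'] at h2
  rw [e, show hdiff F Γ g = A - A' from rfl, show hdiff F Γ w = B - B' from rfl]
  convert (cI (⊥ : Ideal L) (N + 1)).add_mem h1 h2 using 1
  ring

theorem ps_subst_C_mul_X_pow {σ : Type*} (b : L) (j : ℕ) {x : MvPowerSeries σ L}
    (hx : constantCoeff x = 0) :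
    PowerSeries.subst x (PowerSeries.C b * PowerSeries.X ^ j) = C b * x ^ j := by
  have h := PowerSeries.HasSubst.of_constantCoeff_zero hx
  rw [PowerSeries.subst_mul h, PowerSeries.subst_C, PowerSeries.subst_pow h,
    PowerSeries.subst_X h]

theorem hdiff_monomial (b : L) (j : ℕ) :
    hdiff F Γ (PowerSeries.C b * PowerSeries.X ^ j) = C b * F.toPowerSeries ^ j -
      subst ![C b * X 0 ^ j, C b * X 1 ^ j] Γ.toPowerSeries := by
  rw [hdiff, ps_subst_C_mul_X_pow b j F.zero_constantCoeff, ps_subst_C_mul_X_pow b j cc_X,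
    ps_subst_C_mul_X_pow b j cc_X]

theorem subst_lin {σ : Type*} {x : Fin 2 → MvPowerSeries σ L}
    (hx : ∀ s, constantCoeff (x s) = 0) (f : MvPowerSeries (Fin 2) L) :
    subst x f = x 0 + x 1 + subst x (f - (X 0 + X 1)) := by
  have h := hasSubst0 hx
  rw [subst_sub h, subst_add h, subst_X h, subst_X h]
  ring

theorem hdiff_nonpow {N : ℕ} (hN : 2 ≤ N) (b : L)
    (hF2 : F.toPowerSeries - (X 0 + X 1) ∈ cI (⊥ : Ideal L) 2)
    (hΓ2 : Γ.toPowerSeries - (X 0 + X 1) ∈ cI (⊥ : Ideal L) 2) :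
    hdiff F Γ (PowerSeries.C b * PowerSeries.X ^ N) ∈ cI (⊥ : Ideal L) N ∧
      hdiff F Γ (PowerSeries.C b * PowerSeries.X ^ N) -
        C b * ((X 0 + X 1) ^ N - X 0 ^ N - X 1 ^ N) ∈ cI (⊥ : Ideal L) (N + 1) := by
  have hxN : ∀ s, (![C b * X 0 ^ N, C b * X 1 ^ N] : Fin 2 → MvPowerSeries (Fin 2) L) s ∈
      cI (⊥ : Ideal L) N := fun s => by
    fin_cases s <;> exact Ideal.mul_mem_left _ _ (pow_mem_cI_bot cc_X N)
  have hx0 : ∀ s, constantCoeff
      ((![C b * X 0 ^ N, C b * X 1 ^ N] : Fin 2 → MvPowerSeries (Fin 2) L) s) = 0 := fun s => by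
    fin_cases s <;> simp [zero_pow (show N ≠ 0 by omega)]
  have h1 : F.toPowerSeries ^ N - (X 0 + X 1) ^ N ∈ cI (⊥ : Ideal L) (N + 1) := by
    have := prod_sub_prod_mem_high (σ := Unit) (x := fun _ => F.toPowerSeries)
      (y := fun _ => X 0 + X 1) (fun _ => F.zero_constantCoeff) (fun _ => by simp)
      (fun _ => hF2) (Finsupp.single () N)
    simpa using this
  have h2 : subst (![C b * X 0 ^ N, C b * X 1 ^ N] : Fin 2 → MvPowerSeries (Fin 2) L)
      (Γ.toPowerSeries - (X 0 + X 1)) ∈ cI (⊥ : Ideal L) (N + 1) :=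
    cI_anti (M := N + 1) (N := N * 2) (by omega) (subst_mem_cI_bot_mul (by omega) hxN hΓ2)
  have key : hdiff F Γ (PowerSeries.C b * PowerSeries.X ^ N) -
      C b * ((X 0 + X 1) ^ N - X 0 ^ N - X 1 ^ N) ∈ cI (⊥ : Ideal L) (N + 1) := by
    rw [hdiff_monomial, subst_lin hx0]
    convert (cI (⊥ : Ideal L) (N + 1)).sub_mem (Ideal.mul_mem_left _ (C b) h1) h2 using 1
    simp only [Matrix.cons_val_zero, Matrix.cons_val_one, Matrix.cons_val_fin_one]
    ring
  refine ⟨?_, key⟩
  have h3 : C b * ((X 0 + X 1 : MvPowerSeries (Fin 2) L) ^ N - X 0 ^ N - X 1 ^ N) ∈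
      cI (⊥ : Ideal L) N :=
    Ideal.mul_mem_left _ _ (Ideal.sub_mem _ (Ideal.sub_mem _
      (pow_mem_cI_bot (by simp) N) (pow_mem_cI_bot cc_X N)) (pow_mem_cI_bot cc_X N))
  simpa using (cI (⊥ : Ideal L) N).add_mem (cI_anti (Nat.le_succ N) key) h3

theorem coeff_smul_pow_pow (f : MvPowerSeries (Fin 2) L) (i : ℕ) (d : Fin 2 →₀ ℕ) :
    coeff ((p ^ i) • d) (f ^ p ^ i) = coeff d f ^ p ^ i := by
  have : ExpChar L p := ExpChar.prime hp.1
  rw [← map_iterateFrobenius_expand p hp.1.ne_zero f i, coeff_map, coeff_expand_smul,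
    iterateFrobenius_def]

theorem hdiff_pow {P : ℕ} (i : ℕ) (b : L) {u : L}
    (hΓP : Γ.toPowerSeries - (X 0 + X 1) ∈ cI (⊥ : Ideal L) P)
    (hFΓ : F.toPowerSeries - (X 0 + X 1) - C u * (Γ.toPowerSeries - (X 0 + X 1)) ∈
      cI (⊥ : Ideal L) (P + 1))
    (d : Fin 2 →₀ ℕ) (hd : d.degree = P) :
    hdiff F Γ (PowerSeries.C b * PowerSeries.X ^ p ^ i) ∈ cI (⊥ : Ideal L) (P * p ^ i) ∧
      coeff ((p ^ i) • d) (hdiff F Γ (PowerSeries.C b * PowerSeries.X ^ p ^ i)) =
        b * (u * coeff d (Γ.toPowerSeries - (X 0 + X 1))) ^ p ^ i -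
          coeff d (Γ.toPowerSeries - (X 0 + X 1)) * b ^ P := by
  classical
  have : CharP (MvPowerSeries (Fin 2) L) p := charP_of_injective_ringHom C_injective p
  have hj : 1 ≤ p ^ i := Nat.one_le_pow _ _ hp.1.pos
  set j := p ^ i with hjdef
  set K := Γ.toPowerSeries - (X 0 + X 1) with hK
  set x : Fin 2 → MvPowerSeries (Fin 2) L := ![C b * X 0 ^ j, C b * X 1 ^ j] with hx
  have hx0 : ∀ s, constantCoeff (x s) = 0 := fun s => by
    fin_cases s <;> simp [hx, zero_pow (show j ≠ 0 by omega)]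
  have hxj : ∀ s, x s ∈ cI (⊥ : Ideal L) j := fun s => by
    fin_cases s <;> exact Ideal.mul_mem_left _ _ (pow_mem_cI_bot cc_X j)
  have e : hdiff F Γ (PowerSeries.C b * PowerSeries.X ^ j) =
      C b * (F.toPowerSeries - (X 0 + X 1)) ^ j - subst x K := by
    rw [hdiff_monomial, subst_lin hx0, hK, hjdef, sub_pow_char_pow, add_pow_char_pow]
    simp only [hx, Matrix.cons_val_zero, Matrix.cons_val_one, Matrix.cons_val_fin_one, ← hjdef]
    ring
  have hFP : F.toPowerSeries - (X 0 + X 1) ∈ cI (⊥ : Ideal L) P := by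
    have h := (cI (⊥ : Ideal L) P).add_mem (cI_anti (Nat.le_succ P) hFΓ)
      (Ideal.mul_mem_left _ (C u) hΓP)
    rwa [sub_add_cancel] at h
  have hpow : ∀ (f : MvPowerSeries (Fin 2) L) (M m : ℕ), f ∈ cI (⊥ : Ideal L) M →
      f ^ m ∈ cI (⊥ : Ideal L) (M * m) := fun f M m hf => by
    induction m with
    | zero => exact mem_cI_zero
    | succ m ih =>
      rw [pow_succ, Nat.mul_succ]
      exact mul_mem_cI_add ih hf
  refine ⟨?_, ?_⟩
  · rw [e]
    refine Ideal.sub_mem _ (Ideal.mul_mem_left _ _ (hpow _ _ _ hFP)) ?_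
    rw [mul_comm]
    exact subst_mem_cI_bot_mul hj hxj hΓP
  rw [e, map_sub, coeff_C_mul]
  congr 1
  · have h1 := hFΓ d (by omega)
    rw [Ideal.mem_bot, map_sub, coeff_C_mul, sub_eq_zero] at h1
    rw [hjdef, coeff_smul_pow_pow, h1]
  · rw [coeff_subst' hx0, finsum_eq_single _ d]
    · congr 1
      simp only [Finsupp.prod_fintype, pow_zero, implies_true, Fin.prod_univ_two, hx,
        Matrix.cons_val_zero, Matrix.cons_val_one, Matrix.cons_val_fin_one, mul_pow, ← pow_mul]
      rw [show C b ^ d 0 * X 0 ^ (j * d 0) * (C b ^ d 1 * X 1 ^ (j * d 1)) =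
          C (b ^ P) * ((X 0 : MvPowerSeries (Fin 2) L) ^ (j * d 0) * X 1 ^ (j * d 1)) by
        rw [← hd, degree_two, map_pow, pow_add]; ring, coeff_C_mul, X_pow_eq, X_pow_eq,
        monomial_mul_monomial, coeff_monomial, if_pos, one_mul, mul_one]
      ext s; fin_cases s <;> simp
    · intro d' hd'
      simp only [Finsupp.prod_fintype, pow_zero, implies_true, Fin.prod_univ_two, hx,
        Matrix.cons_val_zero, Matrix.cons_val_one, Matrix.cons_val_fin_one, mul_pow, ← pow_mul]
      rw [show C b ^ d' 0 * X 0 ^ (j * d' 0) * (C b ^ d' 1 * X 1 ^ (j * d' 1)) =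
          C (b ^ (d' 0 + d' 1)) *
            ((X 0 : MvPowerSeries (Fin 2) L) ^ (j * d' 0) * X 1 ^ (j * d' 1)) by
        rw [map_pow, pow_add]; ring, coeff_C_mul, X_pow_eq, X_pow_eq, monomial_mul_monomial,
        coeff_monomial, if_neg, mul_zero, mul_zero]
      intro h
      refine hd' (Finsupp.ext fun s => ?_)
      have hs := DFunLike.congr_fun h s
      fin_cases s <;> simp [show j ≠ 0 by omega] at hs <;> exact hs.symm

/-- A nearly multiplicative series is so one degree further as soon as one coefficient vanishes. -/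
theorem hdiff_mem_succ [F.IsComm] [Γ.IsComm] {g : PowerSeries L}
    (hg : PowerSeries.constantCoeff g = 0) (hg1 : PowerSeries.coeff 1 g ≠ 0) {N : ℕ} (hN : 2 ≤ N)
    (hd : hdiff F Γ g ∈ cI (⊥ : Ideal L) N)
    (h0 : coeff (xy (lazIdx p N) (N - lazIdx p N)) (hdiff F Γ g) = 0) :
    hdiff F Γ g ∈ cI (⊥ : Ideal L) (N + 1) := by
  classical
  have hu : IsUnit (PowerSeries.coeff 1 g) := isUnit_iff_ne_zero.2 hg1
  let gi := g.substInvOfIsUnit hu
  have hgi : PowerSeries.constantCoeff gi = 0 := PowerSeries.constantCoeff_substInvOfIsUnit g hu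
  set F' := conjLaw F g gi hg hgi (g.subst_substInvOfIsUnit_right hg hu)
    (g.subst_substInvOfIsUnit_left hg hu)
  set a : Fin 2 → MvPowerSeries (Fin 2) L :=
    ![PowerSeries.subst (X 0 : MvPowerSeries (Fin 2) L) g, PowerSeries.subst (X 1) g] with ha
  have ha0 : ∀ s, constantCoeff (a s) = 0 := fun s => by fin_cases s <;> exact cc_ps hg cc_X
  set D := F'.toPowerSeries - Γ.toPowerSeries with hD
  have hsub : hdiff F Γ g = subst a D := by
    rw [hD, subst_sub (hasSubst0 ha0), hdiff, ha,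
      (isHom_conjLaw F g gi hg hgi _ _).2]
  have hD' : D = subst ![PowerSeries.subst (X 0 : MvPowerSeries (Fin 2) L) gi,
      PowerSeries.subst (X 1) gi] (hdiff F Γ g) := by
    have hb0 : ∀ s, constantCoeff ((![PowerSeries.subst (X 0 : MvPowerSeries (Fin 2) L) gi,
        PowerSeries.subst (X 1) gi] : Fin 2 → MvPowerSeries (Fin 2) L) s) = 0 := fun s => by
      fin_cases s <;> exact cc_ps hgi cc_X
    rw [hsub, subst_comp_subst_apply (hasSubst0 ha0) (hasSubst0 hb0)]
    have hid : subst (X : Fin 2 → MvPowerSeries (Fin 2) L) D = D := congrFun subst_self D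
    conv_lhs => rw [← hid]
    congr 1
    funext s
    fin_cases s <;>
      simp [ha, subst_ps_subst g cc_X (hasSubst0 hb0), subst_X (hasSubst0 hb0),
        ← ps_subst_ps g gi hgi cc_X, gi, g.subst_substInvOfIsUnit_right hg hu, ps_subst_X cc_X]
  have hDN : D ∈ cI (⊥ : Ideal L) N := by
    rw [hD']
    exact subst_mem_cI (fun s => by fin_cases s <;> exact cc_ps hgi cc_X) hd
  set c := PowerSeries.coeff 1 g
  have hb0 : ∀ s, constantCoeff
      ((![C c * X 0, C c * X 1] : Fin 2 → MvPowerSeries (Fin 2) L) s) = 0 := fun s => by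
    fin_cases s <;> simp
  have hlin : ∀ s, a s - (![C c * X 0, C c * X 1] : Fin 2 → MvPowerSeries (Fin 2) L) s ∈
      cI (⊥ : Ideal L) 2 := by
    intro s
    have : ∀ t : Fin 2, PowerSeries.subst (X t : MvPowerSeries (Fin 2) L) g - C c * X t ∈
        cI (⊥ : Ideal L) 2 := fun t => by
      have h1 : g - PowerSeries.C c * PowerSeries.X ∈ cI (σ := Unit) (⊥ : Ideal L) 2 := by
        rw [mem_cI_ps]
        intro m hm
        rw [Ideal.mem_bot]
        interval_cases m <;> simp [c, hg]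
      have h2 := subst_mem_cI (x := fun _ : Unit => (X t : MvPowerSeries (Fin 2) L))
        (fun _ => cc_X) h1
      rw [← PowerSeries.subst_def, ← PowerSeries.coe_substAlgHom
        (PowerSeries.HasSubst.of_constantCoeff_zero cc_X), map_sub, map_mul,
        PowerSeries.coe_substAlgHom, PowerSeries.subst_C,
        PowerSeries.subst_X (PowerSeries.HasSubst.of_constantCoeff_zero cc_X)] at h2
      exact h2
    fin_cases s <;> exact this _
  have hco : coeff (xy (lazIdx p N) (N - lazIdx p N)) D = 0 := by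
    have hlz := lazIdx_lt hp.1 hN
    set e := xy (lazIdx p N) (N - lazIdx p N)
    have hdeg : e.degree = N := by rw [degree_xy]; omega
    have h2 : subst a D - subst ![C c * X 0, C c * X 1] D ∈ cI (⊥ : Ideal L) (N + 1) :=
      subst_sub_subst_mem_high (I := ⊤) (K := ⊥) ha0 hb0 hlin hDN cI_top (by rw [Ideal.mul_bot])
    have h3 := h2 e (by omega)
    rw [Ideal.mem_bot, map_sub, ← hsub, h0, zero_sub, neg_eq_zero, coeff_subst' hb0,
      finsum_eq_single _ e] at h3
    · simp only [Finsupp.prod_fintype, pow_zero, implies_true, Fin.prod_univ_two,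
        Matrix.cons_val_zero, Matrix.cons_val_one, Matrix.cons_val_fin_one, mul_pow] at h3
      rw [show C c ^ e 0 * X 0 ^ e 0 * (C c ^ e 1 * X 1 ^ e 1) =
          C (c ^ (e 0 + e 1)) * ((X 0 : MvPowerSeries (Fin 2) L) ^ e 0 * X 1 ^ e 1) by
        rw [map_pow, pow_add]; ring, coeff_C_mul, X_pow_eq, X_pow_eq, monomial_mul_monomial,
        coeff_monomial, if_pos (by ext s; fin_cases s <;> simp), mul_one, mul_one] at h3
      exact (mul_eq_zero.1 h3).resolve_right (pow_ne_zero _ hg1)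
    · intro d hd
      simp only [Finsupp.prod_fintype, pow_zero, implies_true, Fin.prod_univ_two,
        Matrix.cons_val_zero, Matrix.cons_val_one, Matrix.cons_val_fin_one, mul_pow]
      rw [show C c ^ d 0 * X 0 ^ d 0 * (C c ^ d 1 * X 1 ^ d 1) =
          C (c ^ (d 0 + d 1)) * ((X 0 : MvPowerSeries (Fin 2) L) ^ d 0 * X 1 ^ d 1) by
        rw [map_pow, pow_add]; ring, coeff_C_mul, X_pow_eq, X_pow_eq, monomial_mul_monomial,
        coeff_monomial, if_neg, mul_zero, mul_zero]
      intro h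
      refine hd (Finsupp.ext fun s => ?_)
      have hs := DFunLike.congr_fun h s
      fin_cases s <;> simp at hs <;> exact hs.symm
  have hD1 := law_diff_mem hp.1 F' Γ hN hDN
    (fun d _ => by rw [Ideal.mem_bot, CharP.cast_eq_zero L p, zero_mul]) (by rwa [Ideal.mem_bot])
  rw [hsub]
  exact subst_mem_cI ha0 hD1

/-- One step of the construction. -/
theorem hdiff_step [IsAlgClosed L] [F.IsComm] [Γ.IsComm] {h : ℕ} (hh : 1 ≤ h) {u : L}
    (hΓP : Γ.toPowerSeries - (X 0 + X 1) ∈ cI (⊥ : Ideal L) (p ^ h))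
    (htop : coeff (xy (p ^ (h - 1)) (p ^ h - p ^ (h - 1))) (Γ.toPowerSeries - (X 0 + X 1)) ≠ 0)
    (hFΓ : F.toPowerSeries - (X 0 + X 1) - C u * (Γ.toPowerSeries - (X 0 + X 1)) ∈
      cI (⊥ : Ideal L) (p ^ h + 1))
    {g : PowerSeries L} (hg : PowerSeries.constantCoeff g = 0) (hg1 : PowerSeries.coeff 1 g ≠ 0)
    {N : ℕ} (hN : p ^ h < N) (hd : hdiff F Γ g ∈ cI (⊥ : Ideal L) N) :
    ∃ g' : PowerSeries L, PowerSeries.constantCoeff g' = 0 ∧
      hdiff F Γ g' ∈ cI (⊥ : Ideal L) (N + 1) ∧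
      ∀ m, m * p ^ h < N → PowerSeries.coeff m g' = PowerSeries.coeff m g := by
  classical
  have hP2 : 2 ≤ p ^ h := hp.1.two_le.trans (Nat.le_self_pow (by omega) p)
  have hN2 : 2 ≤ N := by omega
  set a := lazIdx p N
  obtain ⟨ha, haN⟩ := lazIdx_lt hp.1 hN2
  set ee := xy a (N - a)
  have hdeg : ee.degree = N := by rw [degree_xy]; omega
  obtain ⟨b, j, hj0, hjN, hw, hwe⟩ : ∃ (b : L) (j : ℕ), 0 < j ∧ N ≤ j * p ^ h ∧
      hdiff F Γ (PowerSeries.C b * PowerSeries.X ^ j) ∈ cI (⊥ : Ideal L) N ∧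
      coeff ee (hdiff F Γ (PowerSeries.C b * PowerSeries.X ^ j)) =
        -coeff ee (hdiff F Γ g) := by
    by_cases hpow : ∃ e, N = p ^ e
    · obtain ⟨e, rfl⟩ := hpow
      have hhe : h < e := (Nat.pow_lt_pow_iff_right hp.1.one_lt).1 hN
      set i := e - h with hi
      have hmul : p ^ i * p ^ h = p ^ e := by rw [← pow_add]; congr 1; omega
      set e0 := xy (p ^ (h - 1)) (p ^ h - p ^ (h - 1)) with he0
      have hle : p ^ (h - 1) ≤ p ^ h := Nat.pow_le_pow_right hp.1.pos (Nat.sub_le h 1)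
      have hee : ee = (p ^ i) • e0 := by
        have : p ^ i * p ^ (h - 1) = a := by
          show _ = lazIdx p (p ^ e)
          rw [lazIdx_prime_pow hp.1 e, ← pow_add]; congr 1; omega
        ext s
        fin_cases s <;> simp [ee, e0, xy, Nat.mul_sub, this, hmul]
      set κ := coeff e0 (Γ.toPowerSeries - (X 0 + X 1))
      set t := coeff ee (hdiff F Γ g)
      let Q : Polynomial L := Polynomial.C κ * Polynomial.X ^ p ^ h +
        (Polynomial.C (-(u * κ) ^ p ^ i) * Polynomial.X + Polynomial.C (-t))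
      have hQ : Q.degree ≠ 0 := by
        have hlt : (Polynomial.C (-(u * κ) ^ p ^ i) * Polynomial.X + Polynomial.C (-t)).degree <
            (Polynomial.C κ * Polynomial.X ^ p ^ h).degree := by
          rw [Polynomial.degree_C_mul_X_pow _ htop]
          exact lt_of_le_of_lt Polynomial.degree_linear_le
            (WithBot.coe_lt_coe.2 (by omega : 1 < p ^ h))
        rw [Polynomial.degree_add_eq_left_of_degree_lt hlt, Polynomial.degree_C_mul_X_pow _ htop]
        exact_mod_cast (by omega : p ^ h ≠ 0)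
      obtain ⟨b, hb⟩ := IsAlgClosed.exists_root Q hQ
      have h1 := hdiff_pow (F := F) (Γ := Γ) i b hΓP hFΓ e0 (by rw [degree_xy]; omega)
      rw [mul_comm (p ^ h), hmul] at h1
      refine ⟨b, p ^ i, pow_pos hp.1.pos _, hmul.ge, h1.1, ?_⟩
      rw [hee, h1.2]
      simp only [Q, Polynomial.IsRoot, Polynomial.eval_add, Polynomial.eval_mul,
        Polynomial.eval_C, Polynomial.eval_pow, Polynomial.eval_X] at hb
      show b * (u * κ) ^ p ^ i - κ * b ^ p ^ h = -t
      linear_combination -hb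
    · push Not at hpow
      have hc : ((N.choose a : ℕ) : L) ≠ 0 := by
        rw [Ne, CharP.cast_eq_zero_iff L p]
        obtain ⟨v, r, hvr, hr, -, hlz⟩ := lazIdx_of_ne_pow hp.1 (show N ≠ 0 by omega) hpow
        show ¬p ∣ N.choose (lazIdx p N)
        rw [hlz]
        refine not_dvd_choose_pow hp.1 v N ?_
        rw [hvr, Nat.mul_div_cancel_left _ (pow_pos hp.1.pos v)]
        exact fun h0 => hr (Nat.dvd_of_mod_eq_zero h0)
      refine ⟨-coeff ee (hdiff F Γ g) / (N.choose a : L), N, by omega,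
        Nat.le_mul_of_pos_right _ (by omega), ?_⟩
      have hF2 : F.toPowerSeries - (X 0 + X 1) ∈ cI (⊥ : Ideal L) 2 := by
        have h := (cI (⊥ : Ideal L) 2).add_mem (cI_anti (by omega) hFΓ)
          (Ideal.mul_mem_left _ (C u) (cI_anti (by omega) hΓP))
        rwa [sub_add_cancel] at h
      obtain ⟨h1, h2⟩ := hdiff_nonpow (F := F) (Γ := Γ) hN2
        (-coeff ee (hdiff F Γ g) / (N.choose a : L)) hF2 (cI_anti (by omega) hΓP)
      refine ⟨h1, ?_⟩
      have h3 := h2 ee (by omega)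
      rw [Ideal.mem_bot, map_sub, sub_eq_zero] at h3
      rw [h3, coeff_C_mul, map_sub, map_sub, coeff_X_zero_add_X_one_pow, if_pos (by omega),
        coeff_X_pow, coeff_X_pow, if_neg, if_neg, sub_zero, sub_zero, div_mul_cancel₀ _ hc]
      · intro h; have := DFunLike.congr_fun h 0; simp [ee, xy] at this; omega
      · intro h; have := DFunLike.congr_fun h 1; simp [ee, xy] at this; omega
  have hwc : PowerSeries.constantCoeff (PowerSeries.C b * PowerSeries.X ^ j) = 0 := by
    simp [zero_pow hj0.ne']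
  set g' := gadd Γ g (PowerSeries.C b * PowerSeries.X ^ j) with hg'
  have hcoeff : ∀ m, m < j → PowerSeries.coeff m g' = PowerSeries.coeff m g := by
    have h1 : g' - g ∈ cI (σ := Unit) (⊥ : Ideal L) j := by
      have hz : subst ![g, 0] Γ.toPowerSeries = g :=
        Γ.add_zero (PowerSeries.HasSubst.of_constantCoeff_zero' hg)
      have := subst_congr_arg (J := (⊥ : Ideal L)) (N := j)
        (cc2 (σ := Unit) (show constantCoeff g = 0 from hg) (show constantCoeff
          (PowerSeries.C b * PowerSeries.X ^ j : PowerSeries L) = 0 from hwc))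
        (cc2 (σ := Unit) (show constantCoeff g = 0 from hg) (map_zero _)) Γ.toPowerSeries
        (fun s => by
          fin_cases s
          · exact (sub_self g).symm ▸ zero_mem _
          · simp only [Fin.mk_one, Matrix.cons_val_one, Matrix.cons_val_fin_one, sub_zero]
            exact Ideal.mul_mem_left _ _ (pow_mem_cI_bot PowerSeries.constantCoeff_X j))
      rwa [hz] at this
    intro m hm
    have := (mem_cI_ps.1 h1) m hm
    rw [Ideal.mem_bot, map_sub, sub_eq_zero] at this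
    exact this
  have hsum := hdiff_gadd (F := F) (Γ := Γ) hg hwc hd hw
  refine ⟨g', constantCoeff_gadd hg hwc, ?_, fun m hm => hcoeff m ?_⟩
  · refine hdiff_mem_succ (constantCoeff_gadd hg hwc) ?_ hN2 ?_ ?_
    · rw [hcoeff 1 ?_]
      · exact hg1
      · by_contra hj1
        have : j = 1 := by omega
        subst this
        omega
    · have h := (cI (⊥ : Ideal L) N).add_mem (cI_anti (Nat.le_succ N) hsum)
        ((cI (⊥ : Ideal L) N).add_mem hd hw)
      rwa [sub_add_cancel] at h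
    · have h := hsum ee (by omega)
      rw [Ideal.mem_bot, map_sub, map_add, hwe, add_neg_cancel, sub_zero] at h
      exact h
  · exact Nat.lt_of_mul_lt_mul_right (hm.trans_le hjN)

/-- The homomorphism. -/
theorem exists_hom_to_shape [IsAlgClosed L] [F.IsComm] [Γ.IsComm] {h : ℕ} (hh : 1 ≤ h) {u : L}
    (hu : u ≠ 0)
    (hΓP : Γ.toPowerSeries - (X 0 + X 1) ∈ cI (⊥ : Ideal L) (p ^ h))
    (htop : coeff (xy (p ^ (h - 1)) (p ^ h - p ^ (h - 1))) (Γ.toPowerSeries - (X 0 + X 1)) ≠ 0)
    (hFΓ : F.toPowerSeries - (X 0 + X 1) - C u * (Γ.toPowerSeries - (X 0 + X 1)) ∈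
      cI (⊥ : Ideal L) (p ^ h + 1)) :
    ∃ ι : PowerSeries L, IsHom ι F Γ ∧ PowerSeries.coeff 1 ι ^ (p ^ h - 1) = u := by
  classical
  have hP2 : 2 ≤ p ^ h := hp.1.two_le.trans (Nat.le_self_pow (by omega) p)
  obtain ⟨c, hc⟩ := IsAlgClosed.exists_pow_nat_eq u (show 0 < p ^ h - 1 by omega)
  have hc0 : c ≠ 0 := fun h0 => hu (by rw [← hc, h0, zero_pow (by omega)])
  have hcP : c ^ p ^ h = u * c := by
    rw [← hc, ← pow_succ, Nat.sub_add_cancel (by omega : 1 ≤ p ^ h)]
  set g₀ := PowerSeries.C c * PowerSeries.X ^ p ^ 0 with hg₀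
  have hbase : hdiff F Γ g₀ ∈ cI (⊥ : Ideal L) (p ^ h + 1) := by
    intro d hd
    rw [Ideal.mem_bot]
    rcases (Nat.lt_succ_iff.1 hd).lt_or_eq with hlt | heq
    · have h1 := (hdiff_pow (F := F) (Γ := Γ) 0 c hΓP hFΓ (xy 0 (p ^ h))
        (by rw [degree_xy]; omega)).1 d (by simpa using hlt)
      exact Ideal.mem_bot.1 h1
    · have h1 := (hdiff_pow (F := F) (Γ := Γ) 0 c hΓP hFΓ d heq).2
      rw [pow_zero, one_smul] at h1
      rw [hg₀, pow_zero, h1, pow_one, hcP]
      ring
  let T := {g : PowerSeries L // PowerSeries.constantCoeff g = 0 ∧ PowerSeries.coeff 1 g = c}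
  have hstep : ∀ (r : ℕ) (g : T), hdiff F Γ g.1 ∈ cI (⊥ : Ideal L) (p ^ h + 1 + r) →
      ∃ g' : T, hdiff F Γ g'.1 ∈ cI (⊥ : Ideal L) (p ^ h + 1 + r + 1) ∧
        ∀ m, m * p ^ h < p ^ h + 1 + r → PowerSeries.coeff m g'.1 = PowerSeries.coeff m g.1 := by
    intro r g hgr
    obtain ⟨g', h1, h2, h3⟩ := hdiff_step hh hΓP htop hFΓ g.2.1 (g.2.2.symm ▸ hc0)
      (show p ^ h < p ^ h + 1 + r by omega) hgr
    exact ⟨⟨g', h1, (h3 1 (by omega)).trans g.2.2⟩, h2, h3⟩
  choose next hnext hkeep using hstep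
  let s : (r : ℕ) → {g : T // hdiff F Γ g.1 ∈ cI (⊥ : Ideal L) (p ^ h + 1 + r)} :=
    Nat.rec ⟨⟨g₀, by simp [hg₀], by simp [hg₀]⟩, hbase⟩
      fun r g => ⟨next r g.1 g.2, hnext r g.1 g.2⟩
  have hstable : ∀ m r, m * p ^ h ≤ r →
      PowerSeries.coeff m (s r).1.1 = PowerSeries.coeff m (s (m * p ^ h)).1.1 := by
    intro m r hr
    induction r, hr using Nat.le_induction with
    | base => rfl
    | succ r hr ih => exact (hkeep r (s r).1 (s r).2 m (by omega)).trans ih
  let ι : PowerSeries L := PowerSeries.mk fun m => PowerSeries.coeff m (s (m * p ^ h)).1.1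
  have hι0 : PowerSeries.constantCoeff ι = 0 := by
    rw [← PowerSeries.coeff_zero_eq_constantCoeff_apply, PowerSeries.coeff_mk, zero_mul,
      PowerSeries.coeff_zero_eq_constantCoeff_apply]
    exact (s 0).1.2.1
  refine ⟨ι, ⟨hι0, ?_⟩, ?_⟩
  swap
  · rw [PowerSeries.coeff_mk, (s (1 * p ^ h)).1.2.2, hc]
  refine sub_eq_zero.1 (eq_zero_of_forall_mem_cI fun N => ?_)
  show hdiff F Γ ι ∈ _
  set g := (s (N * p ^ h)).1.1 with hg
  have hgc : PowerSeries.constantCoeff g = 0 := (s (N * p ^ h)).1.2.1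
  have hclose : ι - g ∈ cI (σ := Unit) (⊥ : Ideal L) N := by
    rw [mem_cI_ps]
    intro m hm
    rw [Ideal.mem_bot, map_sub, PowerSeries.coeff_mk, sub_eq_zero]
    exact (hstable m _ (Nat.mul_le_mul_right _ hm.le)).symm
  have hcl : ∀ {x : MvPowerSeries (Fin 2) L}, constantCoeff x = 0 →
      PowerSeries.subst x ι - PowerSeries.subst x g ∈ cI (⊥ : Ideal L) N := fun {x} hx => by
    have := subst_mem_cI (x := fun _ : Unit => x) (fun _ => hx) hclose
    rwa [subst_sub (hasSubst0 fun _ => hx), ← PowerSeries.subst_def, ← PowerSeries.subst_def]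
      at this
  have h1 : subst ![PowerSeries.subst (X 0 : MvPowerSeries (Fin 2) L) ι,
        PowerSeries.subst (X 1) ι] Γ.toPowerSeries -
      subst ![PowerSeries.subst (X 0 : MvPowerSeries (Fin 2) L) g,
        PowerSeries.subst (X 1) g] Γ.toPowerSeries ∈ cI (⊥ : Ideal L) N :=
    subst_congr_arg (fun t => by fin_cases t <;> exact cc_ps hι0 cc_X)
      (fun t => by fin_cases t <;> exact cc_ps hgc cc_X) _
      (fun t => by fin_cases t <;> exact hcl cc_X)
  have hP1 : N ≤ N * p ^ h := Nat.le_mul_of_pos_right _ (by omega)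
  have h2 : hdiff F Γ g ∈ cI (⊥ : Ideal L) N := cI_anti (by omega) (s (N * p ^ h)).2
  have h := (cI (⊥ : Ideal L) N).add_mem
    ((cI (⊥ : Ideal L) N).sub_mem (hcl F.zero_constantCoeff) h1) h2
  convert h using 1
  simp only [hdiff]
  ring

end Vale.Agent.P217
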