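import Vale.Agent.P217.Ball
import Vale.Agent.P217.Ev
import Mathlib.Algebra.MvPolynomial.PDeriv
import Mathlib.Algebra.MvPolynomial.Funext
import Mathlib.RingTheory.MvPowerSeries.Trunc
import Mathlib.RingTheory.MvPowerSeries.Order

/-!
# Estimates for polynomials and truncated series on an ultrametric unit polydisc
-/

noncomputable section

namespace Vale.Agent.P217

open MvPolynomial Filter Topology

set_option linter.unusedSectionVars false

variable {L : Type*} [NormedField L] [IsUltrametricDist L] {σ : Type*} [Fintype σ]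

theorem ultra_sub_le_max (a b : L) : ‖a - b‖ ≤ max ‖a‖ ‖b‖ := by
  simpa [sub_eq_add_neg] using IsUltrametricDist.norm_add_le_max a (-b)

theorem ultra_add_le {a b : L} {r : ℝ} (ha : ‖a‖ ≤ r) (hb : ‖b‖ ≤ r) : ‖a + b‖ ≤ r :=
  (IsUltrametricDist.norm_add_le_max a b).trans (max_le ha hb)

theorem ultra_sub_le {a b : L} {r : ℝ} (ha : ‖a‖ ≤ r) (hb : ‖b‖ ≤ r) : ‖a - b‖ ≤ r :=
  (ultra_sub_le_max a b).trans (max_le ha hb)

theorem norm_prod_pow_le {x : σ → L} (hx : ‖x‖ ≤ 1) {D : ℕ} {d : σ →₀ ℕ} (hd : D ≤ d.degree) :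
    ‖d.prod fun s e => x s ^ e‖ ≤ ‖x‖ ^ D := by
  rw [Finsupp.prod, norm_prod]
  calc ∏ a ∈ d.support, ‖x a ^ d a‖ ≤ ∏ a ∈ d.support, ‖x‖ ^ d a := by
        refine Finset.prod_le_prod (fun _ _ => norm_nonneg _) fun a _ => ?_
        rw [norm_pow]
        exact pow_le_pow_left₀ (norm_nonneg _) (norm_le_pi_norm x a) _
    _ = ‖x‖ ^ d.degree := by rw [Finset.prod_pow_eq_pow_sum, Finsupp.degree_apply]
    _ ≤ ‖x‖ ^ D := pow_le_pow_of_le_one (norm_nonneg _) hx hd

/-- A polynomial without terms of degree `< D` is `O(|x|^D)`. -/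
theorem norm_eval_le_pow {Q : MvPolynomial σ L} {C : ℝ} (hC : 0 ≤ C) (hQ : ∀ d, ‖Q.coeff d‖ ≤ C)
    {D : ℕ} (h0 : ∀ d, d.degree < D → Q.coeff d = 0) {x : σ → L} (hx : ‖x‖ ≤ 1) :
    ‖eval x Q‖ ≤ C * ‖x‖ ^ D := by
  rw [eval_eq]
  refine IsUltrametricDist.norm_sum_le_of_forall_le_of_nonneg (by positivity) fun d hd => ?_
  rw [norm_mul]
  have h : D ≤ d.degree := not_lt.mp fun h => mem_support_iff.mp hd (h0 d h)
  exact mul_le_mul (hQ d) (norm_prod_pow_le hx h) (norm_nonneg _) hC

theorem exists_coeff_bound (Q : MvPolynomial σ L) : ∃ C : ℝ, 1 ≤ C ∧ ∀ d, ‖Q.coeff d‖ ≤ C := by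
  refine ⟨1 + ∑ d ∈ Q.support, ‖Q.coeff d‖, by simp [Finset.sum_nonneg], fun d => ?_⟩
  by_cases hd : d ∈ Q.support
  · have := Finset.single_le_sum (f := fun e => ‖Q.coeff e‖) (fun _ _ => norm_nonneg _) hd
    linarith
  · rw [notMem_support_iff.mp hd, norm_zero]
    linarith [Finset.sum_nonneg fun e (_ : e ∈ Q.support) => norm_nonneg (Q.coeff e)]

theorem norm_natCast_le (n : ℕ) : ‖(n : L)‖ ≤ 1 := by
  induction n with
  | zero => simp
  | succ n ih => push_cast; exact ultra_add_le ih (by simp)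

theorem norm_coeff_pderiv_le {Q : MvPolynomial σ L} {C : ℝ} (hQ : ∀ d, ‖Q.coeff d‖ ≤ C) (i : σ)
    (d : σ →₀ ℕ) : ‖(pderiv i Q).coeff d‖ ≤ C := by
  rw [coeff_pderiv, norm_mul]
  have h : ‖((d i : L) + 1)‖ ≤ 1 := by exact_mod_cast norm_natCast_le (d i + 1)
  exact (mul_le_of_le_one_right (norm_nonneg _) h).trans (hQ _)

/-- The first order Taylor remainder of `Q` at `x`. -/
def rem1 (Q : MvPolynomial σ L) (x h : σ → L) : L :=
  eval (x + h) Q - eval x Q - ∑ i, eval x (pderiv i Q) * h i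

/-- `Q` behaves like a polynomial with integral coefficients. -/
def Integral1 (Q : MvPolynomial σ L) : Prop :=
  ∀ x : σ → L, ‖x‖ ≤ 1 → ‖eval x Q‖ ≤ 1 ∧ (∀ i, ‖eval x (pderiv i Q)‖ ≤ 1) ∧
    ∀ h : σ → L, ‖h‖ ≤ 1 → ‖rem1 Q x h‖ ≤ ‖h‖ ^ 2

theorem integral1_one : Integral1 (1 : MvPolynomial σ L) := fun x _ =>
  ⟨by simp, fun i => by simp [pderiv_one], fun h _ => by simp [rem1, pderiv_one]⟩

theorem integral1_X (j : σ) : Integral1 (X j : MvPolynomial σ L) := fun x hx => by
  classical
  refine ⟨by simpa using (norm_le_pi_norm x j).trans hx, fun i => ?_, fun h _ => ?_⟩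
  · rw [pderiv_X]; rcases eq_or_ne i j with rfl | h <;> simp [*]
  · have : rem1 (X j) x h = 0 := by
      rw [rem1, Finset.sum_eq_single j]
      · simp
      · intro i _ hij; simp [hij, hij.symm]
      · simp
    simp [this]

theorem integral1_mul {A B : MvPolynomial σ L} (hA : Integral1 A) (hB : Integral1 B) :
    Integral1 (A * B) := by
  intro x hx
  obtain ⟨a0, a1, a2⟩ := hA x hx
  obtain ⟨b0, b1, b2⟩ := hB x hx
  refine ⟨?_, fun i => ?_, fun h hh => ?_⟩
  · rw [map_mul, norm_mul]; exact mul_le_one₀ a0 (norm_nonneg _) b0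
  · rw [pderiv_mul, map_add, map_mul, map_mul]
    refine ultra_add_le ?_ ?_ <;> rw [norm_mul]
    · exact mul_le_one₀ (a1 i) (norm_nonneg _) b0
    · exact mul_le_one₀ a0 (norm_nonneg _) (b1 i)
  · set lA := ∑ i, eval x (pderiv i A) * h i with hlA
    set lB := ∑ i, eval x (pderiv i B) * h i with hlB
    have hsum : ∑ i, eval x (pderiv i (A * B)) * h i = lA * eval x B + eval x A * lB := by
      rw [hlA, hlB, Finset.sum_mul, Finset.mul_sum, ← Finset.sum_add_distrib]
      refine Finset.sum_congr rfl fun i _ => ?_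
      rw [pderiv_mul, map_add, map_mul, map_mul]; ring
    have key : rem1 (A * B) x h = rem1 A x h * eval x B + eval x A * rem1 B x h +
        (lA + rem1 A x h) * (lB + rem1 B x h) := by
      simp only [rem1, hsum, map_mul, ← hlA, ← hlB]; ring
    have hl : ∀ (Q : MvPolynomial σ L), (∀ i, ‖eval x (pderiv i Q)‖ ≤ 1) →
        ‖∑ i, eval x (pderiv i Q) * h i‖ ≤ ‖h‖ := fun Q hQ =>
      IsUltrametricDist.norm_sum_le_of_forall_le_of_nonneg (norm_nonneg _) fun i _ => by
        rw [norm_mul]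
        exact (mul_le_of_le_one_left (norm_nonneg _) (hQ i)).trans (norm_le_pi_norm h i)
    have hsq : ‖h‖ ^ 2 ≤ ‖h‖ := by nlinarith [norm_nonneg h]
    rw [key]
    refine ultra_add_le (ultra_add_le ?_ ?_) ?_
    · rw [norm_mul]; exact (mul_le_of_le_one_right (norm_nonneg _) b0).trans (a2 h hh)
    · rw [norm_mul]; exact (mul_le_of_le_one_left (norm_nonneg _) a0).trans (b2 h hh)
    · rw [norm_mul, pow_two]
      exact mul_le_mul (ultra_add_le (hl A a1) ((a2 h hh).trans hsq))
        (ultra_add_le (hl B b1) ((b2 h hh).trans hsq)) (norm_nonneg _) (norm_nonneg _)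

theorem integral1_monomial (d : σ →₀ ℕ) : Integral1 (monomial d (1 : L)) := by
  rw [monomial_eq, C_1, one_mul]
  refine Finset.prod_induction _ Integral1 (fun a b => integral1_mul) integral1_one fun i _ => ?_
  simp only
  induction d i with
  | zero => simpa using integral1_one
  | succ n ih => rw [pow_succ]; exact integral1_mul ih (integral1_X i)

/-- First order Taylor formula. -/
theorem norm_rem1_le {Q : MvPolynomial σ L} {C : ℝ} (hC : 0 ≤ C) (hQ : ∀ d, ‖Q.coeff d‖ ≤ C)
    {x h : σ → L} (hx : ‖x‖ ≤ 1) (hh : ‖h‖ ≤ 1) : ‖rem1 Q x h‖ ≤ C * ‖h‖ ^ 2 := by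
  have key : rem1 Q x h = ∑ d ∈ Q.support, Q.coeff d * rem1 (monomial d 1) x h := by
    conv_lhs => rw [as_sum Q]
    simp only [rem1, map_sum, Finset.sum_mul]
    rw [← Finset.sum_sub_distrib, Finset.sum_comm, ← Finset.sum_sub_distrib]
    refine Finset.sum_congr rfl fun d _ => ?_
    have hm : monomial d (Q.coeff d) = MvPolynomial.C (Q.coeff d) * monomial d (1 : L) := by
      rw [C_mul_monomial, mul_one]
    simp only [hm, map_mul, eval_C, pderiv_C_mul, mul_sub, Finset.mul_sum, mul_assoc]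
  rw [key]
  refine IsUltrametricDist.norm_sum_le_of_forall_le_of_nonneg (by positivity) fun d _ => ?_
  rw [norm_mul]
  exact mul_le_mul (hQ d) ((integral1_monomial d x hx).2.2 h hh) (norm_nonneg _) hC

theorem norm_pi_add_le {x y : σ → L} {r : ℝ} (hr : 0 ≤ r) (hx : ‖x‖ ≤ r) (hy : ‖y‖ ≤ r) :
    ‖x + y‖ ≤ r :=
  (pi_norm_le_iff_of_nonneg hr).mpr fun i =>
    ultra_add_le ((norm_le_pi_norm x i).trans hx) ((norm_le_pi_norm y i).trans hy)

theorem norm_eval_sub_le {Q : MvPolynomial σ L} {C : ℝ} (hC : 0 ≤ C) (hQ : ∀ d, ‖Q.coeff d‖ ≤ C)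
    {a b : σ → L} (ha : ‖a‖ ≤ 1) (hb : ‖b‖ ≤ 1) :
    ‖eval a Q - eval b Q‖ ≤ C * ‖a - b‖ := by
  have hh : ‖a - b‖ ≤ 1 := by
    rw [sub_eq_add_neg]
    exact norm_pi_add_le zero_le_one ha (by rwa [norm_neg])
  have h := norm_rem1_le hC hQ hb hh
  rw [rem1, add_sub_cancel] at h
  have hl : ‖∑ i, eval b (pderiv i Q) * (a - b) i‖ ≤ C * ‖a - b‖ :=
    IsUltrametricDist.norm_sum_le_of_forall_le_of_nonneg (by positivity) fun i _ => by
      rw [norm_mul]
      refine mul_le_mul ?_ (norm_le_pi_norm _ i) (norm_nonneg _) hC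
      simpa using norm_eval_le_pow hC (norm_coeff_pderiv_le hQ i) (D := 0) (by simp) hb
  have := ultra_add_le (h.trans (mul_le_mul_of_nonneg_left
    (pow_le_of_le_one (norm_nonneg _) hh two_ne_zero) hC)) hl
  simpa using this

/-- Values of a homogeneous polynomial. -/
theorem eval_smul_of_homogeneous {Q : MvPolynomial σ L} {r : ℕ}
    (hQ : ∀ d, Q.coeff d ≠ 0 → d.degree = r) (t : L) (x : σ → L) :
    eval (t • x) Q = t ^ r * eval x Q := by
  rw [eval_eq', eval_eq', Finset.mul_sum]
  refine Finset.sum_congr rfl fun d hd => ?_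
  rw [← hQ d (mem_support_iff.mp hd), Finsupp.degree_eq_sum, ← Finset.prod_pow_eq_pow_sum]
  simp only [Pi.smul_apply, smul_eq_mul, mul_pow, Finset.prod_mul_distrib]
  ring

/-- The series `S` differs from its truncation by `O(|x|^D)`. -/
theorem norm_ev_sub_trunc_le [CompleteSpace L] (S : MvPowerSeries σ (unitBall L))
    {x : σ → unitBall L} (hx : ∀ i, IsTopologicallyNilpotent (x i)) (D : ℕ) :
    ‖((ev (RingHom.id (unitBall L)) x S : unitBall L) : L) -
        eval (fun i => (x i : L)) (MvPolynomial.map (unitBall L).subtype (S.truncTotal D))‖ ≤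
      ‖fun i => (x i : L)‖ ^ D := by
  set y : σ → L := fun i => (x i : L) with hy_def
  have hy : ‖y‖ ≤ 1 := (pi_norm_le_iff_of_nonneg zero_le_one).mpr fun i => (x i).2
  have hs := (hasSum_ev (φ := RingHom.id (unitBall L)) (hasEval_of_finite hx) S).map
    (unitBall L).subtype continuous_subtype_val
  set T := MvPolynomial.map (unitBall L).subtype (S.truncTotal D) with hT
  have hfin : HasSum (fun d : σ →₀ ℕ => T.coeff d * d.prod fun s e => y s ^ e) (eval y T) := by
    rw [eval_eq]
    exact hasSum_sum_of_ne_finset_zero fun d hd => by simp [notMem_support_iff.mp hd]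
  have hdiff := hs.sub hfin
  refine mem_closedBall_zero_iff.mp
    ((Metric.isClosed_closedBall (x := (0 : L)) (ε := ‖y‖ ^ D)).mem_of_tendsto hdiff
      (Eventually.of_forall fun s => ?_))
  rw [mem_closedBall_zero_iff]
  refine IsUltrametricDist.norm_sum_le_of_forall_le_of_nonneg (by positivity) fun d _ => ?_
  simp only [Function.comp_apply, Subring.coe_subtype, Subring.coe_mul, RingHom.id_apply, hT,
    MvPolynomial.coeff_map]
  have hp : ((d.prod fun s e => x s ^ e : unitBall L) : L) = d.prod fun s e => y s ^ e := by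
    rw [← Subring.coe_subtype, map_finsuppProd]; simp [hy_def]
  rw [hp, ← sub_mul, norm_mul]
  by_cases hd : d.degree < D
  · simp [MvPowerSeries.coeff_truncTotal _ hd, pow_nonneg]
  · rw [MvPowerSeries.coeff_truncTotal_eq_zero _ (not_lt.mp hd)]
    simp only [ZeroMemClass.coe_zero, sub_zero]
    exact (mul_le_of_le_one_left (norm_nonneg _) (MvPowerSeries.coeff d S).2).trans
      (norm_prod_pow_le hy (not_lt.mp hd))


/-- An element bounded by every `C |t|` vanishes. -/
theorem eq_zero_of_norm_le_mul {a t : L} (ht : ‖t‖ < 1) {C : ℝ}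
    (h : ∀ n : ℕ, ‖a‖ ≤ C * ‖t ^ (n + 1)‖) : a = 0 := by
  have hlim : Tendsto (fun n : ℕ => C * ‖t ^ (n + 1)‖) atTop (𝓝 0) := by
    have := ((tendsto_pow_atTop_nhds_zero_of_lt_one (norm_nonneg t) ht).comp
      (tendsto_add_atTop_nat 1)).const_mul C
    simpa [norm_pow] using this
  simpa using ge_of_tendsto' hlim h

/-- A polynomial vanishing on the part of the unit ball supported on `U` has no monomial
supported on `U`. -/
theorem coeff_eq_zero_of_eval_eq_zero {Q : MvPolynomial σ L} {t : L} (ht0 : t ≠ 0) (ht : ‖t‖ < 1)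
    (U : Set σ) (hQ : ∀ x : σ → L, ‖x‖ ≤ 1 → (∀ i ∉ U, x i = 0) → eval x Q = 0)
    {d : σ →₀ ℕ} (hd : ∀ i ∉ U, d i = 0) : Q.coeff d = 0 := by
  classical
  set QU : MvPolynomial σ L :=
    ∑ e ∈ Q.support, if ∀ i ∉ U, e i = 0 then monomial e (Q.coeff e) else 0 with hQU
  have hev : ∀ x : σ → L, eval x QU = eval (fun i => if i ∈ U then x i else 0) Q := fun x => by
    rw [hQU, map_sum, eval_eq']
    refine Finset.sum_congr rfl fun e _ => ?_
    split_ifs with he
    · rw [eval_monomial, Finsupp.prod_fintype _ _ (by simp)]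
      congr 1
      refine Finset.prod_congr rfl fun i _ => ?_
      by_cases hi : i ∈ U <;> simp [hi, he i]
    · obtain ⟨i, hi, hne⟩ := by simpa using he
      rw [map_zero, eq_comm, mul_eq_zero]
      exact .inr (Finset.prod_eq_zero (Finset.mem_univ i) (by simp [hi, zero_pow hne]))
  have hinf : (Metric.closedBall (0 : L) 1).Infinite := by
    have hinj : Function.Injective fun n : ℕ => t ^ n := fun a b hab => by
      have := congrArg norm hab
      simp only [norm_pow] at this
      exact pow_right_injective₀ (norm_pos_iff.mpr ht0) ht.ne this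
    exact (Set.infinite_range_of_injective hinj).mono (by
      rintro _ ⟨n, rfl⟩
      simp [pow_le_one₀ (norm_nonneg t) ht.le])
  have h0 : QU = 0 := MvPolynomial.funext_set (fun _ => Metric.closedBall (0 : L) 1)
    (fun _ => hinf) fun x hx => by
      rw [hev, map_zero]
      refine hQ _ ((pi_norm_le_iff_of_nonneg zero_le_one).mpr fun i => ?_) fun i hi => by simp [hi]
      by_cases hi : i ∈ U
      · simpa [hi] using mem_closedBall_zero_iff.mp (hx i (Set.mem_univ _))
      · simp [hi]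
  by_cases hs : d ∈ Q.support
  · have := congrArg (coeff d) h0
    rw [hQU, coeff_sum, Finset.sum_eq_single d] at this
    · simpa [if_pos hd] using this
    · intro e _ hne; split_ifs <;> simp [hne]
    · exact fun h => absurd hs h
  · exact notMem_support_iff.mp hs

/-- A series over the unit ball which is `O(|x|^N)` at all points starts in degree `N`. -/
theorem coeff_eq_zero_of_norm_ev_le [CompleteSpace L] {t : L} (ht0 : t ≠ 0) (ht : ‖t‖ < 1)
    {S : MvPowerSeries σ (unitBall L)} {N : ℕ}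
    (hS : ∀ x : σ → unitBall L, (∀ i, IsTopologicallyNilpotent (x i)) →
      ‖((ev (RingHom.id (unitBall L)) x S : unitBall L) : L)‖ ≤ ‖fun i => (x i : L)‖ ^ N) :
    ∀ d : σ →₀ ℕ, d.degree < N → MvPowerSeries.coeff d S = 0 := by
  suffices h : ∀ r, r < N → ∀ d : σ →₀ ℕ, d.degree = r → MvPowerSeries.coeff d S = 0 by
    exact fun d hd => h _ hd d rfl
  intro r
  induction r using Nat.strong_induction_on with
  | _ r ih =>
    intro hr d hd
    set T := MvPolynomial.map (unitBall L).subtype (S.truncTotal (r + 1)) with hT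
    have hhom : ∀ e, T.coeff e ≠ 0 → e.degree = r := fun e he => by
      rw [hT, MvPolynomial.coeff_map, MvPowerSeries.coeff_truncTotal_eq_ite] at he
      split_ifs at he with hlt
      · rcases (Nat.lt_succ_iff.mp hlt).lt_or_eq with h | h
        · simp [ih _ h (h.trans hr) e rfl] at he
        · exact h
      · simp at he
    have hz : ∀ x : σ → L, ‖x‖ ≤ 1 → eval x T = 0 := fun x hx => by
      refine eq_zero_of_norm_le_mul ht (C := 1) fun n => ?_
      set s := t ^ (n + 1) with hs
      have hs1 : ‖s‖ < 1 := by rw [hs, norm_pow]; exact pow_lt_one₀ (norm_nonneg _) ht (by simp)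
      have hs0 : (0 : ℝ) < ‖s‖ := norm_pos_iff.mpr (pow_ne_zero _ ht0)
      let y : σ → unitBall L := fun i => ⟨(s • x) i, by
        rw [mem_unitBall, Pi.smul_apply, smul_eq_mul, norm_mul]
        exact mul_le_one₀ hs1.le (norm_nonneg _) ((norm_le_pi_norm x i).trans hx)⟩
      have hy : ∀ i, IsTopologicallyNilpotent (y i) := fun i =>
        isTopologicallyNilpotent_ball.mpr <| by
          show ‖(s • x) i‖ < 1
          rw [Pi.smul_apply, smul_eq_mul, norm_mul]
          exact (mul_le_of_le_one_right (norm_nonneg _)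
            ((norm_le_pi_norm x i).trans hx)).trans_lt hs1
      have hy1 : ‖fun i => (y i : L)‖ ≤ 1 :=
        (pi_norm_le_iff_of_nonneg zero_le_one).mpr fun i => (y i).2
      have h1 := (hS y hy).trans (pow_le_pow_of_le_one (norm_nonneg _) hy1 (Nat.succ_le_of_lt hr))
      have h := ultra_sub_le h1 (norm_ev_sub_trunc_le S hy (r + 1))
      rw [sub_sub_cancel, ← hT,
        show (fun i => (y i : L)) = s • x from rfl, eval_smul_of_homogeneous hhom, norm_mul,
        norm_pow, norm_smul, mul_pow, pow_succ ‖s‖ r, mul_assoc] at h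
      have := le_of_mul_le_mul_left h (pow_pos hs0 r)
      refine this.trans ?_
      rw [one_mul]
      exact mul_le_of_le_one_right (norm_nonneg _) (pow_le_one₀ (norm_nonneg _) hx)
    have hd' := coeff_eq_zero_of_eval_eq_zero ht0 ht Set.univ (fun x hx _ => hz x hx)
      (d := d) (by simp)
    rw [hT, MvPolynomial.coeff_map,
      MvPowerSeries.coeff_truncTotal _ (hd ▸ Nat.lt_succ_self r)] at hd'
    exact Subtype.ext (by simpa using hd')

/-- A series over the unit ball vanishing at all points vanishes. -/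
theorem series_eq_zero_of_forall_ev [CompleteSpace L] {t : L} (ht0 : t ≠ 0) (ht : ‖t‖ < 1)
    {S : MvPowerSeries σ (unitBall L)}
    (hS : ∀ x : σ → unitBall L, (∀ i, IsTopologicallyNilpotent (x i)) →
      ev (RingHom.id (unitBall L)) x S = 0) : S = 0 :=
  MvPowerSeries.ext fun d => by
    rw [map_zero]
    refine coeff_eq_zero_of_norm_ev_le ht0 ht (N := d.degree + 1) (fun x hx => ?_) d (Nat.lt_succ_self _)
    rw [hS x hx, ZeroMemClass.coe_zero, norm_zero]
    positivity

end Vale.Agent.P217
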