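import Vale.Agent.P217.ShiftPoint
import Vale.Agent.P217.TwistPoly
import Vale.Agent.P217.Trunc
import Mathlib.Algebra.CharP.Frobenius
import Mathlib.RingTheory.MvPowerSeries.Inverse

/-!
# Approximation by series and series roots

`Appr D δ g a` says that the numbers `a z` agree with the value of `g` at `δ z` up to `‖δ z‖ ^ D`.
The equation `c ^ P = w * c + b` has series roots when `w` is invertible.
-/

noncomputable section

namespace Vale.Agent.P217

open MvPowerSeries

set_option linter.unusedSectionVars false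

variable {L : Type*} [NormedField L] [IsUltrametricDist L]
variable {σ : Type*} [Fintype σ] {Z : Type*}

/-- The values `a` are approximated by the series `g` at the points `δ` to order `D`. -/
def Appr (D : ℕ) (δ : Z → σ → L) (g : MvPowerSeries σ L) (a : Z → L) : Prop :=
  ∃ C : ℝ, 0 ≤ C ∧ ∀ z, ‖a z - MvPolynomial.eval (δ z) (g.truncTotal D)‖ ≤ C * ‖δ z‖ ^ D

variable {D : ℕ} {δ : Z → σ → L} {g g' : MvPowerSeries σ L} {a a' : Z → L}

theorem Appr.congr (h : Appr D δ g a) (hg : ∀ d, Finsupp.degree d < D → coeff d g = coeff d g') :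
    Appr D δ g' a := by
  obtain ⟨C, hC, hb⟩ := h
  have e : g'.truncTotal D = g.truncTotal D := MvPolynomial.ext _ _ fun d => by
    rw [coeff_truncTotal_eq_ite, coeff_truncTotal_eq_ite]
    split_ifs with hd
    · exact (hg d hd).symm
    · rfl
  exact ⟨C, hC, fun z => by rw [e]; exact hb z⟩

theorem Appr.of_close (h : Appr D δ g a) {C : ℝ} (hC : 0 ≤ C)
    (ha : ∀ z, ‖a' z - a z‖ ≤ C * ‖δ z‖ ^ D) : Appr D δ g a' := by
  obtain ⟨C', hC', hb⟩ := h
  refine ⟨max C C', le_trans hC (le_max_left _ _), fun z => ?_⟩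
  rw [← sub_add_sub_cancel (a' z) (a z)]
  exact ultra_add_le ((ha z).trans (by gcongr; exact le_max_left _ _))
    ((hb z).trans (by gcongr; exact le_max_right _ _))

theorem Appr.zero : Appr D δ (0 : MvPowerSeries σ L) 0 :=
  ⟨0, le_rfl, fun z => by simp⟩

theorem Appr.add (h : Appr D δ g a) (h' : Appr D δ g' a') : Appr D δ (g + g') (a + a') := by
  obtain ⟨C, hC, hb⟩ := h
  obtain ⟨C', hC', hb'⟩ := h'
  refine ⟨max C C', le_trans hC (le_max_left _ _), fun z => ?_⟩
  rw [map_add, map_add, Pi.add_apply, add_sub_add_comm]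
  exact ultra_add_le ((hb z).trans (by gcongr; exact le_max_left _ _))
    ((hb' z).trans (by gcongr; exact le_max_right _ _))

theorem Appr.sum {κ : Type*} (s : Finset κ) {g : κ → MvPowerSeries σ L} {a : κ → Z → L}
    (h : ∀ i ∈ s, Appr D δ (g i) (a i)) : Appr D δ (∑ i ∈ s, g i) (fun z => ∑ i ∈ s, a i z) := by
  classical
  induction s using Finset.induction_on with
  | empty => simp only [Finset.sum_empty]; exact Appr.zero
  | insert i s hi ih =>
    simp only [Finset.sum_insert hi]
    exact (h i (Finset.mem_insert_self i s)).add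
      (ih fun j hj => h j (Finset.mem_insert_of_mem hj))

theorem norm_eval_trunc_le (hδ : ∀ z, ‖δ z‖ ≤ 1) (g : MvPowerSeries σ L) :
    ∃ C : ℝ, 0 ≤ C ∧ ∀ z, ‖MvPolynomial.eval (δ z) (g.truncTotal D)‖ ≤ C := by
  obtain ⟨C, hC, hb⟩ := exists_coeff_bound (g.truncTotal D)
  exact ⟨C, by linarith, fun z =>
    (norm_eval_le_pow (by linarith) hb (D := 0) (by simp) (hδ z)).trans (by simp)⟩

theorem Appr.bounded (hδ : ∀ z, ‖δ z‖ ≤ 1) (h : Appr D δ g a) :
    ∃ C : ℝ, 0 ≤ C ∧ ∀ z, ‖a z‖ ≤ C := by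
  obtain ⟨C, hC, hb⟩ := h
  obtain ⟨C', hC', hb'⟩ := norm_eval_trunc_le (D := D) hδ g
  refine ⟨max C C', le_trans hC (le_max_left _ _), fun z => ?_⟩
  rw [← sub_add_cancel (a z) (MvPolynomial.eval (δ z) (g.truncTotal D))]
  exact ultra_add_le ((hb z).trans ((mul_le_of_le_one_right hC
    (pow_le_one₀ (norm_nonneg _) (hδ z))).trans (le_max_left _ _)))
    ((hb' z).trans (le_max_right _ _))

theorem norm_eval_trunc_mul_le (hδ : ∀ z, ‖δ z‖ ≤ 1) (g g' : MvPowerSeries σ L) :
    ∃ C : ℝ, 0 ≤ C ∧ ∀ z, ‖MvPolynomial.eval (δ z) ((g * g').truncTotal D) -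
      MvPolynomial.eval (δ z) (g.truncTotal D) * MvPolynomial.eval (δ z) (g'.truncTotal D)‖ ≤
      C * ‖δ z‖ ^ D := by
  obtain ⟨C, hC, hb⟩ :=
    exists_coeff_bound ((g * g').truncTotal D - g.truncTotal D * g'.truncTotal D)
  refine ⟨C, by linarith, fun z => ?_⟩
  rw [← map_mul, ← map_sub]
  refine norm_eval_le_pow (by linarith) hb (fun d hd => ?_) (hδ z)
  rw [MvPolynomial.coeff_sub, coeff_truncTotal _ hd,
    coeff_truncTotal_mul_truncTotal_eq_coeff_mul _ _ hd, sub_self]

theorem Appr.mul (hδ : ∀ z, ‖δ z‖ ≤ 1) (h : Appr D δ g a) (h' : Appr D δ g' a') :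
    Appr D δ (g * g') (a * a') := by
  obtain ⟨A, hA, hab⟩ := h'.bounded hδ
  obtain ⟨G, hG, hgb⟩ := norm_eval_trunc_le (D := D) hδ g
  obtain ⟨T, hT, htb⟩ := norm_eval_trunc_mul_le (D := D) hδ g g'
  obtain ⟨C, hC, hb⟩ := h
  obtain ⟨C', hC', hb'⟩ := h'
  refine ⟨max (max (C * A) (G * C')) T, le_trans hT (le_max_right _ _), fun z => ?_⟩
  set x := MvPolynomial.eval (δ z) (g.truncTotal D)
  set y := MvPolynomial.eval (δ z) (g'.truncTotal D)
  have e : a z * a' z - MvPolynomial.eval (δ z) ((g * g').truncTotal D) =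
      ((a z - x) * a' z + x * (a' z - y)) -
        (MvPolynomial.eval (δ z) ((g * g').truncTotal D) - x * y) := by ring
  rw [Pi.mul_apply, e]
  refine ultra_sub_le (ultra_add_le ?_ ?_) ((htb z).trans (by gcongr; exact le_max_right _ _))
  · rw [norm_mul]
    refine (mul_le_mul (hb z) (hab z) (norm_nonneg _) (by positivity)).trans ?_
    rw [mul_right_comm]
    gcongr
    exact (le_max_left _ _).trans (le_max_left _ _)
  · rw [norm_mul]
    refine (mul_le_mul (hgb z) (hb' z) (norm_nonneg _) hG).trans ?_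
    rw [← mul_assoc]
    gcongr
    exact (le_max_right _ _).trans (le_max_left _ _)

theorem Appr.pow (hδ : ∀ z, ‖δ z‖ ≤ 1) (h : Appr D δ g a) (j : ℕ) :
    Appr D δ (g ^ j) (a ^ j) := by
  induction j with
  | zero =>
    refine ⟨1, zero_le_one, fun z => ?_⟩
    rcases Nat.eq_zero_or_pos D with rfl | hD
    · have : (1 : MvPowerSeries σ L).truncTotal 0 = 0 := MvPolynomial.ext _ _ fun d => by
        simp [coeff_truncTotal_eq_ite]
      simp [this]
    · rw [pow_zero g, truncTotal_one hD.ne', map_one, pow_zero a, Pi.one_apply, sub_self, norm_zero]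
      positivity
  | succ j ih => simpa [pow_succ] using ih.mul hδ h

/-- The value of a series over the unit ball is approximated by it. -/
theorem Appr.ev [CompleteSpace L] {δ : Z → σ → unitBall L}
    (hn : ∀ z s, IsTopologicallyNilpotent (δ z s)) (G : MvPowerSeries σ (unitBall L)) :
    Appr D (fun z s => (δ z s : L)) (G.map (unitBall L).subtype)
      (fun z => ((ev (RingHom.id _) (δ z) G : unitBall L) : L)) := by
  refine ⟨1, zero_le_one, fun z => ?_⟩
  have h1 : ‖fun s => (δ z s : L)‖ ≤ 1 :=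
    (pi_norm_le_iff_of_nonneg zero_le_one).2 fun s => norm_coe_le_one _
  have h := norm_ev_sub_truncTotal_le (hn z) (norm_nonneg _) h1
    (fun s => norm_le_pi_norm (fun s => (δ z s : L)) s) G D
  have e : (G.map (unitBall L).subtype).truncTotal D =
      MvPolynomial.map (unitBall L).subtype (G.truncTotal D) := MvPolynomial.ext _ _ fun d => by
    rw [coeff_truncTotal_eq_ite, MvPolynomial.coeff_map, coeff_truncTotal_eq_ite]
    split_ifs <;> simp
  rw [e, one_mul, MvPolynomial.eval_map,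
    show MvPolynomial.eval₂ (unitBall L).subtype (fun s => (δ z s : L)) (G.truncTotal D) =
      (unitBall L).subtype (MvPolynomial.eval (δ z) (G.truncTotal D)) from
      (MvPolynomial.eval₂_comp (unitBall L).subtype (δ z) (G.truncTotal D)).symm]
  simpa using h

section Roots

variable {P : ℕ}

theorem pow_sub_pow_mem_succ {p h : ℕ} [Fact p.Prime] [CharP L p] (hh : 1 ≤ h)
    {e e' : MvPowerSeries σ L} (he : constantCoeff e = 0) (he' : constantCoeff e' = 0) {N : ℕ}
    (hee : e - e' ∈ cI (⊥ : Ideal L) N) :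
    e ^ p ^ h - e' ^ p ^ h ∈ cI (⊥ : Ideal L) (N + 1) := by
  have : ExpChar L p := ExpChar.prime Fact.out
  have : CharP (MvPowerSeries σ L) p :=
    charP_of_injective_ringHom (f := (C : L →+* MvPowerSeries σ L))
      (fun a b h => by simpa using congrArg constantCoeff h) p
  rw [← sub_pow_char_pow, show p ^ h = (p ^ h - 1) + 1 by
    have := pow_pos (Fact.out : p.Prime).pos h; omega, pow_succ']
  refine mul_mem_cI_add hee ?_
  have h1 := pow_mem_cI_bot (f := e - e') (by rw [map_sub, he, he', sub_zero]) (p ^ h - 1)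
  refine cI_anti ?_ h1
  have := Nat.le_self_pow (show h ≠ 0 by omega) p
  have := (Fact.out : p.Prime).two_le
  omega

/-- A root with given constant term of `c ^ P = w * c + b`. -/
theorem exists_series_root {p h : ℕ} [Fact p.Prime] [CharP L p] (hh : 1 ≤ h)
    {w b : MvPowerSeries σ L} {c0 : L} (hw : constantCoeff w ≠ 0)
    (h0 : c0 ^ p ^ h = constantCoeff w * c0 + constantCoeff b) :
    ∃ c, constantCoeff c = c0 ∧ c ^ p ^ h = w * c + b := by
  have : ExpChar L p := ExpChar.prime Fact.out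
  have : CharP (MvPowerSeries σ L) p :=
    charP_of_injective_ringHom (f := (C : L →+* MvPowerSeries σ L))
      (fun a b h => by simpa using congrArg constantCoeff h) p
  have hP : p ^ h ≠ 0 := pow_ne_zero _ (Fact.out : p.Prime).ne_zero
  set β := w * C c0 + b - C c0 ^ p ^ h with hβ
  have hβ0 : constantCoeff β = 0 := by
    rw [hβ, map_sub, map_add, map_mul, map_pow, constantCoeff_C, h0, sub_self]
  let T : MvPowerSeries σ L → MvPowerSeries σ L := fun e => w⁻¹ * (e ^ p ^ h - β)
  have hT0 : ∀ e, constantCoeff e = 0 → constantCoeff (T e) = 0 := fun e he => by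
    simp [T, he, hβ0, zero_pow hP]
  have hit0 : ∀ i, constantCoeff (T^[i] 0) = 0 := fun i => by
    induction i with
    | zero => simp
    | succ i ih => rw [Function.iterate_succ_apply']; exact hT0 _ ih
  have hstep : ∀ i, T^[i + 1] 0 - T^[i] 0 ∈ cI (⊥ : Ideal L) (i + 1) := fun i => by
    induction i with
    | zero =>
      refine mem_cI_bot_one_iff.2 ?_
      rw [map_sub, hit0 1, hit0 0, sub_self]
    | succ i ih =>
      rw [Function.iterate_succ_apply' T (i + 1), Function.iterate_succ_apply' T i]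
      simp only [T, ← mul_sub, sub_sub_sub_cancel_right]
      refine Ideal.mul_mem_left _ _ (pow_sub_pow_mem_succ hh ?_ (hit0 i) ?_)
      · exact (congrArg constantCoeff (Function.iterate_succ_apply' T i 0)).symm.trans (hit0 (i + 1))
      · exact (congrArg (fun x => x - T^[i] 0) (Function.iterate_succ_apply' T i 0)) ▸ ih
  have hmono : ∀ i j, T^[i + j] 0 - T^[i] 0 ∈ cI (⊥ : Ideal L) (i + 1) := fun i j => by
    induction j with
    | zero => simp
    | succ j ih =>
      rw [← sub_add_sub_cancel (T^[i + (j + 1)] 0) (T^[i + j] 0)]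
      exact Ideal.add_mem _ (cI_anti (by omega) (hstep (i + j))) ih
  let e : MvPowerSeries σ L := fun d => coeff d (T^[Finsupp.degree d] 0)
  have he : ∀ i, e - T^[i] 0 ∈ cI (⊥ : Ideal L) (i + 1) := fun i d hd => by
    obtain ⟨j, hj⟩ := Nat.exists_eq_add_of_le (show d.degree ≤ i by omega)
    rw [Ideal.mem_bot, map_sub, show coeff d e = coeff d (T^[d.degree] 0) from rfl, hj,
      ← neg_sub, ← map_sub, neg_eq_zero]
    exact Ideal.mem_bot.1 (hmono d.degree j d (Nat.lt_succ_self _))
  have he0 : constantCoeff e = 0 := by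
    show coeff 0 (T^[Finsupp.degree (0 : σ →₀ ℕ)] 0) = 0
    simp
  have hfix : e = T e := by
    refine sub_eq_zero.1 (eq_zero_of_forall_mem_cI fun N => cI_anti (Nat.le_succ N) ?_)
    rcases N with - | i
    · exact mem_cI_bot_one_iff.2 (by rw [map_sub, he0, hT0 _ he0, sub_self])
    · rw [show e - T e = (e - T^[i + 1] 0) - (T e - T (T^[i] 0)) by
        rw [Function.iterate_succ_apply']; ring]
      refine Ideal.sub_mem _ (he (i + 1)) ?_
      simp only [T, ← mul_sub, sub_sub_sub_cancel_right]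
      exact Ideal.mul_mem_left _ _ (pow_sub_pow_mem_succ hh he0 (hit0 i) (he i))
  refine ⟨C c0 + e, by simp [he0], ?_⟩
  have h1 : w * e = e ^ p ^ h - β := by
    conv_lhs => rw [hfix]
    simp only [T, ← mul_assoc, MvPowerSeries.mul_inv_cancel w hw, one_mul]
  rw [add_pow_char_pow, mul_add, h1, hβ]
  ring

end Roots

/-- Values near a root of an approximated equation are approximated by the series root. -/
theorem Appr.root {p h : ℕ} [Fact p.Prime] [CharP L p] (hh : 1 ≤ h) (hδ : ∀ z, ‖δ z‖ ≤ 1)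
    {w b c : MvPowerSeries σ L} (hc : c ^ p ^ h = w * c + b) {wv bv av : Z → L}
    (hwA : Appr D δ w wv) (hbA : Appr D δ b bv) (hav : ∀ z, av z ^ p ^ h = wv z * av z + bv z)
    {ρ : ℝ} (hρ : 0 < ρ) (hwv : ∀ z, ρ ≤ ‖wv z‖)
    (hsmall : ∀ z, ‖av z - MvPolynomial.eval (δ z) (c.truncTotal D)‖ ^ (p ^ h - 1) < ρ) :
    Appr D δ c av := by
  have : ExpChar L p := ExpChar.prime Fact.out
  set q : Z → L := fun z => MvPolynomial.eval (δ z) (c.truncTotal D)
  have hq : Appr D δ c q := ⟨0, le_rfl, fun z => by simp [q]⟩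
  obtain ⟨C₁, hC₁, hb₁⟩ := hq.pow hδ (p ^ h)
  obtain ⟨C₂, hC₂, hb₂⟩ := (hwA.mul hδ hq).add hbA
  refine ⟨max C₁ C₂ / ρ, by positivity, fun z => ?_⟩
  set e := av z - q z
  have hz₁ := hb₁ z
  have hz₂ := hb₂ z
  rw [hc] at hz₁
  simp only [Pi.pow_apply, Pi.add_apply, Pi.mul_apply] at hz₁ hz₂
  have herr : ‖e ^ p ^ h - wv z * e‖ ≤ max C₁ C₂ * ‖δ z‖ ^ D := by
    have e1 : e ^ p ^ h - wv z * e = (wv z * q z + bv z -
        MvPolynomial.eval (δ z) ((w * c + b).truncTotal D)) - (q z ^ p ^ h -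
        MvPolynomial.eval (δ z) ((w * c + b).truncTotal D)) := by
      simp only [e, sub_pow_char_pow, hav z]
      ring
    rw [e1]
    exact ultra_sub_le (hz₂.trans (by gcongr; exact le_max_right _ _))
      (hz₁.trans (by gcongr; exact le_max_left _ _))
  rcases eq_or_ne e 0 with he | he
  · rw [he, norm_zero]
    positivity
  · have hlt : ‖e ^ p ^ h‖ < ‖wv z * e‖ := by
      rw [norm_mul, norm_pow, show p ^ h = (p ^ h - 1) + 1 by
        have := pow_pos (Fact.out : p.Prime).pos h; omega, pow_succ]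
      exact mul_lt_mul_of_pos_right ((hsmall z).trans_le (hwv z)) (norm_pos_iff.2 he)
    have heq : ‖e ^ p ^ h - wv z * e‖ = ‖wv z * e‖ := by
      rw [sub_eq_add_neg, IsUltrametricDist.norm_add_eq_max_of_norm_ne_norm
        (by rw [norm_neg]; exact hlt.ne), norm_neg, max_eq_right hlt.le]
    rw [heq, norm_mul] at herr
    rw [div_mul_eq_mul_div,
      le_div_iff₀ hρ, mul_comm]
    exact (mul_le_mul_of_nonneg_right (hwv z) (norm_nonneg _)).trans herr

end Vale.Agent.P217
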