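import Mathlib.Algebra.CharP.Lemmas
import Mathlib.RingTheory.MvPowerSeries.Expand
import Vale.Agent.P217.Base
import Vale.Agent.P217.Laws

/-!
# Leading terms of the linearised lifting operator

The operator is `L(a, e) = w · (e(Φ) - e(X) - e(Y)) - Σ aᵢ ∂ᵢF`; each parameter owns exactly one
degree, in which its leading term is nonzero.
-/

noncomputable section

namespace Vale.Agent.P217

open MvPowerSeries Finsupp

set_option linter.unusedSectionVars false

variable {p : ℕ} [Fact p.Prime] {n : ℕ} {k : Type} [Field k] [CharP k p] [Finite k]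

/-- What the lifting argument uses about the Hazewinkel law. -/
structure IsShape (F : FormalGroup (E0 p n k)) : Prop where
  pos : 1 ≤ n
  low : ∀ d : Fin 2 →₀ ℕ, 2 ≤ d.degree → d.degree < p ^ n →
    res p n k (coeff d F.toPowerSeries) = 0
  top : res p n k (coeff (xy (p ^ (n - 1)) (p ^ n - p ^ (n - 1))) F.toPowerSeries) ≠ 0
  dlow : ∀ (i : Fin (n - 1)) (d : Fin 2 →₀ ℕ), d.degree < p ^ ((i : ℕ) + 1) →
    WittVector.constantCoeff (coeff (single i 1) (coeff d F.toPowerSeries)) = 0
  dtop : ∀ i : Fin (n - 1), WittVector.constantCoeff (coeff (single i 1)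
    (coeff (xy (p ^ (i : ℕ)) (p ^ ((i : ℕ) + 1) - p ^ (i : ℕ))) F.toPowerSeries)) ≠ 0

open Classical in
/-- The degree owned by the coefficient of `X^j` in a reparametrisation. -/
def nu (p n j : ℕ) : ℕ := if ∃ m, j = p ^ m then p ^ n * j else j

theorem nu_pow (p n m : ℕ) : nu p n (p ^ m) = p ^ (n + m) := by
  rw [nu, if_pos ⟨m, rfl⟩, pow_add]

theorem le_nu (j : ℕ) : j ≤ nu p n j := by
  rw [nu]
  split_ifs
  · exact Nat.le_mul_of_pos_left _ (pow_pos (Fact.out : p.Prime).pos _)
  · exact le_rfl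

theorem nu_le (j : ℕ) : nu p n j ≤ p ^ n * j := by
  rw [nu]
  split_ifs
  · exact le_rfl
  · exact Nat.le_mul_of_pos_left _ (pow_pos (Fact.out : p.Prime).pos _)

theorem nu_inj {i j : ℕ} (h : nu p n i = nu p n j) : i = j := by
  have hp : p.Prime := Fact.out
  by_cases hi : ∃ m, i = p ^ m <;> by_cases hj : ∃ m, j = p ^ m
  · rw [nu, nu, if_pos hi, if_pos hj] at h
    exact Nat.eq_of_mul_eq_mul_left (pow_pos hp.pos _) h
  · obtain ⟨m, rfl⟩ := hi
    rw [nu_pow, nu, if_neg hj] at h
    exact absurd ⟨n + m, h.symm⟩ hj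
  · obtain ⟨m, rfl⟩ := hj
    rw [nu_pow, nu, if_neg hi] at h
    exact absurd ⟨n + m, h⟩ hi
  · rwa [nu, nu, if_neg hi, if_neg hj] at h

theorem nu_ne (j : ℕ) (i : Fin (n - 1)) : nu p n j ≠ p ^ ((i : ℕ) + 1) := by
  have hp : p.Prime := Fact.out
  intro h
  by_cases hj : ∃ m, j = p ^ m
  · obtain ⟨m, rfl⟩ := hj
    rw [nu_pow] at h
    have := Nat.pow_right_injective hp.two_le h
    omega
  · rw [nu, if_neg hj] at h
    exact hj ⟨_, h⟩

theorem exists_index {N : ℕ} (hN : 2 ≤ N) :
    (∃ j, 0 < j ∧ nu p n j = N) ∨ ∃ i : Fin (n - 1), p ^ ((i : ℕ) + 1) = N := by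
  have hp : p.Prime := Fact.out
  by_cases h : ∃ m, N = p ^ m
  · obtain ⟨m, rfl⟩ := h
    by_cases hm : m < n
    · rcases m with _ | m
      · simp at hN
      · exact Or.inr ⟨⟨m, by omega⟩, rfl⟩
    · exact Or.inl ⟨p ^ (m - n), pow_pos hp.pos _, by
        rw [nu_pow, Nat.add_sub_cancel' (not_lt.mp hm)]⟩
  · exact Or.inl ⟨N, by omega, by rw [nu, if_neg h]⟩

variable {A : Type*} [CommRing A]

/-- `Φ^j - X^j - Y^j`. -/
def cob (Φ : FormalGroup A) (j : ℕ) : MvPowerSeries (Fin 2) A :=
  Φ.toPowerSeries ^ j - X 0 ^ j - X 1 ^ j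

/-- `e(Φ(X,Y)) - e(X) - e(Y)`. -/
def ecob (Φ : FormalGroup A) (e : PowerSeries A) : MvPowerSeries (Fin 2) A :=
  PowerSeries.subst Φ.toPowerSeries e - PowerSeries.subst (X 0 : MvPowerSeries (Fin 2) A) e -
    PowerSeries.subst (X 1 : MvPowerSeries (Fin 2) A) e

theorem coeff_ps_subst_eq_sum {σ : Type*} {x : MvPowerSeries σ A} (hx : constantCoeff x = 0)
    (f : PowerSeries A) (d : σ →₀ ℕ) :
    coeff d (PowerSeries.subst x f) =
      ∑ j ∈ Finset.range (d.degree + 1), PowerSeries.coeff j f * coeff d (x ^ j) := by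
  rw [PowerSeries.coeff_subst (PowerSeries.HasSubst.of_constantCoeff_zero hx),
    finsum_eq_sum_of_support_subset (s := Finset.range (d.degree + 1))]
  · simp only [smul_eq_mul]
  · intro j hj
    simp only [Finset.coe_range, Set.mem_Iio]
    by_contra hlt
    refine hj ?_
    have := pow_mem_cI_bot hx j d (by omega)
    simp only [Ideal.mem_bot] at this
    simp [this]

theorem coeff_ecob (Φ : FormalGroup A) (e : PowerSeries A) (d : Fin 2 →₀ ℕ) :
    coeff d (ecob Φ e) =
      ∑ j ∈ Finset.range (d.degree + 1), PowerSeries.coeff j e * coeff d (cob Φ j) := by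
  simp only [ecob, cob, map_sub, coeff_ps_subst_eq_sum Φ.zero_constantCoeff,
    coeff_ps_subst_eq_sum (constantCoeff_X _), mul_sub, Finset.sum_sub_distrib]

theorem subst_sub_C_mem {σ τ : Type*} [Finite σ] {J : Ideal A} {N : ℕ}
    {x : σ → MvPowerSeries τ A} (hx : ∀ s, constantCoeff (x s) = 0) (h : ∀ s, x s ∈ cI J N)
    (f : MvPowerSeries σ A) : subst x f - C (constantCoeff f) ∈ cI J N := by
  have h1 := subst_congr_arg hx (y := (0 : σ → MvPowerSeries τ A)) (fun _ => map_zero _) f
    (fun s => by simpa using h s)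
  rw [subst_zero_eq_C_constantCoeff] at h1
  simpa using h1

/-- `∂₂Φ(X, 0)` evaluated at `Φ(X, Y)`. -/
def wPart (Φ : FormalGroup A) : MvPowerSeries (Fin 2) A :=
  subst ![Φ.toPowerSeries, 0] (quotY Φ.toPowerSeries)

theorem wPart_sub_one_mem (Φ : FormalGroup A) : wPart Φ - 1 ∈ cI (⊥ : Ideal A) 1 := by
  have := subst_sub_C_mem (cc2 Φ.zero_constantCoeff (map_zero _)) (J := ⊥) (N := 1)
    (fun s => mem_cI_bot_one_iff.mpr (cc2 Φ.zero_constantCoeff (map_zero _) s))
    (quotY Φ.toPowerSeries)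
  rwa [constantCoeff_quotY, map_one] at this

/-! ### The special fibre -/

variable {F : FormalGroup (E0 p n k)}

theorem special_sub_add_mem (hS : IsShape F) :
    (special p n k F).toPowerSeries - (X 0 + X 1) ∈ cI (⊥ : Ideal k) (p ^ n) := by
  classical
  intro d hd
  have h2 : 2 ≤ d.degree ∨ d = 0 ∨ d = single 0 1 ∨ d = single 1 1 := by
    rcases Nat.lt_or_ge d.degree 2 with h | h
    · refine Or.inr ?_
      have := degree_two d
      rcases Nat.eq_zero_or_pos (d 0) with h0 | h0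
      · rcases Nat.eq_zero_or_pos (d 1) with h1 | h1
        · exact Or.inl (by ext s; fin_cases s <;> assumption)
        · exact Or.inr (Or.inr (by ext s; fin_cases s <;> simp <;> omega))
      · exact Or.inr (Or.inl (by ext s; fin_cases s <;> simp <;> omega))
    · exact Or.inl h
  simp only [Ideal.mem_bot, map_sub, map_add, FormalGroup.map_toPowerSeries, coeff_map]
  rcases h2 with h | rfl | rfl | rfl
  · rw [hS.low d h hd, coeff_X, coeff_X, if_neg, if_neg, add_zero, sub_zero] <;>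
      (intro heq; simp [heq] at h)
  · simp [coeff_zero_eq_constantCoeff_apply, F.zero_constantCoeff, coeff_X, eq_comm (a := (0 : Fin 2 →₀ ℕ))]
  · simp [F.lin_coeff_X, coeff_X, single_left_inj]
  · simp [F.lin_coeff_Y, coeff_X, single_left_inj]

theorem two_le_q (hS : IsShape F) : 2 ≤ p ^ n :=
  (Fact.out : p.Prime).two_le.trans (Nat.le_self_pow (by have := hS.pos; omega) p)

theorem pow_mem_cI_bot_mul {σ : Type*} {f : MvPowerSeries σ A} {m : ℕ}
    (hf : f ∈ cI (⊥ : Ideal A) m) (e : ℕ) : f ^ e ∈ cI (⊥ : Ideal A) (m * e) := by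
  induction e with
  | zero => exact mem_cI_zero
  | succ e ih =>
    rw [pow_succ, Nat.mul_succ]
    exact mul_mem_cI_add ih hf

theorem special_cob_pow (_hS : IsShape F) (m : ℕ) :
    cob (special p n k F) (p ^ m) =
      ((special p n k F).toPowerSeries - (X 0 + X 1)) ^ p ^ m := by
  have : CharP (MvPowerSeries (Fin 2) k) p := charP_of_injective_ringHom C_injective p
  rw [sub_pow_char_pow, add_pow_char_pow, cob]
  ring

theorem special_cob_sub_mem (hS : IsShape F) (j : ℕ) :
    (special p n k F).toPowerSeries ^ j - (X 0 + X 1) ^ j ∈ cI (⊥ : Ideal k) (j + 1) := by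
  have := prod_sub_prod_mem_high (σ := Unit) (x := fun _ => (special p n k F).toPowerSeries)
    (y := fun _ => X 0 + X 1) (fun _ => (special p n k F).zero_constantCoeff)
    (fun _ => by simp) (fun _ => cI_anti (two_le_q hS) (special_sub_add_mem hS)) (single () j)
  simpa using this

theorem special_cob_low (hS : IsShape F) (j : ℕ) :
    cob (special p n k F) j ∈ cI (⊥ : Ideal k) (nu p n j) := by
  by_cases hj : ∃ m, j = p ^ m
  · obtain ⟨m, rfl⟩ := hj
    rw [special_cob_pow hS, nu_pow, pow_add]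
    exact pow_mem_cI_bot_mul (special_sub_add_mem hS) _
  · rw [nu, if_neg hj]
    exact Ideal.sub_mem _ (Ideal.sub_mem _ (pow_mem_cI_bot (special p n k F).zero_constantCoeff j)
      (pow_mem_cI_bot (constantCoeff_X 0) j)) (pow_mem_cI_bot (constantCoeff_X 1) j)

theorem special_cob_top (hS : IsShape F) {j : ℕ} (hN : 2 ≤ nu p n j) :
    coeff (xy (lazIdx p (nu p n j)) (nu p n j - lazIdx p (nu p n j)))
      (cob (special p n k F) j) ≠ 0 := by
  classical
  have hp : p.Prime := Fact.out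
  by_cases hj : ∃ m, j = p ^ m
  · obtain ⟨m, rfl⟩ := hj
    have : ExpChar k p := ExpChar.prime hp
    have hn := hS.pos
    have e1 : lazIdx p (nu p n (p ^ m)) = p ^ m * p ^ (n - 1) := by
      rw [nu_pow, lazIdx_prime_pow hp, ← pow_add]
      congr 1
      omega
    have e2 : nu p n (p ^ m) - lazIdx p (nu p n (p ^ m)) = p ^ m * (p ^ n - p ^ (n - 1)) := by
      rw [e1, nu_pow, pow_add, Nat.mul_sub, mul_comm (p ^ n)]
    rw [e2, e1, special_cob_pow hS,
      show xy (p ^ m * p ^ (n - 1)) (p ^ m * (p ^ n - p ^ (n - 1))) =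
        (p ^ m) • xy (p ^ (n - 1)) (p ^ n - p ^ (n - 1)) by
          rw [xy, xy, smul_add, Finsupp.smul_single, Finsupp.smul_single, smul_eq_mul, smul_eq_mul],
      ← map_iterateFrobenius_expand (p := p) hp.ne_zero, coeff_map, coeff_expand_smul]
    refine (map_ne_zero (iterateFrobenius k p m)).mpr ?_
    have hq : 2 ≤ p ^ n := two_le_q hS
    have hle : p ^ (n - 1) ≤ p ^ n := Nat.pow_le_pow_right hp.pos (by omega)
    rw [map_sub, map_add, coeff_X, coeff_X, if_neg, if_neg]
    · simpa using hS.top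
    all_goals
      intro h
      have := congrArg degree h
      simp [Finsupp.degree_single] at this
      omega
  · have hnu : nu p n j = j := by rw [nu, if_neg hj]
    rw [hnu] at hN ⊢
    obtain ⟨v, r, hd, hr, -, hl⟩ := lazIdx_of_ne_pow hp (by omega : j ≠ 0) (not_exists.mp hj)
    obtain ⟨hl0, hlj⟩ := lazIdx_lt hp hN
    set l := lazIdx p j
    have hX : ∀ s : Fin 2, coeff (xy l (j - l)) ((X s : MvPowerSeries (Fin 2) k) ^ j) = 0 := by
      intro s
      rw [X_pow_eq, coeff_monomial, if_neg]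
      intro h
      have h0 := DFunLike.congr_fun h 0
      fin_cases s <;> simp at h0 <;> omega
    have hmem := special_cob_sub_mem hS j (xy l (j - l)) (by rw [degree_xy]; omega)
    rw [Ideal.mem_bot, map_sub, sub_eq_zero] at hmem
    have hsum := PowerSeries.coeff_subst_X_zero_add_X_one (R := k) (PowerSeries.X ^ j)
      (xy l (j - l))
    rw [PowerSeries.subst_pow (PowerSeries.HasSubst.of_constantCoeff_zero (by simp)),
      PowerSeries.subst_X (PowerSeries.HasSubst.of_constantCoeff_zero (by simp))] at hsum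
    rw [cob, map_sub, map_sub, hX, hX, sub_zero, sub_zero, hmem, hsum, xy_zero, xy_one,
      Nat.add_sub_cancel' hlj.le, PowerSeries.coeff_X_pow_self, mul_one, Ne,
      CharP.cast_eq_zero_iff k p, hl]
    refine not_dvd_choose_pow hp v j ?_
    rw [hd, Nat.mul_div_cancel_left _ (pow_pos hp.pos _)]
    exact fun h => hr (Nat.dvd_of_mod_eq_zero h)

/-! ### Coefficients over a base -/

variable [Algebra (WittVector p k) A] {π : A →+* k}

theorem map_special (hB : IsBase (p := p) π) (F : FormalGroup (E0 p n k))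
    (α : E0 p n k →ₐ[WittVector p k] A) : (F.map α.toRingHom).map π = special p n k F := by
  ext1
  simp only [FormalGroup.map_toPowerSeries, map_map, algHom_comp_res hB α]

theorem map_cob (hB : IsBase (p := p) π) (F : FormalGroup (E0 p n k))
    (α : E0 p n k →ₐ[WittVector p k] A) (j : ℕ) :
    MvPowerSeries.map π (cob (F.map α.toRingHom) j) = cob (special p n k F) j := by
  simp only [cob, map_sub, map_pow, map_X]
  rw [← map_special hB F α]
  rfl

/-- The linear part of the coefficients of `F` in the `i`-th parameter. -/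
def linPart (A : Type*) [CommRing A] [Algebra (WittVector p k) A]
    (F : FormalGroup (E0 p n k)) (i : Fin (n - 1)) : MvPowerSeries (Fin 2) A :=
  fun d => algebraMap (WittVector p k) A (coeff (single i 1) (coeff d F.toPowerSeries))

theorem coeff_linPart (F : FormalGroup (E0 p n k)) (i : Fin (n - 1)) (d : Fin 2 →₀ ℕ) :
    coeff d (linPart A F i) =
      algebraMap (WittVector p k) A (coeff (single i 1) (coeff d F.toPowerSeries)) := rfl

/-- `Σ aᵢ ∂ᵢF`. -/
def dTerm (F : FormalGroup (E0 p n k)) (a : Fin (n - 1) → A) : MvPowerSeries (Fin 2) A :=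
  ∑ i, C (a i) * linPart A F i

theorem coeff_dTerm (F : FormalGroup (E0 p n k)) (a : Fin (n - 1) → A) (d : Fin 2 →₀ ℕ) :
    coeff d (dTerm F a) = ∑ i, a i *
      algebraMap (WittVector p k) A (coeff (single i 1) (coeff d F.toPowerSeries)) := by
  simp [dTerm, map_sum, coeff_C_mul, coeff_linPart]

/-- The linearised lifting operator. -/
def lop (F : FormalGroup (E0 p n k)) (α : E0 p n k →ₐ[WittVector p k] A)
    (a : Fin (n - 1) → A) (e : PowerSeries A) : MvPowerSeries (Fin 2) A :=
  wPart (F.map α.toRingHom) * ecob (F.map α.toRingHom) e - dTerm F a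

variable {t N : ℕ} {α : E0 p n k →ₐ[WittVector p k] A} {a : Fin (n - 1) → A} {e : PowerSeries A}

theorem cob_coeff_mem (hB : IsBase (p := p) π) (hS : IsShape F) {j : ℕ} {d : Fin 2 →₀ ℕ}
    (hd : d.degree < nu p n j) : coeff d (cob (F.map α.toRingHom) j) ∈ RingHom.ker π := by
  rw [RingHom.mem_ker, ← coeff_map, map_cob hB]
  simpa using special_cob_low hS j d hd

theorem linPart_coeff_mem (hB : IsBase (p := p) π) (hS : IsShape F) {i : Fin (n - 1)}
    {d : Fin 2 →₀ ℕ} (hd : d.degree < p ^ ((i : ℕ) + 1)) :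
    algebraMap (WittVector p k) A (coeff (single i 1) (coeff d F.toPowerSeries)) ∈
      RingHom.ker π := by
  rw [RingHom.mem_ker, hB.apply_algebraMap, hS.dlow i d hd]

theorem ecob_sub_mem (hB : IsBase (p := p) π) (hS : IsShape F) (d : Fin 2 →₀ ℕ) (j₀ : ℕ)
    (he : e ∈ cI (RingHom.ker π ^ t) (d.degree + 1))
    (h : ∀ j ≤ d.degree, j ≠ j₀ → nu p n j ≤ d.degree →
      PowerSeries.coeff j e ∈ RingHom.ker π ^ (t + 1)) :
    coeff d (ecob (F.map α.toRingHom) e) -
      (if j₀ ≤ d.degree then PowerSeries.coeff j₀ e * coeff d (cob (F.map α.toRingHom) j₀)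
        else 0) ∈ RingHom.ker π ^ (t + 1) := by
  classical
  have e1 : (if j₀ ≤ d.degree then
      PowerSeries.coeff j₀ e * coeff d (cob (F.map α.toRingHom) j₀) else 0) =
      ∑ j ∈ Finset.range (d.degree + 1),
        if j = j₀ then PowerSeries.coeff j e * coeff d (cob (F.map α.toRingHom) j) else 0 := by
    rw [Finset.sum_ite_eq']
    simp
  rw [coeff_ecob, e1, ← Finset.sum_sub_distrib]
  refine Ideal.sum_mem _ fun j hj => ?_
  have hjd : j ≤ d.degree := Nat.lt_succ_iff.mp (Finset.mem_range.mp hj)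
  split_ifs with hj0
  · simp
  rw [sub_zero]
  by_cases hnu : nu p n j ≤ d.degree
  · exact Ideal.mul_mem_right _ _ (h j hjd hj0 hnu)
  · rw [pow_succ]
    exact Ideal.mul_mem_mul ((mem_cI_ps.mp he) j (by omega)) (cob_coeff_mem hB hS (by omega))

theorem dTerm_sub_mem (hB : IsBase (p := p) π) (hS : IsShape F) (d : Fin 2 →₀ ℕ)
    (ha : ∀ i, a i ∈ RingHom.ker π ^ t) (o : Finset (Fin (n - 1)))
    (h : ∀ i, i ∉ o → p ^ ((i : ℕ) + 1) ≤ d.degree → a i ∈ RingHom.ker π ^ (t + 1)) :
    coeff d (dTerm F a) - ∑ i ∈ o, a i *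
      algebraMap (WittVector p k) A (coeff (single i 1) (coeff d F.toPowerSeries)) ∈
      RingHom.ker π ^ (t + 1) := by
  classical
  rw [coeff_dTerm, ← Finset.sum_compl_add_sum o, add_sub_cancel_right]
  refine Ideal.sum_mem _ fun i hi => ?_
  by_cases hle : p ^ ((i : ℕ) + 1) ≤ d.degree
  · exact Ideal.mul_mem_right _ _ (h i (Finset.mem_compl.mp hi) hle)
  · rw [pow_succ]
    exact Ideal.mul_mem_mul (ha i) (linPart_coeff_mem hB hS (not_le.mp hle))

/-- Below the first owned degree the operator vanishes. -/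
theorem ecob_low (hB : IsBase (p := p) π) (hS : IsShape F)
    (he : e ∈ cI (RingHom.ker π ^ t) N)
    (h : ∀ j < N, nu p n j < N → PowerSeries.coeff j e ∈ RingHom.ker π ^ (t + 1)) :
    ecob (F.map α.toRingHom) e ∈ cI (RingHom.ker π ^ (t + 1)) N := by
  intro d hd
  have := ecob_sub_mem (α := α) (t := t) (e := e) hB hS d (d.degree + 1) (cI_anti (by omega) he)
    (fun j hj _ hnu => h j (by omega) (by omega))
  simpa using this

theorem lop_low (hB : IsBase (p := p) π) (hS : IsShape F) (ha : ∀ i, a i ∈ RingHom.ker π ^ t)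
    (he : e ∈ cI (RingHom.ker π ^ t) N)
    (h : ∀ j < N, nu p n j < N → PowerSeries.coeff j e ∈ RingHom.ker π ^ (t + 1))
    (h' : ∀ i : Fin (n - 1), p ^ ((i : ℕ) + 1) < N → a i ∈ RingHom.ker π ^ (t + 1)) :
    lop F α a e ∈ cI (RingHom.ker π ^ (t + 1)) N := by
  refine Ideal.sub_mem _ (Ideal.mul_mem_left _ _ (ecob_low hB hS he h)) fun d hd => ?_
  simpa using dTerm_sub_mem (a := a) hB hS d ha ∅ fun i _ hle => h' i (by omega)

/-- In degree `N` only the linear part of `w` matters. -/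
theorem lop_top (hB : IsBase (p := p) π) (hS : IsShape F) (he : e ∈ cI (RingHom.ker π ^ t) N)
    (h : ∀ j < N, nu p n j < N → PowerSeries.coeff j e ∈ RingHom.ker π ^ (t + 1))
    (d : Fin 2 →₀ ℕ) (hd : d.degree = N) :
    coeff d (lop F α a e) - (coeff d (ecob (F.map α.toRingHom) e) - coeff d (dTerm F a)) ∈
      RingHom.ker π ^ (t + 1) := by
  have hw := mul_mem_cI_add' (wPart_sub_one_mem (F.map α.toRingHom)) (ecob_low (α := α) hB hS he h)
  have := hw d (by omega)
  rw [sub_mul, one_mul, map_sub] at this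
  rw [lop, map_sub]
  convert this using 1
  ring

theorem isUnit_cob (hB : IsBase (p := p) π) (hS : IsShape F) (hN : 2 ≤ N) {j₀ : ℕ}
    (hj₀ : nu p n j₀ = N) :
    IsUnit (coeff (xy (lazIdx p N) (N - lazIdx p N)) (cob (F.map α.toRingHom) j₀)) := by
  refine hB.isUnit ?_
  rw [← coeff_map, map_cob hB]
  have := special_cob_top (F := F) hS (j := j₀) (by omega)
  rwa [hj₀] at this

theorem isUnit_linPart (hB : IsBase (p := p) π) (hS : IsShape F) {i₀ : Fin (n - 1)}
    (hi₀ : p ^ ((i₀ : ℕ) + 1) = N) :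
    IsUnit (algebraMap (WittVector p k) A
      (coeff (single i₀ 1) (coeff (xy (lazIdx p N) (N - lazIdx p N)) F.toPowerSeries))) := by
  refine hB.isUnit ?_
  rw [hB.apply_algebraMap, ← hi₀, lazIdx_prime_pow Fact.out, Nat.add_sub_cancel]
  exact hS.dtop i₀

theorem lop_top_e (hB : IsBase (p := p) π) (hS : IsShape F) (hN : 2 ≤ N) {j₀ : ℕ}
    (hj₀ : nu p n j₀ = N) (ha : ∀ i, a i ∈ RingHom.ker π ^ t)
    (he : e ∈ cI (RingHom.ker π ^ t) (N + 1))
    (h : ∀ j < N, nu p n j < N → PowerSeries.coeff j e ∈ RingHom.ker π ^ (t + 1))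
    (h' : ∀ i : Fin (n - 1), p ^ ((i : ℕ) + 1) < N → a i ∈ RingHom.ker π ^ (t + 1)) :
    coeff (xy (lazIdx p N) (N - lazIdx p N)) (lop F α a e) - PowerSeries.coeff j₀ e *
      coeff (xy (lazIdx p N) (N - lazIdx p N)) (cob (F.map α.toRingHom) j₀) ∈
      RingHom.ker π ^ (t + 1) := by
  obtain ⟨hl0, hlN⟩ := lazIdx_lt (p := p) Fact.out hN
  set d := xy (lazIdx p N) (N - lazIdx p N)
  have hd : d.degree = N := by simp [d]; omega
  have h1 := lop_top (α := α) (a := a) hB hS (cI_anti (by omega) he) h d hd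
  have h2 := ecob_sub_mem (α := α) (e := e) (t := t) hB hS d j₀ (by rwa [hd])
    (fun j hj hne hnu => by
      rw [hd] at hj hnu
      have hlt : nu p n j < N := lt_of_le_of_ne hnu fun he' => hne (nu_inj (he'.trans hj₀.symm))
      have hjN : j < N := (le_nu j).trans_lt hlt
      exact h j hjN hlt)
  have h3 := dTerm_sub_mem (a := a) hB hS d ha ∅ (fun i _ hle => by
    rw [hd] at hle
    exact h' i (lt_of_le_of_ne hle fun he' => nu_ne j₀ i (hj₀.trans he'.symm)))
  rw [if_pos ((le_nu j₀).trans_eq (hj₀.trans hd.symm))] at h2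
  rw [Finset.sum_empty, sub_zero] at h3
  convert Ideal.sub_mem _ (Ideal.add_mem _ h1 h2) h3 using 1
  ring

theorem lop_top_a (hB : IsBase (p := p) π) (hS : IsShape F) {i₀ : Fin (n - 1)}
    (hi₀ : p ^ ((i₀ : ℕ) + 1) = N) (ha : ∀ i, a i ∈ RingHom.ker π ^ t)
    (he : e ∈ cI (RingHom.ker π ^ t) (N + 1))
    (h : ∀ j < N, nu p n j < N → PowerSeries.coeff j e ∈ RingHom.ker π ^ (t + 1))
    (h' : ∀ i : Fin (n - 1), p ^ ((i : ℕ) + 1) < N → a i ∈ RingHom.ker π ^ (t + 1)) :
    coeff (xy (lazIdx p N) (N - lazIdx p N)) (lop F α a e) + a i₀ *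
      algebraMap (WittVector p k) A
        (coeff (single i₀ 1) (coeff (xy (lazIdx p N) (N - lazIdx p N)) F.toPowerSeries)) ∈
      RingHom.ker π ^ (t + 1) := by
  have hp : p.Prime := Fact.out
  have hN : 2 ≤ N := hi₀ ▸ hp.two_le.trans (Nat.le_self_pow (by omega) p)
  obtain ⟨hl0, hlN⟩ := lazIdx_lt (p := p) hp hN
  set d := xy (lazIdx p N) (N - lazIdx p N)
  have hd : d.degree = N := by simp [d]; omega
  have h1 := lop_top (α := α) (a := a) hB hS (cI_anti (by omega) he) h d hd
  have h2 := ecob_sub_mem (α := α) (e := e) (t := t) hB hS d (N + 1) (by rwa [hd])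
    (fun j hj _ hnu => by
      rw [hd] at hj hnu
      have hlt : nu p n j < N := lt_of_le_of_ne hnu fun he' => nu_ne j i₀ (he'.trans hi₀.symm)
      exact h j ((le_nu j).trans_lt hlt) hlt)
  have h3 := dTerm_sub_mem (a := a) hB hS d ha {i₀} (fun i hi hle => by
    rw [hd] at hle
    refine h' i (lt_of_le_of_ne hle fun he' => hi ?_)
    have := Nat.pow_right_injective hp.two_le (he'.trans hi₀.symm)
    exact Finset.mem_singleton.mpr (Fin.ext (by omega)))
  rw [if_neg (by omega), sub_zero] at h2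
  rw [Finset.sum_singleton] at h3
  convert Ideal.sub_mem _ (Ideal.add_mem _ h1 h2) h3 using 1
  ring

end Vale.Agent.P217
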