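import Vale.Agent.P217.Tate
import Vale.Agent.P217.Point
import Vale.Agent.P217.Universal

/-!
# Nearby points as values of a series point

`shiftPoint π ι` is the point over `L°[[σ]]` with coordinates `π u + X`, the variables placed at
the indices `ι`. Nearby points are its values, and the linear part of `theta` at Tate vectors is
injective.
-/

noncomputable section

namespace Vale.Agent.P217

set_option linter.unusedSectionVars false
set_option linter.unusedSimpArgs false
set_option linter.style.haveILetI false

open Filter Topology MvPowerSeries MvPowerSeries.WithPiTopology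

variable {p : ℕ} [Fact p.Prime] {n : ℕ} {k : Type} [Field k] [CharP k p] [Finite k]
variable {L : Type*} [NormedField L] [IsUltrametricDist L] [CompleteSpace L]
variable {σ : Type*} [Fintype σ]

open Classical in
/-- The coordinates of the series point. -/
def shiftCoord (π : E0 p n k →+* unitBall L) (ι : σ → Fin (n - 1)) (i : Fin (n - 1)) :
    MvPowerSeries σ (unitBall L) :=
  C (π (X i)) + ∑ s, if ι s = i then X s else 0

theorem constantCoeff_shiftCoord (π : E0 p n k →+* unitBall L) (ι : σ → Fin (n - 1))
    (i : Fin (n - 1)) : constantCoeff (shiftCoord π ι i) = π (X i) := by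
  classical
  simp [shiftCoord, map_sum, apply_ite (constantCoeff (σ := σ) (R := unitBall L))]

theorem hasEval_shiftCoord (π : E0 p n k →+* unitBall L) (ι : σ → Fin (n - 1))
    (hX : ∀ i, IsTopologicallyNilpotent (π (X i))) : HasEval (shiftCoord π ι) :=
  hasEval_of_finite fun i => MvPowerSeries.LinearTopology.isTopologicallyNilpotent_of_constantCoeff
    (by rw [constantCoeff_shiftCoord]; exact hX i)

/-- The series point. -/
def shiftPoint (π : E0 p n k →+* unitBall L) (ι : σ → Fin (n - 1))
    (hX : ∀ i, IsTopologicallyNilpotent (π (X i))) :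
    E0 p n k →+* MvPowerSeries σ (unitBall L) :=
  evHom ((C : unitBall L →+* _).comp (π.comp C)) (hasEval_shiftCoord π ι hX)

variable {π : E0 p n k →+* unitBall L} {ι : σ → Fin (n - 1)}
  {hX : ∀ i, IsTopologicallyNilpotent (π (X i))}

theorem constantCoeff_shiftPoint : constantCoeff.comp (shiftPoint π ι hX) = π := by
  ext1 f
  rw [RingHom.comp_apply, shiftPoint, evHom_apply,
    map_ev _ (continuous_constantCoeff _) (hasEval_shiftCoord π ι hX),
    point_eq_ev π (fun i => isTopologicallyNilpotent_ball.1 (hX i)) f]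
  have h1 : (constantCoeff (σ := σ) (R := unitBall L)).comp
      ((C : unitBall L →+* _).comp (π.comp C)) = π.comp C :=
    RingHom.ext fun x => by simp
  rw [h1]
  congr 1
  funext i
  exact constantCoeff_shiftCoord π ι i

@[simp]
theorem shiftPoint_C (w : WittVector p k) : shiftPoint π ι hX (C w) = C (π (C w)) := by
  rw [shiftPoint, evHom_apply, ev_C]
  rfl

@[simp]
theorem shiftPoint_X (i : Fin (n - 1)) : shiftPoint π ι hX (X i) = shiftCoord π ι i := by
  rw [shiftPoint, evHom_apply, ev_X]

/-- Evaluation of a series over the unit ball is continuous. -/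
theorem continuous_ev_id {δ : σ → unitBall L} (hδ : HasEval δ) :
    Continuous fun f : MvPowerSeries σ (unitBall L) => ev (RingHom.id _) δ f := by
  have h : (fun f : MvPowerSeries σ (unitBall L) => ev (RingHom.id _) δ f) =
      MvPowerSeries.eval₂ (RingHom.id _) δ := by
    funext f
    exact (hasSum_ev hδ f).unique
      (MvPowerSeries.hasSum_eval₂ (φ := RingHom.id _) continuous_id hδ f)
  rw [h]
  exact MvPowerSeries.continuous_eval₂ (φ := RingHom.id _) continuous_id hδ

/-- A point differing from `π` only at the indices `ι` is a value of the series point. -/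
theorem ev_shiftPoint_eq (hι : Function.Injective ι) {δ : σ → unitBall L}
    {π'' : E0 p n k →+* unitBall L} (hC : ∀ w, π'' (C w) = π (C w))
    (hin : ∀ s, π'' (X (ι s)) = π (X (ι s)) + δ s)
    (hout : ∀ i, i ∉ Set.range ι → π'' (X i) = π (X i))
    (hδ : ∀ s, IsTopologicallyNilpotent (δ s)) :
    (evHom (RingHom.id _) (hasEval_of_finite hδ)).comp (shiftPoint π ι hX) = π'' := by
  classical
  have hX'' : ∀ i, IsTopologicallyNilpotent (π'' (X i)) := fun i => by
    by_cases h : i ∈ Set.range ι
    · obtain ⟨s, rfl⟩ := h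
      rw [hin]
      exact (hX _).add (hδ s)
    · rw [hout i h]
      exact hX i
  refine (hom_ext_E0 π'' _ (fun w => ?_) (fun i => ?_)
    (fun i => isTopologicallyNilpotent_ball.1 (hX'' i))).symm
  · rw [RingHom.comp_apply, shiftPoint_C, evHom_apply, ev_C, hC]
    rfl
  · rw [RingHom.comp_apply, shiftPoint_X, shiftCoord, map_add, map_sum, evHom_apply, ev_C,
      RingHom.id_apply]
    by_cases h : i ∈ Set.range ι
    · obtain ⟨s, rfl⟩ := h
      rw [hin, Finset.sum_eq_single s (fun t _ ht => by rw [if_neg (hι.ne ht), map_zero])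
        (by simp), if_pos rfl, evHom_apply, ev_X]
    · rw [hout i h, Finset.sum_eq_zero (fun t _ => by
        rw [if_neg fun e => h ⟨t, e⟩, map_zero]), add_zero]

/-- The value of a series differs from its truncation by terms of high order. -/
theorem norm_ev_sub_truncTotal_le {δ : σ → unitBall L} (hδ : ∀ s, IsTopologicallyNilpotent (δ s))
    {r : ℝ} (hr0 : 0 ≤ r) (hr1 : r ≤ 1) (hr : ∀ s, ‖(δ s : L)‖ ≤ r)
    (f : MvPowerSeries σ (unitBall L)) (D : ℕ) :
    ‖((ev (RingHom.id _) δ f - MvPolynomial.eval δ (f.truncTotal D) : unitBall L) : L)‖ ≤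
      r ^ D := by
  classical
  have hev : HasEval δ := hasEval_of_finite hδ
  have h1 : MvPolynomial.eval δ (f.truncTotal D) =
      ev (RingHom.id _) δ (f.truncTotal D : MvPowerSeries σ (unitBall L)) := by
    rw [← evHom_apply hev]
    exact (RingHom.congr_fun (MvPolynomial.ringHom_ext
      (f := (evHom (RingHom.id _) hev).comp MvPolynomial.coeToMvPowerSeries.ringHom)
      (g := MvPolynomial.eval δ) (by simp) (by simp)) _).symm
  rw [h1, ← ev_sub hev]
  set g := f - (f.truncTotal D : MvPowerSeries σ (unitBall L))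
  refine le_of_tendsto ((continuous_norm.comp continuous_subtype_val).tendsto _ |>.comp
    (hasSum_ev (φ := RingHom.id _) hev g)) (Eventually.of_forall fun s => ?_)
  simp only [Function.comp_apply, AddSubmonoidClass.coe_finsetSum]
  refine IsUltrametricDist.norm_sum_le_of_forall_le_of_nonneg (pow_nonneg hr0 D) fun d _ => ?_
  by_cases hd : Finsupp.degree d < D
  · rw [map_sub, MvPolynomial.coeff_coe, coeff_truncTotal _ hd, sub_self, map_zero, zero_mul]
    simp [pow_nonneg hr0 D]
  · rw [Subring.coe_mul, norm_mul]
    refine (mul_le_of_le_one_left (norm_nonneg _) (norm_coe_le_one _)).trans ?_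
    rw [Finsupp.prod, SubmonoidClass.coe_finsetProd, norm_prod]
    refine (Finset.prod_le_prod (g := fun i => r ^ d i) (fun i _ => norm_nonneg _)
      fun i _ => ?_).trans ?_
    · rw [SubmonoidClass.coe_pow, norm_pow]
      exact pow_le_pow_left₀ (norm_nonneg _) (hr i) _
    · rw [Finset.prod_pow_eq_pow_sum]
      exact pow_le_pow_of_le_one hr0 hr1 ((not_lt.1 hd).trans_eq (Finsupp.degree_apply d))

/-- First order expansion. -/
theorem norm_ev_sub_dirDeriv_le {δ : σ → unitBall L} (hδ : ∀ s, IsTopologicallyNilpotent (δ s))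
    {r : ℝ} (hr0 : 0 ≤ r) (hr1 : r ≤ 1) (hr : ∀ s, ‖(δ s : L)‖ ≤ r)
    {f : MvPowerSeries σ (unitBall L)} (hf : constantCoeff f = 0) :
    ‖((ev (RingHom.id _) δ f - dirDeriv δ f : unitBall L) : L)‖ ≤ r ^ 2 := by
  classical
  have h := norm_ev_sub_truncTotal_le hδ hr0 hr1 hr f 2
  have he : MvPolynomial.eval δ (f.truncTotal 2) = dirDeriv δ f := by
    have hd : ∀ d : σ →₀ ℕ, Finsupp.degree d < 2 →
        d = 0 ∨ ∃ s, d = Finsupp.single s 1 := fun d hd => by
      rcases Nat.lt_or_ge (Finsupp.degree d) 1 with h0 | h1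
      · exact Or.inl ((Finsupp.degree_eq_zero_iff d).mp (by omega))
      · right
        obtain ⟨s, hs⟩ := Finsupp.support_nonempty_iff.mpr (show d ≠ 0 by
          rintro rfl
          simp at h1)
        have hle : Finsupp.single s 1 ≤ d := by
          simpa using Nat.one_le_iff_ne_zero.mpr (Finsupp.mem_support_iff.mp hs)
        refine ⟨s, ?_⟩
        have hdec := add_tsub_cancel_of_le hle
        have hz : Finsupp.degree (d - Finsupp.single s 1) = 0 := by
          have := congrArg Finsupp.degree hdec
          rw [map_add, Finsupp.degree_single] at this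
          omega
        rw [(Finsupp.degree_eq_zero_iff _).mp hz, add_zero] at hdec
        exact hdec.symm
    have hsub : (f.truncTotal 2).support ⊆
        Finset.univ.image fun s => (Finsupp.single s 1 : σ →₀ ℕ) := fun d hd' => by
      have hne := MvPolynomial.mem_support_iff.mp hd'
      rw [coeff_truncTotal_eq_ite] at hne
      split_ifs at hne with hdeg
      · rcases hd d hdeg with rfl | ⟨s, rfl⟩
        · exact absurd (by rwa [coeff_zero_eq_constantCoeff_apply] : coeff 0 f = 0) hne
        · exact Finset.mem_image_of_mem _ (Finset.mem_univ s)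
      · exact absurd rfl hne
    rw [MvPolynomial.eval_eq', Finset.sum_subset hsub (fun d _ hd' => by
      rw [MvPolynomial.notMem_support_iff.mp hd', zero_mul]),
      Finset.sum_image (fun a _ b _ hab => Finsupp.single_left_injective one_ne_zero hab),
      dirDeriv_apply]
    refine Finset.sum_congr rfl fun s _ => ?_
    rw [coeff_truncTotal _ (by simp), Finset.prod_eq_single s (fun b _ hb => by simp [hb])
      (by simp)]
    simp [mul_comm]
  rwa [he] at h

/-- The linear coefficients of the series point reduce to the residual partial derivatives. -/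
theorem coeff_single_shiftPoint {T : Type*} [CommRing T] [UniformSpace T] [IsUniformAddGroup T]
    [IsTopologicalRing T] [CompleteSpace T] [T2Space T] [IsLinearTopology T T]
    {S : Source p n k T} {E : Target S (unitBall L)} (hπ : E.IsPointOf π)
    (s : σ) (f : E0 p n k) :
    E.sharp (S.kT (resLin p n k (ι s) f)) - coeff (Finsupp.single s 1) (shiftPoint π ι hX f)
      ∈ E.J := by
  classical
  let v : σ → unitBall L := Pi.single s 1
  have hv : ∀ g : MvPowerSeries σ (unitBall L), dirDeriv v g = coeff (Finsupp.single s 1) g :=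
    fun g => by
      rw [dirDeriv_apply, Finset.sum_eq_single s (fun t _ ht => by simp [v, ht]) (by simp)]
      simp [v]
  have hc : ∀ g, constantCoeff (shiftPoint π ι hX g) = π g := fun g =>
    congrArg (fun φ : E0 p n k →+* unitBall L => φ g) (constantCoeff_shiftPoint (hX := hX))
  have hsum : dirDeriv v (shiftPoint π ι hX f) =
      ∑ i, (π (X i) * dirDeriv v (shiftPoint π ι hX (divX i f)) +
        (if ι s = i then 1 else 0) * π (divX i f)) := by
    conv_lhs => rw [E0_decomp f]
    simp only [map_add, map_sum, map_mul, shiftPoint_C, dirDeriv_C, zero_add, dirDeriv_mul,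
      shiftPoint_X, constantCoeff_shiftCoord, hc]
    refine Finset.sum_congr rfl fun i _ => ?_
    congr 2
    rw [hv, shiftCoord, map_add, coeff_C, if_neg (by simp), zero_add, map_sum,
      Finset.sum_eq_single s (fun t _ ht => ?_) (by simp)]
    · split_ifs <;> simp
    · split_ifs
      · rw [coeff_X, if_neg]
        exact fun e => ht ((Finsupp.single_left_injective one_ne_zero) e).symm
      · exact map_zero _
  rw [← hv, hsum, Finset.sum_add_distrib]
  have h1 : ∑ i, π (X i) * dirDeriv v (shiftPoint π ι hX (divX i f)) ∈ E.J :=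
    Ideal.sum_mem _ fun i _ => Ideal.mul_mem_right _ _ (hπ.map_mem (res_X p n k i))
  have h2 : ∑ i, (if ι s = i then (1 : unitBall L) else 0) * π (divX i f) = π (divX (ι s) f) := by
    simp
  rw [h2]
  have h3 := hπ (divX (ι s) f)
  rw [res_divX] at h3
  have h4 := E.J.sub_mem h3 h1
  convert h4 using 1
  simp only [resLin]
  ring

/-- The series point kills the stratum ideal. -/
theorem shiftPoint_eq_zero_of_mem_hIdeal {h : ℕ} (hh : h ≤ n) (hp : h ≠ 0 → (p : unitBall L) = 0)
    (hker : ∀ i : Fin (n - 1), (i : ℕ) + 1 < h → π (X i) = 0)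
    (hout : ∀ s, h ≤ (ι s : ℕ) + 1) {f : E0 p n k} (hf : f ∈ hIdeal p n k h) :
    shiftPoint π ι hX f = 0 := by
  classical
  have hle : hIdeal p n k h ≤ RingHom.ker (shiftPoint π ι hX) := by
    refine Ideal.span_le.mpr ?_
    rintro _ ⟨l, hl, rfl⟩
    rw [SetLike.mem_coe, RingHom.mem_ker]
    simp only [Set.mem_Iio] at hl
    rcases Nat.eq_zero_or_pos l with rfl | hpos
    · rw [show uE p n k 0 = (p : E0 p n k) by simp [uE], map_natCast,
        ← map_natCast (C : unitBall L →+* MvPowerSeries σ (unitBall L)), hp (by omega), map_zero]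
    · have hlt : l - 1 < n - 1 := by omega
      rw [show uE p n k l = X (⟨l - 1, hlt⟩ : Fin (n - 1)) by
        simp [uE, hpos.ne', hlt], shiftPoint_X, shiftCoord,
        hker _ (by simp only; omega), map_zero, zero_add]
      refine Finset.sum_eq_zero fun s _ => if_neg fun e => ?_
      have := hout s
      rw [e] at this
      simp only at this
      omega
  exact RingHom.mem_ker.mp (hle hf)

variable {T : Type*} [CommRing T] [UniformSpace T] [IsUniformAddGroup T]
  [IsTopologicalRing T] [CompleteSpace T] [T2Space T] [IsLinearTopology T T]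
variable {S : Source p n k T} {E : Target S (unitBall L)} {F : FormalGroup (E0 p n k)} [F.IsComm]

/-- `theta` of a nearby point is the value of `theta` of the series point. -/
theorem theta_nearby (hn : 1 ≤ n) (hF : mulSeries (special p n k F) p = PowerSeries.X ^ p ^ n)
    (hπ : E.IsPointOf π) {π'' : E0 p n k →+* unitBall L} (hπ'' : E.IsPointOf π'')
    (hι : Function.Injective ι) {δ : σ → unitBall L} (hC : ∀ w, π'' (C w) = π (C w))
    (hin : ∀ s, π'' (X (ι s)) = π (X (ι s)) + δ s)
    (hout : ∀ i, i ∉ Set.range ι → π'' (X i) = π (X i))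
    (hδ : ∀ s, IsTopologicallyNilpotent (δ s)) {y : T} (hy : IsTopologicallyNilpotent y) :
    (E.setup F hn hF π'' hπ'').theta y = ev (RingHom.id _) δ
      (((E.series σ).setup F hn hF (shiftPoint π ι hX)
        (E.isPointOf_series hπ constantCoeff_shiftPoint)).theta y) := by
  set D' := (E.series σ).setup F hn hF (shiftPoint π ι hX)
    (E.isPointOf_series hπ constantCoeff_shiftPoint)
  set D := E.setup F hn hF π'' hπ''
  have hev : HasEval δ := hasEval_of_finite hδ
  let φ : MvPowerSeries σ (unitBall L) →+* unitBall L := evHom (RingHom.id _) hev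
  have hφc : Continuous φ := by
    rw [show ⇑φ = fun f => ev (RingHom.id _) δ f from funext (evHom_apply hev)]
    exact continuous_ev_id hev
  have hcomp : φ.comp (shiftPoint π ι hX) = π'' := ev_shiftPoint_eq hι hC hin hout hδ
  rw [← evHom_apply hev]
  refine D'.theta_map D id φ (fun z hz => hz) (fun z _ => rfl)
    (fun x hx => hx.map hφc) (fun x hx => ?_) (fun z hz => ?_) hy
  · change φ (fapp ((mulSeries F p).map (shiftPoint π ι hX)) x) = fapp ((mulSeries F p).map π'') _
    rw [fapp, ev1, map_ev φ hφc (hasEval1 hx), fapp, ev1]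
    simp only [PowerSeries.map]
    have hxn : IsTopologicallyNilpotent (φ x) := hx.map hφc
    rw [ev_map _ (hasEval1 hxn), ev_map _ (hasEval1 hxn), RingHom.id_comp, RingHom.comp_id, hcomp]
  · have h : D'.theta z - C (E.sharp z) ∈ serJ (σ := σ) E.J := D'.theta_sub_sharp_mem hz
    change φ (D'.theta z) - E.sharp z ∈ E.J
    have hδJ : ∀ s, δ s ∈ E.J := fun s => by
      have h1 := E.J.sub_mem (hπ''.map_mem (res_X p n k (ι s))) (hπ.map_mem (res_X p n k (ι s)))
      rwa [hin, add_sub_cancel_left] at h1
    have hle : serJ (σ := σ) E.J ≤ E.J.comap φ := by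
      refine sup_le (Ideal.map_le_iff_le_comap.mpr fun c hc => ?_) (Ideal.span_le.mpr ?_)
      · simpa [φ] using hc
      · rintro _ ⟨s, rfl⟩
        simpa [φ] using hδJ s
    have h2 := hle h
    rw [Ideal.mem_comap, map_sub] at h2
    simpa [φ] using h2

/-- Every nilpotent element is a value of `theta`. -/
theorem exists_theta_eq [IsAlgClosed L] {h : ℕ} (hn : 1 ≤ n)
    (hF : mulSeries (special p n k F) p = PowerSeries.X ^ p ^ n) (hπ : E.IsPointOf π)
    (hl : Level E F π h) (hlift : (E.setup F hn hF π hπ).Lifts)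
    {t : unitBall L} (ht : IsTopologicallyNilpotent t) :
    ∃ y, IsTopologicallyNilpotent y ∧ (E.setup F hn hF π hπ).theta y = t := by
  classical
  have hchoose : ∀ z : {z : unitBall L // IsTopologicallyNilpotent z},
      ∃ t : {z : unitBall L // IsTopologicallyNilpotent z},
        (E.setup F hn hF π hπ).step t.1 = z.1 := fun z => by
    obtain ⟨t, ht, h0⟩ := E.exists_step_eq hn hF hπ hl z.2
    exact ⟨⟨t, ht⟩, h0⟩
  choose g hg using hchoose
  obtain ⟨y, hy, hyw⟩ := (E.setup F hn hF π hπ).exists_theta_eq_tower hlift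
    (fun l => (g^[l] ⟨t, ht⟩).1) (fun l => (g^[l] ⟨t, ht⟩).2)
    (fun l => by simp only [Function.iterate_succ_apply']; exact hg _)
  exact ⟨y, hy, by simpa using hyw 0⟩

/-- The linear part of `theta` at Tate vectors is injective in the coordinates above the
stratum. -/
theorem exists_linear_theta_ne_zero [IsAlgClosed L] {h : ℕ} (hn : 1 ≤ n)
    (hF : IsHazewinkel p n k F)
    (hF' : mulSeries (special p n k F) p = PowerSeries.X ^ p ^ n) (hπ : E.IsPointOf π)
    (hl : Level E F π h) [(E.setup F hn hF' π hπ).G.IsComm] {κ : Type*} [Fintype κ] {x : κ → T}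
    (hx : TateBasis (E.setup F hn hF' π hπ) x) (hι : Function.Injective ι)
    (hrange : ∀ s, h ≤ (ι s : ℕ) + 1)
    (hker : ∀ i : Fin (n - 1), (i : ℕ) + 1 < h → π (X i) = 0)
    {v : σ → L} (hv : v ≠ 0) :
    ∃ j, ∑ s, v s * ((coeff (Finsupp.single s 1)
      (((E.series σ).setup F hn hF' (shiftPoint π ι hX)
        (E.isPointOf_series hπ constantCoeff_shiftPoint)).theta (x j)) : unitBall L) : L) ≠ 0 := by
  classical
  obtain ⟨s1, hs1⟩ : ∃ s, v s ≠ 0 := by
    by_contra h0
    push Not at h0
    exact hv (funext h0)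
  haveI : Nonempty σ := ⟨s1⟩
  obtain ⟨s2, -, hs2⟩ := Finset.exists_max_image Finset.univ (fun s => ‖v s‖) Finset.univ_nonempty
  have hpos : 0 < ‖v s2‖ := (norm_pos_iff.mpr hs1).trans_le (hs2 s1 (Finset.mem_univ _))
  have hc : v s2 ≠ 0 := norm_pos_iff.mp hpos
  let w : σ → unitBall L := fun s => ⟨v s / v s2, by
    rw [mem_unitBall, norm_div, div_le_one hpos]
    exact hs2 s (Finset.mem_univ _)⟩
  let top : Finset σ := Finset.univ.filter fun s => ‖(w s : L)‖ = 1
  obtain ⟨s0, hs0, hmin⟩ := Finset.exists_min_image top (fun s => (ι s : ℕ))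
    ⟨s2, by simp [top, w, hc]⟩
  have hs0' : ‖(w s0 : L)‖ = 1 := (Finset.mem_filter.mp hs0).2
  set e := (ι s0 : ℕ) + 1 with he
  have hp : p.Prime := Fact.out
  have htop : ‖((dirDeriv w (shiftPoint π ι hX (PowerSeries.coeff (p ^ e) (mulSeries F p))) :
      unitBall L) : L)‖ = 1 := by
    set f := PowerSeries.coeff (p ^ e) (mulSeries F p)
    have hco : ∀ s, e ≤ (ι s : ℕ) + 1 →
        ‖((coeff (Finsupp.single s 1) (shiftPoint π ι hX f) : unitBall L) : L) -
          (if s = s0 then 1 else 0)‖ < 1 := by
      intro s hs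
      have hres : resLin p n k (ι s) f = if s = s0 then 1 else 0 := by
        rw [resLin_coeff_mulSeries p n k hF (ι s) (Nat.pow_le_pow_right hp.pos hs)]
        refine if_congr ⟨fun h0 => ?_, fun h0 => by rw [h0]⟩ rfl rfl
        exact hι (Fin.ext (by
          have := Nat.pow_right_injective hp.two_le h0
          omega))
      have hm := coeff_single_shiftPoint (ι := ι) (hX := hX) hπ s f
      rw [hres] at hm
      have hlt := E.norm_lt_one_of_mem hl hm
      split_ifs at hlt ⊢
      · rw [map_one, map_one, AddSubgroupClass.coe_sub, Subring.coe_one, norm_sub_rev] at hlt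
        exact hlt
      · rw [map_zero, E.sharp_zero, zero_sub, Subring.coe_neg, norm_neg] at hlt
        simpa using hlt
    rw [dirDeriv_apply, AddSubmonoidClass.coe_finsetSum, ← Finset.add_sum_erase _ _ (Finset.mem_univ s0)]
    have h1 : ‖((w s0 * coeff (Finsupp.single s0 1) (shiftPoint π ι hX f) : unitBall L) : L)‖ = 1 := by
      rw [Subring.coe_mul, norm_mul, hs0', one_mul]
      have h2 := hco s0 le_rfl
      rw [if_pos rfl] at h2
      set c := ((coeff (Finsupp.single s0 1) (shiftPoint π ι hX f) : unitBall L) : L)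
      calc ‖c‖ = ‖(c - 1) + 1‖ := by simp
        _ = 1 := by
          rw [IsUltrametricDist.norm_add_eq_max_of_norm_ne_norm (by simpa using h2.ne),
            norm_one, max_eq_right h2.le]
    have h2 : ‖∑ s ∈ Finset.univ.erase s0,
        ((w s * coeff (Finsupp.single s 1) (shiftPoint π ι hX f) : unitBall L) : L)‖ < 1 := by
      rcases (Finset.univ.erase s0).eq_empty_or_nonempty with hem | hne
      · rw [hem]
        simp
      · obtain ⟨s, hs, hle⟩ := IsUltrametricDist.exists_norm_finsetSum_le_of_nonempty hne
          fun s => ((w s * coeff (Finsupp.single s 1) (shiftPoint π ι hX f) : unitBall L) : L)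
        refine hle.trans_lt ?_
        rw [Subring.coe_mul, norm_mul]
        by_cases hws : ‖(w s : L)‖ = 1
        · have hle' : e ≤ (ι s : ℕ) + 1 := by
            have := hmin s (Finset.mem_filter.mpr ⟨Finset.mem_univ _, hws⟩)
            omega
          have h3 := hco s hle'
          rw [if_neg (Finset.ne_of_mem_erase hs), sub_zero] at h3
          rw [hws, one_mul]
          exact h3
        · exact (mul_le_of_le_one_right (norm_nonneg _) (norm_coe_le_one _)).trans_lt
            ((norm_coe_le_one _).lt_of_ne hws)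
    rw [IsUltrametricDist.norm_add_eq_max_of_norm_ne_norm (by rw [h1]; exact h2.ne'), h1,
      max_eq_left h2.le]
  have hen : e < n := by
    have := (ι s0).2
    omega
  obtain ⟨j, hj⟩ := hx.exists_dirDeriv_ne_zero hn hF' hπ hl (π' := shiftPoint π ι hX)
    constantCoeff_shiftPoint
    (fun j hj => shiftPoint_eq_zero_of_mem_hIdeal hl.le hl.char hker hrange
      (coeff_mulSeries_mem_hIdeal p n k hF hl.le hj))
    w (e := e) (hrange s0) hen htop
  refine ⟨j, fun h0 => hj (Subtype.ext ?_)⟩
  rw [dirDeriv_apply, AddSubmonoidClass.coe_finsetSum]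
  simp only [Subring.coe_mul, w, div_mul_eq_mul_div, ← Finset.sum_div]
  rw [h0]
  simp

end Vale.Agent.P217
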