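import Vale.Agent.P217.Perfect
import Vale.Agent.P217.ShiftPoint
import Vale.Agent.P217.Lead

/-!
# The logarithm at a point of `ℂ_[p]`

`logCoeff π` are the coefficients of the logarithm of the Hazewinkel law at the point `π`. It is
additive on the points of the law, and composed with `theta` it is `Qlim`.
-/

noncomputable section

namespace Vale.Agent.P217

open Filter Topology MvPowerSeries Finsupp

set_option linter.unusedSectionVars false

variable {p : ℕ} [hp : Fact p.Prime] {n : ℕ} {k : Type} [Field k] [CharP k p] [Finite k]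

variable (p n k) in
/-- The numerators `p ^ e * hazA e` of the logarithm. -/
def logNum : ℕ → E0 p n k
  | 0 => 1
  | j + 1 => ∑ i : Fin (j + 1),
      (p : E0 p n k) ^ (i : ℕ) * logNum (j - i) * uE p n k (i + 1) ^ p ^ (j - (i : ℕ))
  decreasing_by omega

theorem toQ_logNum (e : ℕ) :
    toQ p n k (logNum p n k e) = (p : E0Q p n k) ^ e * hazA p n k e := by
  induction e using Nat.strong_induction_on with
  | _ e ih =>
  cases e with
  | zero => simp [logNum, hazA]
  | succ j =>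
    have hC : (C ((p : FractionRing (WittVector p k))⁻¹) : E0Q p n k) * (p : E0Q p n k) = 1 := by
      rw [← map_natCast (C (σ := Fin (n - 1)) (R := FractionRing (WittVector p k))), ← map_mul,
        inv_mul_cancel₀, map_one]
      rw [← map_natCast (algebraMap (WittVector p k) (FractionRing (WittVector p k)))]
      exact (map_ne_zero_iff _ (IsFractionRing.injective _ _)).mpr (natCast_ne_zero_witt p k)
    rw [hazA, logNum, map_sum, Finset.mul_sum, Finset.mul_sum]
    refine Finset.sum_congr rfl fun i _ => ?_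
    rw [map_mul, map_mul, map_pow, map_pow, map_natCast, ih _ (by omega)]
    have hpow : (p : E0Q p n k) ^ (j + 1) = p * ((p : E0Q p n k) ^ (i : ℕ) * p ^ (j - (i : ℕ))) := by
      rw [← pow_add, ← pow_succ']
      congr 1
      omega
    rw [hpow]
    linear_combination -((p : E0Q p n k) ^ (i : ℕ) * p ^ (j - (i : ℕ)) *
      (hazA p n k (j - i) * toQ p n k (uE p n k (i + 1)) ^ p ^ (j - (i : ℕ)))) * hC

theorem coeff_hazLog_pow (e : ℕ) :
    PowerSeries.coeff (p ^ e) (hazLog p n k) = hazA p n k e := by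
  rw [hazLog, PowerSeries.coeff_mk, Finset.sum_eq_single e]
  · rw [if_pos rfl]
  · exact fun b _ hb => if_neg fun h => hb (Nat.pow_right_injective hp.out.two_le h)
  · intro hj
    exact absurd (Finset.mem_range.mpr (Nat.lt_succ_of_lt (e.lt_pow_self hp.out.one_lt))) hj

theorem coeff_hazLog_of_ne {d : ℕ} (h : ∀ e, p ^ e ≠ d) :
    PowerSeries.coeff d (hazLog p n k) = 0 := by
  rw [hazLog, PowerSeries.coeff_mk]
  exact Finset.sum_eq_zero fun e _ => if_neg (h e)

/-- The coefficients of the logarithm at a point. -/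
def logCoeff (π : E0 p n k →+* unitBall ℂ_[p]) (d : ℕ) : ℂ_[p] :=
  ∑ e ∈ Finset.range (d + 1),
    if p ^ e = d then (π (logNum p n k e) : ℂ_[p]) / (p : ℂ_[p]) ^ e else 0

variable {π : E0 p n k →+* unitBall ℂ_[p]}

theorem logCoeff_pow (e : ℕ) :
    logCoeff π (p ^ e) = (π (logNum p n k e) : ℂ_[p]) / (p : ℂ_[p]) ^ e := by
  rw [logCoeff, Finset.sum_eq_single e]
  · rw [if_pos rfl]
  · exact fun b _ hb => if_neg fun h => hb (Nat.pow_right_injective hp.out.two_le h)
  · intro hj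
    exact absurd (Finset.mem_range.mpr (Nat.lt_succ_of_lt (e.lt_pow_self hp.out.one_lt))) hj

theorem logCoeff_of_ne {d : ℕ} (h : ∀ e, p ^ e ≠ d) : logCoeff π d = 0 :=
  Finset.sum_eq_zero fun e _ => if_neg (h e)

theorem logCoeff_zero : logCoeff π 0 = 0 :=
  logCoeff_of_ne fun _ => pow_ne_zero _ hp.out.ne_zero

theorem logCoeff_one : logCoeff π 1 = 1 := by
  have h := logCoeff_pow (π := π) 0
  rw [pow_zero, logNum, map_one] at h
  simpa using h

theorem norm_logCoeff_le (d : ℕ) : ‖logCoeff π d‖ ≤ d := by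
  by_cases h : ∃ e, p ^ e = d
  · obtain ⟨e, rfl⟩ := h
    rw [logCoeff_pow, norm_div, norm_pow, show ‖(p : ℂ_[p])‖ = (p : ℝ)⁻¹ from Tilt.tau_eq p,
      inv_pow, div_inv_eq_mul, Nat.cast_pow]
    exact mul_le_of_le_one_left (by positivity) (norm_coe_le_one _)
  · push Not at h
    rw [logCoeff_of_ne h, norm_zero]
    exact Nat.cast_nonneg d

theorem linGrowth_logCoeff : LinGrowth (logCoeff π) :=
  ⟨1, fun d => by rw [one_mul]; exact norm_logCoeff_le d⟩

/-- The logarithm as a sum over the exponents. -/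
theorem hasSum_logCoeff {z : ℂ_[p]} (hz : ‖z‖ < 1) :
    HasSum (fun e => logCoeff π (p ^ e) * z ^ p ^ e) (qev (logCoeff π) z) :=
  (Function.Injective.hasSum_iff (g := fun e : ℕ => p ^ e)
    (Nat.pow_right_injective hp.out.two_le) fun d hd => by
      rw [logCoeff_of_ne fun e he => hd ⟨e, he⟩, zero_mul]).mpr (linGrowth_logCoeff.hasSum hz)

/-- The functional equation: `p a_(j+1) = Σ a_(j-i) u_(i+1)^(p^(j-i))`. -/
theorem natCast_mul_logCoeff_succ (j : ℕ) :
    (p : ℂ_[p]) * logCoeff π (p ^ (j + 1)) = ∑ i : Fin (j + 1),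
      logCoeff π (p ^ (j - (i : ℕ))) *
        (π (uE p n k (i + 1)) : ℂ_[p]) ^ p ^ (j - (i : ℕ)) := by
  have hp0 : (p : ℂ_[p]) ≠ 0 := natCast_ne_zero_Cp
  rw [logCoeff_pow, logNum, map_sum, AddSubmonoidClass.coe_finsetSum, Finset.sum_div,
    Finset.mul_sum]
  refine Finset.sum_congr rfl fun i _ => ?_
  rw [map_mul, map_mul, map_pow, map_pow, map_natCast, Subring.coe_mul, Subring.coe_mul,
    SubmonoidClass.coe_pow, SubmonoidClass.coe_pow, SubringClass.coe_natCast, logCoeff_pow]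
  have hpow : (p : ℂ_[p]) ^ (j + 1) = p * ((p : ℂ_[p]) ^ (i : ℕ) * p ^ (j - (i : ℕ))) := by
    rw [← pow_add, ← pow_succ']
    congr 1
    omega
  rw [hpow]
  field_simp

/-- One bound for all points of a smaller disc. -/
theorem exists_bound_logCoeff (hn : 1 ≤ n) {r : ℝ} (hr0 : 0 ≤ r) (hr : r < 1) :
    ∃ B : ℝ, ∀ π : E0 p n k →+* unitBall ℂ_[p],
      (∀ i, ‖(π (X i : E0 p n k) : ℂ_[p])‖ ≤ r) → ∀ z : ℂ_[p], ‖z‖ < 1 →
        ‖(p : ℂ_[p]) * qev (logCoeff π) z - qev (logCoeff π) (z ^ p ^ n)‖ ≤ B := by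
  obtain ⟨M, hM⟩ := (tendsto_self_mul_const_pow_of_lt_one hr0 hr).bddAbove_range
  set B := max M ((p : ℝ) ^ n) with hBdef
  have hB0 : 0 ≤ B := le_max_of_le_right (by positivity)
  refine ⟨B, fun π hX z hz => ?_⟩
  have hdef : ∀ d, ‖defect n (logCoeff π) d‖ ≤ B := by
    intro d
    by_cases h : ∃ e, p ^ e = d
    · obtain ⟨e, rfl⟩ := h
      rcases e with _ | j
      · rw [defect, if_neg (fun hd => by
          have := Nat.le_of_dvd one_pos (pow_zero p ▸ hd)
          have := Nat.one_lt_pow (by omega : n ≠ 0) hp.out.one_lt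
          omega), sub_zero, norm_mul, pow_zero, logCoeff_one, norm_one, mul_one]
        exact norm_p_lt_one.le.trans (le_max_of_le_right
          (one_le_pow₀ (Nat.one_le_cast.mpr hp.out.one_le)))
      have hterm : ∀ i : Fin (j + 1), (i : ℕ) + 1 ≠ n →
          ‖logCoeff π (p ^ (j - (i : ℕ))) *
            (π (uE p n k (i + 1)) : ℂ_[p]) ^ p ^ (j - (i : ℕ))‖ ≤ B := fun i hi => by
        by_cases hlt : (i : ℕ) + 1 < n
        · rw [uE_var p n k (by omega) (by omega), norm_mul, norm_pow]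
          refine (mul_le_mul (norm_logCoeff_le _) (pow_le_pow_left₀ (norm_nonneg _) (hX _) _)
            (by positivity) (Nat.cast_nonneg _)).trans
            (le_max_of_le_left (hM ⟨_, rfl⟩))
        · rw [uE_gt p n k (by omega), map_zero]
          simp [zero_pow (pow_ne_zero _ hp.out.ne_zero), hB0]
      rw [defect, natCast_mul_logCoeff_succ]
      by_cases hjn : n ≤ j + 1
      · set i₀ : Fin (j + 1) := ⟨n - 1, by omega⟩
        rw [if_pos (pow_dvd_pow p hjn), ← Finset.add_sum_erase _ _ (Finset.mem_univ i₀),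
          show (i₀ : ℕ) + 1 = n by simp [i₀]; omega, uE_top p n k hn, map_one, Subring.coe_one,
          one_pow, mul_one, Nat.pow_div hjn hp.out.pos,
          show j + 1 - n = j - (i₀ : ℕ) by simp [i₀]; omega, add_sub_cancel_left]
        exact IsUltrametricDist.norm_sum_le_of_forall_le_of_nonneg hB0 fun i hi =>
          hterm i fun he => Finset.ne_of_mem_erase hi (Fin.ext (by simp [i₀]; omega))
      · rw [if_neg (fun hd => hjn ((Nat.pow_dvd_pow_iff_le_right hp.out.one_lt).mp hd)), sub_zero]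
        exact IsUltrametricDist.norm_sum_le_of_forall_le_of_nonneg hB0 fun i _ =>
          hterm i (by omega)
    · push Not at h
      rw [defect, logCoeff_of_ne h, mul_zero]
      split_ifs with hd
      · rw [logCoeff_of_ne fun e he => h (e + n) (by
          rw [pow_add, he, Nat.div_mul_cancel hd]), sub_zero, norm_zero]
        exact hB0
      · simpa using hB0
  rw [← qev_defect linGrowth_logCoeff hz]
  refine norm_le_of_hasSum ((linGrowth_defect linGrowth_logCoeff).hasSum hz) hB0 fun d => ?_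
  rw [norm_mul, norm_pow]
  exact (mul_le_of_le_one_right (norm_nonneg _) (pow_le_one₀ (norm_nonneg _) hz.le)).trans (hdef d)

theorem exists_radius_coord (hX : ∀ i, ‖(π (X i : E0 p n k) : ℂ_[p])‖ < 1) :
    ∃ r : ℝ, 0 ≤ r ∧ r < 1 ∧ ∀ i, ‖(π (X i : E0 p n k) : ℂ_[p])‖ ≤ r := by
  rcases isEmpty_or_nonempty (Fin (n - 1)) with h | h
  · exact ⟨0, le_rfl, one_pos, fun i => isEmptyElim i⟩
  · obtain ⟨i₀, hi₀⟩ := Finite.exists_max fun i => ‖(π (X i : E0 p n k) : ℂ_[p])‖
    exact ⟨_, norm_nonneg _, hX i₀, hi₀⟩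

theorem qdata_logCoeff (hn : 1 ≤ n) (hX : ∀ i, ‖(π (X i : E0 p n k) : ℂ_[p])‖ < 1) :
    QData n (logCoeff π) := by
  obtain ⟨r, hr0, hr, hle⟩ := exists_radius_coord hX
  obtain ⟨B, hB⟩ := exists_bound_logCoeff (p := p) (n := n) (k := k) hn hr0 hr
  exact ⟨linGrowth_logCoeff, B, hB π hle⟩

/-- Series of linear growth are Lipschitz on smaller discs. -/
theorem exists_lipschitz {q : ℕ → ℂ_[p]} (hq : LinGrowth q) {ρ : ℝ} (hρ0 : 0 < ρ) (hρ : ρ < 1) :
    ∃ C : ℝ, 0 ≤ C ∧ ∀ a b : ℂ_[p], ‖a‖ ≤ ρ → ‖b‖ ≤ ρ →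
      ‖qev q a - qev q b‖ ≤ C * ‖a - b‖ := by
  obtain ⟨K, hK⟩ := id hq
  obtain ⟨M, hM⟩ := (tendsto_self_mul_const_pow_of_lt_one hρ0.le hρ).bddAbove_range
  have hK0 : 0 ≤ K := by simpa using (norm_nonneg _).trans (hK 1)
  have hM0 : 0 ≤ M := le_trans (by simp) (hM (Set.mem_range_self 0))
  refine ⟨K * M / ρ, by positivity, fun a b ha hb => ?_⟩
  refine norm_le_of_hasSum
    ((hq.hasSum (ha.trans_lt hρ)).sub (hq.hasSum (hb.trans_lt hρ)))
    (by positivity) fun d => ?_
  rcases Nat.eq_zero_or_pos d with rfl | hd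
  · simp
    positivity
  rw [← mul_sub, norm_mul, ← geom_sum₂_mul, norm_mul]
  have h1 : ‖∑ i ∈ Finset.range d, a ^ i * b ^ (d - 1 - i)‖ ≤ ρ ^ (d - 1) := by
    refine IsUltrametricDist.norm_sum_le_of_forall_le_of_nonneg (by positivity) fun i hi => ?_
    rw [Finset.mem_range] at hi
    rw [norm_mul, norm_pow, norm_pow, show ρ ^ (d - 1) = ρ ^ i * ρ ^ (d - 1 - i) by
      rw [← pow_add]; congr 1; omega]
    exact mul_le_mul (pow_le_pow_left₀ (norm_nonneg _) ha _) (pow_le_pow_left₀ (norm_nonneg _) hb _)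
      (by positivity) (by positivity)
  have h2 : (d : ℝ) * ρ ^ (d - 1) ≤ M / ρ := by
    rw [le_div_iff₀ hρ0, mul_assoc, ← pow_succ, Nat.sub_add_cancel hd]
    exact hM (Set.mem_range_self d)
  calc ‖q d‖ * (‖∑ i ∈ Finset.range d, a ^ i * b ^ (d - 1 - i)‖ * ‖a - b‖)
      ≤ (K * d) * (ρ ^ (d - 1) * ‖a - b‖) :=
        mul_le_mul (hK d) (mul_le_mul_of_nonneg_right h1 (norm_nonneg _)) (by positivity)
          (by positivity)
    _ = K * ((d : ℝ) * ρ ^ (d - 1)) * ‖a - b‖ := by ring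
    _ ≤ K * (M / ρ) * ‖a - b‖ := by gcongr
    _ = K * M / ρ * ‖a - b‖ := by ring

variable (p) in
/-- The logarithm is the identity to first order on the disc of radius `‖p‖`. -/
theorem exists_qev_logCoeff_sub_le :
    ∃ C : ℝ, 0 ≤ C ∧ ∀ π : E0 p n k →+* unitBall ℂ_[p], ∀ z : ℂ_[p], ‖z‖ ≤ Tilt.tau p →
      ‖qev (logCoeff π) z - z‖ ≤ C * ‖z‖ ^ 2 := by
  have hτ := Tilt.tau_pos p
  obtain ⟨M, hM⟩ :=
    (tendsto_self_mul_const_pow_of_lt_one hτ.le (Tilt.tau_lt_one p)).bddAbove_range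
  have hM0 : 0 ≤ M := le_trans (by simp) (hM (Set.mem_range_self 0))
  refine ⟨M / Tilt.tau p ^ 2, by positivity, fun π z hz => ?_⟩
  have h : HasSum (fun d => if d = 1 then 0 else logCoeff π d * z ^ d)
      (qev (logCoeff π) z - z) := by
    refine ((linGrowth_logCoeff.hasSum (hz.trans_lt (Tilt.tau_lt_one p))).sub
      (hasSum_ite_eq 1 z)).congr_fun fun d => ?_
    split_ifs with hd
    · rw [hd, logCoeff_one, one_mul, pow_one, sub_self]
    · rw [sub_zero]
  refine norm_le_of_hasSum h (by positivity) fun d => ?_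
  split_ifs with hd
  · simp
    positivity
  rcases Nat.eq_zero_or_pos d with rfl | hd0
  · simp [logCoeff_zero]
    positivity
  have h2 : (d : ℝ) * Tilt.tau p ^ (d - 2) ≤ M / Tilt.tau p ^ 2 := by
    rw [le_div_iff₀ (by positivity), mul_assoc, ← pow_add, Nat.sub_add_cancel (by omega)]
    exact hM (Set.mem_range_self d)
  rw [norm_mul, norm_pow, show ‖z‖ ^ d = ‖z‖ ^ (d - 2) * ‖z‖ ^ 2 by
    rw [← pow_add, Nat.sub_add_cancel (by omega)], ← mul_assoc]
  refine mul_le_mul_of_nonneg_right (le_trans ?_ h2) (by positivity)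
  exact mul_le_mul (norm_logCoeff_le d) (pow_le_pow_left₀ (norm_nonneg _) hz _) (by positivity)
    (Nat.cast_nonneg d)

/-! ### Additivity -/

variable (p n k) in
/-- `p^N` times the failure of additivity of the truncated logarithm. -/
def truncDelta (F : FormalGroup (E0 p n k)) (N : ℕ) : MvPowerSeries (Fin 2) (E0 p n k) :=
  ∑ e ∈ Finset.range (N + 1), C ((p : E0 p n k) ^ (N - e) * logNum p n k e) *
    (F.toPowerSeries ^ p ^ e - X 0 ^ p ^ e - X 1 ^ p ^ e)

theorem truncDelta_mem {F : FormalGroup (E0 p n k)} (hF : IsHazewinkel p n k F) (N : ℕ) :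
    truncDelta p n k F N ∈ cI (⊥ : Ideal (E0 p n k)) (p ^ (N + 1)) := by
  intro d hd
  rw [Ideal.mem_bot]
  refine toQ_injective p n k ?_
  rw [map_zero]
  set φ := toQ p n k
  set G := MvPowerSeries.map φ F.toPowerSeries
  have hG : constantCoeff G = 0 := by
    rw [constantCoeff_map, F.zero_constantCoeff, map_zero]
  have hext : ∀ x : MvPowerSeries (Fin 2) (E0Q p n k), constantCoeff x = 0 →
      coeff d (PowerSeries.subst x (hazLog p n k)) =
        ∑ e ∈ Finset.range (N + 1), hazA p n k e * coeff d (x ^ p ^ e) := fun x hx => by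
    rw [coeff_ps_subst_eq_sum hx, Finset.sum_subset (s₂ := Finset.range (p ^ (N + 1)))
      (fun j hj => by simp only [Finset.mem_range] at hj ⊢; omega) (fun j _ hj => by
        have := pow_mem_cI_bot hx j d (by simp only [Finset.mem_range] at hj; omega)
        rw [Ideal.mem_bot] at this
        rw [this, mul_zero])]
    refine Eq.trans (Finset.sum_subset (s₁ := (Finset.range (N + 1)).image (p ^ ·))
      (fun j hj => ?_) (fun j hj hj' => ?_)).symm ?_
    · obtain ⟨e, he, rfl⟩ := Finset.mem_image.mp hj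
      exact Finset.mem_range.mpr (Nat.pow_lt_pow_right hp.out.one_lt (Finset.mem_range.mp he))
    · rw [coeff_hazLog_of_ne, zero_mul]
      rintro e rfl
      exact hj' (Finset.mem_image_of_mem _ (Finset.mem_range.mpr
        ((Nat.pow_lt_pow_iff_right hp.out.one_lt).mp (Finset.mem_range.mp hj))))
    · rw [Finset.sum_image fun a _ b _ h => Nat.pow_right_injective hp.out.two_le h]
      simp only [coeff_hazLog_pow]
  have key : ∑ e ∈ Finset.range (N + 1), hazA p n k e *
      coeff d (G ^ p ^ e - X 0 ^ p ^ e - X 1 ^ p ^ e) = 0 := by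
    have h := congrArg (coeff d) hF
    rw [map_add, hext _ hG, hext _ (constantCoeff_X _), hext _ (constantCoeff_X _)] at h
    simp only [map_sub, mul_sub, Finset.sum_sub_distrib]
    rw [sub_sub, sub_eq_zero]
    exact h
  rw [truncDelta, map_sum, map_sum]
  have hterm : ∀ e ∈ Finset.range (N + 1),
      φ (coeff d (C ((p : E0 p n k) ^ (N - e) * logNum p n k e) *
        (F.toPowerSeries ^ p ^ e - X 0 ^ p ^ e - X 1 ^ p ^ e))) =
      (p : E0Q p n k) ^ N *
        (hazA p n k e * coeff d (G ^ p ^ e - X 0 ^ p ^ e - X 1 ^ p ^ e)) := fun e he => by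
    rw [Finset.mem_range] at he
    rw [coeff_C_mul, map_mul, map_mul, map_pow, map_natCast, toQ_logNum, ← coeff_map,
      map_sub (MvPowerSeries.map φ), map_sub (MvPowerSeries.map φ), map_pow (MvPowerSeries.map φ),
      map_pow (MvPowerSeries.map φ), map_pow (MvPowerSeries.map φ), map_X, map_X,
      show (p : E0Q p n k) ^ N = p ^ (N - e) * p ^ e by
        rw [← pow_add, Nat.sub_add_cancel (by omega)]]
    ring
  rw [Finset.sum_congr rfl hterm, ← Finset.mul_sum, key, mul_zero]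

theorem norm_ev_le_of_mem {N : ℕ} {f : MvPowerSeries (Fin 2) (E0 p n k)}
    (hf : f ∈ cI (⊥ : Ideal (E0 p n k)) N) {a : Fin 2 → unitBall ℂ_[p]}
    (ha : ∀ s, IsTopologicallyNilpotent (a s)) {r : ℝ} (hr : r ≤ 1)
    (har : ∀ s, ‖(a s : ℂ_[p])‖ ≤ r) : ‖((ev π a f : unitBall ℂ_[p]) : ℂ_[p])‖ ≤ r ^ N := by
  have hr0 : 0 ≤ r := (norm_nonneg _).trans (har 0)
  refine norm_le_of_hasSum
    ((hasSum_ev (φ := π) (hasEval_of_finite ha) f).map (unitBall ℂ_[p]).subtype
      continuous_subtype_val) (pow_nonneg hr0 N) fun d => ?_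
  simp only [Function.comp_apply, Subring.coe_subtype, Subring.coe_mul, norm_mul]
  by_cases hd : d.degree < N
  · have h0 := hf d hd
    rw [Ideal.mem_bot] at h0
    simp [h0, pow_nonneg hr0]
  · refine (mul_le_of_le_one_left (norm_nonneg _) (norm_coe_le_one _)).trans ?_
    rw [Finsupp.prod, SubmonoidClass.coe_finsetProd, norm_prod]
    refine (Finset.prod_le_prod (g := fun i => r ^ d i) (fun i _ => norm_nonneg _)
      fun i _ => ?_).trans ?_
    · rw [SubmonoidClass.coe_pow, norm_pow]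
      exact pow_le_pow_left₀ (norm_nonneg _) (har i) _
    · rw [Finset.prod_pow_eq_pow_sum]
      exact pow_le_pow_of_le_one hr0 hr ((not_lt.1 hd).trans_eq (Finsupp.degree_apply d))

variable {F : FormalGroup (E0 p n k)}

/-- The logarithm is additive on points. -/
theorem qev_logCoeff_fadd (hF : IsHazewinkel p n k F) {a b : unitBall ℂ_[p]}
    (ha : IsTopologicallyNilpotent a) (hb : IsTopologicallyNilpotent b) :
    qev (logCoeff π) ((fadd (F.map π) a b : unitBall ℂ_[p]) : ℂ_[p]) =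
      qev (logCoeff π) (a : ℂ_[p]) + qev (logCoeff π) (b : ℂ_[p]) := by
  set c := fadd (F.map π) a b with hc
  have hcn : IsTopologicallyNilpotent c := isTopologicallyNilpotent_fadd _ ha hb
  have ha' := isTopologicallyNilpotent_ball.mp ha
  have hb' := isTopologicallyNilpotent_ball.mp hb
  set r := max ‖(a : ℂ_[p])‖ ‖(b : ℂ_[p])‖
  have hr : r < 1 := max_lt ha' hb'
  have hr0 : 0 ≤ r := le_max_of_le_left (norm_nonneg _)
  have hns : ∀ s, IsTopologicallyNilpotent (![a, b] s) := fun s => by fin_cases s <;> assumption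
  have hev := hasEval_of_finite hns
  set S : ℕ → ℂ_[p] := fun N => ∑ e ∈ Finset.range N, logCoeff π (p ^ e) *
    ((c : ℂ_[p]) ^ p ^ e - (a : ℂ_[p]) ^ p ^ e - (b : ℂ_[p]) ^ p ^ e)
  have h1 : Tendsto S atTop (𝓝 (qev (logCoeff π) (c : ℂ_[p]) - qev (logCoeff π) (a : ℂ_[p]) -
      qev (logCoeff π) (b : ℂ_[p]))) :=
    ((((hasSum_logCoeff (isTopologicallyNilpotent_ball.mp hcn)).sub (hasSum_logCoeff ha')).sub
      (hasSum_logCoeff hb')).congr_fun fun e => by ring).tendsto_sum_nat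
  have hbound : ∀ N, ‖S (N + 1)‖ ≤ ((p : ℝ) * 1) ^ N * r ^ p ^ (N + 1) := fun N => by
    have hval : ((ev π ![a, b] (truncDelta p n k F N) : unitBall ℂ_[p]) : ℂ_[p]) =
        (p : ℂ_[p]) ^ N * S (N + 1) := by
      have hFc : evHom π hev F.toPowerSeries = c := by
        rw [evHom_apply, hc, fadd, FormalGroup.map_toPowerSeries, ev_map _ hev, RingHom.id_comp]
      rw [← evHom_apply hev, truncDelta, map_sum, AddSubmonoidClass.coe_finsetSum, Finset.mul_sum]
      refine Finset.sum_congr rfl fun e he => ?_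
      rw [Finset.mem_range] at he
      rw [map_mul, map_sub, map_sub, map_pow, map_pow, map_pow, hFc]
      simp only [evHom_apply, ev_C, ev_X, map_mul, map_pow, map_natCast, Subring.coe_mul,
        AddSubgroupClass.coe_sub, SubmonoidClass.coe_pow, SubringClass.coe_natCast,
        Matrix.cons_val_zero, Matrix.cons_val_one, Matrix.cons_val_fin_one, logCoeff_pow]
      rw [show (p : ℂ_[p]) ^ N = p ^ (N - e) * p ^ e by
        rw [← pow_add, Nat.sub_add_cancel (by omega)]]
      field_simp [natCast_ne_zero_Cp]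
      exact (mul_div_cancel_right₀ _ (pow_ne_zero _ natCast_ne_zero_Cp)).symm
    have h2 := norm_ev_le_of_mem (π := π) (truncDelta_mem hF N) hns hr.le fun s => by
      fin_cases s
      · exact le_max_left _ _
      · exact le_max_right _ _
    rw [hval, norm_mul, norm_pow, show ‖(p : ℂ_[p])‖ = (p : ℝ)⁻¹ from Tilt.tau_eq p, inv_pow,
      inv_mul_le_iff₀ (by have := hp.out.pos; positivity)] at h2
    simpa using h2
  have h0 : Tendsto (fun N => S (N + 1)) atTop (𝓝 0) := by
    refine squeeze_zero_norm hbound ?_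
    simp only [mul_one]
    refine squeeze_zero (fun N => by positivity) (fun N => ?_)
      (((tendsto_self_mul_const_pow_of_lt_one hr0 hr).comp
        (tendsto_pow_atTop_atTop_of_one_lt hp.out.one_lt)).comp (tendsto_add_atTop_nat 1))
    simp only [Function.comp_apply, Nat.cast_pow]
    exact mul_le_mul_of_nonneg_right
      (pow_le_pow_right₀ (Nat.one_le_cast.mpr hp.out.one_le) (Nat.le_succ N)) (by positivity)
  have := tendsto_nhds_unique (h1.comp (tendsto_add_atTop_nat 1)) h0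
  rwa [sub_sub, sub_eq_zero] at this

theorem qev_logCoeff_zero : qev (logCoeff π) 0 = 0 := qev_eq_zero_iff_aux linGrowth_logCoeff

/-- The logarithm turns `[j]` into multiplication by `j`. -/
theorem qev_logCoeff_mulSeries (hF : IsHazewinkel p n k F) {x : unitBall ℂ_[p]}
    (hx : IsTopologicallyNilpotent x) (j : ℕ) :
    qev (logCoeff π) ((fapp ((mulSeries F j).map π) x : unitBall ℂ_[p]) : ℂ_[p]) =
      (j : ℂ_[p]) * qev (logCoeff π) (x : ℂ_[p]) := by
  rw [← mulSeries_map]
  induction j with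
  | zero =>
    rw [mulSeries, show fapp (0 : PowerSeries (unitBall ℂ_[p])) x = 0 from ev_zero (hasEval1 hx),
      ZeroMemClass.coe_zero, qev_logCoeff_zero, Nat.cast_zero, zero_mul]
  | succ j ih =>
    have hcc := constantCoeff_mulSeries (F.map π) j
    have e : fapp (mulSeries (F.map π) (j + 1)) x =
        fadd (F.map π) (fapp (mulSeries (F.map π) j) x) x := by
      rw [mulSeries, fapp, ev1, ev_subst (hasSubst_pair hcc cc_PX) (hasEval1 hx), fadd]
      congr 1
      funext s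
      fin_cases s
      · rfl
      · exact fapp_X
    rw [e, qev_logCoeff_fadd hF (isTopologicallyNilpotent_fapp hcc hx) hx, ih, Nat.cast_succ]
    ring

/-! ### The logarithm of `theta` -/

variable [F.IsComm] {ϖ : unitBall ℂ_[p]} {κ : k →+* unitBall (Tilt p)}

/-- The logarithm of `theta y` is the limit `Qlim`. -/
theorem Qlim_logCoeff_eq_qev_theta (hk : Nat.card k = p ^ n) (hn : 1 ≤ n)
    (hF : IsHazewinkel p n k F) (hF' : mulSeries (special p n k F) p = PowerSeries.X ^ p ^ n)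
    (h1 : ‖(ϖ : ℂ_[p])‖ < 1) (hp' : ‖(p : ℂ_[p])‖ ≤ ‖(ϖ : ℂ_[p])‖)
    (hπ : (cpTarget (tiltSource hk κ) ϖ h1 hp').IsPointOf π) {y : unitBall (Tilt p)}
    (hy : IsTopologicallyNilpotent y) :
    Qlim n (logCoeff π) (y : Tilt p) = qev (logCoeff π)
      (((cpTarget (tiltSource hk κ) ϖ h1 hp').setup F hn hF' π hπ).theta y : ℂ_[p]) := by
  set D := (cpTarget (tiltSource hk κ) ϖ h1 hp').setup F hn hF' π hπ
  have hstep : ∀ l, ∀ x, IsTopologicallyNilpotent x →
      qev (logCoeff π) ((D.step^[l] x : unitBall ℂ_[p]) : ℂ_[p]) =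
        (p : ℂ_[p]) ^ l * qev (logCoeff π) (x : ℂ_[p]) := by
    intro l
    induction l with
    | zero => intro x _; simp
    | succ l ih =>
      intro x hx
      rw [Function.iterate_succ_apply, ih _ (D.nilp_step hx),
        show D.step x = fapp ((mulSeries F p).map π) x from rfl, qev_logCoeff_mulSeries hF hx]
      ring
  have happ : ∀ l, qev (logCoeff π) ((D.approx l y : unitBall ℂ_[p]) : ℂ_[p]) =
      approxQ n (logCoeff π) (y : Tilt p) l := fun l => by
    rw [Setup.approx, hstep l _ (D.nilp_sharp (D.nilp_iterate hy l)), approxQ]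
    congr 2
    exact sharp_iterate_rootBall n l y
  have hθ := D.tendsto_approx hy
  have hθ1 := isTopologicallyNilpotent_ball.mp (D.nilp_theta hy)
  set ρ := (1 + ‖(D.theta y : ℂ_[p])‖) / 2
  have hρ0 : 0 < ρ := by positivity
  have hρ : ρ < 1 := by simp only [ρ]; linarith
  obtain ⟨C, hC0, hC⟩ := exists_lipschitz (linGrowth_logCoeff (π := π)) hρ0 hρ
  have hθ' : Tendsto (fun l => ((D.approx l y : unitBall ℂ_[p]) : ℂ_[p])) atTop
      (𝓝 (D.theta y : ℂ_[p])) := (continuous_subtype_val.tendsto _).comp hθ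
  have hev : ∀ᶠ l in atTop, ‖((D.approx l y : unitBall ℂ_[p]) : ℂ_[p])‖ ≤ ρ :=
    hθ'.norm.eventually_le_const (by simp only [ρ]; linarith)
  have h2 : Tendsto (fun l => qev (logCoeff π) ((D.approx l y : unitBall ℂ_[p]) : ℂ_[p])) atTop
      (𝓝 (qev (logCoeff π) (D.theta y : ℂ_[p]))) := by
    rw [tendsto_iff_norm_sub_tendsto_zero]
    refine squeeze_zero' (Eventually.of_forall fun _ => norm_nonneg _) ?_
      (by simpa using (tendsto_iff_norm_sub_tendsto_zero.mp hθ').const_mul C)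
    filter_upwards [hev] with l hl
    exact hC _ _ hl (by simp only [ρ]; linarith)
  simp only [happ] at h2
  rw [Qlim]
  exact h2.limUnder_eq

/-- `Qlim` of the logarithm is additive for the special fibre. -/
theorem Qlim_logCoeff_add (hk : Nat.card k = p ^ n) (hn : 1 ≤ n)
    (hF : IsHazewinkel p n k F) (hF' : mulSeries (special p n k F) p = PowerSeries.X ^ p ^ n)
    (h1 : ‖(ϖ : ℂ_[p])‖ < 1) (hp' : ‖(p : ℂ_[p])‖ ≤ ‖(ϖ : ℂ_[p])‖)
    (hπ : (cpTarget (tiltSource hk κ) ϖ h1 hp').IsPointOf π)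
    (x y : Pt ((tiltSource hk κ).fibre F)) :
    Qlim n (logCoeff π) (x + y).co =
      Qlim n (logCoeff π) x.co + Qlim n (logCoeff π) y.co := by
  set D := (cpTarget (tiltSource hk κ) ϖ h1 hp').setup F hn hF' π hπ
  simp only [Pt.co]
  rw [Qlim_logCoeff_eq_qev_theta hk hn hF hF' h1 hp' hπ x.2,
    Qlim_logCoeff_eq_qev_theta hk hn hF hF' h1 hp' hπ y.2,
    Qlim_logCoeff_eq_qev_theta hk hn hF hF' h1 hp' hπ (x + y).2]
  have hadd : D.theta (x + y).1 = fadd (F.map π) (D.theta x.1) (D.theta y.1) :=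
    D.theta_fadd x.2 y.2
  rw [hadd]
  exact qev_logCoeff_fadd hF (D.nilp_theta x.2) (D.nilp_theta y.2)

/-- `Qlim` of the logarithm is not identically zero. -/
theorem exists_Qlim_logCoeff_ne_zero (hk : Nat.card k = p ^ n) (hn : 1 ≤ n)
    (hF : IsHazewinkel p n k F) (hF' : mulSeries (special p n k F) p = PowerSeries.X ^ p ^ n)
    (h1 : ‖(ϖ : ℂ_[p])‖ < 1) (hp' : ‖(p : ℂ_[p])‖ ≤ ‖(ϖ : ℂ_[p])‖)
    (hπ : (cpTarget (tiltSource hk κ) ϖ h1 hp').IsPointOf π) :
    ∃ y : Tilt p, ‖y‖ < 1 ∧ Qlim n (logCoeff π) y ≠ 0 := by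
  have h0 : (ϖ : ℂ_[p]) ≠ 0 := norm_pos_iff.1 ((norm_pos_iff.2 p_ne_zero_cp).trans_le hp')
  have hl : Level (cpTarget (tiltSource hk κ) ϖ h1 hp') F π 0 := by
    refine ⟨Nat.zero_le n, fun h => absurd rfl h, fun j hj => absurd (one_dvd j) hj, ?_,
      ⟨ϖ, h0, h1, (span_singleton_eq_normIdeal h0).symm⟩⟩
    rw [pow_zero, coeff_one_mulSeries p n k hF, map_natCast]
    intro h
    exact p_ne_zero_cp (by simpa using congrArg Subtype.val h)
  obtain ⟨C, hC0, hC⟩ := exists_qev_logCoeff_sub_le (n := n) (k := k) p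
  obtain ⟨m, hm⟩ := exists_pow_lt_of_lt_one
    (show (0 : ℝ) < 1 / (C + 1) by positivity) (Tilt.tau_lt_one p)
  set t : unitBall ℂ_[p] := (p : unitBall ℂ_[p]) ^ (m + 1)
  have htn : ‖(t : ℂ_[p])‖ = Tilt.tau p ^ (m + 1) := by
    simp only [t, SubmonoidClass.coe_pow, SubringClass.coe_natCast, norm_pow]
    rfl
  have hτ := Tilt.tau_pos p
  have htτ : ‖(t : ℂ_[p])‖ ≤ Tilt.tau p := by
    rw [htn]
    exact pow_le_of_le_one hτ.le (Tilt.tau_lt_one p).le (by omega)
  have htpos : 0 < ‖(t : ℂ_[p])‖ := by rw [htn]; positivity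
  have hsmall : C * ‖(t : ℂ_[p])‖ < 1 := by
    refine lt_of_le_of_lt (mul_le_mul_of_nonneg_left
      (htn.trans_le (pow_le_pow_of_le_one hτ.le (Tilt.tau_lt_one p).le (Nat.le_succ m))) hC0) ?_
    rw [lt_div_iff₀ (by positivity)] at hm
    nlinarith [pow_pos hτ m]
  obtain ⟨y, hy, hyt⟩ := exists_theta_eq hn hF' hπ hl (cpTarget_lifts hk κ ϖ h1 hp' F hn hF' hπ)
    (t := t) (isTopologicallyNilpotent_ball.mpr (htτ.trans_lt (Tilt.tau_lt_one p)))
  refine ⟨y, isTopologicallyNilpotent_ball.mp hy, ?_⟩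
  rw [Qlim_logCoeff_eq_qev_theta hk hn hF hF' h1 hp' hπ hy, hyt]
  intro hz
  have h := hC π t htτ
  rw [hz, zero_sub, norm_neg] at h
  nlinarith

/-! ### Continuity in the point -/

/-- Points with the same constants depend continuously on their coordinates. -/
theorem norm_point_sub_le {π π' : E0 p n k →+* unitBall ℂ_[p]}
    (hC : ∀ w, π' (C w) = π (C w)) (hX : ∀ i, ‖(π (X i : E0 p n k) : ℂ_[p])‖ < 1)
    (hX' : ∀ i, ‖(π' (X i : E0 p n k) : ℂ_[p])‖ < 1) {δ : ℝ} (hδ : 0 < δ)
    (h : ∀ i, ‖(π' (X i : E0 p n k) : ℂ_[p]) - (π (X i : E0 p n k) : ℂ_[p])‖ ≤ δ) (f : E0 p n k) :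
    ‖(π' f : ℂ_[p]) - (π f : ℂ_[p])‖ ≤ δ := by
  have := ev_sub_ev_mem (φ := π'.comp C) (φ' := π.comp C) (isOpen_ballIdeal hδ)
    (hasEval_of_finite fun i => isTopologicallyNilpotent_ball.mpr (hX' i))
    (hasEval_of_finite fun i => isTopologicallyNilpotent_ball.mpr (hX i))
    (fun i => (mem_ballIdeal hδ.le).mpr (by simpa using h i)) (f := f) (g := f)
    (fun d => by simp [hC])
  rw [← point_eq_ev π' hX', ← point_eq_ev π hX, mem_ballIdeal] at this
  simpa using this

/-- `Qlim` of the logarithm is continuous in the point. -/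
theorem tendsto_Qlim_logCoeff {ι : Type*} {l : Filter ι}
    {π' : ι → E0 p n k →+* unitBall ℂ_[p]} (hn : 1 ≤ n)
    (hX : ∀ i, ‖(π (X i : E0 p n k) : ℂ_[p])‖ < 1) (hC : ∀ j w, π' j (C w) = π (C w))
    (hlim : ∀ i, Tendsto (fun j => (π' j (X i : E0 p n k) : ℂ_[p])) l
      (𝓝 (π (X i : E0 p n k) : ℂ_[p])))
    {y : Tilt p} (hy : ‖y‖ < 1) :
    Tendsto (fun j => Qlim n (logCoeff (π' j)) y) l (𝓝 (Qlim n (logCoeff π) y)) := by
  obtain ⟨r, hr0, hr, hle⟩ := exists_radius_coord hX
  set r' := (1 + r) / 2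
  have hr' : r' < 1 := by simp only [r']; linarith
  obtain ⟨B, hB⟩ := exists_bound_logCoeff (p := p) (n := n) (k := k) hn
    (show (0 : ℝ) ≤ r' by positivity) hr'
  have hev : ∀ᶠ j in l, ∀ i, ‖(π' j (X i : E0 p n k) : ℂ_[p])‖ ≤ r' :=
    eventually_all.mpr fun i => (hlim i).norm.eventually_le_const
      ((hle i).trans_lt (by simp only [r']; linarith))
  rw [Metric.tendsto_nhds]
  intro ε hε
  obtain ⟨J, hJ⟩ := ((tendsto_tau_mul (p := p) B).eventually_lt_const hε).exists
  set z := y.coeff (n * J)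
  have hz : ‖z‖ < 1 := norm_coeff_lt_one hy _
  obtain ⟨D, hD⟩ := eventually_atTop.mp
    ((tendsto_self_mul_const_pow_of_lt_one (norm_nonneg z) hz).eventually_le_const
      (half_pos hε))
  set δ := (ε / 2) * Tilt.tau p ^ D with hδdef
  have hτ := Tilt.tau_pos p
  have hδ : 0 < δ := by positivity
  have hclose : ∀ᶠ j in l, ∀ i,
      ‖(π' j (X i : E0 p n k) : ℂ_[p]) - (π (X i : E0 p n k) : ℂ_[p])‖ ≤ δ :=
    eventually_all.mpr fun i =>
      (tendsto_iff_norm_sub_tendsto_zero.mp (hlim i)).eventually_le_const hδ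
  filter_upwards [hev, hclose] with j hj hjc
  have hX' : ∀ i, ‖(π' j (X i : E0 p n k) : ℂ_[p])‖ < 1 := fun i => (hj i).trans_lt hr'
  have hJ1 := norm_Qlim_sub_le (hB (π' j) hj) hy J
  have hJ2 := norm_Qlim_sub_le
    (hB π fun i => (hle i).trans (by simp only [r']; linarith)) hy J
  have hq : ‖qev (logCoeff (π' j)) z - qev (logCoeff π) z‖ ≤ ε / 2 := by
    refine norm_le_of_hasSum ((linGrowth_logCoeff.hasSum hz).sub (linGrowth_logCoeff.hasSum hz))
      (half_pos hε).le fun d => ?_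
    rcases le_or_gt D d with hd | hd
    · refine le_trans ?_ (hD d hd)
      refine (Tilt.norm_sub_le_max _ _).trans (max_le ?_ ?_) <;>
        · rw [norm_mul, norm_pow]
          exact mul_le_mul_of_nonneg_right (norm_logCoeff_le d) (by positivity)
    · rw [← sub_mul, norm_mul, norm_pow]
      refine (mul_le_of_le_one_right (norm_nonneg _) (pow_le_one₀ (norm_nonneg _) hz.le)).trans ?_
      by_cases he : ∃ e, p ^ e = d
      · obtain ⟨e, rfl⟩ := he
        rw [logCoeff_pow, logCoeff_pow, ← sub_div, norm_div, norm_pow]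
        change _ / Tilt.tau p ^ e ≤ _
        rw [div_le_iff₀ (pow_pos hτ e)]
        refine (norm_point_sub_le (hC j) hX hX' hδ hjc _).trans ?_
        rw [hδdef]
        exact mul_le_mul_of_nonneg_left (pow_le_pow_of_le_one hτ.le (Tilt.tau_lt_one p).le
          ((e.lt_pow_self hp.out.one_lt).le.trans hd.le)) (half_pos hε).le
      · push Not at he
        rw [logCoeff_of_ne he, logCoeff_of_ne he, sub_zero, norm_zero]
        exact (half_pos hε).le
  have hqJ : ‖approxQ n (logCoeff (π' j)) y J - approxQ n (logCoeff π) y J‖ ≤ ε / 2 := by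
    rw [approxQ, approxQ, ← mul_sub, norm_mul, norm_pow]
    exact (mul_le_of_le_one_left (norm_nonneg _)
      (pow_le_one₀ (norm_nonneg _) norm_p_lt_one.le)).trans hq
  rw [dist_eq_norm, show Qlim n (logCoeff (π' j)) y - Qlim n (logCoeff π) y =
    (Qlim n (logCoeff (π' j)) y - approxQ n (logCoeff (π' j)) y J) +
      ((approxQ n (logCoeff (π' j)) y J - approxQ n (logCoeff π) y J) +
        -(Qlim n (logCoeff π) y - approxQ n (logCoeff π) y J)) by ring]
  refine (IsUltrametricDist.norm_add_le_max _ _).trans_lt (max_lt (hJ1.trans_lt hJ)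
    ((IsUltrametricDist.norm_add_le_max _ _).trans_lt (max_lt
      (hqJ.trans_lt (half_lt_self hε)) ?_)))
  rw [norm_neg]
  exact hJ2.trans_lt hJ

end Vale.Agent.P217
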