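import Vale.Agent.P217.PrimeClass
import Vale.Agent.P217.Action

/-!
# The main statement from the classification of primes stable near the identity
-/

noncomputable section

namespace Vale.Agent.P217

set_option linter.unusedSectionVars false

variable {p : ℕ} [hp : Fact p.Prime] {n : ℕ} {k : Type} [Field k] [CharP k p] [Finite k]

/-- Universality and the four classifications, from the classification of primes stable near the
identity. -/
theorem main_of {F : FormalGroup (E0 p n k)} (hn : 1 ≤ n) (hF : IsHazewinkel p n k F)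
    (H : ∀ P : Ideal (E0 p n k), P.IsPrime → StableNear F P → ∃ h ≤ n, P = hIdeal p n k h) :
    F.IsComm ∧ IsHazewinkel p n k F ∧ F.map (coeffFrob p n k) = F ∧
    mulSeries (special p n k F) p = PowerSeries.X ^ p ^ n ∧
    (∀ (A : Type) [CommRing A] [Algebra (WittVector p k) A] (π : A →+* k),
      π.comp (algebraMap (WittVector p k) A) = WittVector.constantCoeff → Function.Surjective π →
      IsAdicComplete (RingHom.ker π) A → ∀ (F' : FormalGroup A), F'.IsComm →
      ∀ g : PowerSeries k, IsHom g (F'.map π) (special p n k F) →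
        IsUnit (PowerSeries.coeff 1 g) →
        ∃! x : (E0 p n k →ₐ[WittVector p k] A) × PowerSeries A,
          PowerSeries.map π x.2 = g ∧ IsHom x.2 F' (F.map x.1.toRingHom)) ∧
    (∀ g : PowerSeries k, IsAut g (special p n k F) → ∃! α, IsMarkingChange p n k F g α) ∧
    (∀ g α, IsAut g (special p n k F) → IsMarkingChange p n k F g α → Function.Bijective α) ∧
    (∀ P : Ideal (E0 p n k), P.IsPrime ∧ GStable p n k F P ↔ ∃ h ≤ n, P = hIdeal p n k h) ∧
    (∀ I : Ideal (E0 p n k),
      I.IsRadical ∧ GStable p n k F I ↔ I = ⊤ ∨ ∃ h ≤ n, I = hIdeal p n k h) ∧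
    (∀ P : Ideal (E0 p n k), P.IsPrime ∧ Stable p n k F P ↔ ∃ h ≤ n, P = hIdeal p n k h) ∧
    (∀ I : Ideal (E0 p n k),
      I.IsRadical ∧ Stable p n k F I ↔ I = ⊤ ∨ ∃ h ≤ n, I = hIdeal p n k h) := by
  have := isComm_of_isHazewinkel p n k hF
  have hS := isShape_of_isHazewinkel hn hF
  refine ⟨inferInstance, hF, map_coeffFrob_of_isHazewinkel p n k hF, mulSeries_special p n k hn hF,
    ?_, fun g hg => existsUnique_markingChange hS hg, fun g α hg hα => ?_, prime_gStable_iff hn hF H,
    radical_gStable_iff hn hF H, prime_stable_iff hn hF H, radical_stable_iff hn hF H⟩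
  rotate_left
  · obtain ⟨gi, β, -, -, h1, h2⟩ := markingChange_bijective hS hg hα
    exact Function.bijective_iff_has_inverse.mpr ⟨β, h2, h1⟩
  intro A _ _ π hc hs hcomp F' hF' g hg hu
  have hB : IsBase (p := p) π := ⟨hc, hs, hcomp⟩
  obtain ⟨α, G, hG, hhom⟩ := exists_universal hB hS hg hu
  refine ⟨(α, G), ⟨hG, hhom⟩, ?_⟩
  rintro ⟨β, G'⟩ ⟨hG', hhom'⟩
  obtain ⟨h1, h2⟩ := universal_unique hB hS (hG.symm ▸ hu) hhom hhom' (hG'.trans hG.symm)
  exact Prod.ext h1 h2

end Vale.Agent.P217
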