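import Mathlib.Analysis.Normed.Module.FiniteDimension
import Vale.Agent.P217.Action
import Vale.Agent.P217.HondaLaw
import Vale.Agent.P217.LogPt
import Vale.Agent.P217.Point

/-!
# Vanishing of the derivatives at a point of `ℂ_[p]`

If `f` vanishes at all moves of a point by markings close to the identity then the linear part of
`f` at the point vanishes. The logarithm of `theta` at the Tate vectors is a chart to first
order, moves by `X + p^K b` give in it the directions `L(b x)`, and these span the image of the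
whole tangent space.
-/

noncomputable section

namespace Vale.Agent.P217

set_option linter.unusedSectionVars false
set_option linter.style.haveILetI false

open Filter Topology MvPowerSeries MvPowerSeries.WithPiTopology

/-! ### Linear algebra -/

section LinAlg

variable {L : Type*} [NontriviallyNormedField L] [CompleteSpace L]
variable {σ ι : Type*} [Fintype σ] [Fintype ι]

/-- A sequence quadratically small in `d = O(a)` divided by `a` tends to zero. -/
theorem tendsto_inv_smul_of_sq_le {E : Type*} [NormedAddCommGroup E] [NormedSpace L E]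
    {a : ℕ → L} {d : ℕ → ℝ} {u : ℕ → E} {C R : ℝ} (ha : ∀ K, a K ≠ 0)
    (hd0 : ∀ K, 0 ≤ d K) (hd : Tendsto d atTop (𝓝 0)) (hda : ∀ᶠ K in atTop, d K ≤ R * ‖a K‖)
    (hu : ∀ᶠ K in atTop, ‖u K‖ ≤ C * d K ^ 2) :
    Tendsto (fun K => (a K)⁻¹ • u K) atTop (𝓝 0) := by
  refine squeeze_zero_norm' ?_ (show Tendsto (fun K => |C| * |R| * d K) atTop (𝓝 0) by
    simpa using hd.const_mul (|C| * |R|))
  filter_upwards [hu, hda] with K h1 h2
  rw [norm_smul, norm_inv, inv_mul_le_iff₀ (norm_pos_iff.mpr (ha K))]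
  refine h1.trans ((mul_le_mul_of_nonneg_right (le_abs_self C) (sq_nonneg _)).trans ?_)
  rw [sq, show ‖a K‖ * (|C| * |R| * d K) = |C| * (d K * (|R| * ‖a K‖)) by ring]
  gcongr
  · exact hd0 K
  · exact h2.trans (mul_le_mul_of_nonneg_right (le_abs_self R) (norm_nonneg _))

/-- Approximate solutions of `A δ + a w = 0`, `φ δ = 0`, quadratic errors, put `w` in the image
of the kernel of `φ`. -/
theorem mem_map_ker_of_tendsto (A : (σ → L) →ₗ[L] (ι → L)) (hA : LinearMap.ker A = ⊥)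
    (φ : (σ → L) →ₗ[L] L) {δ : ℕ → σ → L} {a : ℕ → L} {w : ℕ → ι → L} {v : ι → L} {C : ℝ}
    (ha : ∀ K, a K ≠ 0) (hδ : Tendsto δ atTop (𝓝 0)) (hw : Tendsto w atTop (𝓝 v))
    (h : ∀ᶠ K in atTop, ‖A (δ K) + a K • w K‖ ≤ C * ‖δ K‖ ^ 2)
    (hφ : ∀ᶠ K in atTop, ‖φ (δ K)‖ ≤ C * ‖δ K‖ ^ 2) :
    v ∈ Submodule.map A (LinearMap.ker φ) := by
  obtain ⟨M, hM, hAM⟩ := A.exists_antilipschitzWith hA
  have hM' : ∀ x, ‖x‖ ≤ M * ‖A x‖ := fun x => by
    simpa [dist_eq_norm] using hAM.le_mul_dist x 0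
  have hn0 : Tendsto (fun K => ‖δ K‖) atTop (𝓝 0) := by simpa using hδ.norm
  have hCd : Tendsto (fun K => (M : ℝ) * C * ‖δ K‖) atTop (𝓝 0) := by
    simpa using hn0.const_mul ((M : ℝ) * C)
  obtain ⟨R, hR⟩ : ∃ R, ∀ᶠ K in atTop, ‖w K‖ ≤ R :=
    ⟨‖v‖ + 1, hw.norm.eventually_le_const (lt_add_one _)⟩
  have hbound : ∀ᶠ K in atTop, ‖δ K‖ ≤ 2 * M * R * ‖a K‖ := by
    filter_upwards [h, hR, hCd.eventually_le_const (show (0 : ℝ) < 1 / 2 by norm_num)]
      with K h1 h2 h3
    have h4 : ‖A (δ K)‖ ≤ C * ‖δ K‖ ^ 2 + ‖a K‖ * R := by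
      refine (norm_le_norm_add_norm_sub' _ (-(a K • w K))).trans ?_
      rw [norm_neg, sub_neg_eq_add, norm_smul, add_comm]
      exact add_le_add h1 (mul_le_mul_of_nonneg_left h2 (norm_nonneg _))
    have h5 := (hM' (δ K)).trans (mul_le_mul_of_nonneg_left h4 M.coe_nonneg)
    have h6 : (M : ℝ) * C * ‖δ K‖ * ‖δ K‖ ≤ 1 / 2 * ‖δ K‖ :=
      mul_le_mul_of_nonneg_right h3 (norm_nonneg _)
    nlinarith
  set P := A.prod φ
  set ξ : ℕ → σ → L := fun K => (a K)⁻¹ • δ K
  have h1 : Tendsto (fun K => A (ξ K)) atTop (𝓝 (-v)) := by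
    have := (tendsto_inv_smul_of_sq_le (u := fun K => A (δ K) + a K • w K) ha (fun _ => norm_nonneg _) hn0 hbound h).sub hw
    rw [zero_sub] at this
    refine this.congr fun K => ?_
    rw [smul_add, smul_smul, inv_mul_cancel₀ (ha K), one_smul, add_sub_cancel_right, map_smul]
  have h2 : Tendsto (fun K => φ (ξ K)) atTop (𝓝 0) :=
    (tendsto_inv_smul_of_sq_le (u := fun K => φ (δ K)) ha (fun _ => norm_nonneg _) hn0 hbound hφ).congr fun K => (map_smul φ _ _).symm
  have hmem : (-v, (0 : L)) ∈ LinearMap.range P :=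
    (Submodule.closed_of_finiteDimensional (LinearMap.range P)).mem_of_tendsto
      (h1.prodMk_nhds h2) (Eventually.of_forall fun K => ⟨ξ K, rfl⟩)
  obtain ⟨x, hx⟩ := hmem
  have hA' : A x = -v := congrArg Prod.fst hx
  have hφ' : φ x = 0 := congrArg Prod.snd hx
  exact ⟨-x, by simp [hφ'], by simp [hA']⟩

end LinAlg

variable {p : ℕ} [hp : Fact p.Prime] {n : ℕ}

/-- A span containing the twists of one nonzero combination of periods contains all periods. -/
theorem Gper_mem_of_forall (hn : 1 ≤ n) {ι : Type*} {y : ι → Tilt p} (hy : ∀ j, ‖y j‖ < 1)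
    (W : Submodule ℂ_[p] (ι → ℂ_[p])) {H : Fin n → ℂ_[p]} (hH : H ≠ 0)
    (h : ∀ z : Tilt p, z ^ p ^ n = z → ∀ t : ℕ,
      (fun j => ∑ c, H c * Gper n (c : ℕ) (z * y j ^ p ^ t)) ∈ W)
    (d : ℕ) : (fun j => Gper n d (y j)) ∈ W := by
  by_contra hd
  obtain ⟨φ, hφd, hφW⟩ := Submodule.exists_le_ker_of_notMem hd
  obtain ⟨c, hc⟩ : ∃ c, H c ≠ 0 := Function.ne_iff.mp hH
  have hX := eq_zero_of_fixed_sums hn
    (X := fun c' : Fin n => H c' * φ (fun j => Gper n ((c' : ℕ) + (d + (n - c))) (y j)))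
    fun z hz => by
      have e : (fun j => ∑ c' : Fin n, H c' * Gper n (c' : ℕ) (z * y j ^ p ^ (d + (n - c)))) =
          ∑ c' : Fin n, (z.coeff 0 ^ p ^ (c' : ℕ) * H c') •
            fun j => Gper n ((c' : ℕ) + (d + (n - c))) (y j) := by
        funext j
        rw [Finset.sum_apply]
        refine Finset.sum_congr rfl fun c' _ => ?_
        rw [Pi.smul_apply, smul_eq_mul,
          Gper_fixed_mul hn _ hz (norm_pow_lt_one_tilt (hy j) _), Gper_pow hn _ _ (hy j)]
        ring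
      have h0 := hφW (h z hz (d + (n - c)))
      rw [LinearMap.mem_ker, e, map_sum] at h0
      rw [← h0]
      exact Finset.sum_congr rfl fun c' _ => by rw [map_smul, smul_eq_mul]; ring
  have h1 := congrFun hX c
  simp only [Pi.zero_apply, mul_eq_zero, hc, false_or] at h1
  refine hφd ?_
  have e2 : (fun j => Gper n ((c : ℕ) + (d + (n - c))) (y j)) =
      (p : ℂ_[p]) • fun j => Gper n d (y j) := by
    funext j
    rw [show (c : ℕ) + (d + (n - c)) = d + n by have := c.2; omega, Pi.smul_apply, smul_eq_mul,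
      Gper_add_period hn d (hy j)]
  rw [e2, map_smul, smul_eq_mul, mul_eq_zero] at h1
  exact h1.resolve_left natCast_ne_zero_Cp

theorem fapp_zero_right {O : Type*} [CommRing O] [UniformSpace O] [IsUniformAddGroup O]
    [IsTopologicalRing O] [CompleteSpace O] [T2Space O] [IsLinearTopology O O]
    {g : PowerSeries O} (hg : PowerSeries.constantCoeff g = 0) : fapp g 0 = 0 :=
  (hasSum_ev1 (φ := RingHom.id O) IsTopologicallyNilpotent.zero g).unique <| by
    refine hasSum_zero.congr_fun fun i => ?_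
    cases i <;> simp [hg]

/-- The value of `X +_Γ a X^M` at a point. -/
theorem fapp_adj_monomial {k O : Type*} [CommRing k] [CommRing O] [UniformSpace O]
    [IsUniformAddGroup O] [IsTopologicalRing O] [CompleteSpace O] [T2Space O]
    [IsLinearTopology O O] (κ : k →+* O) (Γ : FormalGroup k) {M : ℕ} (hM : M ≠ 0) (a : k) {x : O}
    (hx : IsTopologicallyNilpotent x) :
    fapp ((adj Γ PowerSeries.X (PowerSeries.C a * PowerSeries.X ^ M)).map κ) x =
      fadd (Γ.map κ) x (κ a * x ^ M) := by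
  have he := hasEval1 hx
  have hb : PowerSeries.constantCoeff (PowerSeries.C a * PowerSeries.X ^ M : PowerSeries k) = 0 := by
    simp [hM]
  have h1 : ev κ (fun _ : Unit => x) (PowerSeries.X : PowerSeries k) = x :=
    ev_X (φ := κ) (a := fun _ : Unit => x) ()
  have h2 : ev κ (fun _ : Unit => x) (PowerSeries.C a * PowerSeries.X ^ M : PowerSeries k) =
      κ a * x ^ M := by
    rw [ev_mul he, ev_pow he, h1]
    exact congrArg (· * x ^ M) (ev_C (φ := κ) a)
  have hy : IsTopologicallyNilpotent (κ a * x ^ M) := by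
    rw [← h2]
    refine isTopologicallyNilpotent_ev he _ ?_
    rw [show MvPowerSeries.constantCoeff (PowerSeries.C a * PowerSeries.X ^ M : PowerSeries k) = 0
      from hb, map_zero]
    exact .zero
  rw [fapp, ev1]
  simp only [PowerSeries.map]
  rw [ev_map _ he, RingHom.id_comp, adj, ev_subst (hasSubst_pair cc_PX hb) he, fadd,
    FormalGroup.map_toPowerSeries, ev_map _ (hasEval2 hx hy), RingHom.id_comp]
  congr 1
  funext s
  fin_cases s
  · exact h1
  · exact h2

variable {k : Type} [Field k] [CharP k p] [Finite k]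

/-- A point within `‖p‖` of a compatible point is compatible. -/
theorem isPointOf_near (hk : Nat.card k = p ^ n) {κ : k →+* unitBall (Tilt p)}
    {ϖ : unitBall ℂ_[p]} {h1 : ‖(ϖ : ℂ_[p])‖ < 1} {hp' : ‖(p : ℂ_[p])‖ ≤ ‖(ϖ : ℂ_[p])‖}
    {π π' : E0 p n k →+* unitBall ℂ_[p]}
    (hπ : (cpTarget (tiltSource hk κ) ϖ h1 hp').IsPointOf π) (hC : ∀ w, π' (C w) = π (C w))
    (hX : ∀ i, ‖(π (X i : E0 p n k) : ℂ_[p])‖ < 1)
    (hX' : ∀ i, ‖(π' (X i : E0 p n k) : ℂ_[p])‖ < 1)
    (h : ∀ i, ‖(π' (X i : E0 p n k) : ℂ_[p]) - (π (X i : E0 p n k) : ℂ_[p])‖ ≤ ‖(p : ℂ_[p])‖) :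
    (cpTarget (tiltSource hk κ) ϖ h1 hp').IsPointOf π' := fun r => by
  have h0 := norm_point_sub_le hC hX hX' (norm_pos_iff.mpr natCast_ne_zero_Cp) h r
  have h2 : π' r - π r ∈ normIdeal ϖ := by
    rw [mem_normIdeal, AddSubgroupClass.coe_sub]
    exact h0.trans hp'
  have h3 := (normIdeal ϖ).sub_mem (hπ r) h2
  rw [sub_sub, add_sub_cancel] at h3
  exact h3

variable {F : FormalGroup (E0 p n k)} [F.IsComm] {κ : k →+* unitBall (Tilt p)}
  {ϖ : unitBall ℂ_[p]} {h1 : ‖(ϖ : ℂ_[p])‖ < 1} {hp' : ‖(p : ℂ_[p])‖ ≤ ‖(ϖ : ℂ_[p])‖}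
  {π : E0 p n k →+* unitBall ℂ_[p]}

/-- A nearby function value is given by the linear part to first order. -/
theorem norm_sub_lin_le (hX : ∀ i, IsTopologicallyNilpotent (π (X i)))
    {π' : E0 p n k →+* unitBall ℂ_[p]} (hC : ∀ w, π' (C w) = π (C w))
    (hX' : ∀ i, ‖(π' (X i : E0 p n k) : ℂ_[p])‖ < 1) {f : E0 p n k} (hf : π f = 0)
    (hf' : π' f = 0) :
    ‖∑ s, ((π' (X s : E0 p n k) : ℂ_[p]) - (π (X s : E0 p n k) : ℂ_[p])) *
        ((coeff (Finsupp.single s 1) (shiftPoint π id hX f) : unitBall ℂ_[p]) : ℂ_[p])‖ ≤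
      ‖fun s => (π' (X s : E0 p n k) : ℂ_[p]) - (π (X s : E0 p n k) : ℂ_[p])‖ ^ 2 := by
  set dl : Fin (n - 1) → ℂ_[p] :=
    fun s => (π' (X s : E0 p n k) : ℂ_[p]) - (π (X s : E0 p n k) : ℂ_[p])
  let δ : Fin (n - 1) → unitBall ℂ_[p] := fun s => π' (X s) - π (X s)
  have hlt : ∀ s, ‖dl s‖ < 1 := fun s =>
    (Tilt.norm_sub_le_max _ _).trans_lt (max_lt (hX' s) (isTopologicallyNilpotent_ball.mp (hX s)))
  have hδ : ∀ s, IsTopologicallyNilpotent (δ s) := fun s =>
    isTopologicallyNilpotent_ball.mpr (by simpa [δ, dl] using hlt s)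
  have hcc : constantCoeff (shiftPoint π id hX f) = 0 :=
    (RingHom.congr_fun (constantCoeff_shiftPoint (π := π) (ι := id) (hX := hX)) f).trans hf
  have hev : ev (RingHom.id _) δ (shiftPoint π id hX f) = 0 := by
    rw [← evHom_apply (hasEval_of_finite hδ), ← hf']
    exact RingHom.congr_fun (ev_shiftPoint_eq (π'' := π') Function.injective_id hC
      (fun s => by simp [δ]) (fun i hi => absurd ⟨i, rfl⟩ hi) hδ) f
  have h := norm_ev_sub_dirDeriv_le hδ (norm_nonneg dl)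
    ((pi_norm_le_iff_of_nonneg zero_le_one).mpr fun s => (hlt s).le)
    (fun s => by simpa [δ, dl] using norm_le_pi_norm dl s) hcc
  rw [hev, zero_sub, Subring.coe_neg, norm_neg, dirDeriv_apply,
    AddSubmonoidClass.coe_finsetSum] at h
  simpa [δ, dl] using h

/-- The logarithm of `theta` near a point where `theta` vanishes is the derivative to first
order. -/
theorem exists_norm_Qlim_sub_lin_le (hk : Nat.card k = p ^ n) (hn : 1 ≤ n)
    (hF : IsHazewinkel p n k F) (hF' : mulSeries (special p n k F) p = PowerSeries.X ^ p ^ n)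
    (hπ : (cpTarget (tiltSource hk κ) ϖ h1 hp').IsPointOf π)
    (hX : ∀ i, IsTopologicallyNilpotent (π (X i))) :
    ∃ C₀ : ℝ, ∀ π' : E0 p n k →+* unitBall ℂ_[p],
      (cpTarget (tiltSource hk κ) ϖ h1 hp').IsPointOf π' → (∀ w, π' (C w) = π (C w)) →
      (∀ i, ‖(π' (X i : E0 p n k) : ℂ_[p])‖ < 1) →
      ‖fun s => (π' (X s : E0 p n k) : ℂ_[p]) - (π (X s : E0 p n k) : ℂ_[p])‖ ≤ Tilt.tau p →
      ∀ y : unitBall (Tilt p), IsTopologicallyNilpotent y →
      ((cpTarget (tiltSource hk κ) ϖ h1 hp').setup F hn hF' π hπ).theta y = 0 →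
      ‖Qlim n (logCoeff π') (y : Tilt p) -
          ∑ s, ((π' (X s : E0 p n k) : ℂ_[p]) - (π (X s : E0 p n k) : ℂ_[p])) *
            ((coeff (Finsupp.single s 1)
              ((((cpTarget (tiltSource hk κ) ϖ h1 hp').series (Fin (n - 1))).setup F hn hF'
                (shiftPoint π id hX) ((cpTarget (tiltSource hk κ) ϖ h1 hp').isPointOf_series hπ
                  constantCoeff_shiftPoint)).theta y) : unitBall ℂ_[p]) : ℂ_[p])‖ ≤
        C₀ * ‖fun s => (π' (X s : E0 p n k) : ℂ_[p]) - (π (X s : E0 p n k) : ℂ_[p])‖ ^ 2 := by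
  obtain ⟨C₁, hC₁0, hC₁⟩ := exists_qev_logCoeff_sub_le (n := n) (k := k) p
  refine ⟨max C₁ 1, fun π' hπ' hC hX' hsm y hy h0 => ?_⟩
  set E := cpTarget (tiltSource hk κ) ϖ h1 hp'
  set T := ((E.series (Fin (n - 1))).setup F hn hF' (shiftPoint π id hX)
    (E.isPointOf_series hπ constantCoeff_shiftPoint)).theta y
  set dl : Fin (n - 1) → ℂ_[p] :=
    fun s => (π' (X s : E0 p n k) : ℂ_[p]) - (π (X s : E0 p n k) : ℂ_[p])
  let δ : Fin (n - 1) → unitBall ℂ_[p] := fun s => π' (X s) - π (X s)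
  set r := ‖dl‖
  have hr0 : 0 ≤ r := norm_nonneg _
  have hr1 : r ≤ 1 := hsm.trans (Tilt.tau_lt_one p).le
  have hdl : ∀ s, ‖dl s‖ ≤ r := norm_le_pi_norm dl
  have hδ : ∀ s, IsTopologicallyNilpotent (δ s) := fun s => isTopologicallyNilpotent_ball.mpr
    (by simpa [δ, dl] using ((hdl s).trans hsm).trans_lt (Tilt.tau_lt_one p))
  have hT : constantCoeff T = 0 :=
    (E.constantCoeff_theta F hn hF' hπ constantCoeff_shiftPoint hy).trans h0
  have hlin := norm_ev_sub_dirDeriv_le hδ hr0 hr1 (fun s => by simpa [δ, dl] using hdl s) hT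
  rw [← theta_nearby hn hF' hπ hπ' Function.injective_id hC (fun s => by simp [δ])
    (fun i hi => absurd ⟨i, rfl⟩ hi) hδ hy, dirDeriv_apply, AddSubgroupClass.coe_sub,
    AddSubmonoidClass.coe_finsetSum] at hlin
  simp only [Subring.coe_mul, δ, AddSubgroupClass.coe_sub] at hlin
  rw [Qlim_logCoeff_eq_qev_theta hk hn hF hF' h1 hp' hπ' hy]
  set u := ((E.setup F hn hF' π' hπ').theta y : ℂ_[p])
  set S := ∑ s, dl s * ((coeff (Finsupp.single s 1) T : unitBall ℂ_[p]) : ℂ_[p])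
  have hS : ‖S‖ ≤ r := IsUltrametricDist.norm_sum_le_of_forall_le_of_nonneg hr0 fun s _ => by
    rw [norm_mul]
    exact (mul_le_of_le_one_right (norm_nonneg _) (norm_coe_le_one _)).trans (hdl s)
  have hu : ‖u‖ ≤ r := by
    rw [← sub_add_cancel u S]
    exact (IsUltrametricDist.norm_add_le_max _ _).trans
      (max_le (hlin.trans (pow_le_of_le_one hr0 hr1 two_ne_zero)) hS)
  rw [← sub_add_sub_cancel (qev (logCoeff π') u) u S]
  refine (IsUltrametricDist.norm_add_le_max _ _).trans (max_le ?_ ?_)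
  · exact (hC₁ π' u (hu.trans hsm)).trans (mul_le_mul (le_max_left _ _)
      (pow_le_pow_left₀ (norm_nonneg _) hu 2) (sq_nonneg _)
      (zero_le_one.trans (le_max_right _ _)))
  · exact hlin.trans (le_mul_of_one_le_left (sq_nonneg _) (le_max_right _ _))

/-- The logarithm at a point as a homomorphism from the points of the special fibre. -/
def logHom (hk : Nat.card k = p ^ n) (hn : 1 ≤ n) (hF : IsHazewinkel p n k F)
    (hF' : mulSeries (special p n k F) p = PowerSeries.X ^ p ^ n)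
    [((tiltSource hk κ).fibre F).IsComm]
    (hπ : (cpTarget (tiltSource hk κ) ϖ h1 hp').IsPointOf π) :
    Pt ((tiltSource hk κ).fibre F) →+ ℂ_[p] :=
  AddMonoidHom.mk' (fun x => Qlim n (logCoeff π) x.co)
    fun x y => Qlim_logCoeff_add hk hn hF hF' h1 hp' hπ x y

/-- The periods of a point at given vectors lie in the span of the periods `Gper`. -/
theorem Qlim_logCoeff_mem (hk : Nat.card k = p ^ n) (hn : 1 ≤ n) (hF : IsHazewinkel p n k F)
    (hF' : mulSeries (special p n k F) p = PowerSeries.X ^ p ^ n)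
    (hπ : (cpTarget (tiltSource hk κ) ϖ h1 hp').IsPointOf π)
    (hX : ∀ i, ‖(π (X i : E0 p n k) : ℂ_[p])‖ < 1) {ι : Type*} {y : ι → Tilt p}
    (hy : ∀ j, ‖y j‖ < 1) (W : Submodule ℂ_[p] (ι → ℂ_[p]))
    (hW : ∀ c : ℕ, (fun j => Gper n c (y j)) ∈ W) :
    (fun j => Qlim n (logCoeff π) (y j)) ∈ W := by
  have hΓ : Honda n ((tiltSource hk κ).fibre F) := honda_special hn k hF κ
  obtain ⟨H, hH⟩ := exists_eq_sum_Gper (Γ := (tiltSource hk κ).fibre F) hn
    (qdata_logCoeff hn hX) (Qlim_logCoeff_add hk hn hF hF' h1 hp' hπ) hΓ.Gper_add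
  have e : (fun j => Qlim n (logCoeff π) (y j)) = ∑ c : Fin n, H c • fun j => Gper n (c : ℕ) (y j) := by
    funext j
    rw [hH _ (hy j), Finset.sum_apply]
    rfl
  rw [e]
  exact Submodule.sum_mem _ fun c _ => W.smul_mem _ (hW c)

/-- The coordinates of a point relative to another one. -/
def coordDiff (π π' : E0 p n k →+* unitBall ℂ_[p]) : Fin (n - 1) → ℂ_[p] :=
  fun s => (π' (X s : E0 p n k) : ℂ_[p]) - (π (X s : E0 p n k) : ℂ_[p])

variable {ι : Type*} [Fintype ι]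

/-- Moving by `X + p^K b` puts the periods of `b x` in the image of the kernel of the linear part
of `f`. -/
theorem periods_mem_of_moves (hk : Nat.card k = p ^ n) (hn : 1 ≤ n) (hF : IsHazewinkel p n k F)
    (hF' : mulSeries (special p n k F) p = PowerSeries.X ^ p ^ n)
    (hπ : (cpTarget (tiltSource hk κ) ϖ h1 hp').IsPointOf π)
    (hϖ : ∀ f, res p n k f = 0 → π f ∈ normIdeal ϖ)
    {x : ι → unitBall (Tilt p)} (hxn : ∀ j, IsTopologicallyNilpotent (x j))
    (hx0 : ∀ j, ((cpTarget (tiltSource hk κ) ϖ h1 hp').setup F hn hF' π hπ).theta (x j) = 0)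
    (A : (Fin (n - 1) → ℂ_[p]) →ₗ[ℂ_[p]] (ι → ℂ_[p])) (hker : LinearMap.ker A = ⊥) {C₀ : ℝ}
    (hA : ∀ π', (cpTarget (tiltSource hk κ) ϖ h1 hp').IsPointOf π' → (∀ w, π' (C w) = π (C w)) →
      (∀ i, ‖(π' (X i : E0 p n k) : ℂ_[p])‖ < 1) → ‖coordDiff π π'‖ ≤ Tilt.tau p →
      ‖(fun j => Qlim n (logCoeff π') (x j : Tilt p)) - A (coordDiff π π')‖ ≤
        C₀ * ‖coordDiff π π'‖ ^ 2)
    (φ : (Fin (n - 1) → ℂ_[p]) →ₗ[ℂ_[p]] ℂ_[p]) {f : E0 p n k}
    (hφ : ∀ π' : E0 p n k →+* unitBall ℂ_[p], (∀ w, π' (C w) = π (C w)) →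
      (∀ i, ‖(π' (X i : E0 p n k) : ℂ_[p])‖ < 1) → π' f = 0 →
      ‖φ (coordDiff π π')‖ ≤ ‖coordDiff π π'‖ ^ 2)
    {N : ℕ} (hf : ∀ g α, IsAut g (special p n k F) → IsMarkingChange p n k F g α →
      g - PowerSeries.X ∈ cI (⊥ : Ideal k) N → π (α f) = 0) (a : k) (t : ℕ) :
    (fun j => Qlim n (logCoeff π) ((κ a : Tilt p) * (x j : Tilt p) ^ p ^ t)) ∈
      Submodule.map A (LinearMap.ker φ) := by
  classical
  set E := cpTarget (tiltSource hk κ) ϖ h1 hp'
  set Γn := (tiltSource hk κ).fibre F with hΓn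
  have hΓ : Honda n Γn := honda_special hn k hF κ
  haveI : Γn.IsComm := hΓ.isComm
  have hS := isShape_of_isHazewinkel hn hF
  have hz : (κ a : Tilt p) ^ p ^ n = (κ a : Tilt p) := by
    rw [← SubmonoidClass.coe_pow]
    exact congrArg Subtype.val ((tiltSource hk κ).kT_pow a)
  let M : ℕ → ℕ := fun K => t + n * (K + 1)
  let g : ℕ → PowerSeries k := fun K =>
    adj (special p n k F) PowerSeries.X (PowerSeries.C a * PowerSeries.X ^ p ^ M K)
  have hgM : ∀ K, IsAut (g K) (special p n k F) ∧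
      g K - PowerSeries.X ∈ cI (⊥ : Ideal k) (p ^ M K) := fun K => by
    refine isAut_adj_X (hp.out.two_le.trans (Nat.le_self_pow ?_ p)) ?_
      (mem_cI_ps.mpr fun j hj => ?_)
    · show t + n * (K + 1) ≠ 0
      have : 1 ≤ n * (K + 1) := Nat.one_le_iff_ne_zero.mpr (Nat.mul_ne_zero (by omega) (by omega))
      omega
    · have h := (isHom_X_pow p (coeff_special_pow p n k hF) (M K)).comp
        (isHom_C_mul_X p n k hn hF hk a)
      have hs : PowerSeries.constantCoeff (PowerSeries.X ^ p ^ M K : PowerSeries k) = 0 := by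
        simp [hp.out.ne_zero]
      rwa [PowerSeries.subst_mul (PowerSeries.HasSubst.of_constantCoeff_zero' hs),
        PowerSeries.subst_C, PowerSeries.subst_X (PowerSeries.HasSubst.of_constantCoeff_zero' hs)]
        at h
    · rw [Ideal.mem_bot, PowerSeries.coeff_C_mul, PowerSeries.coeff_X_pow, if_neg hj.ne, mul_zero]
  choose α G hG hhom using fun K => (existsUnique_markingChange hS (hgM K).1).exists
  let π' : ℕ → E0 p n k →+* unitBall ℂ_[p] := fun K => π.comp (α K).toRingHom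
  have hπ' : ∀ K, E.IsPointOf (π' K) := fun K => isPointOf_comp hπ (algHom_res isBase_res (α K))
  have hC : ∀ K w, π' K (C w) = π (C w) := fun K w => congrArg π ((α K).commutes w)
  have hX0 : ∀ f', res p n k f' = 0 → ‖(π f' : ℂ_[p])‖ < 1 := fun f' hf' =>
    (mem_normIdeal.mp (hϖ f' hf')).trans_lt h1
  have hX' : ∀ K i, ‖(π' K (X i : E0 p n k) : ℂ_[p])‖ < 1 := fun K i =>
    hX0 _ ((algHom_res isBase_res (α K) _).trans (res_X p n k i))
  have hbig : ∀ N', ∀ᶠ K in atTop, N' ≤ p ^ M K := fun N' => by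
    filter_upwards [eventually_ge_atTop N'] with K hK
    have h2 : K ≤ M K := by
      have : K + 1 ≤ n * (K + 1) := Nat.le_mul_of_pos_left _ hn
      show K ≤ t + n * (K + 1)
      omega
    exact hK.trans (h2.trans (Nat.lt_pow_self hp.out.one_lt).le)
  have hδ : Tendsto (fun K => coordDiff π (π' K)) atTop (𝓝 0) := by
    rw [tendsto_zero_iff_norm_tendsto_zero, Metric.tendsto_nhds]
    intro ε hε
    obtain ⟨s, hs⟩ := exists_pow_lt_of_lt_one hε h1
    obtain ⟨N', hN'⟩ := markingChange_continuous hS s 0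
    filter_upwards [hbig N'] with K hK
    rw [dist_zero_right, norm_norm]
    refine lt_of_le_of_lt
      ((pi_norm_le_iff_of_nonneg (pow_nonneg (norm_nonneg _) s)).mpr fun i => ?_) hs
    have hm := map_mem_normIdeal_pow π hϖ
      ((hN' (g K) (α K) (G K) (cI_anti hK (hgM K).2) (hG K) (hhom K)).1 (X i))
    rw [normIdeal_pow (norm_pos_iff.1 ((norm_pos_iff.2 p_ne_zero_cp).trans_le hp')),
      mem_normIdeal, SubmonoidClass.coe_pow, norm_pow, map_sub] at hm
    simpa [coordDiff, π'] using hm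
  let u : ι → Pt Γn := fun j =>
    hΓ.fmul hz (Pt.powp t (Pt.mk' Γn (x j : Tilt p) (isTopologicallyNilpotent_ball.mp (hxn j))))
  have hlim : ∀ i, Tendsto (fun K => (π' K (X i : E0 p n k) : ℂ_[p])) atTop
      (𝓝 (π (X i : E0 p n k) : ℂ_[p])) := fun i => by
    have h := ((continuous_apply i).tendsto _).comp hδ
    simpa [coordDiff] using h.add_const (π (X i : E0 p n k) : ℂ_[p])
  have hw : Tendsto (fun K j => Qlim n (logCoeff (π' K)) (u j).co) atTop
      (𝓝 fun j => Qlim n (logCoeff π) (u j).co) :=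
    tendsto_pi_nhds.mpr fun j =>
      tendsto_Qlim_logCoeff hn (fun i => hX0 _ (res_X p n k i)) hC hlim (u j).norm_lt
  have hrel : ∀ K j, Qlim n (logCoeff (π' K)) (x j : Tilt p) =
      -((p : ℂ_[p]) ^ (K + 1) * Qlim n (logCoeff (π' K)) (u j).co) := fun K j => by
    set xp : Pt Γn := Pt.mk' Γn (x j : Tilt p) (isTopologicallyNilpotent_ball.mp (hxn j))
    have hth := E.theta_marking F hn hF' hπ (hπ' K) (α := (α K).toRingHom) rfl (hhom K) (hxn j)
    rw [hx0 j, fapp_zero_right (by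
      rw [← PowerSeries.coeff_zero_eq_constantCoeff_apply, PowerSeries.coeff_map,
        PowerSeries.coeff_zero_eq_constantCoeff_apply, (hhom K).1, map_zero]), hG K] at hth
    have hy : fapp ((g K).map κ) (x j) = (xp + p ^ (K + 1) • u j).1 := by
      rw [fapp_adj_monomial κ _ (pow_ne_zero _ hp.out.ne_zero) a (hxn j), Pt.add_def]
      refine congrArg (fadd Γn (x j)) (Subtype.ext ?_)
      show _ = (p ^ (K + 1) • u j).co
      rw [hΓ.nsmul_p_pow]
      simp only [u, Pt.co_powp, Honda.co_fmul, Pt.co_mk', Subring.coe_mul, SubmonoidClass.coe_pow]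
      rw [mul_pow, ← pow_mul, ← pow_add,
        show (κ a : Tilt p) ^ p ^ (n * (K + 1)) = κ a by
          clear_value xp
          induction K + 1 with
          | zero => simp
          | succ l ih => rw [Nat.mul_succ, pow_add, pow_mul, ih, hz]]
    have hkT : (tiltSource hk κ).kT = κ := rfl
    rw [hkT, hy] at hth
    have hL : Qlim n (logCoeff (π' K)) (xp + p ^ (K + 1) • u j).co = 0 := by
      rw [Pt.co, Qlim_logCoeff_eq_qev_theta hk hn hF hF' h1 hp' (hπ' K)
        (xp + p ^ (K + 1) • u j).2, hth, ZeroMemClass.coe_zero, qev_logCoeff_zero]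
    have hsum := map_add (logHom hk hn hF hF' (hπ' K)) xp (p ^ (K + 1) • u j)
    rw [map_nsmul, nsmul_eq_mul, Nat.cast_pow] at hsum
    exact eq_neg_of_add_eq_zero_left (hsum.symm.trans hL)
  refine mem_map_ker_of_tendsto A hker φ (δ := fun K => coordDiff π (π' K))
    (a := fun K => (p : ℂ_[p]) ^ (K + 1)) (C := max C₀ 1)
    (fun K => pow_ne_zero _ natCast_ne_zero_Cp) hδ hw ?_ ?_
  · filter_upwards [hδ.norm.eventually_le_const (norm_zero.trans_lt (Tilt.tau_pos p))] with K hK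
    have h := hA (π' K) (hπ' K) (hC K) (hX' K) hK
    rw [show (fun j => Qlim n (logCoeff (π' K)) (x j : Tilt p)) =
      -((p : ℂ_[p]) ^ (K + 1) • fun j => Qlim n (logCoeff (π' K)) (u j).co) from
        funext fun j => hrel K j, ← norm_neg, neg_sub, sub_neg_eq_add] at h
    exact h.trans (mul_le_mul_of_nonneg_right (le_max_left _ _) (sq_nonneg _))
  · filter_upwards [hbig N] with K hK
    exact (hφ (π' K) (hC K) (hX' K)
      (hf (g K) (α K) (hgM K).1 ⟨G K, hG K, hhom K⟩ (cI_anti hK (hgM K).2))).trans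
      (le_mul_of_one_le_left (sq_nonneg _) (le_max_right _ _))

/-- The periods of nearby points span the image of the linear chart. -/
theorem chart_mem_of_periods (hk : Nat.card k = p ^ n) (hn : 1 ≤ n) (hF : IsHazewinkel p n k F)
    (hF' : mulSeries (special p n k F) p = PowerSeries.X ^ p ^ n)
    (hπ : (cpTarget (tiltSource hk κ) ϖ h1 hp').IsPointOf π)
    (hX : ∀ i, ‖(π (X i : E0 p n k) : ℂ_[p])‖ < 1)
    {x : ι → unitBall (Tilt p)} (hxn : ∀ j, IsTopologicallyNilpotent (x j))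
    (A : (Fin (n - 1) → ℂ_[p]) →ₗ[ℂ_[p]] (ι → ℂ_[p])) {C₀ : ℝ}
    (hA : ∀ π', (cpTarget (tiltSource hk κ) ϖ h1 hp').IsPointOf π' → (∀ w, π' (C w) = π (C w)) →
      (∀ i, ‖(π' (X i : E0 p n k) : ℂ_[p])‖ < 1) → ‖coordDiff π π'‖ ≤ Tilt.tau p →
      ‖(fun j => Qlim n (logCoeff π') (x j : Tilt p)) - A (coordDiff π π')‖ ≤
        C₀ * ‖coordDiff π π'‖ ^ 2)
    (W : Submodule ℂ_[p] (ι → ℂ_[p]))
    (hW : ∀ c : ℕ, (fun j => Gper n c (x j : Tilt p)) ∈ W) (v : Fin (n - 1) → ℂ_[p]) :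
    A v ∈ W := by
  have hτ := Tilt.tau_pos p
  have hpn : ∀ m : ℕ, ‖(p : ℂ_[p]) ^ m • v‖ = Tilt.tau p ^ m * ‖v‖ := fun m => by
    rw [norm_smul, norm_pow]
    rfl
  have hev : ∀ᶠ m in atTop, ∃ u ∈ W,
      ‖u - (p : ℂ_[p]) ^ m • A v‖ ≤ C₀ * (Tilt.tau p ^ m * ‖v‖) ^ 2 := by
    filter_upwards [(tendsto_tau_mul (p := p) ‖v‖).eventually_le_const hτ] with m hm
    have hsm : ∀ i, ‖(p : ℂ_[p]) ^ m * v i‖ ≤ Tilt.tau p := fun i =>
      ((norm_le_pi_norm ((p : ℂ_[p]) ^ m • v) i).trans (hpn m).le).trans hm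
    have hlt : ∀ i, ‖(π (X i : E0 p n k) : ℂ_[p]) + (p : ℂ_[p]) ^ m * v i‖ < 1 := fun i =>
      (IsUltrametricDist.norm_add_le_max _ _).trans_lt
        (max_lt (hX i) ((hsm i).trans_lt (Tilt.tau_lt_one p)))
    let b : Fin (n - 1) → unitBall ℂ_[p] := fun i => ⟨_, (hlt i).le⟩
    have hb : HasEval b :=
      hasEval_of_finite fun i => isTopologicallyNilpotent_ball.mpr (hlt i)
    let π' : E0 p n k →+* unitBall ℂ_[p] := evHom (π.comp C) hb
    have hC : ∀ w, π' (C w) = π (C w) := fun w => by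
      simp only [π', evHom_apply, ev_C, RingHom.comp_apply]
    have hbX : ∀ i, π' (X i) = b i := fun i => by simp only [π', evHom_apply, ev_X]
    have hX' : ∀ i, ‖(π' (X i : E0 p n k) : ℂ_[p])‖ < 1 := fun i => by rw [hbX]; exact hlt i
    have hd : coordDiff π π' = (p : ℂ_[p]) ^ m • v := funext fun i => by
      simp [coordDiff, hbX, b]
    have hπ' := isPointOf_near hk hπ hC hX hX' fun i => by
      have := congrFun hd i
      simp only [coordDiff] at this
      rw [this]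
      exact hsm i
    refine ⟨_, Qlim_logCoeff_mem hk hn hF hF' hπ' hX'
      (fun j => isTopologicallyNilpotent_ball.mp (hxn j)) W hW, ?_⟩
    have h := hA π' hπ' hC hX' (by rw [hd, hpn]; exact hm)
    rwa [hd, map_smul, hpn] at h
  obtain ⟨u, hu⟩ : ∃ u : ℕ → ι → ℂ_[p], ∀ᶠ m in atTop,
      u m ∈ W ∧ ‖u m - (p : ℂ_[p]) ^ m • A v‖ ≤ C₀ * (Tilt.tau p ^ m * ‖v‖) ^ 2 := hev.choice
  have h0 : Tendsto (fun m => ((p : ℂ_[p]) ^ m)⁻¹ • (u m - (p : ℂ_[p]) ^ m • A v)) atTop (𝓝 0) :=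
    tendsto_inv_smul_of_sq_le (R := ‖v‖) (fun m => pow_ne_zero _ natCast_ne_zero_Cp)
      (fun m => by positivity) (tendsto_tau_mul ‖v‖)
      (Eventually.of_forall fun m => by rw [norm_pow, mul_comm]; rfl)
      (hu.mono fun m h => h.2)
  refine (Submodule.closed_of_finiteDimensional W).mem_of_tendsto
    (f := fun m => ((p : ℂ_[p]) ^ m)⁻¹ • u m) ?_ (hu.mono fun m h => W.smul_mem _ h.1)
  have h1' := h0.add_const (A v)
  rw [zero_add] at h1'
  refine h1'.congr fun m => ?_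
  rw [smul_sub, smul_smul, inv_mul_cancel₀ (pow_ne_zero _ natCast_ne_zero_Cp), one_smul,
    sub_add_cancel]

/-- If `f` vanishes at all moves of a point of `ℂ_[p]` by markings close to the identity, the
linear part of `f` at the point vanishes. -/
theorem mixed_deriv_eq_zero (hn : 1 ≤ n) (hk : Nat.card k = p ^ n) (hF : IsHazewinkel p n k F)
    (π : E0 p n k →+* unitBall ℂ_[p]) (hX : ∀ i, IsTopologicallyNilpotent (π (X i)))
    (hπ : ∀ f, res p n k f = 0 → ‖(π f : ℂ_[p])‖ < 1) (f : E0 p n k) (N : ℕ)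
    (hf : ∀ g α, IsAut g (special p n k F) → IsMarkingChange p n k F g α →
      g - PowerSeries.X ∈ cI (⊥ : Ideal k) N → π (α f) = 0) (i : Fin (n - 1)) :
    coeff (Finsupp.single i 1) (shiftPoint π id hX f) = 0 := by
  classical
  obtain ⟨ϖ, h0, h1, hp', hϖ⟩ := exists_radius π hπ (p : unitBall ℂ_[p])
    (by rw [SubringClass.coe_natCast]; exact p_ne_zero_cp)
    (by rw [SubringClass.coe_natCast]; exact norm_p_lt_one)
  rw [SubringClass.coe_natCast] at hp'
  set κ := kTilt (π.comp (MvPowerSeries.C : WittVector p k →+* E0 p n k))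
  set E := cpTarget (tiltSource hk κ) ϖ h1 hp'
  have hF' := mulSeries_special p n k hn hF
  have hpt : E.IsPointOf π := isPointOf_cp hk π ϖ h1 hp' hϖ
  haveI : (E.setup F hn hF' π hpt).G.IsComm := inferInstanceAs (F.map π).IsComm
  have hl : Level E F π 0 := by
    refine ⟨Nat.zero_le n, fun h => absurd rfl h, fun j hj => absurd (one_dvd j) hj, ?_,
      ⟨ϖ, h0, h1, (span_singleton_eq_normIdeal h0).symm⟩⟩
    rw [pow_zero, coeff_one_mulSeries p n k hF, map_natCast]
    intro h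
    exact p_ne_zero_cp (by simpa using congrArg Subtype.val h)
  obtain ⟨x, hx⟩ := E.exists_tateBasis hn hF' hpt hl (cpTarget_lifts hk κ ϖ h1 hp' F hn hF' hpt)
  let T : Fin (n - 0) → Fin (n - 1) → ℂ_[p] := fun j s =>
    ((coeff (Finsupp.single s 1) (((E.series (Fin (n - 1))).setup F hn hF' (shiftPoint π id hX)
      (E.isPointOf_series hpt constantCoeff_shiftPoint)).theta (x j)) : unitBall ℂ_[p]) : ℂ_[p])
  let A : (Fin (n - 1) → ℂ_[p]) →ₗ[ℂ_[p]] (Fin (n - 0) → ℂ_[p]) :=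
    LinearMap.pi fun j => Fintype.linearCombination ℂ_[p] (T j)
  let φ : (Fin (n - 1) → ℂ_[p]) →ₗ[ℂ_[p]] ℂ_[p] := Fintype.linearCombination ℂ_[p] fun s =>
    ((coeff (Finsupp.single s 1) (shiftPoint π id hX f) : unitBall ℂ_[p]) : ℂ_[p])
  have hAapp : ∀ v j, A v j = ∑ s, v s * T j s := fun v j => by
    simp [A, Fintype.linearCombination_apply]
  have hker : LinearMap.ker A = ⊥ := LinearMap.ker_eq_bot'.mpr fun v hv => by
    by_contra hv0
    obtain ⟨j, hj⟩ := exists_linear_theta_ne_zero (ι := id) (hX := hX) hn hF hF' hpt hl hx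
      Function.injective_id (fun s => Nat.zero_le _) (fun j hj => absurd hj (Nat.not_lt_zero _)) hv0
    exact hj ((hAapp v j).symm.trans (congrFun hv j))
  obtain ⟨C₀, hC₀⟩ := exists_norm_Qlim_sub_lin_le hk hn hF hF' hpt hX
  have hA : ∀ π', E.IsPointOf π' → (∀ w, π' (C w) = π (C w)) →
      (∀ i, ‖(π' (X i : E0 p n k) : ℂ_[p])‖ < 1) → ‖coordDiff π π'‖ ≤ Tilt.tau p →
      ‖(fun j => Qlim n (logCoeff π') (x j : Tilt p)) - A (coordDiff π π')‖ ≤
        max C₀ 0 * ‖coordDiff π π'‖ ^ 2 := fun π' h₁ h₂ h₃ h₄ =>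
    (pi_norm_le_iff_of_nonneg (by positivity)).mpr fun j => by
      rw [Pi.sub_apply, hAapp]
      exact (hC₀ π' h₁ h₂ h₃ h₄ (x j) (hx.nilp j) (hx.theta_eq_zero j)).trans
        (mul_le_mul_of_nonneg_right (le_max_left _ _) (sq_nonneg _))
  have hf0 : π f = 0 := by
    simpa using hf PowerSeries.X (AlgHom.id _ _) (IsAut.refl _) (isMarkingChange_id F)
      (by rw [sub_self]; exact zero_mem _)
  have hφ : ∀ π' : E0 p n k →+* unitBall ℂ_[p], (∀ w, π' (C w) = π (C w)) →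
      (∀ i, ‖(π' (X i : E0 p n k) : ℂ_[p])‖ < 1) → π' f = 0 →
      ‖φ (coordDiff π π')‖ ≤ ‖coordDiff π π'‖ ^ 2 := fun π' h₁ h₂ h₃ => by
    simp only [φ, Fintype.linearCombination_apply, smul_eq_mul, coordDiff]
    exact norm_sub_lin_le hX h₁ h₂ hf0 h₃
  set W := Submodule.map A (LinearMap.ker φ)
  have hx1 : ∀ j, ‖(x j : Tilt p)‖ < 1 := fun j => isTopologicallyNilpotent_ball.mp (hx.nilp j)
  obtain ⟨H, hH⟩ := exists_eq_sum_Gper (Γ := (tiltSource hk κ).fibre F) hn
    (qdata_logCoeff hn fun i => hπ _ (res_X p n k i)) (Qlim_logCoeff_add hk hn hF hF' h1 hp' hpt)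
    (honda_special hn k hF κ).Gper_add
  have hH0 : H ≠ 0 := by
    intro h
    obtain ⟨y, hy, hne⟩ := exists_Qlim_logCoeff_ne_zero hk hn hF hF' h1 hp' hpt
    exact hne (by rw [hH y hy, h]; simp)
  have hG : ∀ d : ℕ, (fun j => Gper n d (x j : Tilt p)) ∈ W := by
    refine Gper_mem_of_forall hn hx1 W hH0 fun z hz t => ?_
    obtain ⟨a, ha⟩ := exists_eq_of_fixed hn hk ((unitBall (Tilt p)).subtype.comp κ) hz
    have h := periods_mem_of_moves hk hn hF hF' hpt hϖ hx.nilp hx.theta_eq_zero A hker hA φ hφ hf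
      a t
    convert h using 1
    funext j
    rw [show (κ a : Tilt p) = z from ha, ← hH]
    rw [norm_mul]
    exact (mul_le_of_le_one_left (norm_nonneg _) (norm_le_one_of_fixed hn hz)).trans_lt
      (norm_pow_lt_one_tilt (hx1 j) t)
  obtain ⟨v, hv, hAv⟩ := chart_mem_of_periods hk hn hF hF' hpt (fun i => hπ _ (res_X p n k i))
    hx.nilp A hA W hG (Pi.single i 1)
  have hvi : v = Pi.single i 1 := LinearMap.ker_eq_bot.mp hker hAv
  subst hvi
  have h : φ (Pi.single i 1) = 0 := hv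
  exact Subtype.ext (by simpa [φ, Fintype.linearCombination_apply_single] using h)

end Vale.Agent.P217
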