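import Mathlib.Analysis.Normed.Group.Ultra
import Mathlib.Analysis.SpecificLimits.Normed
import Mathlib.Analysis.Normed.Field.Ultra
import Mathlib.Topology.Algebra.InfiniteSum.Nonarchimedean
import Mathlib.RingTheory.RootsOfUnity.AlgebraicallyClosed
import Mathlib.Data.Nat.Choose.Lucas
import Mathlib.LinearAlgebra.Vandermonde

/-!
# Series on the open unit ball of an ultrametric field

`qev q z` is the value of the series with coefficients `q` at `z`.  The main facts are: the
coefficient bound of a polynomial from its values at roots of unity, and `dominant_isPow`: a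
series which is additive to leading order has only powers of `p` as dominant exponents.
-/

noncomputable section

namespace Vale.Agent.P217

set_option linter.unusedSectionVars false

open Filter Topology Finset

variable {L : Type*} [NormedField L] [IsUltrametricDist L]

/-- The value at `z` of the series with coefficients `q`. -/
def qev (q : ℕ → L) (z : L) : L := ∑' d, q d * z ^ d

/-- At most linear growth of the coefficients. -/
def LinGrowth (q : ℕ → L) : Prop := ∃ K : ℝ, ∀ d, ‖q d‖ ≤ K * d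

theorem LinGrowth.zero {q : ℕ → L} (h : LinGrowth q) : q 0 = 0 := by
  obtain ⟨K, hK⟩ := h
  simpa using hK 0

theorem LinGrowth.tendsto {q : ℕ → L} (h : LinGrowth q) {z : L} (hz : ‖z‖ < 1) :
    Tendsto (fun d => q d * z ^ d) atTop (𝓝 0) := by
  obtain ⟨K, hK⟩ := h
  refine squeeze_zero_norm (fun d => ?_)
    (by simpa using (tendsto_self_mul_const_pow_of_lt_one (norm_nonneg z) hz).const_mul K)
  rw [norm_mul, norm_pow, ← mul_assoc]
  exact mul_le_mul_of_nonneg_right (hK d) (by positivity)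

theorem norm_lt_bound {ι : Type*} (s : Finset ι) (f : ι → L) {M : ℝ} (hM : 0 < M)
    (h : ∀ i ∈ s, ‖f i‖ < M) : ‖∑ i ∈ s, f i‖ < M := by
  classical
  induction s using Finset.induction_on with
  | empty => simpa using hM
  | @insert a s ha ih =>
    rw [Finset.sum_insert ha]
    exact (IsUltrametricDist.norm_add_le_max _ _).trans_lt
      (max_lt (h a (mem_insert_self a s)) (ih fun i hi => h i (mem_insert_of_mem hi)))

/-- A null sequence with all norms below `M` is uniformly below `M`. -/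
theorem exists_bound_lt {f : ℕ → L} (hf : Tendsto f atTop (𝓝 0)) {M : ℝ} (hM : 0 < M)
    (h : ∀ d, ‖f d‖ < M) : ∃ M', 0 ≤ M' ∧ M' < M ∧ ∀ d, ‖f d‖ ≤ M' := by
  obtain ⟨D, hD⟩ := eventually_atTop.mp
    ((tendsto_zero_iff_norm_tendsto_zero.mp hf).eventually_le_const (half_pos hM))
  obtain ⟨d₀, -, hd₀⟩ := (range (D + 1)).exists_max_image (fun d => ‖f d‖) ⟨0, by simp⟩
  refine ⟨max (M / 2) ‖f d₀‖, le_max_of_le_left (half_pos hM).le,
    max_lt (half_lt_self hM) (h d₀), fun d => ?_⟩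
  rcases lt_or_ge d D with hd | hd
  · exact le_max_of_le_right (hd₀ d (mem_range.mpr (by omega)))
  · exact le_max_of_le_left (hD d hd)

theorem norm_le_of_hasSum {ι : Type*} {f : ι → L} {a : L} (h : HasSum f a) {M : ℝ} (hM : 0 ≤ M)
    (hf : ∀ i, ‖f i‖ ≤ M) : ‖a‖ ≤ M :=
  le_of_tendsto' h.norm fun _ => IsUltrametricDist.norm_sum_le_of_forall_le_of_nonneg hM
    fun i _ => hf i

section Complete

variable [CompleteSpace L]

theorem summable_of_tendsto {f : ℕ → L} (hf : Tendsto f atTop (𝓝 0)) : Summable f :=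
  NonarchimedeanAddGroup.summable_of_tendsto_cofinite_zero (by rwa [Nat.cofinite_eq_atTop])

theorem LinGrowth.hasSum {q : ℕ → L} (h : LinGrowth q) {z : L} (hz : ‖z‖ < 1) :
    HasSum (fun d => q d * z ^ d) (qev q z) :=
  (summable_of_tendsto (h.tendsto hz)).hasSum

end Complete

section Roots

variable {N : ℕ} {ζ : L}

theorem sum_pow_pow_root (hζ : IsPrimitiveRoot ζ N) (e : ℕ) :
    ∑ t ∈ range N, (ζ ^ e) ^ t = if N ∣ e then (N : L) else 0 := by
  split_ifs with h
  · simp [(hζ.pow_eq_one_iff_dvd e).mpr h]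
  · have h1 : ζ ^ e ≠ 1 := fun h' => h ((hζ.pow_eq_one_iff_dvd e).mp h')
    have h2 := geom_sum_mul (ζ ^ e) N
    rw [← pow_mul, mul_comm e, pow_mul, hζ.pow_eq_one, one_pow, sub_self, mul_eq_zero] at h2
    exact h2.resolve_right (sub_ne_zero.mpr h1)

/-- Coefficients are bounded by the values at roots of unity. -/
theorem norm_coeff_lt_of_roots (hζ : IsPrimitiveRoot ζ N) (hN : ‖(N : L)‖ = 1) (c : ℕ → L)
    {M : ℝ} (hM : 0 < M) (h : ∀ t < N, ‖∑ i ∈ range N, c i * (ζ ^ t) ^ i‖ < M) {i : ℕ}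
    (hi : i < N) : ‖c i‖ < M := by
  have hN0 : N ≠ 0 := by rintro rfl; omega
  have hnorm : ‖ζ‖ = 1 := by
    have := congrArg norm hζ.pow_eq_one
    rw [norm_pow, norm_one] at this
    exact (pow_eq_one_iff_of_nonneg (norm_nonneg _) hN0).mp this
  have e1 : ∑ t ∈ range N, (ζ ^ (N - i)) ^ t * ∑ j ∈ range N, c j * (ζ ^ t) ^ j =
      (N : L) * c i := by
    simp only [Finset.mul_sum]
    rw [Finset.sum_comm]
    have : ∀ j ∈ range N, ∑ t ∈ range N, (ζ ^ (N - i)) ^ t * (c j * (ζ ^ t) ^ j) =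
        if j = i then (N : L) * c j else 0 := by
      intro j hj
      have : ∑ t ∈ range N, (ζ ^ (N - i)) ^ t * (c j * (ζ ^ t) ^ j) =
          c j * ∑ t ∈ range N, (ζ ^ (N - i + j)) ^ t := by
        rw [Finset.mul_sum]
        exact Finset.sum_congr rfl fun t _ => by ring
      rw [this, sum_pow_pow_root hζ]
      rw [mem_range] at hj
      have hiff : N ∣ N - i + j ↔ j = i := by
        constructor
        · rintro ⟨a, ha⟩
          have ha0 : 0 < N * a := by omega
          have ha1 : a = 1 := by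
            rcases a with _ | _ | a
            · simp at ha0
            · rfl
            · have : N * 2 ≤ N * (a + 1 + 1) := Nat.mul_le_mul_left N (by omega)
              omega
          subst ha1
          omega
        · rintro rfl
          exact ⟨1, by omega⟩
      by_cases h' : j = i
      · rw [if_pos (hiff.mpr h'), if_pos h']; ring
      · rw [if_neg (mt hiff.mp h'), if_neg h', mul_zero]
    rw [Finset.sum_congr rfl this, Finset.sum_ite_eq' (range N) i, if_pos (mem_range.mpr hi)]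
  have e2 : ‖(N : L) * c i‖ < M := by
    rw [← e1]
    refine norm_lt_bound _ _ hM fun t ht => ?_
    rw [norm_mul, norm_pow, norm_pow, hnorm, one_pow, one_pow, one_mul]
    exact h t (mem_range.mp ht)
  rwa [norm_mul, hN, one_mul] at e2

variable {p : ℕ}

theorem exists_primitiveRoot_gt [IsAlgClosed L] (hp : p.Prime) (hpL : ‖(p : L)‖ < 1) (D : ℕ) :
    ∃ N, ∃ ζ : L, D < N ∧ ‖(N : L)‖ = 1 ∧ IsPrimitiveRoot ζ N := by
  have hK : D + 1 < p ^ (D + 1) := Nat.lt_pow_self hp.one_lt
  refine ⟨p ^ (D + 1) - 1, ?_⟩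
  have h1 : ‖((p ^ (D + 1) - 1 : ℕ) : L)‖ = 1 := by
    rw [Nat.cast_sub (by omega), Nat.cast_pow, Nat.cast_one, sub_eq_add_neg]
    have h : ‖(p : L) ^ (D + 1)‖ < 1 := by
      rw [norm_pow]; exact pow_lt_one₀ (norm_nonneg _) hpL (by omega)
    rw [IsUltrametricDist.norm_add_eq_max_of_norm_ne_norm (by rw [norm_neg, norm_one]; exact h.ne),
      norm_neg, norm_one, max_eq_right h.le]
  have : NeZero ((p ^ (D + 1) - 1 : ℕ) : L) := ⟨norm_ne_zero_iff.mp (by rw [h1]; exact one_ne_zero)⟩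
  obtain ⟨ζ, hζ⟩ := HasEnoughRootsOfUnity.exists_primitiveRoot L (p ^ (D + 1) - 1)
  exact ⟨ζ, by omega, h1, hζ⟩

theorem norm_natCast_of_not_dvd (hp : p.Prime) (hpL : ‖(p : L)‖ < 1) {u : ℕ} (hu : ¬ p ∣ u) :
    ‖(u : L)‖ = 1 := by
  refine le_antisymm (IsUltrametricDist.norm_natCast_le_one L u) (le_of_not_gt fun hlt => ?_)
  have hco : Nat.gcd u p = 1 := (hp.coprime_iff_not_dvd.mpr hu).symm
  have h := congrArg (fun x : ℤ => (x : L)) (Nat.gcd_eq_gcd_ab u p)
  simp only [hco, Nat.cast_one, Int.cast_one, Int.cast_add, Int.cast_mul, Int.cast_natCast] at h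
  have h' := IsUltrametricDist.norm_add_le_max ((u : L) * (Nat.gcdA u p : L))
    ((p : L) * (Nat.gcdB u p : L))
  rw [← h, norm_one, norm_mul, norm_mul] at h'
  refine absurd h' (not_le.mpr (max_lt ?_ ?_))
  · exact (mul_le_of_le_one_right (norm_nonneg _)
      (IsUltrametricDist.norm_intCast_le_one L _)).trans_lt hlt
  · exact (mul_le_of_le_one_right (norm_nonneg _)
      (IsUltrametricDist.norm_intCast_le_one L _)).trans_lt hpL

/-- A natural number which is no power of `p` has a middle binomial coefficient of norm one. -/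
theorem exists_choose_norm_one (hp : p.Prime) (hpL : ‖(p : L)‖ < 1) {d : ℕ} (hd : 0 < d)
    (hnot : ∀ e, d ≠ p ^ e) : ∃ i, 0 < i ∧ i < d ∧ ‖(d.choose i : L)‖ = 1 := by
  have : Fact p.Prime := ⟨hp⟩
  obtain ⟨e, u, hu, rfl⟩ := Nat.exists_eq_pow_mul_and_not_dvd hd.ne' p hp.ne_one
  have hu2 : 2 ≤ u := by
    rcases u with _ | _ | u
    · simp at hd
    · exact absurd (mul_one _) (hnot e)
    · omega
  refine ⟨p ^ e, pow_pos hp.pos e, ?_, norm_natCast_of_not_dvd hp hpL fun h => hu ?_⟩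
  · exact lt_mul_of_one_lt_right (pow_pos hp.pos e) (by omega)
  · have h' : (p ^ e * u).choose (p ^ e * 1) ≡ u.choose 1 [MOD p] :=
      Choose.choose_pow_mul_pow_mul_modEq_choose_nat
    rw [mul_one, Nat.choose_one_right] at h'
    exact (h'.dvd_iff dvd_rfl).mp h

theorem add_pow_sub_eq (x y : L) {d N : ℕ} (h0 : 0 < d) (hd : d < N) :
    (x + y) ^ d - x ^ d - y ^ d =
      ∑ i ∈ range N, (if i = 0 ∨ d ≤ i then 0 else (d.choose i : L) * y ^ (d - i)) * x ^ i := by
  rw [← Finset.sum_subset (range_mono (Nat.succ_le_of_lt hd)) fun i hi hi' => by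
    rw [mem_range, Nat.lt_succ_iff, not_le] at hi'
    rw [if_pos (Or.inr hi'.le), zero_mul]]
  rw [Finset.sum_range_succ, if_pos (Or.inr le_rfl), zero_mul, add_zero, add_pow,
    Finset.sum_range_succ, Nat.sub_self, pow_zero, mul_one, Nat.choose_self, Nat.cast_one, mul_one,
    Finset.range_eq_Ico, Finset.sum_eq_sum_Ico_succ_bot h0, Finset.sum_eq_sum_Ico_succ_bot h0]
  simp only [pow_zero, Nat.sub_zero, Nat.choose_zero_right, Nat.cast_one, mul_one, one_mul,
    true_or, if_true, zero_add]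
  rw [add_sub_cancel_right, add_sub_cancel_left]
  refine Finset.sum_congr rfl fun i hi => ?_
  rw [Finset.mem_Ico] at hi
  rw [if_neg (by omega)]
  ring

theorem norm_pow_sub_pow_le_of_le_one {x y : L} (hx : ‖x‖ ≤ 1) (hy : ‖y‖ ≤ 1) (i : ℕ) :
    ‖x ^ i - y ^ i‖ ≤ ‖x - y‖ := by
  rw [← geom_sum₂_mul, norm_mul]
  refine mul_le_of_le_one_left (norm_nonneg _)
    (IsUltrametricDist.norm_sum_le_of_forall_le_of_nonneg zero_le_one fun j _ => ?_)
  rw [norm_mul, norm_pow, norm_pow]
  exact mul_le_one₀ (pow_le_one₀ (norm_nonneg _) hx) (pow_nonneg (norm_nonneg _) _)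
    (pow_le_one₀ (norm_nonneg _) hy)

/-- A series which is additive below the size `M` of its largest terms on the disc of radius
`‖w‖` has only powers of `p` as exponents of largest terms. -/
theorem dominant_isPow [CompleteSpace L] [IsAlgClosed L] (hp : p.Prime) (hpL : ‖(p : L)‖ < 1)
    {q : ℕ → L} (hq : LinGrowth q) {w : L} (hw : ‖w‖ < 1) {M : ℝ} (hM : 0 < M)
    (hmax : ∀ d, ‖q d * w ^ d‖ ≤ M)
    (hadd : ∀ ζ η : L, ‖ζ‖ ≤ 1 → ‖η‖ ≤ 1 → ∃ z, ‖z‖ ≤ 1 ∧ ‖z - (ζ + η)‖ < 1 ∧
      ‖qev q (w * z) - qev q (w * ζ) - qev q (w * η)‖ < M)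
    {d₀ : ℕ} (hd₀ : ‖q d₀ * w ^ d₀‖ = M) : ∃ e, d₀ = p ^ e := by
  classical
  set c : ℕ → L := fun d => q d * w ^ d
  have htend : Tendsto c atTop (𝓝 0) := hq.tendsto hw
  obtain ⟨D, hD⟩ := eventually_atTop.mp
    ((tendsto_zero_iff_norm_tendsto_zero.mp htend).eventually_lt_const hM)
  set T := (range D).filter fun d => ‖c d‖ = M with hT
  have hmem : ∀ d, ‖c d‖ = M → d ∈ T := fun d hd => by
    rw [hT, mem_filter, mem_range]
    exact ⟨lt_of_not_ge fun h => (hD d h).ne hd, hd⟩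
  set r : ℕ → L := fun d => if d ∈ T then 0 else c d
  have hr : ∀ d, ‖r d‖ < M := fun d => by
    simp only [r]
    split_ifs with h
    · simpa using hM
    · exact lt_of_le_of_ne (hmax d) fun h' => h (hmem d h')
  have hrt : Tendsto r atTop (𝓝 0) := squeeze_zero_norm (fun d => by
    simp only [r]; split_ifs <;> simp) (tendsto_zero_iff_norm_tendsto_zero.mp htend)
  obtain ⟨M', hM'0, hM'M, hM'⟩ := exists_bound_lt hrt hM hr
  have happ : ∀ x : L, ‖x‖ ≤ 1 → ‖qev q (w * x) - ∑ d ∈ T, c d * x ^ d‖ < M := fun x hx => by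
    have hwx : ‖w * x‖ < 1 := by
      rw [norm_mul]; exact (mul_le_of_le_one_right (norm_nonneg _) hx).trans_lt hw
    have h1 : HasSum (fun d => if d ∈ T then c d * x ^ d else 0) (∑ d ∈ T, c d * x ^ d) := by
      rw [show ∑ d ∈ T, c d * x ^ d = ∑ d ∈ T, if d ∈ T then c d * x ^ d else 0 from
        sum_congr rfl fun d hd => (if_pos hd).symm]
      exact hasSum_sum_of_ne_finset_zero fun d hd => if_neg hd
    refine (norm_le_of_hasSum ((hq.hasSum hwx).sub h1) hM'0 fun d => ?_).trans_lt hM'M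
    refine le_trans (le_of_eq_of_le ?_ (le_refl (‖r d‖ * ‖x‖ ^ d))) ?_
    · rw [← norm_pow, ← norm_mul]
      simp only [r]
      split_ifs <;> simp [c] <;> ring_nf
    · exact (mul_le_of_le_one_right (norm_nonneg _) (pow_le_one₀ (norm_nonneg _) hx)).trans (hM' d)
  have hTnorm : ∀ d ∈ T, ‖c d‖ = M := fun d hd => (mem_filter.mp hd).2
  have hT0 : ∀ d ∈ T, 0 < d := fun d hd => Nat.pos_of_ne_zero fun h => by
    have := hTnorm d hd
    simp [c, h, hq.zero] at this
    linarith
  have hh : ∀ ζ η : L, ‖ζ‖ ≤ 1 → ‖η‖ ≤ 1 →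
      ‖∑ d ∈ T, c d * ((ζ + η) ^ d - ζ ^ d - η ^ d)‖ < M := by
    intro ζ η hζ hη
    obtain ⟨z, hz, hzs, hq'⟩ := hadd ζ η hζ hη
    have hs : ‖ζ + η‖ ≤ 1 := (IsUltrametricDist.norm_add_le_max _ _).trans (max_le hζ hη)
    have h1 : ‖∑ d ∈ T, c d * ((ζ + η) ^ d - z ^ d)‖ < M := norm_lt_bound _ _ hM fun d hd => by
      rw [norm_mul, hTnorm d hd]
      refine mul_lt_of_lt_one_right hM ((norm_pow_sub_pow_le_of_le_one hs hz d).trans_lt ?_)
      rwa [norm_sub_rev]
    have e : ∑ d ∈ T, c d * ((ζ + η) ^ d - ζ ^ d - η ^ d) =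
        ∑ d ∈ T, c d * ((ζ + η) ^ d - z ^ d) +
        ((qev q (w * ζ) - ∑ d ∈ T, c d * ζ ^ d) + (qev q (w * η) - ∑ d ∈ T, c d * η ^ d) +
          (-(qev q (w * z) - ∑ d ∈ T, c d * z ^ d)) +
          (qev q (w * z) - qev q (w * ζ) - qev q (w * η))) := by
      simp only [mul_sub, sum_sub_distrib]
      ring
    rw [e]
    refine (IsUltrametricDist.norm_add_le_max _ _).trans_lt (max_lt h1 ?_)
    refine (IsUltrametricDist.norm_add_le_max _ _).trans_lt (max_lt ?_ hq')
    refine (IsUltrametricDist.norm_add_le_max _ _).trans_lt (max_lt ?_ ?_)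
    · exact (IsUltrametricDist.norm_add_le_max _ _).trans_lt (max_lt (happ ζ hζ) (happ η hη))
    · rw [norm_neg]; exact happ z hz
  by_contra hne
  push Not at hne
  have hd₀T := hmem d₀ hd₀
  obtain ⟨i, hi0, hid, hi1⟩ := exists_choose_norm_one hp hpL (hT0 _ hd₀T) hne
  obtain ⟨N, ξ, hDN, hN1, hξ⟩ := exists_primitiveRoot_gt hp hpL D (L := L)
  have hN0 : N ≠ 0 := by omega
  have hξ1 : ∀ t : ℕ, ‖ξ ^ t‖ ≤ 1 := fun t => by
    have := congrArg norm hξ.pow_eq_one
    rw [norm_pow, norm_one] at this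
    rw [norm_pow, (pow_eq_one_iff_of_nonneg (norm_nonneg _) hN0).mp this, one_pow]
  have hTD : ∀ d ∈ T, d < N := fun d hd => (mem_range.mp (mem_filter.mp hd).1).trans hDN
  have hA : ∀ η : L, ‖η‖ ≤ 1 →
      ‖∑ d ∈ T, c d * (if i = 0 ∨ d ≤ i then 0 else (d.choose i : L) * η ^ (d - i))‖ < M := by
    intro η hη
    refine norm_coeff_lt_of_roots hξ hN1
      (fun i => ∑ d ∈ T, c d * (if i = 0 ∨ d ≤ i then 0 else (d.choose i : L) * η ^ (d - i)))
      hM (fun t _ => ?_) (hid.trans (hTD _ hd₀T))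
    convert hh (ξ ^ t) η (hξ1 t) hη using 2
    simp only [Finset.sum_mul]
    rw [Finset.sum_comm]
    refine Finset.sum_congr rfl fun d hd => ?_
    rw [add_pow_sub_eq _ _ (hT0 d hd) (hTD d hd), Finset.mul_sum]
    exact Finset.sum_congr rfl fun j _ => by ring
  have hB := norm_coeff_lt_of_roots hξ hN1
    (fun j => ∑ d ∈ T, if i < d ∧ d - i = j then c d * (d.choose i : L) else 0) hM
    (fun t _ => ?_) (show d₀ - i < N by have := hTD _ hd₀T; omega)
  · rw [Finset.sum_eq_single_of_mem d₀ hd₀T fun d _ hd => if_neg fun h => hd (by omega),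
      if_pos ⟨hid, rfl⟩, norm_mul, hi1, mul_one, hTnorm _ hd₀T] at hB
    exact lt_irrefl M hB
  · convert hA (ξ ^ t) (hξ1 t) using 2
    simp only [Finset.sum_mul]
    rw [Finset.sum_comm]
    refine Finset.sum_congr rfl fun d hd => ?_
    by_cases h : d ≤ i
    · rw [if_pos (Or.inr h), mul_zero]
      exact Finset.sum_eq_zero fun j _ => by rw [if_neg (by omega), zero_mul]
    · rw [if_neg (by omega), Finset.sum_eq_single_of_mem (d - i)
        (mem_range.mpr (by have := hTD d hd; omega)) fun j _ hj => by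
          rw [if_neg (by omega), zero_mul], if_pos ⟨by omega, rfl⟩]
      ring

end Roots

end Vale.Agent.P217
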