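import Vale.Agent.P217.PSum
import Vale.Agent.P217.TiltMaps
import Vale.Agent.P217.TwistPt

/-!
# The periods `Gper` and the structure of additive limits `lim p^J q(y_J)`

`y_J` is component `n J` of a tilt element `y`.  If `q` grows linearly and `p q(z) - q(z^(p^n))`
is bounded on the open disc, `Qlim n q y = lim p^J q(y_J)` exists; if it is additive for a formal
group law on the tilt it is a combination of `Gper n c`, `c < n`, the limits attached to
`Σ_i p^(-i) X^(p^(c+n i))`.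
-/

noncomputable section

namespace Vale.Agent.P217

set_option linter.unusedSectionVars false

open Filter Topology Finset

variable {p : ℕ} [hp : Fact p.Prime]

theorem natCast_ne_zero_Cp : (p : ℂ_[p]) ≠ 0 := Nat.cast_ne_zero.mpr hp.1.ne_zero

theorem norm_p_lt_one : ‖(p : ℂ_[p])‖ < 1 := Tilt.tau_lt_one p

theorem norm_coeff_lt_one {y : Tilt p} (hy : ‖y‖ < 1) (m : ℕ) : ‖y.coeff m‖ < 1 := by
  by_contra h
  rw [not_lt] at h
  have := one_le_pow₀ h (n := p ^ m)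
  rw [Tilt.norm_coeff_pow] at this
  exact absurd this hy.not_ge

theorem coeff_root_pow (y : Tilt p) (n J : ℕ) :
    y.coeff (n * (J + 1)) ^ p ^ n = y.coeff (n * J) := by
  rw [Nat.mul_succ, Tilt.coeff_pow_pow]

/-- A bounded function of a series bounds each of its terms. -/
theorem norm_term_le {q : ℕ → ℂ_[p]} (hq : LinGrowth q) {B : ℝ}
    (hB : ∀ z : ℂ_[p], ‖z‖ < 1 → ‖qev q z‖ ≤ B) {w : ℂ_[p]} (hw : ‖w‖ < 1) (d : ℕ) :
    ‖q d * w ^ d‖ ≤ B := by
  have hB0 : 0 ≤ B := (norm_nonneg _).trans (hB 0 (by simp))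
  refine le_of_forall_gt_imp_ge_of_dense fun M hM => ?_
  have hM0 : 0 < M := hB0.trans_lt hM
  obtain ⟨D, hD⟩ := eventually_atTop.mp
    ((tendsto_zero_iff_norm_tendsto_zero.mp (hq.tendsto hw)).eventually_le_const
      (half_pos hM0))
  obtain ⟨N, ξ, hDN, hN1, hξ⟩ :=
    exists_primitiveRoot_gt (L := ℂ_[p]) hp.1 norm_p_lt_one (max D d)
  have hξ1 : ∀ t : ℕ, ‖ξ ^ t‖ = 1 := fun t => by
    have := congrArg norm hξ.pow_eq_one
    rw [norm_pow, norm_one] at this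
    rw [norm_pow, (pow_eq_one_iff_of_nonneg (norm_nonneg _) (by omega)).mp this, one_pow]
  refine (norm_coeff_lt_of_roots hξ hN1 (fun j => q j * w ^ j) hM0 (fun t _ => ?_)
    (show d < N by omega)).le
  have hz : ‖w * ξ ^ t‖ < 1 := by rw [norm_mul, hξ1, mul_one]; exact hw
  have h1 : HasSum (fun j => if j ∈ range N then q j * (w * ξ ^ t) ^ j else 0)
      (∑ i ∈ range N, q i * w ^ i * (ξ ^ t) ^ i) := by
    rw [show ∑ i ∈ range N, q i * w ^ i * (ξ ^ t) ^ i =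
        ∑ j ∈ range N, if j ∈ range N then q j * (w * ξ ^ t) ^ j else 0 from
      sum_congr rfl fun j hj => by rw [if_pos hj, mul_pow]; ring]
    exact hasSum_sum_of_ne_finset_zero fun j hj => if_neg hj
  have h2 : ‖qev q (w * ξ ^ t) - ∑ i ∈ range N, q i * w ^ i * (ξ ^ t) ^ i‖ ≤ M / 2 := by
    refine norm_le_of_hasSum ((hq.hasSum hz).sub h1) (half_pos hM0).le fun j => ?_
    split_ifs with hj
    · simpa using (half_pos hM0).le
    · rw [sub_zero, mul_pow, ← mul_assoc, norm_mul, norm_pow (ξ ^ t), hξ1, one_pow, mul_one]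
      exact hD j (by rw [mem_range] at hj; omega)
  rw [← sub_sub_cancel (qev q (w * ξ ^ t)) (∑ i ∈ range N, q i * w ^ i * (ξ ^ t) ^ i)]
  exact (Tilt.norm_sub_le_max _ _).trans_lt
    (max_lt ((hB _ hz).trans_lt hM) (h2.trans_lt (half_lt_self hM0)))

theorem norm_coeff_le_of_bounded {q : ℕ → ℂ_[p]} (hq : LinGrowth q) {B : ℝ}
    (hB : ∀ z : ℂ_[p], ‖z‖ < 1 → ‖qev q z‖ ≤ B) (d : ℕ) : ‖q d‖ ≤ B := by
  obtain ⟨x, hx⟩ := Tilt.exists_coeff (p : ℂ_[p]) 0
  have hx1 : ‖x‖ < 1 := by rw [Tilt.norm_def, hx]; exact norm_p_lt_one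
  have hlim : Tendsto (fun m => ‖x.coeff m‖) atTop (𝓝 1) := by
    have h : ∀ m, ‖x.coeff m‖ = ‖x‖ ^ (((p : ℝ)⁻¹) ^ m) := fun m => by
      rw [← Tilt.norm_coeff_pow x m, ← Real.rpow_natCast, ← Real.rpow_mul (norm_nonneg _),
        Nat.cast_pow, ← mul_pow, mul_inv_cancel₀ (by exact_mod_cast hp.1.ne_zero), one_pow,
        Real.rpow_one]
    have hx0 : 0 < ‖x‖ := by rw [Tilt.norm_def, hx]; exact Tilt.tau_pos p
    have h0 := ((Real.continuous_const_rpow hx0.ne').tendsto 0).comp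
      (tendsto_pow_atTop_nhds_zero_of_lt_one (inv_nonneg.mpr (Nat.cast_nonneg p))
        (inv_lt_one_of_one_lt₀ (Nat.one_lt_cast.mpr hp.1.one_lt)))
    rw [Real.rpow_zero] at h0
    exact h0.congr fun m => (h m).symm
  have h := (hlim.pow d).const_mul ‖q d‖
  rw [one_pow, mul_one] at h
  refine le_of_tendsto' h fun m => ?_
  rw [← norm_pow, ← norm_mul]
  exact norm_term_le hq hB (norm_coeff_lt_one hx1 m) d

/-- The series `p q(z) - q(z^(p^n))`. -/
def defect (n : ℕ) (q : ℕ → ℂ_[p]) (d : ℕ) : ℂ_[p] :=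
  p * q d - if p ^ n ∣ d then q (d / p ^ n) else 0

/-- Linear growth and bounded defect on the open disc. -/
structure QData (n : ℕ) (q : ℕ → ℂ_[p]) : Prop where
  growth : LinGrowth q
  bdd : ∃ B : ℝ, ∀ z : ℂ_[p], ‖z‖ < 1 → ‖(p : ℂ_[p]) * qev q z - qev q (z ^ p ^ n)‖ ≤ B

variable {n : ℕ}

theorem norm_pow_lt_one {z : ℂ_[p]} (hz : ‖z‖ < 1) (m : ℕ) : ‖z ^ p ^ m‖ < 1 := by
  rw [norm_pow]; exact pow_lt_one₀ (norm_nonneg _) hz (pow_ne_zero _ hp.1.ne_zero)

theorem linGrowth_defect {q : ℕ → ℂ_[p]} (hq : LinGrowth q) : LinGrowth (defect n q) := by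
  obtain ⟨K, hK⟩ := hq
  have hK0 : 0 ≤ K := by simpa using (norm_nonneg _).trans (hK 1)
  refine ⟨K, fun d => (Tilt.norm_sub_le_max _ _).trans (max_le ?_ ?_)⟩
  · rw [norm_mul]
    exact (mul_le_of_le_one_left (norm_nonneg _) norm_p_lt_one.le).trans (hK d)
  · split_ifs with h
    · exact (hK _).trans (mul_le_mul_of_nonneg_left (Nat.cast_le.mpr (Nat.div_le_self _ _)) hK0)
    · simpa using mul_nonneg hK0 (Nat.cast_nonneg d)

theorem qev_defect {q : ℕ → ℂ_[p]} (hq : LinGrowth q) {z : ℂ_[p]} (hz : ‖z‖ < 1) :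
    qev (defect n q) z = (p : ℂ_[p]) * qev q z - qev q (z ^ p ^ n) := by
  refine ((linGrowth_defect hq).hasSum hz).unique ?_
  have hQ : 0 < p ^ n := pow_pos hp.1.pos n
  have h2 : HasSum (fun d => (if p ^ n ∣ d then q (d / p ^ n) else 0) * z ^ d)
      (qev q (z ^ p ^ n)) := by
    refine (Function.Injective.hasSum_iff (g := fun d : ℕ => p ^ n * d)
      (mul_right_injective₀ hQ.ne') fun d hd => ?_).mp
      ((hq.hasSum (norm_pow_lt_one hz n)).congr_fun fun d => ?_)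
    · rw [if_neg fun ⟨e, he⟩ => hd ⟨e, he.symm⟩, zero_mul]
    · simp only [Function.comp_apply]
      rw [if_pos (Dvd.intro _ rfl), Nat.mul_div_cancel_left _ hQ, pow_mul]
  refine (((hq.hasSum hz).mul_left (p : ℂ_[p])).sub h2).congr_fun fun d => ?_
  rw [defect]
  ring

theorem QData.exists_bound {q : ℕ → ℂ_[p]} (h : QData n q) :
    ∃ B : ℝ, 0 ≤ B ∧ (∀ z : ℂ_[p], ‖z‖ < 1 →
      ‖(p : ℂ_[p]) * qev q z - qev q (z ^ p ^ n)‖ ≤ B) ∧ ∀ d, ‖defect n q d‖ ≤ B := by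
  obtain ⟨B, hB⟩ := h.bdd
  exact ⟨B, (norm_nonneg _).trans (hB 0 (by simp)), hB,
    norm_coeff_le_of_bounded (linGrowth_defect h.growth) fun z hz =>
      (qev_defect h.growth hz).symm ▸ hB z hz⟩

/-- The approximation `p^J q(y_J)`. -/
def approxQ (n : ℕ) (q : ℕ → ℂ_[p]) (y : Tilt p) (J : ℕ) : ℂ_[p] :=
  (p : ℂ_[p]) ^ J * qev q (y.coeff (n * J))

/-- The limit of `p^J q(y_J)`. -/
def Qlim (n : ℕ) (q : ℕ → ℂ_[p]) (y : Tilt p) : ℂ_[p] := limUnder atTop (approxQ n q y)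

theorem norm_approxQ_sub_le {q : ℕ → ℂ_[p]} {B : ℝ}
    (hB : ∀ z : ℂ_[p], ‖z‖ < 1 → ‖(p : ℂ_[p]) * qev q z - qev q (z ^ p ^ n)‖ ≤ B)
    {y : Tilt p} (hy : ‖y‖ < 1) (J : ℕ) :
    ‖approxQ n q y (J + 1) - approxQ n q y J‖ ≤ Tilt.tau p ^ J * B := by
  have e : approxQ n q y (J + 1) - approxQ n q y J =
      (p : ℂ_[p]) ^ J * ((p : ℂ_[p]) * qev q (y.coeff (n * (J + 1))) -
        qev q (y.coeff (n * (J + 1)) ^ p ^ n)) := by
    rw [coeff_root_pow, approxQ, approxQ]; ring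
  rw [e, norm_mul, norm_pow]
  exact mul_le_mul_of_nonneg_left (hB _ (norm_coeff_lt_one hy _))
    (pow_nonneg (norm_nonneg _) _)

/-- A sequence with steps at most `tau^J B` converges with the same error. -/
theorem tendsto_of_steps {u : ℕ → ℂ_[p]} {B : ℝ}
    (h : ∀ J, ‖u (J + 1) - u J‖ ≤ Tilt.tau p ^ J * B) :
    Tendsto u atTop (𝓝 (limUnder atTop u)) ∧
      ∀ J, ‖limUnder atTop u - u J‖ ≤ Tilt.tau p ^ J * B := by
  have hB : 0 ≤ B := by simpa using (norm_nonneg _).trans (h 0)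
  have ht : Tendsto u atTop (𝓝 (limUnder atTop u)) :=
    (cauchySeq_of_le_geometric (Tilt.tau p) B (Tilt.tau_lt_one p) fun J => by
      rw [dist_comm, dist_eq_norm, mul_comm]; exact h J).tendsto_limUnder
  refine ⟨ht, fun J => le_of_tendsto (ht.sub_const (u J)).norm ?_⟩
  filter_upwards [eventually_ge_atTop J] with m hm
  induction m, hm using Nat.le_induction with
  | base => simpa using mul_nonneg (pow_nonneg (Tilt.tau_pos p).le J) hB
  | succ m hm ih =>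
    rw [← sub_add_sub_cancel _ (u m)]
    exact (IsUltrametricDist.norm_add_le_max _ _).trans (max_le ((h m).trans
      (mul_le_mul_of_nonneg_right
        (pow_le_pow_of_le_one (Tilt.tau_pos p).le (Tilt.tau_lt_one p).le hm) hB)) ih)

theorem tendsto_tau_mul (B : ℝ) : Tendsto (fun J => Tilt.tau p ^ J * B) atTop (𝓝 0) := by
  simpa using (tendsto_pow_atTop_nhds_zero_of_lt_one (Tilt.tau_pos p).le
    (Tilt.tau_lt_one p)).mul_const B

theorem QData.tendsto {q : ℕ → ℂ_[p]} (h : QData n q) {y : Tilt p} (hy : ‖y‖ < 1) :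
    Tendsto (approxQ n q y) atTop (𝓝 (Qlim n q y)) := by
  obtain ⟨B, -, hB, -⟩ := h.exists_bound
  exact (tendsto_of_steps (norm_approxQ_sub_le hB hy)).1

theorem norm_Qlim_sub_le {q : ℕ → ℂ_[p]} {B : ℝ}
    (hB : ∀ z : ℂ_[p], ‖z‖ < 1 → ‖(p : ℂ_[p]) * qev q z - qev q (z ^ p ^ n)‖ ≤ B)
    {y : Tilt p} (hy : ‖y‖ < 1) (J : ℕ) :
    ‖Qlim n q y - approxQ n q y J‖ ≤ Tilt.tau p ^ J * B :=
  (tendsto_of_steps (norm_approxQ_sub_le hB hy)).2 J

theorem qev_eq_zero_iff_aux {q : ℕ → ℂ_[p]} (hq : LinGrowth q) : qev q 0 = 0 := by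
  refine (hq.hasSum (by simp)).unique (hasSum_zero.congr_fun fun d => ?_)
  rcases d with _ | d <;> simp [hq.zero]

/-- Bound of `Qlim` on smaller discs. -/
theorem QData.bdd_Qlim {q : ℕ → ℂ_[p]} (h : QData n q) {ρ : ℝ} (hρ : ρ < 1) :
    ∃ C, ∀ y : Tilt p, ‖y‖ ≤ ρ → ‖Qlim n q y‖ ≤ C := by
  obtain ⟨B, -, hB, -⟩ := h.exists_bound
  rcases lt_or_ge ρ 0 with h0 | h0
  · exact ⟨0, fun y hy => absurd ((norm_nonneg y).trans hy) h0.not_ge⟩
  obtain ⟨K, hK⟩ := h.growth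
  obtain ⟨M, hM⟩ := (tendsto_self_mul_const_pow_of_lt_one h0 hρ).bddAbove_range
  have hK0 : 0 ≤ K := by simpa using (norm_nonneg _).trans (hK 1)
  refine ⟨max B (K * M), fun y hy => ?_⟩
  have hy1 : ‖y‖ < 1 := hy.trans_lt hρ
  have h1 := norm_Qlim_sub_le hB hy1 0
  rw [pow_zero, one_mul] at h1
  rw [← sub_add_cancel (Qlim n q y) (approxQ n q y 0)]
  refine (IsUltrametricDist.norm_add_le_max _ _).trans
    (max_le (h1.trans (le_max_left _ _)) ?_)
  refine le_trans ?_ (le_max_right B _)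
  rw [approxQ, pow_zero, one_mul, Nat.mul_zero]
  have hy0 : ‖y.coeff 0‖ ≤ ρ := by rwa [← Tilt.norm_def]
  refine norm_le_of_hasSum (h.growth.hasSum (hy0.trans_lt hρ))
    (mul_nonneg hK0 (le_trans (by simp) (hM (Set.mem_range_self 0)))) fun d => ?_
  rw [norm_mul, norm_pow]
  refine (mul_le_mul (hK d) (pow_le_pow_left₀ (norm_nonneg _) hy0 d) (by positivity)
    (mul_nonneg hK0 (Nat.cast_nonneg d))).trans ?_
  rw [mul_assoc]
  exact mul_le_mul_of_nonneg_left (hM (Set.mem_range_self d)) hK0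

theorem QData.sum {ι : Type*} (s : Finset ι) {q : ι → ℕ → ℂ_[p]} (a : ι → ℂ_[p])
    (h : ∀ i ∈ s, QData n (q i)) : QData n fun d => ∑ i ∈ s, a i * q i d := by
  classical
  have hg : LinGrowth fun d => ∑ i ∈ s, a i * q i d := by
    choose K hK using fun i : s => (h i i.2).growth
    refine ⟨∑ i : s, ‖a i.1‖ * |K i|, fun d => (norm_sum_le _ _).trans ?_⟩
    rw [Finset.sum_mul, ← Finset.sum_coe_sort]
    refine Finset.sum_le_sum fun i _ => ?_
    rw [norm_mul, mul_assoc]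
    exact mul_le_mul_of_nonneg_left
      ((hK i d).trans (mul_le_mul_of_nonneg_right (le_abs_self _) (Nat.cast_nonneg d)))
      (norm_nonneg _)
  choose B hB using fun i : s => (h i i.2).bdd
  have hev : ∀ z : ℂ_[p], ‖z‖ < 1 →
      qev (fun d => ∑ i ∈ s, a i * q i d) z = ∑ i ∈ s, a i * qev (q i) z := fun z hz => by
    refine (hg.hasSum hz).unique ?_
    refine (hasSum_sum fun i hi => ((h i hi).growth.hasSum hz).mul_left (a i)).congr_fun
      fun d => ?_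
    rw [Finset.sum_mul]
    exact Finset.sum_congr rfl fun i _ => by ring
  refine ⟨hg, ⟨∑ i : s, ‖a i.1‖ * B i, fun z hz => ?_⟩⟩
  rw [hev z hz, hev _ (norm_pow_lt_one hz n), Finset.mul_sum, ← Finset.sum_sub_distrib,
    ← Finset.sum_coe_sort]
  refine (norm_sum_le _ _).trans (Finset.sum_le_sum fun i _ => ?_)
  rw [show (p : ℂ_[p]) * (a i * qev (q i) z) - a i * qev (q i) (z ^ p ^ n) =
    a i * ((p : ℂ_[p]) * qev (q i) z - qev (q i) (z ^ p ^ n)) by ring, norm_mul]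
  exact mul_le_mul_of_nonneg_left (hB i z hz) (norm_nonneg _)

theorem QData.sub {q q' : ℕ → ℂ_[p]} (h : QData n q) (h' : QData n q') :
    QData n fun d => q d - q' d := by
  have := QData.sum (q := fun i : Fin 2 => ![q, q'] i) Finset.univ ![1, -1] fun i _ => by
    fin_cases i <;> simpa
  simpa [Fin.sum_univ_two, sub_eq_add_neg] using this

theorem qev_sub {q q' : ℕ → ℂ_[p]} (h : LinGrowth q) (h' : LinGrowth q') {z : ℂ_[p]}
    (hz : ‖z‖ < 1) : qev (fun d => q d - q' d) z = qev q z - qev q' z :=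
  (((h.hasSum hz).sub (h'.hasSum hz)).congr_fun fun _ => sub_mul _ _ _).tsum_eq

theorem Qlim_sum {ι : Type*} (s : Finset ι) {q : ι → ℕ → ℂ_[p]} (a : ι → ℂ_[p])
    (h : ∀ i ∈ s, QData n (q i)) {y : Tilt p} (hy : ‖y‖ < 1) :
    Qlim n (fun d => ∑ i ∈ s, a i * q i d) y = ∑ i ∈ s, a i * Qlim n (q i) y := by
  refine tendsto_nhds_unique ((QData.sum s a h).tendsto hy) ?_
  refine (tendsto_finsetSum s fun i hi => ((h i hi).tendsto hy).const_mul (a i)).congr fun J => ?_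
  have hz := norm_coeff_lt_one hy (n * J)
  have : qev (fun d => ∑ i ∈ s, a i * q i d) (y.coeff (n * J)) =
      ∑ i ∈ s, a i * qev (q i) (y.coeff (n * J)) := by
    refine ((QData.sum s a h).growth.hasSum hz).unique
      ((hasSum_sum fun i hi => ((h i hi).growth.hasSum hz).mul_left (a i)).congr_fun fun d => ?_)
    rw [Finset.sum_mul]
    exact Finset.sum_congr rfl fun i _ => by ring
  rw [approxQ, this, Finset.mul_sum]
  exact Finset.sum_congr rfl fun i _ => by rw [approxQ]; ring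

theorem Qlim_sub {q q' : ℕ → ℂ_[p]} (h : QData n q) (h' : QData n q') {y : Tilt p}
    (hy : ‖y‖ < 1) : Qlim n (fun d => q d - q' d) y = Qlim n q y - Qlim n q' y := by
  refine tendsto_nhds_unique ((h.sub h').tendsto hy) (((h.tendsto hy).sub (h'.tendsto hy)).congr
    fun J => ?_)
  rw [approxQ, approxQ, approxQ, qev_sub h.growth h'.growth (norm_coeff_lt_one hy _), mul_sub]

/-- The coefficients of `Σ_i p^(-i) X^(p^(c + n i))`. -/
def ellCoeff (n c d : ℕ) : ℂ_[p] :=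
  ∑ i ∈ range (d + 1), if p ^ (c + n * i) = d then ((p : ℂ_[p]) ^ i)⁻¹ else 0

theorem exp_injective (hn : 1 ≤ n) (c : ℕ) :
    Function.Injective fun i => p ^ (c + n * i) := fun i j h => by
  have := Nat.pow_right_injective hp.1.two_le h
  exact Nat.eq_of_mul_eq_mul_left hn (by omega)

theorem ellCoeff_pow (hn : 1 ≤ n) (c i : ℕ) :
    ellCoeff (p := p) n c (p ^ (c + n * i)) = ((p : ℂ_[p]) ^ i)⁻¹ := by
  have hi : i < p ^ (c + n * i) + 1 := by
    have : i ≤ c + n * i := le_add_left (Nat.le_mul_of_pos_left i hn)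
    have := Nat.lt_pow_self hp.1.one_lt (n := c + n * i)
    omega
  rw [ellCoeff, Finset.sum_eq_single_of_mem i (mem_range.mpr hi) fun j _ hj =>
    if_neg fun h => hj (exp_injective hn c h), if_pos rfl]

theorem ellCoeff_of_ne {c d : ℕ} (h : ∀ i, p ^ (c + n * i) ≠ d) :
    ellCoeff (p := p) n c d = 0 :=
  Finset.sum_eq_zero fun i _ => if_neg (h i)

theorem linGrowth_ellCoeff (hn : 1 ≤ n) (c : ℕ) : LinGrowth (ellCoeff (p := p) n c) := by
  refine ⟨1, fun d => ?_⟩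
  rw [one_mul]
  by_cases h : ∃ i, p ^ (c + n * i) = d
  · obtain ⟨i, rfl⟩ := h
    rw [ellCoeff_pow hn, norm_inv, norm_pow, show ‖(p : ℂ_[p])‖ = (p : ℝ)⁻¹ from Tilt.tau_eq p,
      inv_pow, inv_inv]
    push_cast
    exact pow_le_pow_right₀ (by exact_mod_cast hp.1.one_le)
      (le_add_left (Nat.le_mul_of_pos_left i hn))
  · push Not at h
    simp [ellCoeff_of_ne h]

theorem hasSum_ell (hn : 1 ≤ n) (c : ℕ) {z : ℂ_[p]} (hz : ‖z‖ < 1) :
    HasSum (fun i => ((p : ℂ_[p]) ^ i)⁻¹ * z ^ p ^ (c + n * i)) (qev (ellCoeff n c) z) := by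
  have h := (Function.Injective.hasSum_iff (exp_injective (p := p) hn c) fun d hd => ?_).mpr
    ((linGrowth_ellCoeff hn c).hasSum hz)
  · exact h.congr_fun fun i => by simp only [Function.comp_apply, ellCoeff_pow hn]
  · rw [ellCoeff_of_ne fun i hi => hd ⟨i, hi⟩, zero_mul]

theorem qev_ell_pow (hn : 1 ≤ n) (c : ℕ) {z : ℂ_[p]} (hz : ‖z‖ < 1) :
    qev (ellCoeff n c) (z ^ p ^ n) = p * qev (ellCoeff n c) z - p * z ^ p ^ c := by
  have h1 := ((hasSum_nat_add_iff' 1).mpr (hasSum_ell hn c hz)).mul_left (p : ℂ_[p])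
  rw [Finset.sum_range_one, pow_zero, inv_one, one_mul, Nat.mul_zero, Nat.add_zero, mul_sub] at h1
  refine (hasSum_ell hn c (norm_pow_lt_one hz n)).unique (h1.congr_fun fun i => ?_)
  rw [← pow_mul, ← pow_add, pow_succ' (p : ℂ_[p]) i, mul_inv, show c + n * (i + 1) = n + (c + n * i)
    by ring]
  field_simp [natCast_ne_zero_Cp]
  rw [mul_div_mul_right _ _ natCast_ne_zero_Cp]

theorem qdata_ellCoeff (hn : 1 ≤ n) (c : ℕ) : QData n (ellCoeff (p := p) n c) := by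
  refine ⟨linGrowth_ellCoeff hn c, ⟨1, fun z hz => ?_⟩⟩
  rw [qev_ell_pow hn c hz, sub_sub_cancel, norm_mul, norm_pow]
  exact mul_le_one₀ norm_p_lt_one.le (by positivity) (pow_le_one₀ (norm_nonneg _) hz.le)

/-- The periods `G_c(y) = lim p^J ℓ(y_J^(p^c))`. -/
def Gper (n c : ℕ) (y : Tilt p) : ℂ_[p] := Qlim n (ellCoeff n c) y

theorem Gper_pow (hn : 1 ≤ n) (c i : ℕ) {y : Tilt p} (hy : ‖y‖ < 1) :
    Gper n c (y ^ p ^ i) = Gper n (c + i) y := by
  have hy' : ‖y ^ p ^ i‖ < 1 := by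
    rw [norm_pow]; exact pow_lt_one₀ (norm_nonneg _) hy (pow_ne_zero _ hp.1.ne_zero)
  refine tendsto_nhds_unique ((qdata_ellCoeff hn c).tendsto hy')
    (((qdata_ellCoeff hn (c + i)).tendsto hy).congr fun J => ?_)
  have hz := norm_coeff_lt_one hy (n * J)
  rw [approxQ, approxQ, Tilt.coeff_npow]
  congr 1
  refine ((hasSum_ell hn (c + i) hz).unique ((hasSum_ell hn c (norm_pow_lt_one hz i)).congr_fun
    fun t => ?_)).trans rfl
  rw [← pow_mul, ← pow_add]
  congr 3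
  ring

theorem Gper_add_period (hn : 1 ≤ n) (c : ℕ) {y : Tilt p} (hy : ‖y‖ < 1) :
    Gper n (c + n) y = p * Gper n c y := by
  have h0 : Tendsto (fun J : ℕ => (p : ℂ_[p]) ^ J * ((p : ℂ_[p]) * y.coeff (n * J) ^ p ^ c))
      atTop (𝓝 0) := by
    refine squeeze_zero_norm (fun J => ?_) (tendsto_tau_mul (p := p) 1)
    rw [norm_mul, norm_pow]
    refine mul_le_mul_of_nonneg_left ?_ (pow_nonneg (norm_nonneg _) _)
    rw [norm_mul, norm_pow]
    exact mul_le_one₀ norm_p_lt_one.le (by positivity)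
      (pow_le_one₀ (norm_nonneg _) (norm_coeff_lt_one hy _).le)
  have h1 := (((qdata_ellCoeff hn c).tendsto hy).const_mul (p : ℂ_[p])).sub h0
  rw [sub_zero] at h1
  refine tendsto_nhds_unique ((qdata_ellCoeff hn (c + n)).tendsto hy) (h1.congr fun J => ?_)
  have hz := norm_coeff_lt_one hy (n * J)
  have e : qev (ellCoeff n (c + n)) (y.coeff (n * J)) =
      qev (ellCoeff n c) (y.coeff (n * J) ^ p ^ n) := by
    refine (hasSum_ell hn (c + n) hz).unique ((hasSum_ell hn c (norm_pow_lt_one hz n)).congr_fun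
      fun t => ?_)
    rw [← pow_mul, ← pow_add]
    congr 3
    ring
  rw [approxQ, approxQ, e, qev_ell_pow hn c hz]
  ring

theorem coeff_eq_coeff_zero_of_fixed {z : Tilt p} (hz : z ^ p ^ n = z) (J : ℕ) :
    z.coeff (n * J) = z.coeff 0 := by
  induction J with
  | zero => rw [Nat.mul_zero]
  | succ J ih =>
    rw [← ih, ← coeff_root_pow z n J, ← Tilt.coeff_npow, hz]

theorem norm_le_one_of_fixed (hn : 1 ≤ n) {z : Tilt p} (hz : z ^ p ^ n = z) : ‖z‖ ≤ 1 := by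
  by_contra h
  rw [not_le] at h
  have := congrArg norm hz
  rw [norm_pow] at this
  exact (lt_self_pow₀ h (one_lt_pow₀ hp.1.one_lt (by omega))).ne this.symm

theorem Gper_fixed_mul (hn : 1 ≤ n) (c : ℕ) {z y : Tilt p} (hz : z ^ p ^ n = z) (hy : ‖y‖ < 1) :
    Gper n c (z * y) = z.coeff 0 ^ p ^ c * Gper n c y := by
  have hzy : ‖z * y‖ < 1 := by
    rw [norm_mul]
    exact (mul_le_of_le_one_left (norm_nonneg _) (norm_le_one_of_fixed hn hz)).trans_lt hy
  refine tendsto_nhds_unique ((qdata_ellCoeff hn c).tendsto hzy)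
    ((((qdata_ellCoeff hn c).tendsto hy).const_mul _).congr fun J => ?_)
  have hw := norm_coeff_lt_one hy (n * J)
  have hzw := norm_coeff_lt_one hzy (n * J)
  rw [Tilt.coeff_mul, coeff_eq_coeff_zero_of_fixed hz] at hzw
  rw [approxQ, approxQ, Tilt.coeff_mul, coeff_eq_coeff_zero_of_fixed hz,
    (hasSum_ell hn c hzw).unique (((hasSum_ell hn c hw).mul_left (z.coeff 0 ^ p ^ c)).congr_fun
      fun i => ?_)]
  · ring
  · have h : ∀ i, z.coeff 0 ^ p ^ (c + n * i) = z.coeff 0 ^ p ^ c := fun i => by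
      induction i with
      | zero => rw [Nat.mul_zero, Nat.add_zero]
      | succ i ih =>
        rw [Nat.mul_succ, ← Nat.add_assoc, pow_add, pow_mul, ih, ← pow_mul, mul_comm, pow_mul,
          ← Tilt.coeff_npow, hz]
    rw [mul_pow, h]
    ring

/-! ### Points of a formal group law on the tilt -/

theorem norm_fadd_sub_le {L : Type*} [NormedField L] [IsUltrametricDist L] [CompleteSpace L]
    (Γ : FormalGroup (unitBall L)) {x y : unitBall L} (hx : IsTopologicallyNilpotent x)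
    (hy : IsTopologicallyNilpotent y) :
    ‖((fadd Γ x y : unitBall L) : L) - ((x : L) + y)‖ ≤ max ‖(x : L)‖ ‖(y : L)‖ ^ 2 := by
  classical
  set m := max ‖(x : L)‖ ‖(y : L)‖
  have hm1 : m ≤ 1 := max_le x.2 y.2
  have h := (hasSum_ev (φ := RingHom.id (unitBall L)) (hasEval2 hx hy) Γ.toPowerSeries).map
    (unitBall L).subtype continuous_subtype_val
  have hx' := hasSum_ite_eq (Finsupp.single (0 : Fin 2) 1) (x : L)
  have hy' := hasSum_ite_eq (Finsupp.single (1 : Fin 2) 1) (y : L)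
  refine norm_le_of_hasSum (h.sub (hx'.add hy')) (by positivity) fun d => ?_
  simp only [Function.comp_apply, RingHom.id_apply, Finsupp.prod_fintype, pow_zero, implies_true,
    Fin.prod_univ_two, Matrix.cons_val_zero, Matrix.cons_val_one, Matrix.cons_val_fin_one]
  have hne : Finsupp.single (0 : Fin 2) 1 ≠ Finsupp.single 1 1 := by
    simp [Finsupp.single_eq_single_iff]
  have hX : MvPowerSeries.coeff (Finsupp.single (0 : Fin 2) 1) Γ.toPowerSeries = 1 :=
    Γ.lin_coeff_X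
  have hY : MvPowerSeries.coeff (Finsupp.single (1 : Fin 2) 1) Γ.toPowerSeries = 1 :=
    Γ.lin_coeff_Y
  rcases eq_or_ne d (Finsupp.single 0 1) with rfl | h0
  · simp [hX, hne, m]
  rcases eq_or_ne d (Finsupp.single 1 1) with rfl | h1
  · simp [hY, hne.symm, m]
  rw [if_neg h0, if_neg h1, add_zero, sub_zero]
  rcases eq_or_ne (d 0 + d 1) 0 with hd | hd
  · have : d = 0 := by ext i; fin_cases i <;> simp <;> omega
    subst this
    simp [Γ.zero_constantCoeff, m]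
  have h2 : 2 ≤ d 0 + d 1 := by
    by_contra hlt
    have : d 0 = 1 ∧ d 1 = 0 ∨ d 0 = 0 ∧ d 1 = 1 := by omega
    rcases this with ⟨a, b⟩ | ⟨a, b⟩
    · exact h0 (by ext i; fin_cases i <;> simp [a, b])
    · exact h1 (by ext i; fin_cases i <;> simp [a, b])
  simp only [map_mul, map_pow, norm_mul, norm_pow, Subring.subtype_apply]
  refine (mul_le_of_le_one_left (by positivity) (norm_coe_le_one _)).trans ?_
  calc ‖(x : L)‖ ^ d 0 * ‖(y : L)‖ ^ d 1 ≤ m ^ d 0 * m ^ d 1 := by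
        gcongr
        · exact le_max_left _ _
        · exact le_max_right _ _
    _ = m ^ (d 0 + d 1) := (pow_add _ _ _).symm
    _ ≤ m ^ 2 := pow_le_pow_of_le_one (le_max_of_le_left (norm_nonneg _)) hm1 h2

theorem Pt.norm_add_sub_le {L : Type*} [NormedField L] [IsUltrametricDist L] [CompleteSpace L]
    {Γ : FormalGroup (unitBall L)} (x y : Pt Γ) :
    ‖(x + y).co - (x.co + y.co)‖ ≤ max ‖x.co‖ ‖y.co‖ ^ 2 :=
  norm_fadd_sub_le Γ x.2 y.2

/-- The point with a given small coordinate. -/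
def Pt.mk' {L : Type*} [NormedField L] [IsUltrametricDist L] [CompleteSpace L]
    (Γ : FormalGroup (unitBall L)) (x : L) (hx : ‖x‖ < 1) : Pt Γ :=
  ⟨⟨x, hx.le⟩, isTopologicallyNilpotent_ball.mpr hx⟩

@[simp]
theorem Pt.co_mk' {L : Type*} [NormedField L] [IsUltrametricDist L] [CompleteSpace L]
    (Γ : FormalGroup (unitBall L)) (x : L) (hx : ‖x‖ < 1) : (Pt.mk' Γ x hx).co = x := rfl

/-- The vanishing criterion: an additive limit whose series is bounded at the powers of `p`. -/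
theorem Qlim_eq_zero {Γ : FormalGroup (unitBall (Tilt p))} {q : ℕ → ℂ_[p]} (hq : QData n q)
    {B₁ : ℝ} (hpow : ∀ e, ‖q (p ^ e)‖ ≤ B₁)
    (hadd : ∀ x y : Pt Γ, Qlim n q (x + y).co = Qlim n q x.co + Qlim n q y.co)
    {y : Tilt p} (hy : ‖y‖ < 1) : Qlim n q y = 0 := by
  by_contra hne
  obtain ⟨B, hB0, hB, -⟩ := hq.exists_bound
  set M₀ := ‖Qlim n q y‖
  have hM₀ : 0 < M₀ := norm_pos_iff.mpr hne
  obtain ⟨J, hJ, hJ1⟩ := (((tendsto_tau_mul (p := p) B).eventually_lt_const hM₀).and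
    ((tendsto_tau_mul (p := p) B₁).eventually_lt_const hM₀)).exists
  set w := y.coeff (n * J) with hwdef
  have hw : ‖w‖ < 1 := norm_coeff_lt_one hy _
  set q' : ℕ → ℂ_[p] := fun d => (p : ℂ_[p]) ^ J * q d with hq'
  have hq'g : LinGrowth q' := by
    obtain ⟨K, hK⟩ := hq.growth
    refine ⟨K, fun d => ?_⟩
    rw [hq', norm_mul, norm_pow]
    exact (mul_le_of_le_one_left (norm_nonneg _)
      (pow_le_one₀ (norm_nonneg _) norm_p_lt_one.le)).trans (hK d)
  have hev : ∀ x : ℂ_[p], ‖x‖ < 1 → qev q' x = (p : ℂ_[p]) ^ J * qev q x := fun x hx =>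
    (hq'g.hasSum hx).unique (((hq.growth.hasSum hx).mul_left _).congr_fun fun d => by
      rw [hq']; ring)
  have hval : ‖qev q' w‖ = M₀ := by
    rw [hev w hw]
    have h1 : ‖Qlim n q y - approxQ n q y J‖ < M₀ := (norm_Qlim_sub_le hB hy J).trans_lt hJ
    rw [norm_sub_rev] at h1
    have h2 := IsUltrametricDist.norm_add_eq_max_of_norm_ne_norm h1.ne
    rw [sub_add_cancel, max_eq_right h1.le] at h2
    exact h2
  have hex : ∃ d, M₀ ≤ ‖q' d * w ^ d‖ := by
    by_contra h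
    push Not at h
    obtain ⟨M', h0, hlt, hle⟩ := exists_bound_lt (hq'g.tendsto hw) hM₀ h
    exact (hlt.trans_le hval.ge).not_ge (norm_le_of_hasSum (hq'g.hasSum hw) h0 hle)
  obtain ⟨D, hD⟩ := eventually_atTop.mp ((tendsto_zero_iff_norm_tendsto_zero.mp
    (hq'g.tendsto hw)).eventually_lt_const hM₀)
  obtain ⟨d₁, hd₁⟩ := hex
  obtain ⟨d₀, -, hd₀⟩ := (range (D + 1)).exists_max_image (fun d => ‖q' d * w ^ d‖) ⟨0, by simp⟩
  set M := ‖q' d₀ * w ^ d₀‖ with hM
  have hMM₀ : M₀ ≤ M := hd₁.trans (hd₀ d₁ (mem_range.mpr (by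
    have : d₁ < D := lt_of_not_ge fun h => (hD d₁ h).not_ge hd₁
    omega)))
  have hmax : ∀ d, ‖q' d * w ^ d‖ ≤ M := fun d => by
    rcases lt_or_ge d D with h | h
    · exact hd₀ d (mem_range.mpr (by omega))
    · exact (hD d h).le.trans hMM₀
  have hMpos : 0 < M := hM₀.trans_le hMM₀
  have hw0 : w ≠ 0 := fun h => by
    have : qev q' w = 0 := by rw [h]; exact qev_eq_zero_iff_aux hq'g
    rw [this, norm_zero] at hval
    exact hM₀.ne hval
  have hadd' : ∀ ζ η : ℂ_[p], ‖ζ‖ ≤ 1 → ‖η‖ ≤ 1 → ∃ z, ‖z‖ ≤ 1 ∧ ‖z - (ζ + η)‖ < 1 ∧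
      ‖qev q' (w * z) - qev q' (w * ζ) - qev q' (w * η)‖ < M := by
    intro ζ η hζ hη
    obtain ⟨a, ha⟩ := Tilt.exists_coeff ζ (n * J)
    obtain ⟨b, hb⟩ := Tilt.exists_coeff η (n * J)
    have hle : ∀ {a : Tilt p} {ζ : ℂ_[p]}, a.coeff (n * J) = ζ → ‖ζ‖ ≤ 1 → ‖y * a‖ ≤ ‖y‖ :=
      fun {a ζ} ha hζ => by
        rw [norm_mul, ← Tilt.norm_coeff_pow a (n * J), ha]
        exact mul_le_of_le_one_right (norm_nonneg _) (pow_le_one₀ (norm_nonneg _) hζ)
    set x₁ := Pt.mk' Γ (y * a) ((hle ha hζ).trans_lt hy) with hx₁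
    set x₂ := Pt.mk' Γ (y * b) ((hle hb hη).trans_lt hy) with hx₂
    set s := (x₁ + x₂).co
    set d := s - (y * a + y * b) with hd
    have hd2 : ‖d‖ ≤ ‖y‖ ^ 2 := by
      refine (Pt.norm_add_sub_le x₁ x₂).trans (pow_le_pow_left₀ (le_max_of_le_left (norm_nonneg _))
        (max_le ?_ ?_) 2)
      · simpa [hx₁] using hle ha hζ
      · simpa [hx₂] using hle hb hη
    have hd1 : ‖d.coeff (n * J)‖ ≤ ‖w‖ ^ 2 := by
      rw [Tilt.norm_coeff_le_iff _ _ (by positivity), ← pow_mul, mul_comm, pow_mul, hwdef,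
        Tilt.norm_coeff_pow]
      exact hd2
    have hwsq : ‖w‖ ^ 2 < ‖w‖ := by
      rw [sq]; exact mul_lt_of_lt_one_left (norm_pos_iff.mpr hw0) hw
    have hab : ∀ {a : Tilt p} {ζ : ℂ_[p]}, a.coeff (n * J) = ζ → ‖ζ‖ ≤ 1 →
        ‖(y * a).coeff (n * J)‖ ≤ ‖w‖ := fun {a ζ} ha hζ => by
      rw [Tilt.coeff_mul, norm_mul, ha]
      exact mul_le_of_le_one_right (norm_nonneg _) hζ
    have hsum : ‖(y * a + y * b).coeff (n * J)‖ ≤ ‖w‖ :=
      (Tilt.norm_coeff_add _ _ _).trans (max_le (hab ha hζ) (hab hb hη))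
    have hs : ‖s.coeff (n * J) - (w * ζ + w * η)‖ < ‖w‖ := by
      have e1 := Tilt.norm_coeff_add_sub (y * a + y * b) d (n * J)
      rw [hd, add_sub_cancel, ← hd] at e1
      have e2 := Tilt.norm_coeff_add_sub (y * a) (y * b) (n * J)
      have hlt : ∀ {r : ℝ}, r ≤ ‖w‖ → Tilt.tau p * r < ‖w‖ := fun {r} hr =>
        (mul_le_mul_of_nonneg_left hr (Tilt.tau_pos p).le).trans_lt
          (mul_lt_of_lt_one_left (norm_pos_iff.mpr hw0) (Tilt.tau_lt_one p))
      rw [show s.coeff (n * J) - (w * ζ + w * η) =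
        (s.coeff (n * J) - ((y * a + y * b).coeff (n * J) + d.coeff (n * J))) +
          (((y * a + y * b).coeff (n * J) - ((y * a).coeff (n * J) + (y * b).coeff (n * J))) +
            d.coeff (n * J)) by
          rw [Tilt.coeff_mul y a, Tilt.coeff_mul y b, ha, hb]; ring]
      exact (IsUltrametricDist.norm_add_le_max _ _).trans_lt (max_lt
        (e1.trans_lt (hlt (max_le hsum (hd1.trans hwsq.le))))
        ((IsUltrametricDist.norm_add_le_max _ _).trans_lt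
          (max_lt (e2.trans_lt (hlt (max_le (hab ha hζ) (hab hb hη)))) (hd1.trans_lt hwsq))))
    have hz' : ‖s.coeff (n * J) / w - (ζ + η)‖ < 1 := by
      rw [show s.coeff (n * J) / w - (ζ + η) = (s.coeff (n * J) - (w * ζ + w * η)) / w by
        field_simp, norm_div, div_lt_one (norm_pos_iff.mpr hw0)]
      exact hs
    refine ⟨s.coeff (n * J) / w, ?_, hz', ?_⟩
    · rw [← sub_add_cancel (s.coeff (n * J) / w) (ζ + η)]
      exact (IsUltrametricDist.norm_add_le_max _ _).trans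
        (max_le hz'.le ((IsUltrametricDist.norm_add_le_max _ _).trans (max_le hζ hη)))
    have hap : ∀ x : Pt Γ, ‖Qlim n q x.co - qev q' (x.co.coeff (n * J))‖ < M := fun x => by
      rw [hev _ (norm_coeff_lt_one x.norm_lt _)]
      exact ((norm_Qlim_sub_le hB x.norm_lt J).trans_lt hJ).trans_le hMM₀
    rw [mul_div_cancel₀ _ hw0,
      show qev q' (s.coeff (n * J)) - qev q' (w * ζ) - qev q' (w * η) =
        -(Qlim n q s - qev q' (s.coeff (n * J))) +
          ((Qlim n q x₁.co - qev q' (x₁.co.coeff (n * J))) +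
            (Qlim n q x₂.co - qev q' (x₂.co.coeff (n * J)))) by
        rw [hadd, hx₁, hx₂, Pt.co_mk', Pt.co_mk', Tilt.coeff_mul y a, Tilt.coeff_mul y b, ha, hb]
        ring]
    refine (IsUltrametricDist.norm_add_le_max _ _).trans_lt (max_lt ?_
      ((IsUltrametricDist.norm_add_le_max _ _).trans_lt (max_lt (hap x₁) (hap x₂))))
    rw [norm_neg]
    exact hap (x₁ + x₂)
  obtain ⟨e, he⟩ := dominant_isPow hp.1 norm_p_lt_one hq'g hw hMpos hmax hadd' (d₀ := d₀) rfl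
  have : M ≤ Tilt.tau p ^ J * B₁ := by
    rw [hM, he, hq', norm_mul, norm_mul, norm_pow, norm_pow]
    refine (mul_le_of_le_one_right (by positivity) (pow_le_one₀ (norm_nonneg _) hw.le)).trans ?_
    exact mul_le_mul_of_nonneg_left (hpow e) (pow_nonneg (norm_nonneg _) _)
  exact (hMM₀.trans this).not_gt hJ1

/-- An additive limit is a combination of the periods. -/
theorem exists_eq_sum_Gper {Γ : FormalGroup (unitBall (Tilt p))} (hn : 1 ≤ n) {q : ℕ → ℂ_[p]}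
    (hq : QData n q) (hadd : ∀ x y : Pt Γ, Qlim n q (x + y).co = Qlim n q x.co + Qlim n q y.co)
    (hG : ∀ c (x y : Pt Γ), Gper n c (x + y).co = Gper n c x.co + Gper n c y.co) :
    ∃ H : Fin n → ℂ_[p], ∀ y : Tilt p, ‖y‖ < 1 → Qlim n q y = ∑ c, H c * Gper n c y := by
  classical
  obtain ⟨B, hB0, -, hT⟩ := hq.exists_bound
  set h : ℕ → ℕ → ℂ_[p] := fun c j => (p : ℂ_[p]) ^ j * q (p ^ (c + n * j)) with hh
  have hstep : ∀ c j, ‖h c (j + 1) - h c j‖ ≤ Tilt.tau p ^ j * B := fun c j => by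
    have e : h c (j + 1) - h c j = (p : ℂ_[p]) ^ j * defect n q (p ^ (c + n * (j + 1))) := by
      rw [hh, defect, show c + n * (j + 1) = n + (c + n * j) by ring, pow_add p n,
        if_pos (Dvd.intro _ rfl), Nat.mul_div_cancel_left _ (pow_pos hp.1.pos n)]
      ring
    rw [e, norm_mul, norm_pow]
    exact mul_le_mul_of_nonneg_left (hT _) (pow_nonneg (norm_nonneg _) _)
  set H : Fin n → ℂ_[p] := fun c => limUnder atTop (h c)
  refine ⟨H, fun y hy => ?_⟩
  have hS : QData n fun d => ∑ c : Fin n, H c * ellCoeff n c d :=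
    QData.sum _ _ fun c _ => qdata_ellCoeff hn c
  have hdec : ∀ z : Tilt p, ‖z‖ < 1 → Qlim n (fun d => q d - ∑ c : Fin n, H c * ellCoeff n c d) z =
      Qlim n q z - ∑ c, H c * Gper n c z := fun z hz => by
    rw [Qlim_sub hq hS hz, Qlim_sum (q := fun c : Fin n => ellCoeff n (c : ℕ)) _ _
      (fun c _ => qdata_ellCoeff hn c) hz]
    rfl
  rw [← sub_eq_zero, ← hdec y hy]
  refine Qlim_eq_zero (Γ := Γ) (hq.sub hS) (B₁ := B) (fun e => ?_) (fun x x' => ?_) hy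
  · set c₀ : Fin n := ⟨e % n, Nat.mod_lt _ hn⟩
    have he : e = (c₀ : ℕ) + n * (e / n) := (Nat.mod_add_div e n).symm
    rw [Finset.sum_eq_single_of_mem c₀ (mem_univ _) fun c _ hc => by
      rw [ellCoeff_of_ne fun i hi => hc (Fin.ext (show (c : ℕ) = e % n by
        rw [← Nat.pow_right_injective hp.1.two_le hi, Nat.add_mul_mod_self_left,
          Nat.mod_eq_of_lt c.2])), mul_zero]]
    rw [show p ^ e = p ^ ((c₀ : ℕ) + n * (e / n)) from congrArg _ he, ellCoeff_pow hn]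
    set j := e / n
    have h2 : ‖H c₀ - h c₀ j‖ ≤ Tilt.tau p ^ j * B := (tendsto_of_steps (hstep c₀)).2 j
    have e2 : q (p ^ ((c₀ : ℕ) + n * j)) - H c₀ * ((p : ℂ_[p]) ^ j)⁻¹ =
        -(((p : ℂ_[p]) ^ j)⁻¹ * (H c₀ - h c₀ j)) := by
      simp only [hh]
      rw [mul_sub, inv_mul_cancel_left₀ (pow_ne_zero _ natCast_ne_zero_Cp)]
      ring
    rw [e2, norm_neg, norm_mul, norm_inv, norm_pow]
    exact (inv_mul_le_iff₀ (pow_pos (Tilt.tau_pos p) j)).mpr h2
  · rw [hdec _ (x + x').norm_lt, hdec _ x.norm_lt, hdec _ x'.norm_lt, hadd,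
      Finset.sum_congr rfl fun c _ => by rw [hG c x x', mul_add], Finset.sum_add_distrib]
    ring

/-! ### Nonvanishing -/

/-- If a period vanishes at `y` then two consecutive terms tie at every high level. -/
theorem exists_tie_of_Gper_eq_zero (hn : 1 ≤ n) {c : ℕ} {y : Tilt p} (hy : ‖y‖ < 1) (hy0 : y ≠ 0)
    (hG : Gper n c y = 0) :
    ∀ᶠ J in atTop, ∃ i, ‖y.coeff (n * J)‖ ^ (p ^ (c + n * i) * (p ^ n - 1)) = Tilt.tau p := by
  filter_upwards [(tendsto_tau_mul (p := p) 1).eventually_lt_const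
    (show 0 < ‖y‖ ^ p ^ c from pow_pos (norm_pos_iff.mpr hy0) _)] with J hJ
  set w := y.coeff (n * J) with hwdef
  have hw : ‖w‖ < 1 := norm_coeff_lt_one hy _
  have hW : 0 < ‖w‖ := norm_pos_iff.mpr (Tilt.coeff_ne_zero hy0 _)
  set f : ℕ → ℂ_[p] := fun i => (p : ℂ_[p]) ^ J * (((p : ℂ_[p]) ^ i)⁻¹ * w ^ p ^ (c + n * i))
  have hf : HasSum f (approxQ n (ellCoeff n c) y J) := (hasSum_ell hn c hw).mul_left _
  have hε : ‖approxQ n (ellCoeff n c) y J‖ ≤ Tilt.tau p ^ J * 1 := by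
    have hB : ∀ z : ℂ_[p], ‖z‖ < 1 → ‖(p : ℂ_[p]) * qev (ellCoeff n c) z -
        qev (ellCoeff n c) (z ^ p ^ n)‖ ≤ 1 := fun z hz => by
      rw [qev_ell_pow hn c hz, sub_sub_cancel, norm_mul, norm_pow]
      exact mul_le_one₀ norm_p_lt_one.le (by positivity) (pow_le_one₀ (norm_nonneg _) hz.le)
    have h' := norm_Qlim_sub_le hB hy J
    rwa [show Qlim n (ellCoeff n c) y = 0 from hG, zero_sub, norm_neg] at h'
  have hfJ : ‖f J‖ = ‖y‖ ^ p ^ c := by
    simp only [f]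
    rw [← mul_assoc, mul_inv_cancel₀ (pow_ne_zero _ natCast_ne_zero_Cp), one_mul, norm_pow,
      pow_add, mul_comm, pow_mul, hwdef, Tilt.norm_coeff_pow]
  obtain ⟨D, hD⟩ := eventually_atTop.mp ((tendsto_zero_iff_norm_tendsto_zero.mp
    hf.summable.tendsto_atTop_zero).eventually_lt_const
      (show 0 < ‖f J‖ by rw [hfJ]; exact pow_pos (norm_pos_iff.mpr hy0) _))
  obtain ⟨i₀, -, hi₀⟩ := (range (D + J + 1)).exists_max_image (fun i => ‖f i‖) ⟨0, by simp⟩
  set M := ‖f i₀‖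
  have hJM : ‖f J‖ ≤ M := hi₀ J (mem_range.mpr (by omega))
  have hmax : ∀ i, ‖f i‖ ≤ M := fun i => by
    rcases lt_or_ge i D with h | h
    · exact hi₀ i (mem_range.mpr (by omega))
    · exact (hD i h).le.trans hJM
  have hMJ : Tilt.tau p ^ J * 1 < M := hJ.trans_le (hfJ ▸ hJM)
  obtain ⟨i₁, hne, hi₁⟩ : ∃ i₁, i₁ ≠ i₀ ∧ ‖f i₁‖ = M := by
    by_contra h
    push Not at h
    have h1 := hf.sub (hasSum_ite_eq i₀ (f i₀))
    have hM0 : 0 < M := lt_of_le_of_lt (mul_nonneg (pow_nonneg (Tilt.tau_pos p).le _) zero_le_one)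
      hMJ
    obtain ⟨M', h0, hlt, hle⟩ := exists_bound_lt (h1.summable.tendsto_atTop_zero) hM0 fun i => by
      rcases eq_or_ne i i₀ with rfl | hi
      · simpa using hM0
      · rw [if_neg hi, sub_zero]; exact lt_of_le_of_ne (hmax i) (h i hi)
    have h2 := IsUltrametricDist.norm_add_eq_max_of_norm_ne_norm
      ((norm_le_of_hasSum h1 h0 hle).trans_lt hlt).ne
    rw [sub_add_cancel, max_eq_right ((norm_le_of_hasSum h1 h0 hle).trans hlt.le)] at h2
    exact (hε.trans_lt hMJ).ne h2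
  obtain ⟨a, b, hab, ha, hb⟩ : ∃ a b, a < b ∧ ‖f a‖ = M ∧ ‖f b‖ = M := by
    rcases lt_or_gt_of_ne hne with h | h
    · exact ⟨i₁, i₀, h, hi₁, rfl⟩
    · exact ⟨i₀, i₁, h, rfl, hi₁⟩
  set g : ℕ → ℝ := fun i => ‖w‖ ^ (p ^ (c + n * i) * (p ^ n - 1))
  have hrec : ∀ i, ‖f (i + 1)‖ = ‖f i‖ * (g i / Tilt.tau p) := fun i => by
    simp only [f, g]
    rw [norm_mul, norm_mul, norm_inv, norm_mul, norm_mul, norm_inv]
    simp only [norm_pow, ← Tilt.tau.eq_def]
    rw [show p ^ (c + n * (i + 1)) = p ^ (c + n * i) + p ^ (c + n * i) * (p ^ n - 1) by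
      rw [Nat.mul_sub_one, ← pow_add, Nat.add_sub_cancel' (Nat.pow_le_pow_right hp.1.pos
        (Nat.le_add_right _ _))]
      congr 1
      ring, pow_add ‖w‖, pow_succ (Tilt.tau p) i, mul_inv]
    ring
  have hQ : 0 < p ^ n - 1 := Nat.sub_pos_of_lt (one_lt_pow₀ hp.1.one_lt (by omega))
  have hganti : StrictAnti g := (pow_right_strictAnti₀ hW hw).comp_strictMono fun i j hij =>
    Nat.mul_lt_mul_of_pos_right (Nat.pow_lt_pow_right hp.1.one_lt
      (Nat.add_lt_add_left (Nat.mul_lt_mul_of_pos_left hij hn) c)) hQ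
  have ht := Tilt.tau_pos p
  have hMpos : 0 < M := lt_of_le_of_lt (mul_nonneg (pow_nonneg ht.le _) zero_le_one) hMJ
  have hga : g a ≤ Tilt.tau p := by
    have := hmax (a + 1)
    rw [hrec, ha] at this
    rw [← div_le_one ht]
    exact le_of_mul_le_mul_left (this.trans_eq (mul_one M).symm) hMpos
  refine ⟨a, le_antisymm hga (le_of_not_gt fun hlt => ?_)⟩
  have hdec : ∀ i, a + 1 ≤ i → ‖f i‖ < M := by
    intro i hi
    induction i, hi using Nat.le_induction with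
    | base =>
      rw [hrec, ha]
      exact mul_lt_of_lt_one_right hMpos ((div_lt_one ht).mpr hlt)
    | succ i hi ih =>
      rw [hrec]
      exact (mul_le_of_le_one_right (norm_nonneg _)
        ((div_le_one ht).mpr ((hganti.antitone (by omega : a ≤ i)).trans hga))).trans_lt ih
  exact (hdec b hab).ne hb

/-- For height at least two the first two periods have no common zero. -/
theorem eq_zero_of_Gper_eq_zero (hn : 2 ≤ n) {y : Tilt p} (hy : ‖y‖ < 1)
    (h : ∀ c < n, Gper n c y = 0) : y = 0 := by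
  by_contra hy0
  obtain ⟨J, ⟨i, hi⟩, ⟨i', hi'⟩⟩ :=
    ((exists_tie_of_Gper_eq_zero (by omega) hy hy0 (h 0 (by omega))).and
      (exists_tie_of_Gper_eq_zero (by omega) hy hy0 (h 1 (by omega)))).exists
  have hW : 0 < ‖y.coeff (n * J)‖ := norm_pos_iff.mpr (Tilt.coeff_ne_zero hy0 _)
  have h1 := (pow_right_strictAnti₀ hW (norm_coeff_lt_one hy _)).injective (hi.trans hi'.symm)
  have h2 := Nat.pow_right_injective hp.1.two_le (Nat.eq_of_mul_eq_mul_right
    (Nat.sub_pos_of_lt (one_lt_pow₀ hp.1.one_lt (by omega))) h1)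
  have h3 : n ∣ 1 := (Nat.dvd_add_left (dvd_mul_right n i')).mp ⟨i, by omega⟩
  have := Nat.le_of_dvd one_pos h3
  omega

/-- A point where no period vanishes. -/
theorem exists_Gper_ne_zero (hn : 1 ≤ n) :
    ∃ y : Tilt p, ‖y‖ < 1 ∧ ∀ c, Gper n c y ≠ 0 := by
  obtain ⟨y, hy⟩ := Tilt.exists_coeff ((p : ℂ_[p]) ^ (p + 1)) 0
  have hnorm : ‖y‖ = Tilt.tau p ^ (p + 1) := by rw [Tilt.norm_def, hy, norm_pow]; rfl
  have hy1 : ‖y‖ < 1 := hnorm ▸ pow_lt_one₀ (Tilt.tau_pos p).le (Tilt.tau_lt_one p) (by omega)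
  have hy0 : y ≠ 0 := norm_pos_iff.mp (hnorm ▸ pow_pos (Tilt.tau_pos p) _)
  refine ⟨y, hy1, fun c hc => ?_⟩
  obtain ⟨J, i, hi⟩ := (exists_tie_of_Gper_eq_zero hn hy1 hy0 hc).exists
  have h : (‖y.coeff (n * J)‖ ^ (p ^ (c + n * i) * (p ^ n - 1))) ^ p ^ (n * J) =
      Tilt.tau p ^ p ^ (n * J) := by rw [hi]
  rw [← pow_mul, mul_comm (p ^ (c + n * i) * (p ^ n - 1)), pow_mul, Tilt.norm_coeff_pow, hnorm,
    ← pow_mul] at h
  have h' := (pow_right_strictAnti₀ (Tilt.tau_pos p) (Tilt.tau_lt_one p)).injective h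
  obtain ⟨j, -, hj⟩ := (Nat.dvd_prime_pow hp.1).mp (Dvd.intro _ h')
  rcases j with _ | j
  · rw [pow_zero] at hj
    have := hp.1.two_le
    omega
  · have : p ∣ p + 1 := ⟨p ^ j, by rw [hj, pow_succ]; ring⟩
    rw [Nat.dvd_add_self_left] at this
    exact hp.1.not_dvd_one this

/-! ### Teichmüller roots -/

theorem eq_one_of_coeff_zero_eq_one {z : Tilt p} (hn : 1 ≤ n) (hz : z ^ p ^ n = z)
    (h : z.coeff 0 = 1) : z = 1 := by
  ext j
  have h1 : z.coeff (n * j) = 1 := by rw [coeff_eq_coeff_zero_of_fixed hz, h]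
  rw [Tilt.coeff_one, ← Tilt.coeff_pow_pow z j (n * j - j),
    Nat.add_sub_cancel' (Nat.le_mul_of_pos_left j hn), h1, one_pow]

/-- A generator of the `(p^n-1)`-th roots of unity in the tilt, with distinct Frobenius
conjugates downstairs. -/
theorem exists_gen (hn : 1 ≤ n) :
    ∃ g : Tilt p, g ^ p ^ n = g ∧ IsPrimitiveRoot g (p ^ n - 1) ∧
      Function.Injective fun c : Fin n => g.coeff 0 ^ p ^ (c : ℕ) := by
  have hQ : 1 < p ^ n := one_lt_pow₀ hp.1.one_lt (by omega)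
  have : NeZero ((p ^ n - 1 : ℕ) : Tilt p) := ⟨by
    rw [Nat.cast_sub hQ.le, Nat.cast_pow, CharP.cast_eq_zero, zero_pow (by omega), Nat.cast_one,
      zero_sub, neg_ne_zero]
    exact one_ne_zero⟩
  obtain ⟨g, hg⟩ := HasEnoughRootsOfUnity.exists_primitiveRoot (Tilt p) (p ^ n - 1)
  have hfix : g ^ p ^ n = g := by
    rw [← Nat.sub_add_cancel hQ.le, pow_succ, hg.pow_eq_one, one_mul]
  have hg0 : IsPrimitiveRoot (g.coeff 0) (p ^ n - 1) := by
    refine ⟨by rw [← Tilt.coeff_npow, hg.pow_eq_one, Tilt.coeff_one], fun l hl => hg.dvd_of_pow_eq_one l ?_⟩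
    refine eq_one_of_coeff_zero_eq_one hn ?_ (by rw [Tilt.coeff_npow, hl])
    rw [← pow_mul, mul_comm, pow_mul, hfix]
  refine ⟨g, hfix, hg, fun a b hab => ?_⟩
  rcases eq_or_lt_of_le hn with h1 | h2
  · exact Fin.ext (by omega)
  have hlt : ∀ c : Fin n, p ^ (c : ℕ) < p ^ n - 1 := fun c => by
    have h3 : p ^ (c : ℕ) * p ≤ p ^ n := by
      rw [← pow_succ]; exact Nat.pow_le_pow_right hp.1.pos c.2
    rcases Nat.eq_zero_or_pos (c : ℕ) with h | h
    · rw [h, pow_zero]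
      have : p ^ 2 ≤ p ^ n := Nat.pow_le_pow_right hp.1.pos h2
      have : 4 ≤ p ^ 2 := by nlinarith [hp.1.two_le]
      omega
    · have : 2 ≤ p ^ (c : ℕ) := hp.1.two_le.trans (Nat.le_self_pow h.ne' p)
      have : p ^ (c : ℕ) * 2 ≤ p ^ n := (Nat.mul_le_mul_left _ hp.1.two_le).trans h3
      omega
  exact Fin.ext (Nat.pow_right_injective hp.1.two_le (hg0.pow_inj (hlt a) (hlt b) hab))

/-- Independence of the characters `z ↦ z^(p^c)`, `c < n`. -/
theorem eq_zero_of_fixed_sums (hn : 1 ≤ n) {X : Fin n → ℂ_[p]}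
    (h : ∀ z : Tilt p, z ^ p ^ n = z → ∑ c : Fin n, z.coeff 0 ^ p ^ (c : ℕ) * X c = 0) : X = 0 := by
  obtain ⟨g, hg, -, hinj⟩ := exists_gen (p := p) hn
  refine Matrix.eq_zero_of_forall_pow_sum_mul_pow_eq_zero hinj fun s => ?_
  have := h (g ^ (s : ℕ)) (by rw [← pow_mul, mul_comm, pow_mul, hg])
  rw [← this]
  refine Finset.sum_congr rfl fun c _ => ?_
  rw [Tilt.coeff_npow, ← pow_mul, ← pow_mul, mul_comm (s : ℕ), mul_comm (X c)]

end Vale.Agent.P217
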