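import Vale.Agent.P217.Recover
import Vale.Agent.P217.Classify
import Vale.Agent.P217.TiltSource

/-!
# From points to the classification of primes

The reduction of the classification of primes stable near the identity to the two local
statements at points: vanishing of derivatives in `ℂ_[p]`, vanishing of the series point in the
tilt.
-/

noncomputable section

namespace Vale.Agent.P217

set_option linter.unusedSectionVars false

open Filter Topology MvPowerSeries

variable {p : ℕ} [hp : Fact p.Prime] {n : ℕ} {k : Type} [Field k] [CharP k p] [Finite k]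

/-- A point vanishing at the first `h` parameters kills the stratum ideal. -/
theorem map_eq_zero_of_mem_hIdeal {R : Type*} [CommRing R] (π : E0 p n k →+* R) {h : ℕ}
    (hker : ∀ i < h, π (uE p n k i) = 0) {f : E0 p n k} (hf : f ∈ hIdeal p n k h) : π f = 0 := by
  refine (Ideal.span_le.mpr ?_ : hIdeal p n k h ≤ RingHom.ker π) hf
  rintro _ ⟨i, hi, rfl⟩
  exact hker i hi

/-- A point of the stratum `h` has level `h`. -/
theorem level_of_point {L : Type*} [NormedField L] [IsUltrametricDist L] [CompleteSpace L]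
    {T : Type*} [CommRing T] [UniformSpace T] [IsUniformAddGroup T] [IsTopologicalRing T]
    [CompleteSpace T] [T2Space T] [IsLinearTopology T T] {S : Source p n k T}
    {E : Target S (unitBall L)} {F : FormalGroup (E0 p n k)} (hF : IsHazewinkel p n k F)
    {π : E0 p n k →+* unitBall L} {h : ℕ} (hh : h ≤ n)
    (hker : ∀ i < h, π (uE p n k i) = 0) (hu : π (uE p n k h) ≠ 0)
    (hJ : ∃ a : unitBall L, (a : L) ≠ 0 ∧ ‖(a : L)‖ < 1 ∧ E.J = Ideal.span {a}) :
    Level E F π h where
  le := hh
  char h0 := by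
    have := hker 0 (Nat.pos_of_ne_zero h0)
    rwa [uE_zero, map_natCast] at this
  div j hj := map_eq_zero_of_mem_hIdeal π hker (coeff_mulSeries_mem_hIdeal p n k hF hh hj)
  lin := by
    have := map_eq_zero_of_mem_hIdeal π hker (coeff_mulSeries_sub_uE_mem p n k hF hh)
    rw [map_sub, sub_eq_zero] at this
    rwa [this]
  principal := hJ

/-- The variables above the stratum `h`. -/
def upperIndex (h : ℕ) (hh1 : 1 ≤ h) (hhn : h ≤ n) (s : Fin (n - h)) : Fin (n - 1) :=
  ⟨(s : ℕ) + (h - 1), by omega⟩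

theorem upperIndex_injective {h : ℕ} (hh1 : 1 ≤ h) (hhn : h ≤ n) :
    Function.Injective (upperIndex (n := n) h hh1 hhn) := fun a b hab => by
  have := congrArg Fin.val hab
  simp only [upperIndex] at this
  exact Fin.ext (by omega)

theorem mem_range_upperIndex {h : ℕ} (hh1 : 1 ≤ h) (hhn : h ≤ n) (i : Fin (n - 1)) :
    i ∈ Set.range (upperIndex (n := n) h hh1 hhn) ↔ h ≤ (i : ℕ) + 1 := by
  constructor
  · rintro ⟨s, rfl⟩
    simp only [upperIndex]
    omega
  · intro hi
    exact ⟨⟨(i : ℕ) - (h - 1), by omega⟩, Fin.ext (by simp only [upperIndex]; omega)⟩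

variable {F : FormalGroup (E0 p n k)}

/-- The classification from the two local statements. -/
theorem prime_classification_of
    (hMixed : ∀ (π : E0 p n k →+* unitBall ℂ_[p]) (hX : ∀ i, IsTopologicallyNilpotent (π (X i))),
      (∀ f, res p n k f = 0 → ‖(π f : ℂ_[p])‖ < 1) → ∀ (f : E0 p n k) (N : ℕ),
      (∀ g α, IsAut g (special p n k F) → IsMarkingChange p n k F g α →
        g - PowerSeries.X ∈ cI (⊥ : Ideal k) N → π (α f) = 0) →
      ∀ i : Fin (n - 1), coeff (Finsupp.single i 1) (shiftPoint π id hX f) = 0)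
    (hTilt : ∀ (h : ℕ) (hh1 : 1 ≤ h) (hhn : h < n) (π : E0 p n k →+* unitBall (Tilt p))
      (hX : ∀ i, IsTopologicallyNilpotent (π (X i))),
      (∀ f, res p n k f = 0 → ‖(π f : Tilt p)‖ < 1) → (∀ i < h, π (uE p n k i) = 0) →
      π (uE p n k h) ≠ 0 → ∀ (f : E0 p n k) (N : ℕ),
      (∀ g α, IsAut g (special p n k F) → IsMarkingChange p n k F g α →
        g - PowerSeries.X ∈ cI (⊥ : Ideal k) N → π (α f) = 0) →
      shiftPoint π (upperIndex h hh1 hhn.le) hX f = 0)
    (hn : 1 ≤ n) (P : Ideal (E0 p n k)) (hP : P.IsPrime) (hS : StableNear F P) :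
    ∃ h ≤ n, P = hIdeal p n k h := by
  classical
  by_cases hex : ∃ i, i < n ∧ uE p n k i ∉ P
  swap
  · push Not at hex
    refine ⟨n, le_rfl, ?_⟩
    have hle : hIdeal p n k n ≤ P := by
      refine Ideal.span_le.mpr ?_
      rintro _ ⟨i, hi, rfl⟩
      exact hex i hi
    have hmax : (hIdeal p n k n).IsMaximal := by
      rw [hIdeal_top_eq_ker_res p n k hn]
      exact RingHom.ker_isMaximal_of_surjective _ (res_surjective p n k)
    exact (hmax.eq_of_le hP.ne_top hle).symm
  obtain ⟨hhn, hu⟩ := Nat.find_spec hex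
  set h := Nat.find hex
  have hlow : ∀ i < h, uE p n k i ∈ P := fun i hi => by
    by_contra hni
    exact Nat.find_min hex hi ⟨hi.trans hhn, hni⟩
  refine ⟨h, hhn.le, le_antisymm (fun f hf => ?_) (Ideal.span_le.mpr ?_)⟩
  swap
  · rintro _ ⟨i, hi, rfl⟩
    exact hlow i hi
  obtain ⟨N, hN⟩ := hS
  rcases Nat.eq_zero_or_pos h with h0 | hpos
  · rw [h0] at hu
    rw [uE_zero] at hu
    rw [h0, hIdeal_zero, Ideal.mem_bot]
    obtain ⟨π₀, hπ₀P, hπ₀⟩ := exists_point_zero hu
    have hX : ∀ π : E0 p n k →+* unitBall ℂ_[p],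
        (∀ f, res p n k f = 0 → ‖(π f : ℂ_[p])‖ < 1) →
          ∀ i, IsTopologicallyNilpotent (π (X i)) := fun π hπ i =>
      isTopologicallyNilpotent_ball.mpr (hπ _ (res_X p n k i))
    refine eq_zero_of_pderiv_closed (J := {g : E0 p n k | ∀ π : E0 p n k →+* unitBall ℂ_[p],
        (∀ f ∈ P, π f = 0) → (∀ f, res p n k f = 0 → ‖(π f : ℂ_[p])‖ < 1) → π g = 0})
      (hX π₀ hπ₀) (fun g hg => hg π₀ hπ₀P hπ₀) (fun g hg s π hπP hπ => ?_)
      (fun π hπP _ => hπP f hf)
    have hd := hMixed π (hX π hπ) hπ g N (fun g' α hg' hα hgN =>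
      hg (π.comp α.toRingHom) (fun x hx => hπP _ (hN g' α hg' hα hgN x hx))
        (fun x hx => hπ _ (by rw [AlgHom.toRingHom_eq_coe]; exact (algHom_res isBase_res α x).trans hx))) s
    have h1 := congrArg (coeff 0) (pderiv_shiftPoint (hX' := hX π hπ) s g)
    rw [coeff_pderiv, zero_add, hd, zero_mul, coeff_zero_eq_constantCoeff_apply] at h1
    rw [← RingHom.congr_fun (constantCoeff_shiftPoint (π := π) (ι := id) (hX := hX π hπ))]
    exact h1.symm
  · have hpP : (p : E0 p n k) ∈ P := by rw [← uE_zero p n k]; exact hlow 0 hpos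
    obtain ⟨π, hπP, hπ, hπu⟩ := exists_point_pos hpos hhn hpP hu
    have hker : ∀ i < h, π (uE p n k i) = 0 := fun i hi => hπP _ (hlow i hi)
    refine mem_hIdeal_of_shiftPoint_eq_zero (π := π) (ι := upperIndex h hpos hhn.le)
      (hX := fun i => isTopologicallyNilpotent_ball.mpr (hπ _ (res_X p n k i)))
      (upperIndex_injective hpos hhn.le) hpos hhn.le (fun i hi => ?_)
      (mem_range_upperIndex hpos hhn.le)
      (hTilt h hpos hhn π _ hπ hker hπu f N fun g α hg hα hgN => hπP _ (hN g α hg hα hgN f hf))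
    have := hker ((i : ℕ) + 1) hi
    rwa [uE_var p n k (by omega) (by omega : (i : ℕ) + 1 - 1 < n - 1)] at this

end Vale.Agent.P217
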