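import Vale.Agent.P217.ShiftPoint
import Mathlib.RingTheory.MvPowerSeries.Derivative

/-!
# Recovering an element from its expansion at a point

An element whose series point vanishes lies in the stratum ideal.
-/

noncomputable section

namespace Vale.Agent.P217

set_option linter.unusedSectionVars false

open Filter Topology MvPowerSeries MvPowerSeries.WithPiTopology

variable {p : ℕ} [Fact p.Prime] {n : ℕ} {k : Type} [Field k] [CharP k p] [Finite k]
variable {L : Type*} [NormedField L] [IsUltrametricDist L] [CompleteSpace L]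
variable {σ : Type*} [Fintype σ] {π : E0 p n k →+* unitBall L} {ι : σ → Fin (n - 1)}
  {hX : ∀ i, IsTopologicallyNilpotent (π (X i))}

/-- Substitution into series over the unit ball is continuous. -/
theorem continuous_evHom_C {c : σ → MvPowerSeries σ (unitBall L)} (hc : HasEval c) :
    Continuous (evHom (C : unitBall L →+* MvPowerSeries σ (unitBall L)) hc) := by
  have hC : Continuous (C : unitBall L →+* MvPowerSeries σ (unitBall L)) :=
    MvPowerSeries.WithPiTopology.continuous_C
  have h : ⇑(evHom (C : unitBall L →+* MvPowerSeries σ (unitBall L)) hc) =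
      MvPowerSeries.eval₂ (C : unitBall L →+* MvPowerSeries σ (unitBall L)) c :=
    funext fun g => (evHom_apply hc g).trans
      ((hasSum_ev hc g).unique (MvPowerSeries.hasSum_eval₂ hC hc g))
  rw [h]
  exact MvPowerSeries.continuous_eval₂ hC hc

open Classical in
/-- The variables placed at the indices `ι`. -/
def placeCoord (L : Type*) [NormedField L] [IsUltrametricDist L] (ι : σ → Fin (n - 1))
    (i : Fin (n - 1)) : MvPowerSeries σ (unitBall L) :=
  ∑ s, if ι s = i then X s else 0

theorem hasEval_placeCoord (ι : σ → Fin (n - 1)) : HasEval (placeCoord L ι) := by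
  classical
  exact hasEval_of_finite fun i =>
    MvPowerSeries.LinearTopology.isTopologicallyNilpotent_of_constantCoeff (by
      simp [placeCoord, map_sum, apply_ite (constantCoeff (σ := σ) (R := unitBall L)),
        IsTopologicallyNilpotent.zero])

theorem placeCoord_apply (hι : Function.Injective ι) (s : σ) :
    placeCoord L ι (ι s) = X s := by
  classical
  rw [placeCoord, Finset.sum_eq_single s (fun t _ ht => by rw [if_neg (hι.ne ht)]) (by simp),
    if_pos rfl]

theorem placeCoord_of_notMem {i : Fin (n - 1)} (hi : i ∉ Set.range ι) :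
    placeCoord L ι i = 0 := by
  classical
  exact Finset.sum_eq_zero fun t _ => if_neg fun e => hi ⟨t, e⟩

/-- The series point moved to the origin. -/
theorem ev_shiftPoint_origin (hι : Function.Injective ι)
    (hker : ∀ i, i ∉ Set.range ι → π (X i) = 0)
    {c : σ → MvPowerSeries σ (unitBall L)} (hc : HasEval c)
    (hcs : ∀ s, c s = X s - C (π (X (ι s)))) (f : E0 p n k) :
    evHom (C : unitBall L →+* _) hc (shiftPoint π ι hX f) =
      ev ((C : unitBall L →+* _).comp (π.comp C)) (placeCoord L ι) f := by
  classical
  have h1 : (evHom (C : unitBall L →+* MvPowerSeries σ (unitBall L)) hc).comp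
      ((C : unitBall L →+* MvPowerSeries σ (unitBall L)).comp (π.comp C)) =
      (C : unitBall L →+* MvPowerSeries σ (unitBall L)).comp (π.comp C) :=
    RingHom.ext fun w => by simp only [RingHom.comp_apply, evHom_apply, ev_C]
  rw [shiftPoint, evHom_apply (hasEval_shiftCoord π ι hX),
    map_ev _ (continuous_evHom_C hc) (hasEval_shiftCoord π ι hX), h1]
  congr 1
  funext i
  rw [shiftCoord, map_add, map_sum, evHom_apply, ev_C]
  by_cases hi : i ∈ Set.range ι
  · obtain ⟨s, rfl⟩ := hi
    rw [Finset.sum_eq_single s (fun t _ ht => by rw [if_neg (hι.ne ht), map_zero])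
      (by simp), if_pos rfl, evHom_apply, ev_X, placeCoord_apply hι, hcs]
    exact add_sub_cancel _ _
  · rw [hker i hi, map_zero, zero_add, placeCoord_of_notMem hi]
    refine Finset.sum_eq_zero fun t _ => ?_
    rw [if_neg fun e => hi ⟨t, e⟩, map_zero]

theorem coeff_prod_placeCoord (hι : Function.Injective ι) {d : Fin (n - 1) →₀ ℕ}
    (hd : ∀ i, i ∉ Set.range ι → d i = 0) (d' : Fin (n - 1) →₀ ℕ) :
    coeff (Finsupp.equivFunOnFinite.symm fun s => d (ι s))
      (d'.prod fun i j => placeCoord L ι i ^ j) = if d' = d then 1 else 0 := by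
  classical
  by_cases hd' : ∀ i, i ∉ Set.range ι → d' i = 0
  · have hprod : (d'.prod fun i j => placeCoord L ι i ^ j) =
        monomial (Finsupp.equivFunOnFinite.symm fun s => d' (ι s)) (1 : unitBall L) := by
      rw [Finsupp.prod_fintype _ _ (fun _ => pow_zero _),
        ← Finset.prod_subset (Finset.subset_univ (Finset.univ.image ι)) (fun i _ hi => by
          rw [hd' i (fun h => hi (by obtain ⟨s, rfl⟩ := h; simp)), pow_zero]),
        Finset.prod_image (fun a _ b _ hab => hι hab)]
      simp only [placeCoord_apply hι, X_pow_eq, MvPowerSeries.prod_monomial]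
      rw [Finset.prod_const_one]
      congr 2
      exact Finsupp.univ_sum_single (Finsupp.equivFunOnFinite.symm fun s => d' (ι s))
    rw [hprod, coeff_monomial]
    refine if_congr ⟨fun h => Finsupp.ext fun i => ?_, fun h => by rw [h]⟩ rfl rfl
    by_cases hi : i ∈ Set.range ι
    · obtain ⟨s, rfl⟩ := hi
      exact (DFunLike.congr_fun h s).symm
    · rw [hd i hi, hd' i hi]
  · push Not at hd'
    obtain ⟨i, hi, hi0⟩ := hd'
    rw [Finsupp.prod, Finset.prod_eq_zero (Finsupp.mem_support_iff.mpr hi0)
      (by rw [placeCoord_of_notMem hi, zero_pow hi0]), map_zero, if_neg]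
    rintro rfl
    exact hi0 (hd i hi)

/-- Re-expansion of a vanishing series point at the origin. -/
theorem map_coeff_eq_zero_of_shiftPoint (hι : Function.Injective ι) {f : E0 p n k}
    (hker : ∀ i, i ∉ Set.range ι → π (X i) = 0) (hf : shiftPoint π ι hX f = 0)
    (d : Fin (n - 1) →₀ ℕ) (hd : ∀ i, i ∉ Set.range ι → d i = 0) :
    π (C (coeff d f)) = 0 := by
  classical
  let c : σ → MvPowerSeries σ (unitBall L) := fun s => X s - C (π (X (ι s)))
  have hc : HasEval c := hasEval_of_finite fun s =>
    MvPowerSeries.LinearTopology.isTopologicallyNilpotent_of_constantCoeff (by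
      simp only [c, map_sub, constantCoeff_X, constantCoeff_C, zero_sub]
      rw [isTopologicallyNilpotent_ball, Subring.coe_neg, norm_neg]
      exact isTopologicallyNilpotent_ball.1 (hX (ι s)))
  have hcomp := ev_shiftPoint_origin (hX := hX) hι hker hc (fun s => rfl) f
  rw [hf, map_zero] at hcomp
  have hs := hasSum_ev (φ := (C : unitBall L →+* MvPowerSeries σ (unitBall L)).comp (π.comp C))
    (hasEval_placeCoord ι) f
  rw [← hcomp] at hs
  set e : σ →₀ ℕ := Finsupp.equivFunOnFinite.symm fun s => d (ι s) with he
  have hsum := hs.map (coeff (R := unitBall L) e) (continuous_coeff _ e)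
  rw [map_zero] at hsum
  have h2 : HasSum (fun d' => if d' = d then π (C (coeff d f)) else 0) (0 : unitBall L) := by
    refine hsum.congr_fun fun d' => ?_
    simp only [Function.comp_apply, RingHom.comp_apply, coeff_C_mul, he,
      coeff_prod_placeCoord hι hd d']
    split_ifs with h
    · rw [h, mul_one]
    · rw [mul_zero]
  exact (hasSum_ite_eq d (π (C (coeff d f)))).unique h2

/-- A point with nonzero `p` is injective on the constants. -/
theorem witt_eq_zero_of_map_eq_zero (hp : (p : unitBall L) ≠ 0) {w : WittVector p k}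
    (hw : π (C w) = 0) : w = 0 := by
  by_contra h
  obtain ⟨m, b, hb, rfl⟩ := WittVector.exists_eq_pow_p_mul w h
  have hu : IsUnit (π (C b)) := ((WittVector.isUnit_of_coeff_zero_ne_zero b hb).map C).map π
  rw [map_mul, map_mul, map_pow, map_pow, map_natCast, map_natCast, mul_eq_zero] at hw
  rcases hw with hw | hw
  · exact hp (eq_zero_of_pow_eq_zero hw)
  · exact hu.ne_zero hw

/-- A point kills only multiples of `p` among the constants. -/
theorem p_dvd_of_map_eq_zero {w : WittVector p k} (hw : π (C w) = 0) :
    (p : WittVector p k) ∣ w := by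
  rw [← Ideal.mem_span_singleton, WittVector.mem_span_p_iff_coeff_zero_eq_zero]
  by_contra h
  exact (((WittVector.isUnit_of_coeff_zero_ne_zero w h).map C).map π).ne_zero hw

/-- An element with vanishing series point lies in the stratum ideal. -/
theorem mem_hIdeal_of_shiftPoint_eq_zero (hι : Function.Injective ι) {h : ℕ} (h1 : 1 ≤ h)
    (hh : h ≤ n) (hker : ∀ i : Fin (n - 1), (i : ℕ) + 1 < h → π (X i) = 0)
    (hrange : ∀ i, i ∈ Set.range ι ↔ h ≤ (i : ℕ) + 1) {f : E0 p n k}
    (hf : shiftPoint π ι hX f = 0) : f ∈ hIdeal p n k h := by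
  classical
  rw [mem_hIdeal_iff p n k h1 hh]
  have hout : ∀ i, i ∉ Set.range ι → (i : ℕ) + 1 < h := fun i hi => by
    rw [hrange] at hi
    omega
  have hdvd : ∀ d, (p : WittVector p k) ∣ coeff d (kill p n k h f) := fun d => by
    rw [coeff_kill]
    split_ifs with hd
    · exact p_dvd_of_map_eq_zero (map_coeff_eq_zero_of_shiftPoint hι
        (fun i hi => hker i (hout i hi)) hf d fun i hi => hd i (hout i hi))
    · exact dvd_zero _
  choose g hg using hdvd
  refine ⟨(fun d => g d : E0 p n k), ?_⟩
  ext1 d
  rw [← map_natCast (C : WittVector p k →+* E0 p n k)]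
  exact (hg d).trans (coeff_C_mul d (fun d => g d : E0 p n k) (p : WittVector p k)).symm

section Taylor

variable {hX' : ∀ i, IsTopologicallyNilpotent (π (X i))}

/-- The series point commutes with the partial derivatives. -/
theorem pderiv_shiftPoint (s : Fin (n - 1)) (f : E0 p n k) :
    pderiv (unitBall L) s (shiftPoint π id hX' f) =
      shiftPoint π id hX' (pderiv (WittVector p k) s f) := by
  classical
  obtain ⟨r, hr0, hr1, hrX⟩ : ∃ r : ℝ, 0 ≤ r ∧ r < 1 ∧
      ∀ i, ‖(π (X i) : L)‖ ≤ r := by
    rcases isEmpty_or_nonempty (Fin (n - 1)) with h | h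
    · exact ⟨0, le_rfl, one_pos, fun i => isEmptyElim i⟩
    · obtain ⟨i₀, hi₀⟩ := Finite.exists_max fun i => ‖(π (X i) : L)‖
      exact ⟨_, norm_nonneg _, isTopologicallyNilpotent_ball.1 (hX' i₀), hi₀⟩
  have hcoord : ∀ i : Fin (n - 1), shiftCoord π id i = C (π (X i)) + X i := fun i => by
    simp [shiftCoord, id]
  set Er : E0 p n k → MvPowerSeries (Fin (n - 1)) (unitBall L) := fun g =>
    pderiv (unitBall L) s (shiftPoint π id hX' g) -
      shiftPoint π id hX' (pderiv (WittVector p k) s g) with hEr
  have hrec : ∀ g, Er g = ∑ i, (C (π (X i)) + X i) * Er (divX i g) := fun g => by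
    simp only [hEr]
    conv_lhs => rw [E0_decomp g]
    simp only [map_add, map_sum, map_mul, Derivation.leibniz, smul_eq_mul, shiftPoint_C,
      shiftPoint_X, hcoord, pderiv_C, zero_add, pderiv_X]
    rw [← Finset.sum_sub_distrib]
    refine Finset.sum_congr rfl fun i _ => ?_
    rcases eq_or_ne s i with rfl | hne
    · simp only [Pi.single_eq_same, map_one]
      ring
    · simp only [Pi.single_eq_of_ne (Ne.symm hne), map_zero]
      ring
  have key : ∀ N d g, ‖((coeff d (Er g) : unitBall L) : L)‖ ≤ r ^ (N - Finsupp.degree d) := by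
    intro N
    induction N with
    | zero => intro d g; simpa using norm_coe_le_one (coeff d (Er g))
    | succ N ih =>
      intro d g
      rw [hrec g, map_sum, AddSubmonoidClass.coe_finsetSum]
      refine IsUltrametricDist.norm_sum_le_of_forall_le_of_nonneg (pow_nonneg hr0 _) fun i _ => ?_
      rw [add_mul, map_add, coeff_C_mul, Subring.coe_add, Subring.coe_mul]
      refine (IsUltrametricDist.norm_add_le_max _ _).trans (max_le ?_ ?_)
      · rw [norm_mul]
        refine (mul_le_mul (hrX i) (ih d _) (norm_nonneg _) hr0).trans ?_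
        rw [← pow_succ']
        exact pow_le_pow_of_le_one hr0 hr1.le (by omega)
      · rw [X_def, coeff_monomial_mul]
        split_ifs with hle
        · rw [one_mul]
          refine (ih _ _).trans (pow_le_pow_of_le_one hr0 hr1.le ?_)
          have := congrArg Finsupp.degree (tsub_add_cancel_of_le hle)
          rw [map_add, Finsupp.degree_single] at this
          omega
        · simp [pow_nonneg hr0]
  ext1 d
  have hlim := (tendsto_pow_atTop_nhds_zero_of_lt_one hr0 hr1).comp
    (tendsto_sub_atTop_nat (Finsupp.degree d))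
  have := norm_le_zero_iff.1 (ge_of_tendsto' hlim fun N => key N d f)
  rw [map_sub] at *
  exact Subtype.ext (by simpa [hEr, sub_eq_zero] using this)

/-- In characteristic zero, an ideal closed under derivatives which vanishes at a point is
zero. -/
theorem eq_zero_of_pderiv_closed [CharZero L] {J : Set (E0 p n k)} (hX : ∀ i,
    IsTopologicallyNilpotent (π (X i))) (hJ : ∀ f ∈ J, π f = 0)
    (hD : ∀ f ∈ J, ∀ s, pderiv (WittVector p k) s f ∈ J) {f : E0 p n k} (hf : f ∈ J) :
    f = 0 := by
  classical
  have key : ∀ N, ∀ d : Fin (n - 1) →₀ ℕ, Finsupp.degree d = N → ∀ g ∈ J,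
      coeff d (shiftPoint π id hX g) = 0 := by
    intro N
    induction N with
    | zero =>
      intro d hd g hg
      rw [(Finsupp.degree_eq_zero_iff d).mp hd, coeff_zero_eq_constantCoeff_apply]
      exact (RingHom.congr_fun (constantCoeff_shiftPoint (π := π) (ι := id) (hX := hX)) g).trans (hJ g hg)
    | succ N ih =>
      intro d hd g hg
      obtain ⟨s, hs⟩ := Finsupp.support_nonempty_iff.mpr (show d ≠ 0 by rintro rfl; simp at hd)
      have hle : Finsupp.single s 1 ≤ d := by
        simpa using Nat.one_le_iff_ne_zero.mpr (Finsupp.mem_support_iff.mp hs)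
      have he := tsub_add_cancel_of_le hle
      have hdeg : Finsupp.degree (d - Finsupp.single s 1) = N := by
        have := congrArg Finsupp.degree he
        rw [map_add, Finsupp.degree_single, hd] at this
        omega
      have h := congrArg (coeff (d - Finsupp.single s 1)) (pderiv_shiftPoint (hX' := hX) s g)
      rw [ih _ hdeg _ (hD g hg s), coeff_pderiv, he, mul_eq_zero] at h
      refine h.resolve_right fun h0 => ?_
      have h1 : ((((d - Finsupp.single s 1 : Fin (n - 1) →₀ ℕ) s + 1 : ℕ) : unitBall L) : L) = 0 := by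
        rw [Nat.cast_add, Nat.cast_one, h0]
        rfl
      rw [Subring.coe_natCast, Nat.cast_eq_zero] at h1
      omega
  have h0 : shiftPoint π id hX f = 0 := MvPowerSeries.ext fun d => by
    rw [key _ d rfl f hf, map_zero]
  have hp : (p : unitBall L) ≠ 0 := fun h => by
    have h1 := congrArg Subtype.val h
    rw [Subring.coe_natCast, Subring.coe_zero, Nat.cast_eq_zero] at h1
    exact (Fact.out : p.Prime).ne_zero h1
  ext1 d
  rw [map_zero]
  exact witt_eq_zero_of_map_eq_zero hp (map_coeff_eq_zero_of_shiftPoint Function.injective_id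
    (fun i hi => absurd ⟨i, rfl⟩ hi) h0 d fun i hi => absurd ⟨i, rfl⟩ hi)

end Taylor

end Vale.Agent.P217
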