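import Vale.Agent.P217.PointSetup
import Mathlib.RingTheory.MvPowerSeries.LinearTopology
import Mathlib.Data.Finsupp.Weight

/-!
# The series ring over the target, as a target of `theta`

For a finite index type `σ` the product topology of `O[[σ]]` is the adic topology of
`serJ J = (J, X)`. A point `π'` over the series ring is compatible as soon as its constant
coefficient is a compatible point.
-/

noncomputable section

namespace Vale.Agent.P217

set_option linter.unusedSectionVars false

open Filter Topology MvPowerSeries MvPowerSeries.WithPiTopology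

variable {O : Type*} [CommRing O] [UniformSpace O] [IsUniformAddGroup O] [IsTopologicalRing O]
  [CompleteSpace O] [T2Space O] [IsLinearTopology O O]
variable {σ : Type*}

/-- The ideal `(J, X)`. -/
def serJ (J : Ideal O) : Ideal (MvPowerSeries σ O) :=
  J.map MvPowerSeries.C ⊔ Ideal.span (Set.range fun s => (X s : MvPowerSeries σ O))

theorem C_mem_serJ_pow {J : Ideal O} {c : O} {m : ℕ} (hc : c ∈ J ^ m) :
    (C c : MvPowerSeries σ O) ∈ serJ J ^ m :=
  Ideal.pow_right_mono le_sup_left m (Ideal.map_pow C J m ▸ Ideal.mem_map_of_mem C hc)

/-- A series without terms of degree `< m` lies in the `m`-th power of `(X)`. -/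
theorem mem_span_X_pow [Finite σ] {f : MvPowerSeries σ O} {m : ℕ}
    (hf : ∀ d, Finsupp.degree d < m → coeff d f = 0) :
    f ∈ Ideal.span (Set.range fun s => (X s : MvPowerSeries σ O)) ^ m := by
  classical
  induction m generalizing f with
  | zero => simp
  | succ m ih =>
    have := Fintype.ofFinite σ
    let f' : σ → MvPowerSeries σ O := fun s e =>
      if h : (e + Finsupp.single s 1).support.Nonempty then
        (if h.choose = s then coeff (e + Finsupp.single s 1) f else 0) else 0
    have hf' : ∀ s e, coeff e (f' s) =
        if h : (e + Finsupp.single s 1).support.Nonempty then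
          (if h.choose = s then coeff (e + Finsupp.single s 1) f else 0) else 0 := fun _ _ => rfl
    have hsum : f = ∑ s, X s * f' s := by
      ext d
      rw [map_sum]
      rcases eq_or_ne d 0 with rfl | hd
      · rw [hf 0 (by simp)]
        exact (Finset.sum_eq_zero fun s _ => by simp).symm
      have hne : d.support.Nonempty := Finsupp.support_nonempty_iff.mpr hd
      rw [Finset.sum_eq_single hne.choose]
      · have hle : Finsupp.single hne.choose 1 ≤ d := by
          rw [Finsupp.single_le_iff]
          exact Nat.one_le_iff_ne_zero.mpr (Finsupp.mem_support_iff.mp hne.choose_spec)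
        rw [X, coeff_monomial_mul, if_pos hle, one_mul, hf']
        have he : d - Finsupp.single hne.choose 1 + Finsupp.single hne.choose 1 = d :=
          tsub_add_cancel_of_le hle
        have h2 : (d - Finsupp.single hne.choose 1 +
            Finsupp.single hne.choose 1).support.Nonempty := by rwa [he]
        rw [dif_pos h2, if_pos (by congr 1; rw [he]), he]
      · intro s _ hs
        rw [X, coeff_monomial_mul]
        split_ifs with hle
        · have he : d - Finsupp.single s 1 + Finsupp.single s 1 = d := tsub_add_cancel_of_le hle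
          have h2 : (d - Finsupp.single s 1 + Finsupp.single s 1).support.Nonempty := by rwa [he]
          rw [one_mul, hf', dif_pos h2, if_neg]
          intro h
          apply hs
          rw [← h]
          congr 1
          rw [he]
        · rfl
      · simp
    rw [hsum]
    refine Ideal.sum_mem _ fun s _ => ?_
    rw [pow_succ']
    refine Ideal.mul_mem_mul (Ideal.subset_span ⟨s, rfl⟩) (ih fun d hd => ?_)
    rw [hf']
    split_ifs
    · exact hf _ (by rw [map_add, Finsupp.degree_single]; omega)
    all_goals rfl

/-- Membership in powers of `(J, X)` from bounds on the coefficients. -/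
theorem mem_serJ_pow [Finite σ] {J : Ideal O} {f : MvPowerSeries σ O} {m : ℕ}
    (hf : ∀ d, Finsupp.degree d < m → coeff d f ∈ J ^ (m - Finsupp.degree d)) :
    f ∈ serJ J ^ m := by
  classical
  let D := (Finsupp.finite_of_degree_le (σ := σ) m).toFinset.filter (Finsupp.degree · < m)
  let P := ∑ d ∈ D, C (coeff d f) * monomial d 1
  have hmem : ∀ d, d ∈ D ↔ Finsupp.degree d < m := fun d => by
    simp only [D, Finset.mem_filter, Set.Finite.mem_toFinset, Set.mem_ofPred_eq]
    exact ⟨fun h => h.2, fun h => ⟨h.le, h⟩⟩
  have h1 : P ∈ serJ J ^ m := by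
    refine Ideal.sum_mem _ fun d hd => ?_
    have hlt := (hmem d).mp hd
    have hX : (monomial d (1 : O) : MvPowerSeries σ O) ∈ serJ J ^ Finsupp.degree d :=
      Ideal.pow_right_mono le_sup_right _ <| mem_span_X_pow fun e he => by
        rw [coeff_monomial, if_neg]
        rintro rfl
        exact lt_irrefl _ he
    have := Ideal.mul_mem_mul (C_mem_serJ_pow (σ := σ) (hf d hlt)) hX
    rwa [← pow_add, Nat.sub_add_cancel hlt.le] at this
  have h2 : f - P ∈ serJ J ^ m := by
    refine Ideal.pow_right_mono le_sup_right _ <| mem_span_X_pow fun e he => ?_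
    simp only [P, map_sub, map_sum, coeff_C_mul, coeff_monomial, mul_ite, mul_one, mul_zero,
      Finset.sum_ite_eq, hmem, if_pos he, sub_self]
  simpa using (serJ J ^ m).add_mem h1 h2

/-- Coefficients of elements of powers of `(J, X)`. -/
theorem coeff_mem_of_mem_serJ_pow {J : Ideal O} {f : MvPowerSeries σ O} {m : ℕ}
    (hf : f ∈ serJ J ^ m) (d : σ →₀ ℕ) : coeff d f ∈ J ^ (m - Finsupp.degree d) := by
  classical
  induction m generalizing f d with
  | zero => simp
  | succ m ih =>
    rw [pow_succ'] at hf
    refine Submodule.mul_induction_on hf (fun a ha b hb => ?_) (fun a b ha hb => ?_)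
    · rw [coeff_mul]
      refine Ideal.sum_mem _ fun x hx => ?_
      rw [Finset.mem_antidiagonal] at hx
      have hdeg : Finsupp.degree x.1 + Finsupp.degree x.2 = Finsupp.degree d := by
        rw [← map_add, hx]
      have ha' : coeff x.1 a ∈ J ^ (1 - Finsupp.degree x.1) := by
        rcases Nat.eq_zero_or_pos (Finsupp.degree x.1) with h0 | h0
        · rw [h0, tsub_zero, pow_one, (Finsupp.degree_eq_zero_iff _).mp h0, coeff_zero_eq_constantCoeff]
          have : serJ (σ := σ) J ≤ J.comap constantCoeff := by
            refine sup_le (Ideal.map_le_iff_le_comap.mpr fun c hc => ?_) (Ideal.span_le.mpr ?_)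
            · simpa using hc
            · rintro _ ⟨s, rfl⟩
              simp
          exact this ha
        · rw [Nat.sub_eq_zero_of_le h0]
          simp
      have hb' := ih hb x.2
      have := Ideal.mul_mem_mul ha' hb'
      rw [← pow_add] at this
      exact Ideal.pow_le_pow_right (by omega) this
    · rw [map_add]
      exact Ideal.add_mem _ ha hb

theorem mem_serJ_iff [Finite σ] {J : Ideal O} {f : MvPowerSeries σ O} :
    f ∈ serJ J ↔ constantCoeff f ∈ J := by
  rw [← pow_one (serJ J)]
  constructor
  · intro h
    simpa [coeff_zero_eq_constantCoeff] using coeff_mem_of_mem_serJ_pow h 0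
  · intro h
    refine mem_serJ_pow fun d hd => ?_
    rw [Nat.lt_one_iff, Finsupp.degree_eq_zero_iff] at hd
    subst hd
    simpa [coeff_zero_eq_constantCoeff] using h

theorem isAdic_serJ [Finite σ] {J : Ideal O} (hJ : IsAdic J) :
    IsAdic (serJ (σ := σ) J) := by
  classical
  rw [isAdic_iff]
  constructor
  · intro m
    refine (serJ (σ := σ) J ^ m).toAddSubgroup.isOpen_of_mem_nhds (g := 0) ?_
    have h : ∀ d : σ →₀ ℕ, {f : MvPowerSeries σ O | coeff d f ∈ J ^ m} ∈ 𝓝 0 := fun d =>
      ((isOpen_pow_of_isAdic hJ m).preimage (continuous_coeff O d)).mem_nhds (by simp)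
    refine mem_of_superset ((biInter_mem (Finsupp.finite_of_degree_le (σ := σ) m)).mpr
      fun d _ => h d) fun f hf => mem_serJ_pow fun d hd => ?_
    simp only [Set.mem_iInter, Set.mem_ofPred_eq] at hf
    exact Ideal.pow_le_pow_right (Nat.sub_le _ _) (hf d hd.le)
  · intro U hU
    rw [MvPowerSeries.LinearTopology.hasBasis_nhds_zero.mem_iff] at hU
    obtain ⟨⟨I, d⟩, hI, hU⟩ := hU
    obtain ⟨m, -, hm⟩ := hJ.hasBasis_nhds_zero.mem_iff.mp hI
    refine ⟨m + Finsupp.degree d, fun f hf => hU ?_⟩
    rw [SetLike.mem_coe, MvPowerSeries.LinearTopology.mem_basis_iff]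
    intro e he
    have hle : Finsupp.degree e ≤ Finsupp.degree d := by
      rw [show d = e + (d - e) from (add_tsub_cancel_of_le he).symm, map_add]
      exact Nat.le_add_right _ _
    exact hm (Ideal.pow_le_pow_right (by omega) (coeff_mem_of_mem_serJ_pow hf e))

section Target

variable {p : ℕ} [Fact p.Prime] {n : ℕ} {k : Type} [Field k] [CharP k p]
variable {T : Type*} [CommRing T] [UniformSpace T] [IsUniformAddGroup T]
  [IsTopologicalRing T] [CompleteSpace T] [T2Space T] [IsLinearTopology T T]

/-- The series ring as a target. -/
def Target.series {S : Source p n k T} (E : Target S O) (σ : Type*) [Finite σ] :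
    Target S (MvPowerSeries σ O) where
  J := serJ E.J
  isAdic := isAdic_serJ E.isAdic
  p_mem := by
    rw [mem_serJ_iff, map_natCast]
    exact E.p_mem
  sharp := (C : O →+* MvPowerSeries σ O).toMonoidHom.comp E.sharp
  sharp_cont := MvPowerSeries.WithPiTopology.continuous_C.comp E.sharp_cont
  sharp_zero := by simp [E.sharp_zero]
  sharp_add a b := by
    rw [mem_serJ_iff]
    simpa using E.sharp_add a b

theorem Target.isPointOf_series {S : Source p n k T} (E : Target S O) [Finite σ]
    {π : E0 p n k →+* O} (hπ : E.IsPointOf π) {π' : E0 p n k →+* MvPowerSeries σ O}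
    (h : constantCoeff.comp π' = π) : (E.series σ).IsPointOf π' := fun r => by
  change _ ∈ serJ E.J
  rw [mem_serJ_iff, map_sub]
  have := hπ r
  rw [← h] at this
  simpa [Target.series] using this

end Target

end Vale.Agent.P217
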