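import Vale.Agent.P217.Moved

/-!
# Vanishing of the series point from the chart statement
-/

noncomputable section

namespace Vale.Agent.P217

set_option linter.unusedSectionVars false

open MvPowerSeries

variable {p : ℕ} [hp : Fact p.Prime] {n : ℕ} {k : Type} [Field k] [CharP k p] [Finite k]
  {F : FormalGroup (E0 p n k)} [F.IsComm] {hn : 1 ≤ n} {hF : IsHazewinkel p n k F}
  {hk : Nat.card k = p ^ n} {h : ℕ} {π : E0 p n k →+* unitBall (Tilt p)}

/-- The chart statement gives the vanishing of the series point. -/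
theorem TiltData.shiftPoint_eq_zero_of_chart (d : TiltData F hn hF hk h π) (hh1 : 1 ≤ h)
    (hhn : h < n) {hX : ∀ i, IsTopologicallyNilpotent (π (X i))} {f : E0 p n k}
    {Φ : Fin (n - h) → MvPowerSeries (Fin (n - h)) (Tilt p)}
    (hΦ : ∀ j, constantCoeff (Φ j) = 0)
    (hG : ∃ G, subst Φ G =
        MvPowerSeries.map (unitBall (Tilt p)).subtype
          (shiftPoint π (upperIndex h hh1 hhn.le) hX f) ∧
      AV (p ^ h) (d.lattice : Set (Fin (n - h) → Pt (hondaTilt p h))) G) :
    shiftPoint π (upperIndex h hh1 hhn.le) hX f = 0 := by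
  have h0 := eq_zero_of_chart hh1 d.lattice d.lattice_bound (d.freeRows_lattice hh1 hhn) hΦ hG
  ext1 e
  have h1 := congrArg (coeff e) h0
  rw [coeff_map, map_zero] at h1
  rw [map_zero]
  exact Subtype.ext h1

end Vale.Agent.P217
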