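import Vale.Agent.P217.TiltGlue
import Vale.Agent.P217.IotaChart

/-!
# The strata above zero
-/

noncomputable section

namespace Vale.Agent.P217

set_option linter.unusedSectionVars false

open MvPowerSeries

variable {p : ℕ} [hp : Fact p.Prime] {n : ℕ} {k : Type} [Field k] [CharP k p] [Finite k]
  {F : FormalGroup (E0 p n k)} {h : ℕ}

/-- At a tilt point of the stratum `h`, an element whose nearby translates vanish at the point
has vanishing series point. -/
theorem shiftPoint_upper_eq_zero (hn : 1 ≤ n) (hk : Nat.card k = p ^ n)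
    (hF : IsHazewinkel p n k F) (hh1 : 1 ≤ h) (hhn : h < n)
    (π : E0 p n k →+* unitBall (Tilt p)) (hX : ∀ i, IsTopologicallyNilpotent (π (X i)))
    (hπ : ∀ f, res p n k f = 0 → ‖(π f : Tilt p)‖ < 1) (hker : ∀ i < h, π (uE p n k i) = 0)
    (hu : π (uE p n k h) ≠ 0) (f : E0 p n k) (N : ℕ)
    (hf : ∀ g α, IsAut g (special p n k F) → IsMarkingChange p n k F g α →
      g - PowerSeries.X ∈ cI (⊥ : Ideal k) N → π (α f) = 0) :
    shiftPoint π (upperIndex h hh1 hhn.le) hX f = 0 := by
  have : F.IsComm := isComm_of_isHazewinkel p n k hF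
  obtain ⟨d⟩ := exists_tiltData hn hF hk hh1 hhn hπ hker hu
  obtain ⟨Φ, hΦ, hG⟩ := d.exists_chart hh1 hhn hker (upperIndex_injective hh1 hhn.le)
    (mem_range_upperIndex hh1 hhn.le) (hX := hX) (f := f) (N := N) hf
  exact d.shiftPoint_eq_zero_of_chart hh1 hhn hΦ hG

end Vale.Agent.P217
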