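import Vale.Agent.P217.TwistHom
import Mathlib.Algebra.Polynomial.Roots
import Mathlib.FieldTheory.Finite.Basic
import Mathlib.Algebra.BigOperators.Field

/-!
# Smallness of partial derivatives in independent directions
-/

noncomputable section

namespace Vale.Agent.P217

open MvPolynomial Filter Topology

set_option linter.unusedSectionVars false

variable {L : Type*} [NormedField L] [IsUltrametricDist L] [CompleteSpace L] [IsAlgClosed L]
  {p h : ℕ} [Fact p.Prime] [CharP L p] {Γ : FormalGroup (unitBall L)} [Γ.IsComm] {m : ℕ}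
  {ι : Type*} [Fintype ι]

theorem norm_sum_lt {κ : Type*} (s : Finset κ) (f : κ → L) {r : ℝ} (hr : 0 < r)
    (hf : ∀ i ∈ s, ‖f i‖ < r) : ‖∑ i ∈ s, f i‖ < r :=
  Finset.sum_induction f (fun a => ‖a‖ < r)
    (fun a b ha hb => (IsUltrametricDist.norm_add_le_max a b).trans_lt (max_lt ha hb))
    (by simpa using hr) hf

theorem exists_fixed_near {P : ℕ} (hP : 2 ≤ P) {x : L} (hx : ‖x ^ P - x‖ < 1) :
    ∃ ζ : L, ζ ^ P = ζ ∧ ‖x - ζ‖ < 1 := by
  set f : Polynomial L := Polynomial.X ^ P - Polynomial.X with hf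
  have hmon : f.Monic :=
    Polynomial.monic_X_pow_sub (by rw [Polynomial.degree_X]; exact_mod_cast hP)
  have hprod : f = (f.roots.map fun a => Polynomial.X - Polynomial.C a).prod :=
    (IsAlgClosed.splits f).eq_prod_roots_of_monic hmon
  by_contra hcon
  push Not at hcon
  have h1 : ∀ a ∈ f.roots, 1 ≤ ‖x - a‖ := fun a ha => by
    refine hcon a ?_
    have := (Polynomial.mem_roots'.mp ha).2
    simpa [hf, Polynomial.IsRoot, sub_eq_zero] using this
  have h2 : x ^ P - x = (f.roots.map fun a => x - a).prod := by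
    have := congrArg (Polynomial.eval x) hprod
    rw [Polynomial.eval_multiset_prod, Multiset.map_map] at this
    simpa [hf, Function.comp_def] using this
  have h3 : 1 ≤ ‖(f.roots.map fun a => x - a).prod‖ := by
    rw [← normHom_apply, map_multiset_prod, Multiset.map_map]
    refine Multiset.prod_induction (fun a : ℝ => 1 ≤ a) _ (fun a b => one_le_mul_of_one_le_of_one_le)
      le_rfl fun a ha => ?_
    obtain ⟨b, hb, rfl⟩ := Multiset.mem_map.mp ha
    simpa using h1 b hb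
  rw [← h2] at h3
  exact h3.not_gt hx

/-- Residue columns at the maximum `Y` are independent over the fixed field of `x ↦ x^P`. -/
def Indep (P : ℕ) (J : Finset (Fin m)) (f : ι → Fin m → L) (B : ℝ) : Prop :=
  ∀ ζ : Fin m → L, (∀ i, ζ i ^ P = ζ i) → (∀ i ∉ J, ζ i = 0) → ζ ≠ 0 →
    ∃ s, B ≤ ‖∑ i ∈ J, ζ i * f s i‖

theorem moore_core {P : ℕ} (hP : 2 ≤ P) (hPp : P = p ^ h) {J : Finset (Fin m)}
    {f : ι → Fin m → L} {B : ℝ} (hB : 0 < B) (hfB : ∀ s, ∀ i ∈ J, ‖f s i‖ ≤ B)
    (hind : Indep P J f B) :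
    ∀ (t e₀ : ℕ) (u : Fin m → L) (S : Finset (Fin m)), S ⊆ J → S.card ≤ t →
      (∀ i ∈ J, ‖u i‖ ≤ 1) → (∀ i ∈ J, i ∉ S → ‖u i‖ < 1) → (∃ i ∈ S, ‖u i‖ = 1) →
      (∀ e, e₀ ≤ e → e < e₀ + t → ∀ s, ‖∑ i ∈ J, u i * f s i ^ P ^ e‖ < B ^ P ^ e) → False := by
  classical
  intro t
  induction t with
  | zero =>
    intro e₀ u S _ hS _ _ hex _
    obtain ⟨i, hi, _⟩ := hex
    simp [Finset.card_eq_zero.mp (Nat.le_zero.mp hS)] at hi
  | succ t ih =>
    intro e₀ v S hSJ hScard hv hvS hex hsmall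
    obtain ⟨i₀, hi₀, hv0⟩ := hex
    have hv0ne : v i₀ ≠ 0 := fun e => by simp [e] at hv0
    set u : Fin m → L := fun i => v i / v i₀ with hu_def
    have hnu : ∀ i, ‖u i‖ = ‖v i‖ := fun i => by simp [hu_def, hv0]
    have hu1 : u i₀ = 1 := div_self hv0ne
    have hus : ∀ e, e₀ ≤ e → e < e₀ + (t + 1) → ∀ s,
        ‖∑ i ∈ J, u i * f s i ^ P ^ e‖ < B ^ P ^ e := fun e he1 he2 s => by
      have : ∑ i ∈ J, u i * f s i ^ P ^ e = (∑ i ∈ J, v i * f s i ^ P ^ e) / v i₀ := by
        rw [Finset.sum_div]; exact Finset.sum_congr rfl fun i _ => by simp [hu_def]; ring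
      rw [this, norm_div, hv0, div_one]
      exact hsmall e he1 he2 s
    set d : Fin m → L := fun i => u i ^ P - u i with hd_def
    have hd1 : ∀ i ∈ J, ‖d i‖ ≤ 1 := fun i hi => by
      refine ultra_sub_le ?_ ?_
      · rw [norm_pow, hnu]; exact pow_le_one₀ (norm_nonneg _) (hv i hi)
      · rw [hnu]; exact hv i hi
    have hdS : ∀ i ∈ J, i ∉ S → ‖d i‖ < 1 := fun i hi hiS => by
      refine (ultra_sub_le_max _ _).trans_lt (max_lt ?_ ?_)
      · rw [norm_pow, hnu]; exact pow_lt_one₀ (norm_nonneg _) (hvS i hi hiS) (by omega)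
      · rw [hnu]; exact hvS i hi hiS
    by_cases hall : ∀ i ∈ J, ‖d i‖ < 1
    · choose ζ hζ hζn using fun i (hi : i ∈ J) => exists_fixed_near hP (hall i hi)
      set z : Fin m → L := fun i => if hi : i ∈ J then ζ i hi else 0 with hz
      have hzfix : ∀ i, z i ^ P = z i := fun i => by
        by_cases hi : i ∈ J
        · simp [hz, hi, hζ i hi]
        · simp [hz, hi, zero_pow (by omega : P ≠ 0)]
      have hzout : ∀ i ∉ J, z i = 0 := fun i hi => by simp [hz, hi]
      have hzne : z ≠ 0 := fun e => by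
        have h1 := hζn i₀ (hSJ hi₀)
        have h2 : ζ i₀ (hSJ hi₀) = 0 := by simpa [hz, hSJ hi₀] using congrFun e i₀
        simp [h2, hu1] at h1
      obtain ⟨s, hs⟩ := hind z hzfix hzout hzne
      have hzpow : ∀ k i, z i ^ P ^ k = z i := fun k i => by
        induction k with
        | zero => simp
        | succ k ihk => rw [pow_succ, pow_mul, ihk, hzfix]
      have h1 : ‖∑ i ∈ J, z i * f s i ^ P ^ e₀‖ < B ^ P ^ e₀ := by
        have h2 : ‖∑ i ∈ J, (z i - u i) * f s i ^ P ^ e₀‖ < B ^ P ^ e₀ :=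
          norm_sum_lt J _ (pow_pos hB _) fun i hi => by
            rw [norm_mul, norm_pow]
            have hlt : ‖z i - u i‖ < 1 := by
              rw [norm_sub_rev]; simpa [hz, hi] using hζn i hi
            exact (mul_le_mul_of_nonneg_left (pow_le_pow_left₀ (norm_nonneg _) (hfB s i hi) _)
              (norm_nonneg _)).trans_lt (mul_lt_of_lt_one_left (pow_pos hB _) hlt)
        have h3 := (IsUltrametricDist.norm_add_le_max _ _).trans_lt
          (max_lt h2 (hus e₀ le_rfl (by omega) s))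
        rw [← Finset.sum_add_distrib] at h3
        simpa [sub_mul] using h3
      have hP' : P ^ e₀ = p ^ (h * e₀) := by rw [hPp, ← pow_mul]
      have h4 : ∑ i ∈ J, z i * f s i ^ P ^ e₀ = (∑ i ∈ J, z i * f s i) ^ P ^ e₀ := by
        conv_rhs => rw [hP', sum_pow_char_pow, ← hP']
        exact Finset.sum_congr rfl fun i _ => by rw [mul_pow, hzpow]
      rw [h4, norm_pow] at h1
      exact (pow_le_pow_left₀ hB.le hs _).not_gt h1
    · push Not at hall
      obtain ⟨i₁, hi₁, hd₁⟩ := hall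
      refine ih (e₀ + 1) d (S.erase i₀) ((S.erase_subset i₀).trans hSJ)
        (by rw [Finset.card_erase_of_mem hi₀]; omega) hd1 (fun i hi hiS => ?_)
        ⟨i₁, ?_, le_antisymm (hd1 i₁ hi₁) hd₁⟩ fun e he1 he2 s => ?_
      · rcases eq_or_ne i i₀ with rfl | hne
        · simp [hd_def, hu1]
        · exact hdS i hi fun hS => hiS (Finset.mem_erase.mpr ⟨hne, hS⟩)
      · refine Finset.mem_erase.mpr ⟨?_, ?_⟩
        · rintro rfl; simp [hd_def, hu1] at hd₁; linarith
        · by_contra hS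
          exact hd₁.not_gt (hdS i₁ hi₁ hS)
      · have he : e = (e - 1) + 1 := by omega
        have h1 := hus (e - 1) (by omega) (by omega) s
        have h2 := hus e (by omega) (by omega) s
        have h3 : (∑ i ∈ J, u i * f s i ^ P ^ (e - 1)) ^ P = ∑ i ∈ J, u i ^ P * f s i ^ P ^ e := by
          conv_lhs => rw [hPp, sum_pow_char_pow, ← hPp]
          refine Finset.sum_congr rfl fun i _ => ?_
          rw [mul_pow, ← pow_mul, ← pow_succ, ← he]
        have h4 : ‖(∑ i ∈ J, u i * f s i ^ P ^ (e - 1)) ^ P‖ < B ^ P ^ e := by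
          rw [norm_pow]
          calc _ < (B ^ P ^ (e - 1)) ^ P := pow_lt_pow_left₀ h1 (norm_nonneg _) (by omega)
            _ = B ^ P ^ e := by rw [← pow_mul, ← pow_succ, ← he]
        have h5 := (ultra_sub_le_max _ _).trans_lt (max_lt h4 h2)
        rw [h3, ← Finset.sum_sub_distrib] at h5
        simpa [hd_def, sub_mul] using h5

theorem moore {P : ℕ} (hP : 2 ≤ P) (hPp : P = p ^ h) {J : Finset (Fin m)}
    {f : ι → Fin m → L} {B : ℝ} (hB : 0 < B) (hfB : ∀ s, ∀ i ∈ J, ‖f s i‖ ≤ B)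
    (hind : Indep P J f B) (w : Fin m → L) {i : Fin m} (hi : i ∈ J) :
    ∃ s, ∃ e < J.card, ‖w i‖ * B ^ P ^ e ≤ ‖∑ j ∈ J, w j * f s j ^ P ^ e‖ := by
  classical
  obtain ⟨s₀, _⟩ := hind (fun j => if j = i then 1 else 0) (fun j => by split_ifs <;> simp; omega)
    (fun j hj => if_neg (by rintro rfl; exact hj hi)) fun e => by simpa using congrFun e i
  obtain ⟨i₁, hi₁, hmax⟩ := J.exists_max_image (fun j => ‖w j‖) ⟨i, hi⟩
  rcases (norm_nonneg (w i₁)).eq_or_lt with h0 | h0
  · refine ⟨s₀, 0, Finset.card_pos.mpr ⟨i, hi⟩, ?_⟩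
    rw [le_antisymm ((hmax i hi).trans h0.ge) (norm_nonneg _), zero_mul]
    positivity
  by_contra hcon
  push Not at hcon
  have hw1 : ∀ j ∈ J, ‖w j / w i₁‖ ≤ 1 := fun j hj => by
    rw [norm_div, div_le_one h0]; exact hmax j hj
  refine moore_core hP hPp hB hfB hind J.card 0 (fun j => w j / w i₁) J le_rfl le_rfl hw1
    (fun j hj hnj => absurd hj hnj) ⟨i₁, hi₁, by rw [norm_div, div_self h0.ne']⟩ fun e _ he s => ?_
  have hlt := hcon s e (by omega)
  have : ∑ j ∈ J, w j / w i₁ * f s j ^ P ^ e = (∑ j ∈ J, w j * f s j ^ P ^ e) / w i₁ := by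
    rw [Finset.sum_div]; exact Finset.sum_congr rfl fun j _ => by ring
  rw [this, norm_div, div_lt_iff₀ h0, mul_comm]
  exact hlt.trans_le (mul_le_mul_of_nonneg_right (hmax i hi) (by positivity))

/-- The formal partial derivative. -/
def dser (i : Fin m) (G : MvPowerSeries (Fin m) L) : MvPowerSeries (Fin m) L :=
  fun d => MvPowerSeries.coeff (d + Finsupp.single i 1) G * ((d i : L) + 1)

theorem coeff_dser (i : Fin m) (G : MvPowerSeries (Fin m) L) (d : Fin m →₀ ℕ) :
    MvPowerSeries.coeff d (dser i G) =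
      MvPowerSeries.coeff (d + Finsupp.single i 1) G * ((d i : L) + 1) := rfl

variable {Λ : AddSubmonoid (Fin m → Pt Γ)}

theorem AV.exists_bound (hd : HD p h Γ) {G : MvPowerSeries (Fin m) L}
    (hG : AV (p ^ h) (Λ : Set (Fin m → Pt Γ)) G) (D : ℕ) :
    ∃ k : ℕ, ∃ C : ℝ, 0 ≤ C ∧ ∀ z ∈ Λ,
      ‖eval (coV (p ^ k • z)) (G.truncTotal D)‖ ≤ C * ‖coV (p ^ k • z)‖ ^ D := by
  obtain ⟨k, C, h⟩ := hG D
  refine ⟨k, max C 0, le_max_right _ _, fun z hz => ?_⟩
  rw [hd.coV_pow_nsmul]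
  exact (h z hz).trans (mul_le_mul_of_nonneg_right (le_max_left _ _) (by positivity))

/-- To prove `AV` it is enough to bound any polynomials with the right low degree terms. -/
theorem AV.of_approx {h0 : ℕ} (hd : HD p h0 Γ) {G : MvPowerSeries (Fin m) L}
    (h : ∀ D, ∃ k : ℕ, ∃ C : ℝ, ∃ Q : MvPolynomial (Fin m) L,
      (∀ d : Fin m →₀ ℕ, d.degree < D → Q.coeff d = MvPowerSeries.coeff d G) ∧
      ∀ z ∈ Λ, ‖eval (coV (p ^ k • z)) Q‖ ≤ C * ‖coV (p ^ k • z)‖ ^ D) :
    AV (p ^ h0) (Λ : Set (Fin m → Pt Γ)) G := by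
  intro D
  obtain ⟨k, C, Q, hQ, hb⟩ := h D
  obtain ⟨C', hC', hC''⟩ := exists_coeff_bound (G.truncTotal D - Q)
  refine ⟨k, max C C', fun z hz => ?_⟩
  have h1 := norm_eval_le_pow (zero_le_one.trans hC') hC'' (D := D) (fun d hdd => by
    rw [coeff_sub, MvPowerSeries.coeff_truncTotal _ hdd, hQ d hdd, sub_self])
    (x := coV (p ^ k • z)) (norm_coV_lt _).le
  have h2 := hb z hz
  have h3 := ultra_add_le (h1.trans (mul_le_mul_of_nonneg_right (le_max_right C C') (by positivity)))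
    (h2.trans (mul_le_mul_of_nonneg_right (le_max_left C C') (by positivity)))
  rw [map_sub, sub_add_cancel, hd.coV_pow_nsmul] at h3
  exact h3

/-- Derivatives in the directions of an independent top set are again small. -/
protected theorem AV.dser (hd : HD p h Γ) {G : MvPowerSeries (Fin m) L}
    (hG : AV (p ^ h) (Λ : Set (Fin m → Pt Γ)) G) {ys : ι → (Fin m → Pt Γ)} (hys : ∀ s, ys s ∈ Λ)
    {Y : ℝ} (hY0 : 0 < Y) (hY1 : Y < 1) {J : Finset (Fin m)}
    (hle : ∀ s i, ‖(ys s i).co‖ ≤ Y) (hlt : ∀ i ∉ J, ∀ s, ‖(ys s i).co‖ < Y)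
    (hind : Indep (p ^ h) J (fun s i => (ys s i).co) Y) {i : Fin m} (hi : i ∈ J) :
    AV (p ^ h) (Λ : Set (Fin m → Pt Γ)) (dser i G) := by
  classical
  have hP : 2 ≤ p ^ h := hd.two_le
  have hev : ∀ x : ι × Fin m, ∀ᶠ c in atTop, 1 ≤ c ∧
      (x.2 ∉ J → (‖(ys x.1 x.2).co‖ / Y) ^ c ≤ Y) := fun x => by
    by_cases hx : x.2 ∈ J
    · filter_upwards [eventually_ge_atTop 1] with c hc using ⟨hc, fun h => absurd hx h⟩
    · have hr : ‖(ys x.1 x.2).co‖ / Y < 1 := (div_lt_one hY0).mpr (hlt _ hx _)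
      filter_upwards [eventually_ge_atTop 1,
        (tendsto_pow_atTop_nhds_zero_of_lt_one (by positivity) hr).eventually_le_const hY0]
        with c hc hc' using ⟨hc, fun _ => hc'⟩
  obtain ⟨c, hc, hc1⟩ := ((eventually_all.mpr hev).and (eventually_ge_atTop 1)).exists
  refine AV.of_approx hd fun D => ?_
  set N := J.card
  set E := (D + 1) * c with hE_def
  set D1 := D + 2 + E * (p ^ h) ^ (N + 1) with hD1_def
  obtain ⟨k₁, C, hC, hbound⟩ := hG.exists_bound hd D1
  set Q := G.truncTotal D1 with hQ_def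
  obtain ⟨C2, hC2, hQC⟩ := exists_coeff_bound Q
  have hC20 : (0 : ℝ) ≤ C2 := zero_le_one.trans hC2
  set c0 := Y ^ (p ^ h) ^ (k₁ + N) with hc0_def
  have hc00 : 0 < c0 := pow_pos hY0 _
  set M := max C C2 / c0 with hM_def
  refine ⟨k₁, M, pderiv i Q, fun d hdd => ?_, fun z hz => ?_⟩
  · rw [coeff_pderiv, hQ_def, MvPowerSeries.coeff_truncTotal _ (by
      rw [map_add, Finsupp.degree_single]; omega), coeff_dser]
  set lam := p ^ k₁ • z with hlam
  have hl1 : ‖coV lam‖ < 1 := norm_coV_lt _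
  -- it suffices to bound the value by `b^D` for each positive `b ≥ |λ|`
  suffices key : ∀ b : ℝ, 0 < b → b ≤ 1 → ‖coV lam‖ ≤ b → ‖eval (coV lam) (pderiv i Q)‖ ≤ M * b ^ D by
    rcases (norm_nonneg (coV lam)).eq_or_lt with h0 | h0
    · have hlim : Tendsto (fun n : ℕ => M * ((1 / 2 : ℝ) ^ n) ^ D) atTop (𝓝 (M * (0 : ℝ) ^ D)) :=
        ((tendsto_pow_atTop_nhds_zero_of_lt_one (by norm_num) (by norm_num)).pow D).const_mul M
      rw [← h0]
      refine ge_of_tendsto' hlim fun n => key _ (by positivity) (pow_le_one₀ (by norm_num) (by norm_num)) ?_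
      rw [← h0]; positivity
    · exact key _ h0 hl1.le le_rfl
  intro b hb0 hb1 hlb
  have hbE : (0 : ℝ) < b ^ E := pow_pos hb0 E
  have hex : ∃ k, k₁ ≤ k ∧ Y ^ (p ^ h) ^ k ≤ b ^ E := by
    obtain ⟨n, hn⟩ := exists_pow_lt_of_lt_one hbE hY1
    exact ⟨max k₁ n, le_max_left _ _, (pow_le_pow_of_le_one hY0.le hY1.le
      ((Nat.lt_pow_self hP).le.trans (Nat.pow_le_pow_right hd.pos (le_max_right _ _)))).trans hn.le⟩
  set k := Nat.find hex with hk_def
  obtain ⟨hk1, hkb⟩ := Nat.find_spec hex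
  have heta : ∀ e < N, c0 * b ^ D1 ≤ Y ^ (p ^ h) ^ (k + e) * b ^ D := by
    intro e he
    have hb' : b ^ D1 ≤ b ^ D := pow_le_pow_of_le_one hb0.le hb1 (by omega)
    rcases eq_or_lt_of_le hk1 with hke | hke
    · refine mul_le_mul ?_ hb' (by positivity) (by positivity)
      refine pow_le_pow_of_le_one hY0.le hY1.le (Nat.pow_le_pow_right hd.pos ?_)
      omega
    · have hnot := Nat.find_min hex (m := k - 1) (by omega)
      push Not at hnot
      have hgt := hnot (by omega)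
      have h1 : b ^ (E * (p ^ h) ^ (e + 1)) ≤ Y ^ (p ^ h) ^ (k + e) := by
        rw [pow_mul b E, show k + e = (k - 1) + (e + 1) by omega, pow_add (p ^ h) (k - 1) (e + 1), pow_mul Y]
        exact pow_le_pow_left₀ hbE.le hgt.le _
      refine (mul_le_of_le_one_left (by positivity) (pow_le_one₀ hY0.le hY1.le)).trans ?_
      refine le_trans ?_ (mul_le_mul_of_nonneg_right h1 (by positivity))
      rw [← pow_add]
      refine pow_le_pow_of_le_one hb0.le hb1 ?_
      have := Nat.mul_le_mul_left E (Nat.pow_le_pow_right hd.pos (show e + 1 ≤ N + 1 by omega))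
      omega
  choose u hu1 hu using fun j => exists_translate (Γ := Γ) (lam j) (N := D1) (by omega)
  set w : Fin m → L := fun j => eval (coV lam) (pderiv j Q) * u j with hw
  have hw2 : ∀ j, ‖w j‖ ≤ C2 := fun j => by
    rw [hw]
    simp only [norm_mul, hu1, mul_one]
    simpa using norm_eval_le_pow hC20 (norm_coeff_pderiv_le hQC j) (D := 0) (by simp) hl1.le
  have hind' : Indep (p ^ h) J (fun s j => (ys s j).co ^ (p ^ h) ^ k) (Y ^ (p ^ h) ^ k) := by
    intro ζ hζ hζJ hζne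
    obtain ⟨s, hs⟩ := hind ζ hζ hζJ hζne
    refine ⟨s, ?_⟩
    have hpow : ∀ j, ζ j ^ (p ^ h) ^ k = ζ j := fun j => by
      clear_value k; clear * - hζ
      induction k with
      | zero => simp
      | succ k ih => rw [pow_succ, pow_mul, ih, hζ]
    have h1 : ∑ j ∈ J, ζ j * (ys s j).co ^ (p ^ h) ^ k =
        (∑ j ∈ J, ζ j * (ys s j).co) ^ (p ^ h) ^ k := by
      conv_rhs => rw [← pow_mul, sum_pow_char_pow, pow_mul]
      exact Finset.sum_congr rfl fun j _ => by rw [mul_pow, hpow]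
    rw [h1, norm_pow]
    exact pow_le_pow_left₀ hY0.le hs _
  obtain ⟨s, e, he, hmoore⟩ := moore hP rfl (pow_pos hY0 ((p ^ h) ^ k))
    (fun s j _ => by rw [norm_pow]; exact pow_le_pow_left₀ (norm_nonneg _) (hle s j) _) hind' w hi
  simp only [← pow_mul (Y) , ← pow_mul (_ : L), ← pow_add (p ^ h)] at hmoore
  set η := Y ^ (p ^ h) ^ (k + e) with hη
  have hη0 : 0 < η := pow_pos hY0 _
  have hηb : η ≤ b ^ E := le_trans (pow_le_pow_of_le_one hY0.le hY1.le
    (Nat.pow_le_pow_right hd.pos (Nat.le_add_right k e))) hkb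
  have hηD : η ≤ b ^ D := hηb.trans (pow_le_pow_of_le_one hb0.le hb1 (by
    rw [hE_def]; exact (Nat.le_succ D).trans (Nat.le_mul_of_pos_right _ hc1)))
  set mu := p ^ (k + e) • ys s with hmu
  have hmuco : ∀ j, (mu j).co = (ys s j).co ^ (p ^ h) ^ (k + e) := fun j => hd.co_pow_nsmul _ _
  have hmu1 : ‖coV mu‖ ≤ η := (pi_norm_le_iff_of_nonneg hη0.le).mpr fun j => by
    rw [coV_apply, hmuco, norm_pow]
    exact pow_le_pow_left₀ (norm_nonneg _) (hle s j) _
  obtain ⟨z', hz', hsum⟩ : ∃ z' ∈ Λ, lam + mu = p ^ k₁ • z' := by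
    refine ⟨z + p ^ (k + e - k₁) • ys s, add_mem hz (nsmul_mem (hys s) _), ?_⟩
    rw [smul_add, ← mul_smul, ← pow_add, Nat.add_sub_cancel' (hk1.trans (Nat.le_add_right k e))]
  set R := max (b ^ D1) (η ^ 2) with hR
  have hR0 : 0 ≤ R := le_trans (sq_nonneg η) (le_max_right _ _)
  have hη1 : η ≤ 1 := pow_le_one₀ hY0.le hY1.le
  have hmax : ∀ x : ℝ, 0 ≤ x → x ≤ max b η → x ^ D1 ≤ R := fun x hx hxm => by
    refine (pow_le_pow_left₀ hx hxm D1).trans ?_
    rcases le_total b η with hle' | hle'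
    · rw [max_eq_right hle']
      exact (pow_le_pow_of_le_one hη0.le hη1 (by omega)).trans (le_max_right _ _)
    · rw [max_eq_left hle']; exact le_max_left _ _
  set hv : Fin m → L := coV (lam + mu) - coV lam with hhv
  have hvu : ∀ j, ‖hv j - u j * (mu j).co‖ ≤ R := fun j => by
    refine (hu j (mu j)).trans (max_le ?_ ?_)
    · exact (pow_le_pow_left₀ (norm_nonneg _) ((norm_le_pi_norm (coV mu) j).trans hmu1) 2).trans
        (le_max_right _ _)
    · exact hmax _ (by positivity) (max_le_max ((norm_le_pi_norm (coV lam) j).trans hlb)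
        ((norm_le_pi_norm (coV mu) j).trans hmu1))
  have hhv1 : ‖hv‖ ≤ η := (pi_norm_le_iff_of_nonneg hη0.le).mpr fun j => by
    refine le_trans ?_ ((norm_le_pi_norm (coV mu) j).trans hmu1)
    have := norm_co_add_sub_add_le (lam j) (mu j) (lam j) 0
    simpa [hhv, coV] using this
  have hsumb : ‖coV (lam + mu)‖ ≤ max b η := (pi_norm_le_iff_of_nonneg (by positivity)).mpr fun j =>
    (norm_co_add_le _ _).trans (max_le_max ((norm_le_pi_norm (coV lam) j).trans hlb)
      ((norm_le_pi_norm (coV mu) j).trans hmu1))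
  set K := max C C2 with hK
  have hK0 : 0 ≤ K := hC.trans (le_max_left _ _)
  have hA : ‖eval (coV (lam + mu)) Q‖ ≤ K * R := by
    have := hbound z' hz'
    rw [← hsum] at this
    exact this.trans (mul_le_mul (le_max_left _ _) (hmax _ (norm_nonneg _) hsumb) (by positivity) hK0)
  have hB : ‖eval (coV lam) Q‖ ≤ K * R :=
    (hbound z hz).trans (mul_le_mul (le_max_left _ _)
      (hmax _ (norm_nonneg _) (hlb.trans (le_max_left _ _))) (by positivity) hK0)
  have hT := norm_rem1_le hC20 hQC hl1.le (hhv1.trans hη1)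
  have hT' : ‖rem1 Q (coV lam) hv‖ ≤ K * R := hT.trans (mul_le_mul (le_max_right _ _)
    ((pow_le_pow_left₀ (norm_nonneg _) hhv1 2).trans (le_max_right _ _)) (by positivity) hK0)
  have hadd : coV lam + hv = coV (lam + mu) := by simp [hhv]
  have hlin : ‖∑ j, w j * (mu j).co‖ ≤ K * R := by
    have h2 : ‖∑ j, eval (coV lam) (pderiv j Q) * (hv j - u j * (mu j).co)‖ ≤ K * R :=
      IsUltrametricDist.norm_sum_le_of_forall_le_of_nonneg (by positivity) fun j _ => by
        rw [norm_mul]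
        refine mul_le_mul ?_ (hvu j) (norm_nonneg _) hK0
        refine le_trans ?_ (le_max_right _ _)
        simpa using norm_eval_le_pow hC20 (norm_coeff_pderiv_le hQC j) (D := 0) (by simp) hl1.le
    rw [rem1, hadd] at hT'
    have h3 := ultra_sub_le (ultra_sub_le (ultra_sub_le hA hB) hT') h2
    convert h3 using 2
    simp only [mul_sub, Finset.sum_sub_distrib, hw]
    rw [sub_sub_cancel, sub_sub_cancel]
    exact Finset.sum_congr rfl fun j _ => by ring
  have hrest : ‖∑ j ∈ Jᶜ, w j * (mu j).co‖ ≤ K * (η * b ^ D) :=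
    IsUltrametricDist.norm_sum_le_of_forall_le_of_nonneg (by positivity) fun j hj => by
      rw [norm_mul]
      refine mul_le_mul ((hw2 j).trans (le_max_right _ _)) ?_ (norm_nonneg _) hK0
      rw [hmuco, norm_pow]
      have hjn : j ∉ J := Finset.mem_compl.mp hj
      have hr := (hc (s, j)).2 hjn
      set r := ‖(ys s j).co‖ / Y with hr_def
      have hr0 : 0 ≤ r := by positivity
      have hrd : r ^ (p ^ h) ^ (k + e) ≤ b ^ D := by
        refine (pow_le_pow_iff_left₀ (by positivity) (by positivity) (by omega : c ≠ 0)).mp ?_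
        calc (r ^ (p ^ h) ^ (k + e)) ^ c = (r ^ c) ^ (p ^ h) ^ (k + e) := pow_right_comm _ _ _
          _ ≤ Y ^ (p ^ h) ^ (k + e) := pow_le_pow_left₀ (by positivity) hr _
          _ ≤ b ^ E := hηb
          _ ≤ (b ^ D) ^ c := by
            rw [← pow_mul]
            exact pow_le_pow_of_le_one hb0.le hb1 (Nat.mul_le_mul_right c (Nat.le_succ D))
      calc ‖(ys s j).co‖ ^ (p ^ h) ^ (k + e) = η * r ^ (p ^ h) ^ (k + e) := by
            rw [hr_def, hη, ← mul_pow, mul_div_cancel₀ _ hY0.ne']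
        _ ≤ η * b ^ D := mul_le_mul_of_nonneg_left hrd hη0.le
  have hRb : R * c0 ≤ η * b ^ D := by
    rw [hR, max_mul_of_nonneg _ _ hc00.le]
    refine max_le ?_ ?_
    · rw [mul_comm]; exact heta e he
    · refine (mul_le_of_le_one_right (sq_nonneg η) (pow_le_one₀ hY0.le hY1.le)).trans ?_
      rw [pow_two]; exact mul_le_mul_of_nonneg_left hηD hη0.le
  have hJ : ‖∑ j ∈ J, w j * (mu j).co‖ ≤ K / c0 * (η * b ^ D) := by
    have h1 : ‖∑ j, w j * (mu j).co‖ ≤ K / c0 * (η * b ^ D) := hlin.trans (by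
      rw [div_mul_eq_mul_div, le_div_iff₀ hc00, mul_assoc]
      exact mul_le_mul_of_nonneg_left hRb hK0)
    have h2 : ‖∑ j ∈ Jᶜ, w j * (mu j).co‖ ≤ K / c0 * (η * b ^ D) := hrest.trans
      (mul_le_mul_of_nonneg_right (le_div_self hK0 hc00 (pow_le_one₀ hY0.le hY1.le)) (by positivity))
    have h3 := ultra_sub_le h1 h2
    rw [← Finset.sum_add_sum_compl J, add_sub_cancel_right] at h3
    exact h3
  have hfin : ‖w i‖ * η ≤ K / c0 * b ^ D * η := by
    refine le_trans hmoore ?_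
    simp only [← hmuco]
    exact hJ.trans (le_of_eq (by ring))
  have hwi := le_of_mul_le_mul_right hfin hη0
  simpa [hw, norm_mul, hu1] using hwi

end Vale.Agent.P217
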