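import Vale.Agent.P217.TwistPt
import Vale.Agent.P217.TwistPoly

/-!
# Endomorphisms and representable maps of points
-/

noncomputable section

namespace Vale.Agent.P217

open MvPolynomial Filter Topology

set_option linter.unusedSectionVars false

variable {L : Type*} [NormedField L] [IsUltrametricDist L] [CompleteSpace L]
  {Γ : FormalGroup (unitBall L)} {σ τ : Type*} [Fintype σ] [Fintype τ]

namespace Pt

/-- The point with coordinate `x`. -/
def mk (x : L) (hx : ‖x‖ < 1) : Pt Γ :=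
  ⟨⟨x, hx.le⟩, isTopologicallyNilpotent_ball.mpr hx⟩

@[simp] theorem co_mk (x : L) (hx : ‖x‖ < 1) : (mk x hx : Pt Γ).co = x := rfl

theorem co_add (x y : Pt Γ) :
    (x + y).co = ((ev (RingHom.id (unitBall L)) ![x.1, y.1] Γ.toPowerSeries : unitBall L) : L) :=
  rfl

end Pt

theorem coV_apply (z : σ → Pt Γ) (i : σ) : coV z i = (z i).co := rfl

theorem norm_coV_lt (z : σ → Pt Γ) : ‖coV z‖ < 1 :=
  (pi_norm_lt_iff one_pos).mpr fun i => (z i).norm_lt

theorem coV_injective {z z' : σ → Pt Γ} (h : coV z = coV z') : z = z' :=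
  funext fun i => Pt.ext' (congrFun h i)

/-- The Taylor truncation in degree `≤ 1` of a series without constant term. -/
theorem eval_trunc_two (S : MvPowerSeries σ (unitBall L))
    (h0 : MvPowerSeries.constantCoeff S = 0) (x : σ → L) :
    eval x (MvPolynomial.map (unitBall L).subtype (S.truncTotal 2)) =
      ∑ i, ((MvPowerSeries.coeff (Finsupp.single i 1) S : unitBall L) : L) * x i := by
  classical
  have h : MvPolynomial.map (unitBall L).subtype (S.truncTotal 2) =
      ∑ i, MvPolynomial.C ((MvPowerSeries.coeff (Finsupp.single i 1) S : unitBall L) : L) * X i := by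
    ext d
    rw [MvPolynomial.coeff_map, coeff_sum, MvPowerSeries.coeff_truncTotal_eq_ite]
    simp only [MvPolynomial.coeff_C_mul, coeff_X']
    rcases Nat.lt_or_ge d.degree 2 with hd | hd
    · rw [if_pos hd]
      interval_cases hh : d.degree
      · obtain rfl := (Finsupp.degree_eq_zero_iff d).mp hh
        simpa [Finsupp.single_eq_zero] using congrArg (fun a : unitBall L => (a : L)) h0
      · obtain ⟨i, rfl⟩ : d ∈ Set.range fun a : σ => Finsupp.single a 1 := by
          rw [Finsupp.range_single_one]; exact hh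
        simp [Finsupp.single_left_inj]
    · rw [if_neg hd.not_gt, map_zero]
      refine (Finset.sum_eq_zero fun i _ => ?_).symm
      rw [if_neg, mul_zero]
      rintro rfl
      simp at hd
  rw [h, map_sum]
  simp

theorem norm_ev_sub_ev_le (S : MvPowerSeries σ (unitBall L)) {x y : σ → unitBall L}
    (hx : ∀ i, IsTopologicallyNilpotent (x i)) (hy : ∀ i, IsTopologicallyNilpotent (y i)) :
    ‖((ev (RingHom.id (unitBall L)) x S : unitBall L) : L) -
        ((ev (RingHom.id (unitBall L)) y S : unitBall L) : L)‖ ≤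
      ‖(fun i => (x i : L)) - fun i => (y i : L)‖ := by
  set a : σ → L := fun i => (x i : L) with ha
  set b : σ → L := fun i => (y i : L) with hb
  have ha1 : ‖a‖ < 1 := (pi_norm_lt_iff one_pos).mpr fun i =>
    isTopologicallyNilpotent_ball.mp (hx i)
  have hb1 : ‖b‖ < 1 := (pi_norm_lt_iff one_pos).mpr fun i =>
    isTopologicallyNilpotent_ball.mp (hy i)
  rcases (norm_nonneg (a - b)).eq_or_lt with h | h
  · have : x = y := funext fun i => Subtype.ext
      (congrFun (sub_eq_zero.mp (norm_eq_zero.mp h.symm) : a = b) i)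
    simp [this]
  · obtain ⟨D, hD⟩ := exists_pow_lt_of_lt_one h (max_lt ha1 hb1)
    set T := MvPolynomial.map (unitBall L).subtype (S.truncTotal D) with hT
    have hT1 : ∀ d, ‖T.coeff d‖ ≤ 1 := fun d => by
      rw [hT, MvPolynomial.coeff_map]; exact ((S.truncTotal D).coeff d).2
    have h1 := (norm_ev_sub_trunc_le S hx D).trans
      ((pow_le_pow_left₀ (norm_nonneg _) (le_max_left _ ‖b‖) D).trans hD.le)
    have h2 := (norm_ev_sub_trunc_le S hy D).trans
      ((pow_le_pow_left₀ (norm_nonneg _) (le_max_right ‖a‖ _) D).trans hD.le)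
    have h3 := (norm_eval_sub_le zero_le_one hT1 ha1.le hb1.le).trans (one_mul _).le
    have := ultra_sub_le (ultra_add_le h1 h3) h2
    convert this using 2
    ring

/-- `f` is given by a series without constant term. -/
def Rep (f : (σ → Pt Γ) → Pt Γ) : Prop :=
  ∃ S : MvPowerSeries σ (unitBall L), MvPowerSeries.constantCoeff S = 0 ∧
    ∀ x, (f x).1 = ev (RingHom.id (unitBall L)) (fun i => (x i).1) S

theorem rep_proj (i : σ) : Rep (Γ := Γ) fun x => x i :=
  ⟨MvPowerSeries.X i, by simp, fun x => by simp⟩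

theorem rep_zero : Rep (σ := σ) (Γ := Γ) fun _ => 0 :=
  ⟨0, by simp, fun x => (ev_zero (hasEval_of_finite fun i => (x i).2)).symm⟩

theorem rep_add {f g : (σ → Pt Γ) → Pt Γ} (hf : Rep f) (hg : Rep g) :
    Rep fun x => f x + g x := by
  obtain ⟨S, hS0, hS⟩ := hf
  obtain ⟨T, hT0, hT⟩ := hg
  have hb : MvPowerSeries.HasSubst ![S, T] :=
    MvPowerSeries.hasSubst_of_constantCoeff_zero fun s => by fin_cases s <;> simp [hS0, hT0]
  refine ⟨MvPowerSeries.subst ![S, T] Γ.toPowerSeries, ?_, fun x => ?_⟩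
  · exact MvPowerSeries.constantCoeff_subst_eq_zero hb
      (fun s => by fin_cases s <;> simp [hS0, hT0]) Γ.zero_constantCoeff
  · rw [ev_subst hb (hasEval_of_finite fun i => (x i).2), Pt.add_def, fadd, hS, hT]
    congr 1
    funext s
    fin_cases s <;> rfl

theorem rep_comp {g : τ → (σ → Pt Γ) → Pt Γ} {f : (τ → Pt Γ) → Pt Γ} (hf : Rep f)
    (hg : ∀ t, Rep (g t)) : Rep fun x => f fun t => g t x := by
  obtain ⟨S, hS0, hS⟩ := hf
  choose T hT0 hT using hg
  have hb : MvPowerSeries.HasSubst T := MvPowerSeries.hasSubst_of_constantCoeff_zero hT0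
  refine ⟨MvPowerSeries.subst T S, MvPowerSeries.constantCoeff_subst_eq_zero hb hT0 hS0,
    fun x => ?_⟩
  rw [ev_subst hb (hasEval_of_finite fun i => (x i).2), hS]
  congr 1
  funext t
  exact hT t x

theorem rep_sapp {α : PowerSeries (unitBall L)} (hα : PowerSeries.constantCoeff α = 0) :
    Rep (Γ := Γ) fun x : Unit → Pt Γ => sapp α hα (x ()) :=
  ⟨α, hα, fun _ => rfl⟩

/-- `f` has linear part `ℓ`. -/
def Lin (f : (σ → Pt Γ) → Pt Γ) (ℓ : σ → L) : Prop :=
  ∀ x, ‖(f x).co - ∑ i, ℓ i * (x i).co‖ ≤ ‖coV x‖ ^ 2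

theorem Rep.exists_lin {f : (σ → Pt Γ) → Pt Γ} (hf : Rep f) :
    ∃ ℓ : σ → L, (∀ i, ‖ℓ i‖ ≤ 1) ∧ Lin f ℓ := by
  obtain ⟨S, hS0, hS⟩ := hf
  refine ⟨fun i => ((MvPowerSeries.coeff (Finsupp.single i 1) S : unitBall L) : L),
    fun i => (MvPowerSeries.coeff (Finsupp.single i 1) S).2, fun x => ?_⟩
  have h := norm_ev_sub_trunc_le S (fun i => (x i).2) 2
  rw [eval_trunc_two S hS0] at h
  rw [Pt.co, hS x]
  exact h

theorem Rep.norm_sub_le {f : (σ → Pt Γ) → Pt Γ} (hf : Rep f) (x y : σ → Pt Γ) :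
    ‖(f x).co - (f y).co‖ ≤ ‖coV x - coV y‖ := by
  obtain ⟨S, _, hS⟩ := hf
  rw [Pt.co, Pt.co, hS x, hS y]
  exact norm_ev_sub_ev_le S (fun i => (x i).2) fun i => (y i).2

theorem Rep.map_zero' {f : (σ → Pt Γ) → Pt Γ} (hf : Rep f) : f (fun _ => 0) = 0 := by
  obtain ⟨ℓ, _, h⟩ := hf.exists_lin
  refine Pt.ext' ?_
  have hz : (coV fun _ : σ => (0 : Pt Γ)) = 0 := rfl
  simpa [hz] using h (fun _ => 0)

theorem Rep.norm_le {f : (σ → Pt Γ) → Pt Γ} (hf : Rep f) (x : σ → Pt Γ) :
    ‖(f x).co‖ ≤ ‖coV x‖ := by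
  have h := hf.norm_sub_le x fun _ => 0
  rw [hf.map_zero'] at h
  have hz : (coV fun _ : σ => (0 : Pt Γ)) = 0 := rfl
  simpa [hz] using h

theorem rep_fadd : Rep (σ := Fin 2) (Γ := Γ) fun x => x 0 + x 1 :=
  rep_add (rep_proj 0) (rep_proj 1)

theorem norm_coV_pair (x y : Pt Γ) : ‖coV ![x, y]‖ = max ‖x.co‖ ‖y.co‖ := by
  refine le_antisymm ((pi_norm_le_iff_of_nonneg (by positivity)).mpr fun i => ?_) (max_le ?_ ?_)
  · fin_cases i <;> simp [coV]
  · simpa [coV] using norm_le_pi_norm (coV ![x, y]) 0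
  · simpa [coV] using norm_le_pi_norm (coV ![x, y]) 1

theorem norm_co_add_sub_le (x y : Pt Γ) :
    ‖(x + y).co - x.co - y.co‖ ≤ max ‖x.co‖ ‖y.co‖ ^ 2 := by
  have h := norm_ev_sub_trunc_le Γ.toPowerSeries (x := ![x.1, y.1])
    (fun i => by fin_cases i <;> first | exact x.2 | exact y.2) 2
  rw [eval_trunc_two _ Γ.zero_constantCoeff, Fin.sum_univ_two, Γ.lin_coeff_X, Γ.lin_coeff_Y] at h
  have hv : (fun i => ((![x.1, y.1] i : unitBall L) : L)) = coV ![x, y] := by
    funext i; fin_cases i <;> rfl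
  rw [hv, norm_coV_pair] at h
  rw [sub_sub, Pt.co_add]
  simpa [Pt.co] using h

theorem norm_co_add_le (x y : Pt Γ) : ‖(x + y).co‖ ≤ max ‖x.co‖ ‖y.co‖ := by
  simpa [norm_coV_pair] using (rep_fadd (Γ := Γ)).norm_le ![x, y]

theorem norm_co_add_sub_add_le (x y x' y' : Pt Γ) :
    ‖(x + y).co - (x' + y').co‖ ≤ max ‖x.co - x'.co‖ ‖y.co - y'.co‖ := by
  refine ((rep_fadd (Γ := Γ)).norm_sub_le ![x, y] ![x', y']).trans
    ((pi_norm_le_iff_of_nonneg (by positivity)).mpr fun i => ?_)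
  fin_cases i <;> simp [coV]

variable [Γ.IsComm]

theorem co_sum_le {ι : Type*} (s : Finset ι) (f : ι → Pt Γ) {r : ℝ} (hr : 0 ≤ r)
    (h : ∀ i ∈ s, ‖(f i).co‖ ≤ r) :
    ‖(∑ i ∈ s, f i).co‖ ≤ r ∧ ‖(∑ i ∈ s, f i).co - ∑ i ∈ s, (f i).co‖ ≤ r ^ 2 := by
  classical
  induction s using Finset.induction_on with
  | empty => simp [hr, sq_nonneg]
  | @insert a s ha ih =>
    obtain ⟨h1, h2⟩ := ih fun i hi => h i (Finset.mem_insert_of_mem hi)
    have h3 := h a (Finset.mem_insert_self a s)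
    rw [Finset.sum_insert ha, Finset.sum_insert ha]
    refine ⟨(norm_co_add_le _ _).trans (max_le h3 h1), ?_⟩
    have h4 := (norm_co_add_sub_le (f a) (∑ i ∈ s, f i)).trans
      (pow_le_pow_left₀ (by positivity) (max_le h3 h1) 2)
    convert ultra_add_le h4 h2 using 2
    ring

theorem co_sum_sub_sum_le {ι : Type*} (s : Finset ι) (f g : ι → Pt Γ) {r : ℝ} (hr : 0 ≤ r)
    (h : ∀ i ∈ s, ‖(f i).co - (g i).co‖ ≤ r) :
    ‖(∑ i ∈ s, f i).co - (∑ i ∈ s, g i).co‖ ≤ r := by
  classical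
  induction s using Finset.induction_on with
  | empty => simpa using hr
  | @insert a s ha ih =>
    rw [Finset.sum_insert ha, Finset.sum_insert ha]
    exact (norm_co_add_sub_add_le _ _ _ _).trans
      (max_le (h a (Finset.mem_insert_self a s)) (ih fun i hi => h i (Finset.mem_insert_of_mem hi)))

theorem rep_sum {ι : Type*} (s : Finset ι) (f : ι → (σ → Pt Γ) → Pt Γ)
    (h : ∀ i ∈ s, Rep (f i)) : Rep fun x => ∑ i ∈ s, f i x := by
  classical
  induction s using Finset.induction_on with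
  | empty => simpa using rep_zero
  | @insert a s ha ih =>
    simp only [Finset.sum_insert ha]
    exact rep_add (h a (Finset.mem_insert_self a s))
      (ih fun i hi => h i (Finset.mem_insert_of_mem hi))

/-- Translation is affine up to second order, with slope independent of the increment. -/
theorem exists_translate (x : Pt Γ) {N : ℕ} (hN : 2 ≤ N) :
    ∃ w : L, ‖w‖ = 1 ∧ ∀ μ : Pt Γ,
      ‖(x + μ).co - x.co - w * μ.co‖ ≤ max (‖μ.co‖ ^ 2) (max ‖x.co‖ ‖μ.co‖ ^ N) := by
  set T := MvPolynomial.map (unitBall L).subtype (Γ.toPowerSeries.truncTotal N) with hT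
  have hT1 : ∀ d, ‖T.coeff d‖ ≤ 1 := fun d => by
    rw [hT, MvPolynomial.coeff_map]; exact ((Γ.toPowerSeries.truncTotal N).coeff d).2
  set a : Fin 2 → L := ![x.co, 0] with ha
  have hap : a = coV ![x, (0 : Pt Γ)] := by funext i; fin_cases i <;> simp [ha, coV]
  have ha1 : ‖a‖ ≤ 1 := hap ▸ (norm_coV_lt _).le
  have hxa : ‖a‖ = ‖x.co‖ := by rw [hap, norm_coV_pair]; simp
  have happrox : ∀ y z : Pt Γ, ‖(y + z).co - eval (coV ![y, z]) T‖ ≤
      max ‖y.co‖ ‖z.co‖ ^ N := fun y z => by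
    have h := norm_ev_sub_trunc_le Γ.toPowerSeries (x := ![y.1, z.1])
      (fun i => by fin_cases i <;> first | exact y.2 | exact z.2) N
    have hv : (fun i => ((![y.1, z.1] i : unitBall L) : L)) = coV ![y, z] := by
      funext i; fin_cases i <;> rfl
    rw [hv, norm_coV_pair] at h
    rw [Pt.co_add]
    exact h
  set w := eval a (pderiv 1 T) with hw
  refine ⟨w, ?_, fun μ => ?_⟩
  · have h1 : ‖w - 1‖ ≤ ‖x.co‖ := by
      have hc : ∀ d, ‖(pderiv 1 T - 1).coeff d‖ ≤ 1 := fun d => by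
        rw [coeff_sub]
        refine ultra_sub_le (norm_coeff_pderiv_le hT1 1 d) ?_
        rw [coeff_one]; split_ifs <;> simp
      have h := norm_eval_le_pow zero_le_one hc (D := 1) (fun d hd => by
        obtain rfl := (Finsupp.degree_eq_zero_iff d).mp (Nat.lt_one_iff.mp hd)
        rw [coeff_sub, coeff_pderiv, hT, MvPolynomial.coeff_map, zero_add,
          MvPowerSeries.coeff_truncTotal _ (by simp; omega), Γ.lin_coeff_Y]
        simp) ha1
      simpa [hxa, hw] using h
    have h2 : ‖w - 1‖ < ‖(1 : L)‖ := by rw [norm_one]; exact h1.trans_lt x.norm_lt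
    have h3 := IsUltrametricDist.norm_add_eq_max_of_norm_ne_norm h2.ne
    rw [sub_add_cancel, max_eq_right h2.le, norm_one] at h3
    exact h3
  · set r := max (‖μ.co‖ ^ 2) (max ‖x.co‖ ‖μ.co‖ ^ N) with hr
    have h1 : ‖(x + μ).co - eval (coV ![x, μ]) T‖ ≤ r :=
      (happrox x μ).trans (le_max_right _ _)
    have h2 : ‖x.co - eval a T‖ ≤ r := by
      have h := happrox x 0
      rw [add_zero, ← hap] at h
      exact h.trans ((pow_le_pow_left₀ (by positivity) (by simp) N).trans (le_max_right _ _))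
    set h : Fin 2 → L := ![0, μ.co] with hh
    have hh1 : ‖h‖ ≤ ‖μ.co‖ := (pi_norm_le_iff_of_nonneg (norm_nonneg _)).mpr fun i => by
      fin_cases i <;> simp [hh]
    have hah : a + h = coV ![x, μ] := by funext i; fin_cases i <;> simp [ha, hh, coV]
    have h3 := (norm_rem1_le zero_le_one hT1 ha1 (hh1.trans μ.norm_lt.le)).trans
      ((one_mul _).le.trans ((pow_le_pow_left₀ (norm_nonneg _) hh1 2).trans
        (le_max_left _ (max ‖x.co‖ ‖μ.co‖ ^ N))))
    have hsum : ∑ i, eval a (pderiv i T) * h i = w * μ.co := by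
      simp [Fin.sum_univ_two, hh, hw]
    rw [rem1, hah, hsum] at h3
    convert ultra_sub_le (ultra_add_le h1 h3) h2 using 2
    ring

end Vale.Agent.P217
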