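import Vale.Agent.P217.TwistEnd

/-!
# Endomorphisms of the group of points given by series
-/

noncomputable section

namespace Vale.Agent.P217

open MvPolynomial Filter Topology

set_option linter.unusedSectionVars false

variable {L : Type*} [NormedField L] [IsUltrametricDist L] [CompleteSpace L]
  {p h : ℕ} [Fact p.Prime] [CharP L p] {Γ : FormalGroup (unitBall L)}

/-- Standing hypotheses: height `h`, coefficients in the prime field, `[p] = X^(p^h)`, and
the Teichmüller endomorphisms. -/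
structure HD (p h : ℕ) (Γ : FormalGroup (unitBall L)) : Prop where
  one_le : 1 ≤ h
  mul_p : mulSeries Γ p = PowerSeries.X ^ p ^ h
  coeff_pow : ∀ d, MvPowerSeries.coeff d Γ.toPowerSeries ^ p = MvPowerSeries.coeff d Γ.toPowerSeries
  zeta : ∀ ζ : unitBall L, ζ ^ p ^ h = ζ → IsHom (PowerSeries.C ζ * PowerSeries.X) Γ Γ
  exists_t : ∃ t : L, t ≠ 0 ∧ ‖t‖ < 1

theorem HD.two_le (hd : HD p h Γ) : 2 ≤ p ^ h :=
  le_trans (Fact.out : p.Prime).two_le (Nat.le_self_pow (by have := hd.one_le; omega) p)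

theorem HD.pos (_hd : HD p h Γ) : 0 < p ^ h := pow_pos (Fact.out : p.Prime).pos h

theorem expChar_ball (p : ℕ) [Fact p.Prime] [CharP L p] : ExpChar (unitBall L) p :=
  haveI : CharP (unitBall L) p :=
    (RingHom.charP_iff (unitBall L).subtype Subtype.val_injective p).mpr inferInstance
  ExpChar.prime Fact.out

theorem norm_eq_one_of_pow_eq {ζ : L} {P : ℕ} (hP : 2 ≤ P) (h : ζ ^ P = ζ) (h0 : ζ ≠ 0) :
    ‖ζ‖ = 1 := by
  have h1 : ζ ^ (P - 1) = 1 := by
    refine mul_right_cancel₀ h0 ?_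
    rw [one_mul, ← pow_succ, Nat.sub_add_cancel (by omega)]
    exact h
  have h2 := congrArg norm h1
  rw [norm_pow, norm_one] at h2
  exact (pow_eq_one_iff_of_nonneg (norm_nonneg _) (by omega)).mp h2

theorem norm_le_one_of_pow_eq {ζ : L} {P : ℕ} (hP : 2 ≤ P) (h : ζ ^ P = ζ) : ‖ζ‖ ≤ 1 := by
  rcases eq_or_ne ζ 0 with rfl | h0
  · simp
  · exact (norm_eq_one_of_pow_eq hP h h0).le

variable [Γ.IsComm]

theorem twist_constantCoeff_mulSeries (j : ℕ) : PowerSeries.constantCoeff (mulSeries Γ j) = 0 := by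
  induction j with
  | zero => simp [mulSeries]
  | succ j ih =>
    have h : ∀ i, MvPowerSeries.constantCoeff (![mulSeries Γ j, PowerSeries.X] i) = 0 := fun i => by
      fin_cases i
      · exact ih
      · exact PowerSeries.constantCoeff_X
    exact MvPowerSeries.constantCoeff_subst_eq_zero
      (MvPowerSeries.hasSubst_of_constantCoeff_zero h) h Γ.zero_constantCoeff

theorem coe_nsmul (j : ℕ) (x : Pt Γ) : (j • x).1 = fapp (mulSeries Γ j) x.1 := by
  induction j with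
  | zero => rw [zero_smul]; exact (ev_zero (hasEval1 x.2)).symm
  | succ j ih =>
    have h : ∀ i, MvPowerSeries.constantCoeff (![mulSeries Γ j, PowerSeries.X] i) = 0 := fun i => by
      fin_cases i
      · exact twist_constantCoeff_mulSeries j
      · exact PowerSeries.constantCoeff_X
    rw [succ_nsmul, Pt.add_def, fadd, mulSeries, fapp, ev1,
      ev_subst (MvPowerSeries.hasSubst_of_constantCoeff_zero h) (hasEval1 x.2)]
    congr 1
    funext i
    fin_cases i
    · exact ih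
    · exact fapp_X.symm

theorem HD.co_p_nsmul (hd : HD p h Γ) (x : Pt Γ) : (p • x).co = x.co ^ p ^ h := by
  rw [Pt.co, coe_nsmul, hd.mul_p, fapp, ev1, PowerSeries.X, ev_pow (hasEval1 x.2), ev_X]
  rfl

theorem HD.co_pow_nsmul (hd : HD p h Γ) (k : ℕ) (x : Pt Γ) :
    (p ^ k • x).co = x.co ^ (p ^ h) ^ k := by
  induction k with
  | zero => simp
  | succ k ih => rw [pow_succ', mul_nsmul', hd.co_p_nsmul, ih, ← pow_mul, ← pow_succ]

theorem HD.coV_pow_nsmul (hd : HD p h Γ) {σ : Type*} [Fintype σ] (k : ℕ) (z : σ → Pt Γ) :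
    coV (p ^ k • z) = fun i => (z i).co ^ (p ^ h) ^ k :=
  funext fun i => hd.co_pow_nsmul k (z i)

/-- The Frobenius `x ↦ x^p`. -/
def frobHom (hd : HD p h Γ) : Pt Γ →+ Pt Γ where
  toFun x := Pt.mk (x.co ^ p)
    (by rw [norm_pow]; exact pow_lt_one₀ (norm_nonneg _) x.norm_lt (Fact.out : p.Prime).ne_zero)
  map_zero' := Pt.ext' (by simp [(Fact.out : p.Prime).ne_zero])
  map_add' x y := by
      haveI := expChar_ball (L := L) p
      have hc : Continuous (frobenius (unitBall L) p) := by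
        rw [show ⇑(frobenius (unitBall L) p) = fun a => a ^ p from funext (frobenius_def p)]
        exact continuous_pow p
      have h1 := map_ev (φ := RingHom.id (unitBall L)) (frobenius (unitBall L) p) hc
        (hasEval2 x.2 y.2) Γ.toPowerSeries
      rw [RingHom.comp_id] at h1
      set xp : Pt Γ := (⟨x.1 ^ p, isTopologicallyNilpotent_ball.mpr (by
        rw [Subring.coe_pow, norm_pow]
        exact pow_lt_one₀ (norm_nonneg _) x.norm_lt (Fact.out : p.Prime).ne_zero)⟩ : Pt Γ) with hxp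
      set yp : Pt Γ := (⟨y.1 ^ p, isTopologicallyNilpotent_ball.mpr (by
        rw [Subring.coe_pow, norm_pow]
        exact pow_lt_one₀ (norm_nonneg _) y.norm_lt (Fact.out : p.Prime).ne_zero)⟩ : Pt Γ) with hyp
      have h2 : ev (frobenius (unitBall L) p) ![xp.1, yp.1] Γ.toPowerSeries =
          ev (RingHom.id _) ![xp.1, yp.1] Γ.toPowerSeries := by
        have hm : MvPowerSeries.map (frobenius (unitBall L) p) Γ.toPowerSeries = Γ.toPowerSeries :=
          MvPowerSeries.ext fun d => by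
            rw [MvPowerSeries.coeff_map, frobenius_def, hd.coeff_pow]
        have h := ev_map (φ := RingHom.id (unitBall L)) (frobenius (unitBall L) p)
          (hasEval2 xp.2 yp.2) Γ.toPowerSeries
        rw [hm, RingHom.id_comp] at h
        exact h.symm
      have h3 : (fun s => frobenius (unitBall L) p (![x.1, y.1] s)) = ![xp.1, yp.1] := by
        funext s; fin_cases s <;> simp [frobenius_def, hxp, hyp]
      rw [h3, h2] at h1
      show (Pt.mk ((x + y).co ^ p) _ : Pt Γ) = (xp : Pt Γ) + yp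
      refine Pt.ext' ?_
      rw [Pt.co_mk]
      exact congrArg Subtype.val h1

@[simp] theorem co_frobHom (hd : HD p h Γ) (x : Pt Γ) : (frobHom hd x).co = x.co ^ p := rfl

/-- Multiplication by `ζ` with `ζ^(p^h) = ζ`. -/
def zetaHom (hd : HD p h Γ) (ζ : L) (hζ : ζ ^ p ^ h = ζ) : Pt Γ →+ Pt Γ where
  toFun x := Pt.mk (ζ * x.co) (by
    rw [norm_mul]
    exact (mul_le_of_le_one_left (norm_nonneg _) (norm_le_one_of_pow_eq hd.two_le hζ)).trans_lt
      x.norm_lt)
  map_zero' := Pt.ext' (by simp)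
  map_add' x y := by
    set c : unitBall L := ⟨ζ, norm_le_one_of_pow_eq hd.two_le hζ⟩ with hc
    have hc' : c ^ p ^ h = c := Subtype.ext hζ
    have hap : ∀ z : Pt Γ, ((fapp (PowerSeries.C c * PowerSeries.X) z.1 : unitBall L) : L) = ζ * z.co := fun z => by
      rw [fapp, ev1, ev_mul (hasEval1 z.2), PowerSeries.X, ev_X,
        show (PowerSeries.C c : MvPowerSeries Unit (unitBall L)) = MvPowerSeries.C c from rfl, ev_C]
      rfl
    have h1 := congrArg (fun a : unitBall L => (a : L)) (fapp_hom (hd.zeta c hc') x.2 y.2)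
    refine Pt.ext' ?_
    rw [Pt.co_mk, ← hap (x + y), Pt.add_def, h1, Pt.co_add, fadd]
    congr 4
    · exact Subtype.ext (hap x)
    · congr 1
      exact Subtype.ext (hap y)

@[simp] theorem co_zetaHom (hd : HD p h Γ) (ζ : L) (hζ : ζ ^ p ^ h = ζ) (x : Pt Γ) :
    (zetaHom hd ζ hζ x).co = ζ * x.co := rfl

/-- An endomorphism given by a series. -/
def IsSer (f : Pt Γ →+ Pt Γ) : Prop := Rep fun x : Unit → Pt Γ => f (x ())

theorem isSer_of_series {f : Pt Γ →+ Pt Γ} {α : PowerSeries (unitBall L)}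
    (h0 : PowerSeries.constantCoeff α = 0) (hf : ∀ x, (f x).1 = fapp α x.1) : IsSer f :=
  ⟨α, h0, fun x => hf (x ())⟩

theorem IsSer.exists_series {f : Pt Γ →+ Pt Γ} (hf : IsSer f) :
    ∃ α : PowerSeries (unitBall L), PowerSeries.constantCoeff α = 0 ∧
      ∀ x, (f x).1 = fapp α x.1 := by
  obtain ⟨S, h0, hS⟩ := hf
  exact ⟨S, h0, fun x => hS fun _ => x⟩

theorem isSer_zero : IsSer (0 : Pt Γ →+ Pt Γ) := rep_zero

theorem isSer_id : IsSer (AddMonoidHom.id (Pt Γ)) := rep_proj ()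

theorem IsSer.add {f g : Pt Γ →+ Pt Γ} (hf : IsSer f) (hg : IsSer g) : IsSer (f + g) :=
  rep_add hf hg

theorem IsSer.comp {f g : Pt Γ →+ Pt Γ} (hf : IsSer f) (hg : IsSer g) : IsSer (f.comp g) :=
  rep_comp (g := fun _ : Unit => fun x => g (x ())) hf fun _ => hg

theorem isSer_frob (hd : HD p h Γ) : IsSer (frobHom hd) :=
  isSer_of_series (α := PowerSeries.X ^ p)
    (by simp [(Fact.out : p.Prime).ne_zero]) fun x => Subtype.ext (by
      rw [fapp, ev1, PowerSeries.X, ev_pow (hasEval1 x.2), ev_X]; rfl)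

theorem isSer_zeta (hd : HD p h Γ) (ζ : L) (hζ : ζ ^ p ^ h = ζ) : IsSer (zetaHom hd ζ hζ) :=
  isSer_of_series
    (α := PowerSeries.C (⟨ζ, norm_le_one_of_pow_eq hd.two_le hζ⟩ : unitBall L) * PowerSeries.X)
    (by simp) fun x => Subtype.ext (by
      rw [fapp, ev1, ev_mul (hasEval1 x.2), PowerSeries.X, ev_X]
      erw [ev_C]
      rfl)

theorem IsSer.norm_le {f : Pt Γ →+ Pt Γ} (hf : IsSer f) (x : Pt Γ) : ‖(f x).co‖ ≤ ‖x.co‖ := by
  refine (Rep.norm_le (f := fun y : Unit → Pt Γ => f (y ())) hf fun _ => x).trans ?_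
  simp [coV, pi_norm_le_iff_of_nonneg]

/-- Linear coefficient of an endomorphism. -/
def Lin1 (f : Pt Γ →+ Pt Γ) (c : L) : Prop := ∀ x, ‖(f x).co - c * x.co‖ ≤ ‖x.co‖ ^ 2

theorem IsSer.exists_lin {f : Pt Γ →+ Pt Γ} (hf : IsSer f) : ∃ c : L, ‖c‖ ≤ 1 ∧ Lin1 f c := by
  obtain ⟨ℓ, h1, h2⟩ := Rep.exists_lin (f := fun y : Unit → Pt Γ => f (y ())) hf
  refine ⟨ℓ (), h1 (), fun x => ?_⟩
  have h := h2 fun _ => x
  simp only [Finset.univ_unique, Finset.sum_singleton] at h
  refine h.trans (pow_le_pow_left₀ (norm_nonneg _) ?_ 2)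
  simp [coV, pi_norm_le_iff_of_nonneg]

theorem lin1_id : Lin1 (AddMonoidHom.id (Pt Γ)) 1 := fun x => by simp [sq_nonneg]

theorem lin1_zero : Lin1 (0 : Pt Γ →+ Pt Γ) 0 := fun x => by simp

theorem lin1_zeta (hd : HD p h Γ) (ζ : L) (hζ : ζ ^ p ^ h = ζ) : Lin1 (zetaHom hd ζ hζ) ζ :=
  fun x => by simp

theorem lin1_frob (hd : HD p h Γ) : Lin1 (frobHom hd) 0 := fun x => by
  simp only [co_frobHom, zero_mul, sub_zero, norm_pow]
  exact pow_le_pow_of_le_one (norm_nonneg _) x.norm_lt.le (Fact.out : p.Prime).two_le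

theorem Lin1.eq (hd : HD p h Γ) {f : Pt Γ →+ Pt Γ} {c c' : L} (h1 : Lin1 f c) (h2 : Lin1 f c') :
    c = c' := by
  obtain ⟨t, ht0, ht⟩ := hd.exists_t
  refine sub_eq_zero.mp (eq_zero_of_norm_le_mul ht (C := 1) fun n => ?_)
  have ht1 : ‖t ^ (n + 1)‖ < 1 := by rw [norm_pow]; exact pow_lt_one₀ (norm_nonneg _) ht (by simp)
  set x : Pt Γ := Pt.mk _ ht1
  have h := ultra_sub_le (h2 x) (h1 x)
  rw [sub_sub_sub_cancel_left, ← sub_mul, norm_mul, pow_two, Pt.co_mk] at h
  rw [one_mul]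
  exact le_of_mul_le_mul_right h (norm_pos_iff.mpr (pow_ne_zero _ ht0))

theorem Lin1.add {f g : Pt Γ →+ Pt Γ} (hf : IsSer f) (hg : IsSer g) {c d : L} (h1 : Lin1 f c)
    (h2 : Lin1 g d) : Lin1 (f + g) (c + d) := fun x => by
  have h3 := (norm_co_add_sub_le (f x) (g x)).trans
    (pow_le_pow_left₀ (by positivity) (max_le (hf.norm_le x) (hg.norm_le x)) 2)
  have := ultra_add_le (ultra_add_le h3 (h1 x)) (h2 x)
  rw [AddMonoidHom.add_apply]
  convert this using 2
  ring

theorem Lin1.comp {f g : Pt Γ →+ Pt Γ} (hg : IsSer g) {c d : L} (hc : ‖c‖ ≤ 1) (h1 : Lin1 f c)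
    (h2 : Lin1 g d) : Lin1 (f.comp g) (c * d) := fun x => by
  have h3 := (h1 (g x)).trans (pow_le_pow_left₀ (norm_nonneg _) (hg.norm_le x) 2)
  have h4 : ‖c * ((g x).co - d * x.co)‖ ≤ ‖x.co‖ ^ 2 := by
    rw [norm_mul]; exact (mul_le_of_le_one_left (norm_nonneg _) hc).trans (h2 x)
  have := ultra_add_le h3 h4
  rw [AddMonoidHom.comp_apply]
  convert this using 2
  ring

theorem Lin1.norm_le {f : Pt Γ →+ Pt Γ} (hd : HD p h Γ) (hf : IsSer f) {c : L} (h1 : Lin1 f c) :
    ‖c‖ ≤ 1 := by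
  obtain ⟨c', hc', h2⟩ := hf.exists_lin
  rwa [h1.eq hd h2]

end Vale.Agent.P217
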