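import Vale.Agent.P217.TwistHom
import Mathlib.Topology.Compactness.Compact

/-!
# Negatives, rows, and a finite test list for the free subgroup
-/

noncomputable section

namespace Vale.Agent.P217

open MvPolynomial Filter Topology

set_option linter.unusedSectionVars false

variable {L : Type*} [NormedField L] [IsUltrametricDist L] [CompleteSpace L] [IsAlgClosed L]
  {p h : ℕ} [Fact p.Prime] [CharP L p] {Γ : FormalGroup (unitBall L)} [Γ.IsComm] {m : ℕ}

theorem norm_series_sub_le {α β : PowerSeries (unitBall L)} {N : ℕ}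
    (hcoef : ∀ i < N, PowerSeries.coeff i α = PowerSeries.coeff i β) (x : Pt Γ) :
    ‖((fapp α x.1 : unitBall L) : L) - ((fapp β x.1 : unitBall L) : L)‖ ≤ ‖x.co‖ ^ N := by
  have hx : ∀ _ : Unit, IsTopologicallyNilpotent x.1 := fun _ => x.2
  have hT : MvPowerSeries.truncTotal (σ := Unit) N α = MvPowerSeries.truncTotal (σ := Unit) N β := by
    refine MvPolynomial.ext _ _ fun d => ?_
    simp only [MvPowerSeries.coeff_truncTotal_eq_ite]
    split_ifs with hd
    · rw [Finsupp.unique_single d]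
      refine hcoef _ ?_
      rwa [Finsupp.unique_single d, Finsupp.degree_single] at hd
    · rfl
  have h1 := norm_ev_sub_trunc_le (α : MvPowerSeries Unit (unitBall L)) hx N
  have h2 := norm_ev_sub_trunc_le (β : MvPowerSeries Unit (unitBall L)) hx N
  rw [hT] at h1
  have h3 := ultra_sub_le h1 h2
  rw [sub_sub_sub_cancel_right] at h3
  refine h3.trans (pow_le_pow_left₀ (norm_nonneg _) ?_ N)
  exact (pi_norm_le_iff_of_nonneg (norm_nonneg _)).mpr fun _ => le_rfl

theorem isSer_nsmul (j : ℕ) :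
    ∃ α : PowerSeries (unitBall L), PowerSeries.constantCoeff α = 0 ∧
      ∀ x : Pt Γ, (j • x).1 = fapp α x.1 :=
  ⟨mulSeries Γ j, twist_constantCoeff_mulSeries j, coe_nsmul j⟩

theorem HD.exists_neg (hd : HD p h Γ) :
    ∃ ng : Pt Γ →+ Pt Γ, IsSer ng ∧ ∀ x, x + ng x = 0 := by
  obtain ⟨t, ht0, ht⟩ := hd.exists_t
  have hp1 := (Fact.out : p.Prime).one_le
  set α : ℕ → PowerSeries (unitBall L) := fun n => mulSeries Γ (p ^ n - 1) with hα
  have hstep : ∀ n i, i < n →
      PowerSeries.coeff i (α (n + 1)) = PowerSeries.coeff i (α n) := by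
    intro n i hi
    have hb : ∀ y : Unit → unitBall L, (∀ u, IsTopologicallyNilpotent (y u)) →
        ‖((ev (RingHom.id (unitBall L)) y (α (n + 1) - α n) : unitBall L) : L)‖ ≤
          ‖fun u => (y u : L)‖ ^ n := by
      intro y hy
      set x : Pt Γ := ⟨y (), hy ()⟩ with hx
      rw [ev_sub (hasEval_of_finite hy)]
      show ‖((fapp (α (n + 1)) x.1 - fapp (α n) x.1 : unitBall L) : L)‖ ≤ _
      have e : p ^ (n + 1) - 1 = (p ^ n - 1) + (p - 1) * p ^ n := by
        have := Nat.one_le_pow n p hp1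
        rw [pow_succ', Nat.sub_mul, one_mul]
        have := Nat.le_mul_of_pos_left (p ^ n) hp1
        omega
      rw [← coe_nsmul, ← coe_nsmul, e, add_smul, mul_smul]
      set a := (p ^ n - 1) • x
      set b := (p - 1) • p ^ n • x with hb'
      have h1 : ‖(a + b).co - a.co‖ ≤ ‖b.co‖ := by
        have := norm_co_add_sub_add_le a b a 0
        simpa using this
      have h2 : ‖b.co‖ ≤ ‖(p ^ n • x).co‖ := by
        obtain ⟨β, h0, hβ⟩ := isSer_nsmul (Γ := Γ) (p - 1)
        have := Rep.norm_le (rep_sapp (Γ := Γ) h0) (fun _ => p ^ n • x)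
        rw [hb', Pt.co, hβ]
        refine this.trans ((pi_norm_le_iff_of_nonneg (norm_nonneg _)).mpr fun _ => le_rfl)
      refine (h1.trans h2).trans ?_
      rw [hd.co_pow_nsmul, norm_pow]
      refine (pow_le_pow_of_le_one (norm_nonneg _) x.norm_lt.le
        (Nat.lt_pow_self hd.two_le).le).trans (pow_le_pow_left₀ (norm_nonneg _) ?_ n)
      exact norm_le_pi_norm (fun u => (y u : L)) ()
    have := coeff_eq_zero_of_norm_ev_le ht0 ht hb (Finsupp.single () i) (by simpa using hi)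
    rw [map_sub, sub_eq_zero] at this
    exact this
  have hstab : ∀ i M N, i < M → M ≤ N →
      PowerSeries.coeff i (α N) = PowerSeries.coeff i (α M) := fun i M N hiM hMN => by
    induction N, hMN using Nat.le_induction with
    | base => rfl
    | succ N hMN ih => rw [hstep N i (by omega), ih]
  set ι : PowerSeries (unitBall L) := PowerSeries.mk fun i => PowerSeries.coeff i (α (i + 1))
  have hι0 : PowerSeries.constantCoeff ι = 0 := by
    rw [← PowerSeries.coeff_zero_eq_constantCoeff_apply, PowerSeries.coeff_mk,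
      PowerSeries.coeff_zero_eq_constantCoeff_apply]
    exact twist_constantCoeff_mulSeries _
  have hkey : ∀ x : Pt Γ, x + sapp ι hι0 x = 0 := fun x => by
    refine Pt.ext' ?_
    rw [Pt.co_zero, ← norm_le_zero_iff]
    refine ge_of_tendsto' (tendsto_pow_atTop_nhds_zero_of_lt_one (norm_nonneg _) x.norm_lt)
      fun n => ?_
    have h1 : ‖(x + sapp ι hι0 x).co - (x + (p ^ n - 1) • x).co‖ ≤ ‖x.co‖ ^ n := by
      refine (norm_co_add_sub_add_le _ _ _ _).trans (max_le (by simp [pow_nonneg]) ?_)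
      rw [Pt.co, Pt.co, coe_nsmul]
      refine norm_series_sub_le (fun i hi => ?_) x
      rw [PowerSeries.coeff_mk]
      exact (hstab i (i + 1) n (by omega) hi).symm
    have h2 : ‖(x + (p ^ n - 1) • x).co‖ ≤ ‖x.co‖ ^ n := by
      rw [← succ_nsmul', Nat.sub_add_cancel (Nat.one_le_pow n p hp1), hd.co_pow_nsmul, norm_pow]
      exact pow_le_pow_of_le_one (norm_nonneg _) x.norm_lt.le (Nat.lt_pow_self hd.two_le).le
    simpa using ultra_add_le h1 h2
  let ng : Pt Γ →+ Pt Γ :=
    { toFun := sapp ι hι0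
      map_zero' := by simpa using hkey 0
      map_add' := fun x y => by
        calc sapp ι hι0 (x + y)
            = sapp ι hι0 (x + y) + ((x + sapp ι hι0 x) + (y + sapp ι hι0 y)) := by
              rw [hkey, hkey, add_zero, add_zero]
          _ = ((x + y) + sapp ι hι0 (x + y)) + (sapp ι hι0 x + sapp ι hι0 y) := by abel
          _ = _ := by rw [hkey, zero_add] }
  exact ⟨ng, isSer_of_series hι0 fun _ => rfl, hkey⟩

theorem IsSer.lin_pow_eq (hd : HD p h Γ) {f : Pt Γ →+ Pt Γ} {c : L}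
    (h1 : Lin1 f c) : c ^ p ^ h = c := by
  obtain ⟨t, ht0, ht⟩ := hd.exists_t
  refine sub_eq_zero.mp (eq_zero_of_norm_le_mul (t := t ^ p ^ h)
    (by rw [norm_pow]; exact pow_lt_one₀ (norm_nonneg _) ht hd.pos.ne') (C := 1) fun n => ?_)
  have ht1 : ‖t ^ (n + 1)‖ < 1 := by rw [norm_pow]; exact pow_lt_one₀ (norm_nonneg _) ht (by simp)
  set x : Pt Γ := Pt.mk _ ht1 with hx
  have hA := h1 (p • x)
  rw [map_nsmul, hd.co_p_nsmul, hd.co_p_nsmul, norm_pow, ← pow_mul] at hA
  have hB : ‖(f x).co ^ p ^ h - c ^ p ^ h * x.co ^ p ^ h‖ ≤ ‖x.co‖ ^ (p ^ h * 2) := by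
    rw [← mul_pow, ← sub_pow_char_pow, norm_pow, mul_comm (p ^ h) 2, pow_mul]
    exact pow_le_pow_left₀ (norm_nonneg _) (h1 x) _
  have h2 := ultra_sub_le hA hB
  rw [sub_sub_sub_cancel_left, ← sub_mul, norm_mul, norm_pow, pow_mul, pow_two] at h2
  have h3 := le_of_mul_le_mul_right h2 (pow_pos (norm_pos_iff.mpr (by
    simp [hx, ht0])) _)
  rw [one_mul, ← pow_mul, mul_comm (p ^ h) (n + 1), pow_mul, norm_pow]
  exact h3

theorem IsSer.series_props (hd : HD p h Γ) {f : Pt Γ →+ Pt Γ} {α : PowerSeries (unitBall L)}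
    (h0 : PowerSeries.constantCoeff α = 0) (hα : ∀ x, (f x).1 = fapp α x.1) :
    IsHom α Γ Γ ∧ ∀ i, PowerSeries.coeff i α ^ p ^ h = PowerSeries.coeff i α := by
  obtain ⟨t, ht0, ht⟩ := hd.exists_t
  haveI := expChar_ball (L := L) p
  refine ⟨⟨h0, ?_⟩, fun i => ?_⟩
  · refine sub_eq_zero.mp (series_eq_zero_of_forall_ev ht0 ht fun z hz => ?_)
    have hz2 : z = ![z 0, z 1] := by funext s; fin_cases s <;> rfl
    have ha : MvPowerSeries.HasEval z := hasEval_of_finite hz
    set x : Pt Γ := ⟨z 0, hz 0⟩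
    set y : Pt Γ := ⟨z 1, hz 1⟩
    have hX : ∀ i : Fin 2, PowerSeries.HasSubst (MvPowerSeries.X i : MvPowerSeries (Fin 2) (unitBall L)) :=
      fun i => PowerSeries.HasSubst.of_constantCoeff_zero (by simp)
    rw [ev_sub ha, ev_subst1 (PowerSeries.HasSubst.of_constantCoeff_zero Γ.zero_constantCoeff) ha,
      ev_subst (MvPowerSeries.hasSubst_of_constantCoeff_zero fun s => by
        fin_cases s <;> simp [PowerSeries.constantCoeff_subst_eq_zero, h0]) ha, sub_eq_zero]
    have h := congrArg Subtype.val (f.map_add x y)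
    rw [Pt.add_def, hα, Pt.add_def, fadd, fadd, hα, hα] at h
    conv_lhs => rw [hz2]
    refine Eq.trans h ?_
    congr 1
    funext s
    fin_cases s <;> simp [fapp, ev_subst1 (hX _) ha, x, y]
  · set ψ := iterateFrobenius (unitBall L) p h with hψ
    have hψf : ⇑ψ = fun a => a ^ p ^ h := funext fun a => iterateFrobenius_def p h a
    have hcont : Continuous ψ := by rw [hψf]; exact continuous_pow _
    have key : MvPowerSeries.map ψ (α : MvPowerSeries Unit (unitBall L)) - α = 0 := by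
      refine series_eq_zero_of_forall_ev ht0 ht fun z hz => ?_
      obtain ⟨r, hr⟩ := IsAlgClosed.exists_pow_nat_eq ((z () : L)) hd.pos
      have hr1 : ‖r‖ < 1 := by
        by_contra hcon
        have h1 := one_le_pow₀ (not_lt.mp hcon) (n := p ^ h)
        rw [← norm_pow, hr] at h1
        exact h1.not_gt (isTopologicallyNilpotent_ball.mp (hz ()))
      set x : Pt Γ := Pt.mk r hr1 with hx
      have hzx : (fun s : Unit => ψ ((fun _ : Unit => x.1) s)) = z := funext fun s => by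
        refine Subtype.ext ?_
        rw [hψf]
        show ((x.1 ^ p ^ h : unitBall L) : L) = _
        rw [Subring.coe_pow]
        exact hr
      have h1 := map_ev (φ := RingHom.id (unitBall L)) ψ hcont (hasEval1 x.2)
        (α : MvPowerSeries Unit (unitBall L))
      rw [RingHom.comp_id, hzx] at h1
      have hp : p • x = ⟨z (), hz ()⟩ := Pt.ext' (by rw [hd.co_p_nsmul]; exact hr)
      rw [ev_sub (hasEval_of_finite hz), ev_map ψ (hasEval_of_finite hz), RingHom.id_comp, ← h1,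
        sub_eq_zero]
      refine Subtype.ext ?_
      rw [hψf]
      show ((fapp α x.1 ^ p ^ h : unitBall L) : L) = ((fapp α (z ()) : unitBall L) : L)
      rw [← hα, show z () = (p • x).1 from (congrArg Subtype.val hp).symm, ← hα, map_nsmul,
        Subring.coe_pow]
      exact (hd.co_p_nsmul _).symm
    have h1 := congrArg (MvPowerSeries.coeff (Finsupp.single () i)) key
    rw [map_sub, MvPowerSeries.coeff_map, map_zero, sub_eq_zero, hψf] at h1
    exact h1

/-- Freeness for rows of series endomorphisms of points. -/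
def FreeHom (Λ : Set (Fin m → Pt Γ)) : Prop :=
  ∀ f : Fin m → (Pt Γ →+ Pt Γ), (∀ j, IsSer (f j)) → (∃ j, f j ≠ 0) →
    ∃ z ∈ Λ, (∑ j, f j (z j)) ≠ 0

theorem FreeRows.freeHom (hd : HD p h Γ) {Λ : Set (Fin m → Pt Γ)} (hf : FreeRows (p ^ h) Λ) :
    FreeHom Λ := by
  intro f hs hne
  choose α h0 hα using fun j => (hs j).exists_series
  obtain ⟨j, hj⟩ := hne
  obtain ⟨z, hz, hne⟩ := hf α (fun j => ((IsSer.series_props hd (h0 j) (hα j))).1)
    (fun j => (IsSer.series_props hd (h0 j) (hα j)).2) ⟨j, fun h => hj <| by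
      ext x
      refine Subtype.ext ?_
      rw [hα, h]
      exact ev_zero (hasEval1 x.2)⟩
  refine ⟨z, hz, ?_⟩
  convert hne using 3 with i
  exact Subtype.ext (hα i (z i))

/-- Series with coefficients fixed by `x ↦ x^P`. -/
def fixedSeries {P : ℕ} (hP : 2 ≤ P) (c : ℕ → {x : L // x ^ P = x}) : PowerSeries (unitBall L) :=
  PowerSeries.mk fun i => ⟨(c i).1, norm_le_one_of_pow_eq hP (c i).2⟩

/-- A finite test list in a free subgroup, uniform over rows with nonzero linear part. -/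
theorem exists_list (hd : HD p h Γ) {Λ : Set (Fin m → Pt Γ)} (hf : FreeHom Λ) :
    ∃ T : Finset (Fin m → Pt Γ), ↑T ⊆ Λ ∧ ∃ ε : ℝ, 0 < ε ∧
      ∀ f : Fin m → (Pt Γ →+ Pt Γ), (∀ j, IsSer (f j)) →
        (∃ j c, c ≠ 0 ∧ Lin1 (f j) c) → ∃ z ∈ T, ε ≤ ‖(∑ j, f j (z j)).co‖ := by
  classical
  obtain ⟨t, ht0, ht⟩ := hd.exists_t
  set Fq := {x : L // x ^ p ^ h = x}
  haveI : Finite Fq := by
    have hne : (Polynomial.X ^ p ^ h - Polynomial.X : Polynomial L) ≠ 0 :=
      FiniteField.X_pow_card_sub_X_ne_zero L (by have := hd.two_le; omega)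
    refine Set.Finite.to_subtype ((Polynomial.rootSet_finite (Polynomial.X ^ p ^ h - Polynomial.X : Polynomial L) L).subset
      fun x (hx : x ^ p ^ h = x) => ?_)
    rw [Polynomial.mem_rootSet_of_ne hne]
    simp [hx]

  let K := Fin m → ℕ → Fq
  haveI : CompactSpace K := inferInstance
  haveI : DiscreteTopology Fq := inferInstance
  let row : K → (Fin m → (Pt Γ →+ Pt Γ)) → Prop := fun c f =>
    ∀ j, PowerSeries.constantCoeff (fixedSeries hd.two_le (c j)) = 0 ∧
      ∀ x, (f j x).1 = fapp (fixedSeries hd.two_le (c j)) x.1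
  let good : Set K → (Fin m → Pt Γ) → ℝ → Prop := fun U z δ =>
    ∀ c ∈ U, ∀ f, row c f → (∃ j cc, cc ≠ 0 ∧ Lin1 (f j) cc) → δ ≤ ‖(∑ j, f j (z j)).co‖
  have hloc : ∀ c : K, ∃ U : Set K, IsOpen U ∧ c ∈ U ∧
      ((∀ c' ∈ U, ∀ f, row c' f → (∃ j cc, cc ≠ 0 ∧ Lin1 (f j) cc) → False) ∨
        ∃ z ∈ Λ, ∃ δ : ℝ, 0 < δ ∧ good U z δ) := by
    intro c
    let cyl : ℕ → Set K := fun N => {c' | ∀ j, ∀ i : Fin N, c' j i = c j i}
    have hcyl : ∀ N, IsOpen (cyl N) := fun N => by
      simp only [cyl, Set.ofPred_forall]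
      exact isOpen_iInter_of_finite fun j => isOpen_iInter_of_finite fun i =>
        (isOpen_discrete {c j i}).preimage
          (show Continuous fun c' : K => c' j i from (continuous_apply (i : ℕ)).comp (continuous_apply j))
    have hself : ∀ N, c ∈ cyl N := fun N j i => rfl
    have hclose : ∀ N, ∀ c' ∈ cyl N, ∀ j, ∀ x : Pt Γ,
        ‖((fapp (fixedSeries hd.two_le (c' j)) x.1 : unitBall L) : L) -
          ((fapp (fixedSeries hd.two_le (c j)) x.1 : unitBall L) : L)‖ ≤ ‖x.co‖ ^ N :=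
      fun N c' hc' j x => norm_series_sub_le (fun i hi => by
        simp only [fixedSeries, PowerSeries.coeff_mk]
        exact Subtype.ext (congrArg (fun a : Fq => (a : L)) (hc' j ⟨i, hi⟩))) x
    by_cases h0 : ∀ j, (c j 0).1 = 0
    swap
    · refine ⟨cyl 1, hcyl 1, hself 1, .inl fun c' hc' f hf _ => h0 fun j => ?_⟩
      have := (hf j).1
      rw [← PowerSeries.coeff_zero_eq_constantCoeff_apply, fixedSeries, PowerSeries.coeff_mk] at this
      have h := congrArg Subtype.val this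
      simp only [ZeroMemClass.coe_zero] at h
      rw [← hc' j ⟨0, one_pos⟩]
      exact h
    have hc0 : ∀ j, PowerSeries.constantCoeff (fixedSeries hd.two_le (c j)) = 0 := fun j => by
      rw [← PowerSeries.coeff_zero_eq_constantCoeff_apply, fixedSeries, PowerSeries.coeff_mk]
      exact Subtype.ext (h0 j)
    by_cases hadd : ∀ j (x y : Pt Γ), sapp (fixedSeries hd.two_le (c j)) (hc0 j) (x + y) =
        sapp (fixedSeries hd.two_le (c j)) (hc0 j) x + sapp (fixedSeries hd.two_le (c j)) (hc0 j) y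
    swap
    · push Not at hadd
      obtain ⟨j, x, y, hne⟩ := hadd
      set a := sapp (fixedSeries hd.two_le (c j)) (hc0 j) (x + y) with ha
      set b := sapp (fixedSeries hd.two_le (c j)) (hc0 j) x +
        sapp (fixedSeries hd.two_le (c j)) (hc0 j) y with hb
      have hδ : 0 < ‖a.co - b.co‖ := norm_pos_iff.mpr (sub_ne_zero.mpr fun e => hne (Pt.ext' e))
      have hr : max ‖x.co‖ ‖y.co‖ < 1 := max_lt x.norm_lt y.norm_lt
      obtain ⟨N, hN⟩ := exists_pow_lt_of_lt_one hδ hr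
      refine ⟨cyl N, hcyl N, hself N, .inl fun c' hc' f hf _ => ?_⟩
      have h1 : ‖(f j (x + y)).co - a.co‖ ≤ max ‖x.co‖ ‖y.co‖ ^ N := by
        rw [Pt.co, (hf j).2]
        exact (hclose N c' hc' j (x + y)).trans
          (pow_le_pow_left₀ (norm_nonneg _) (norm_co_add_le x y) N)
      have h2 : ‖(f j (x + y)).co - b.co‖ ≤ max ‖x.co‖ ‖y.co‖ ^ N := by
        rw [map_add, hb]
        refine (norm_co_add_sub_add_le _ _ _ _).trans (max_le ?_ ?_)
        · rw [Pt.co, (hf j).2]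
          exact (hclose N c' hc' j x).trans (pow_le_pow_left₀ (norm_nonneg _) (le_max_left _ _) N)
        · rw [Pt.co, (hf j).2]
          exact (hclose N c' hc' j y).trans (pow_le_pow_left₀ (norm_nonneg _) (le_max_right _ _) N)
      have h3 := ultra_sub_le h2 h1
      rw [sub_sub_sub_cancel_left] at h3
      exact (h3.trans_lt hN).false
    let f0 : Fin m → (Pt Γ →+ Pt Γ) := fun j =>
      { toFun := sapp (fixedSeries hd.two_le (c j)) (hc0 j)
        map_zero' := Rep.map_zero' (rep_sapp (Γ := Γ) (hc0 j))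
        map_add' := hadd j }
    have hs0 : ∀ j, IsSer (f0 j) := fun j => isSer_of_series (hc0 j) fun _ => rfl
    by_cases hl : ∃ j cc, cc ≠ 0 ∧ Lin1 (f0 j) cc
    swap
    · refine ⟨cyl 2, hcyl 2, hself 2, .inl ?_⟩
      rintro c' hc' f hf ⟨j, cc, hcc, hlin⟩
      refine hl ⟨j, cc, hcc, fun x => ?_⟩
      have h1 : ‖(f j x).co - (f0 j x).co‖ ≤ ‖x.co‖ ^ 2 := by
        rw [Pt.co, Pt.co, (hf j).2]
        exact hclose 2 c' hc' j x
      have := ultra_sub_le (hlin x) h1
      rwa [sub_sub_sub_cancel_left] at this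
    obtain ⟨j, cc, hcc, hlin⟩ := hl
    obtain ⟨z, hz, hne⟩ := hf f0 hs0 ⟨j, fun e => hcc (hlin.eq hd (e ▸ lin1_zero))⟩
    set v := ∑ j, f0 j (z j) with hv
    have hv0 : 0 < ‖v.co‖ := norm_pos_iff.mpr fun e => hne (Pt.ext' (by rw [e, Pt.co_zero]))
    obtain ⟨N, hN⟩ := exists_pow_lt_of_lt_one hv0 (norm_coV_lt z)
    refine ⟨cyl N, hcyl N, hself N, .inr ⟨z, hz, ‖v.co‖, hv0, fun c' hc' f hf _ => ?_⟩⟩
    have h1 : ‖(∑ j, f j (z j)).co - v.co‖ ≤ ‖coV z‖ ^ N := by
      refine co_sum_sub_sum_le _ _ _ (by positivity) fun i _ => ?_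
      rw [Pt.co, Pt.co, (hf i).2]
      exact (hclose N c' hc' i (z i)).trans
        (pow_le_pow_left₀ (norm_nonneg _) (norm_le_pi_norm (coV z) i) N)
    have h2 := IsUltrametricDist.norm_add_eq_max_of_norm_ne_norm (h1.trans_lt hN).ne
    rw [sub_add_cancel] at h2
    rw [h2]
    exact le_max_right _ _
  choose U hUo hUc hU using hloc
  obtain ⟨S, hS⟩ := isCompact_univ.elim_finite_subcover U hUo fun c _ => Set.mem_iUnion.mpr ⟨c, hUc c⟩
  have hpick : ∀ c : K, ∃ T : Finset (Fin m → Pt Γ), ↑T ⊆ Λ ∧ ∃ δ : ℝ, 0 < δ ∧ ∀ c' ∈ U c, ∀ f,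
      row c' f → (∃ j cc, cc ≠ 0 ∧ Lin1 (f j) cc) → ∃ z ∈ T, δ ≤ ‖(∑ j, f j (z j)).co‖ := by
    intro c
    rcases hU c with h' | ⟨z, hz, δ, hδ, hg⟩
    · exact ⟨∅, by simp, 1, one_pos, fun c' hc' f hf hl => (h' c' hc' f hf hl).elim⟩
    · exact ⟨{z}, by simpa, δ, hδ,
        fun c' hc' f hf hl => ⟨z, by simp, hg c' hc' f hf hl⟩⟩
  choose T hT δ hδ hpick using hpick
  have hmin : ∃ ε : ℝ, 0 < ε ∧ ∀ c ∈ S, ε ≤ δ c := by
    rcases S.eq_empty_or_nonempty with h' | h'
    · exact ⟨1, one_pos, by simp [h']⟩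
    · obtain ⟨b, hb, hbmin⟩ := S.exists_min_image δ h'
      exact ⟨δ b, hδ b, hbmin⟩
  obtain ⟨ε, hε, hεmin⟩ := hmin
  refine ⟨S.biUnion T, by simpa using fun c _ => hT c, ε, hε, fun f hs hl => ?_⟩
  choose α h0 hα using fun j => (hs j).exists_series
  let c : K := fun j i => ⟨(PowerSeries.coeff i (α j) : unitBall L),
    congrArg Subtype.val ((IsSer.series_props hd (h0 j) (hα j)).2 i)⟩
  have hser : ∀ j, fixedSeries hd.two_le (c j) = α j := fun j => PowerSeries.ext fun i => by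
    simp [fixedSeries, c]
  have hrow : row c f := fun j => by rw [hser]; exact ⟨h0 j, hα j⟩
  obtain ⟨b, hb, hcb⟩ := Set.mem_iUnion₂.mp (hS (Set.mem_univ c))
  obtain ⟨z, hz, hzn⟩ := hpick b c hcb f hrow hl
  exact ⟨z, Finset.mem_biUnion.mpr ⟨b, hb, hz⟩, (hεmin b hb).trans hzn⟩

end Vale.Agent.P217
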