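import Vale.Agent.P217.TwistDeriv
import Vale.Agent.P217.TwistList
import Mathlib.Algebra.MvPolynomial.Monad

/-!
# Twisting and changes of variables of small series
-/

noncomputable section

namespace Vale.Agent.P217

open MvPolynomial Filter Topology

set_option linter.unusedSectionVars false

variable {L : Type*} [NormedField L] [IsUltrametricDist L] [CompleteSpace L] [IsAlgClosed L]
  {p h : ℕ} [Fact p.Prime] [CharP L p] {Γ : FormalGroup (unitBall L)} [Γ.IsComm] {m : ℕ}
  {Λ : AddSubmonoid (Fin m → Pt Γ)}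

protected theorem AV.sub (hd : HD p h Γ) {G H : MvPowerSeries (Fin m) L}
    (hG : AV (p ^ h) (Λ : Set (Fin m → Pt Γ)) G) (hH : AV (p ^ h) (Λ : Set (Fin m → Pt Γ)) H) :
    AV (p ^ h) (Λ : Set (Fin m → Pt Γ)) (G - H) := by
  refine AV.of_approx hd fun D => ?_
  obtain ⟨k₁, C₁, hC₁, h₁⟩ := hG.exists_bound hd D
  obtain ⟨k₂, C₂, hC₂, h₂⟩ := hH.exists_bound hd D
  refine ⟨k₁ + k₂, max C₁ C₂, G.truncTotal D - H.truncTotal D, fun d hdd => by
    rw [coeff_sub, MvPowerSeries.coeff_truncTotal _ hdd, MvPowerSeries.coeff_truncTotal _ hdd,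
      map_sub], fun z hz => ?_⟩
  have e₁ : p ^ (k₁ + k₂) • z = p ^ k₁ • (p ^ k₂ • z) := by rw [← mul_smul, ← pow_add]
  have e₂ : p ^ (k₁ + k₂) • z = p ^ k₂ • (p ^ k₁ • z) := by
    rw [← mul_smul, ← pow_add, add_comm]
  have a := h₁ _ (nsmul_mem hz (p ^ k₂))
  have b := h₂ _ (nsmul_mem hz (p ^ k₁))
  rw [← e₁] at a
  rw [← e₂] at b
  rw [map_sub]
  exact ultra_sub_le (a.trans (mul_le_mul_of_nonneg_right (le_max_left _ _) (by positivity)))
    (b.trans (mul_le_mul_of_nonneg_right (le_max_right _ _) (by positivity)))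

/-- The Euler operator `X_i ∂_i`. -/
def eulSer (i : Fin m) (G : MvPowerSeries (Fin m) L) : MvPowerSeries (Fin m) L :=
  fun d => (d i : L) * MvPowerSeries.coeff d G

theorem coeff_eulSer (i : Fin m) (G : MvPowerSeries (Fin m) L) (d : Fin m →₀ ℕ) :
    MvPowerSeries.coeff d (eulSer i G) = (d i : L) * MvPowerSeries.coeff d G := rfl

protected theorem AV.eulSer (hd : HD p h Γ) {G : MvPowerSeries (Fin m) L} {i : Fin m}
    (hG : AV (p ^ h) (Λ : Set (Fin m → Pt Γ)) (dser i G)) :
    AV (p ^ h) (Λ : Set (Fin m → Pt Γ)) (eulSer i G) := by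
  refine AV.of_approx hd fun D => ?_
  obtain ⟨k, C, hC, hb⟩ := hG.exists_bound hd D
  refine ⟨k, C, X i * (dser i G).truncTotal D, fun d hdd => ?_, fun z hz => ?_⟩
  · classical
    rw [coeff_X_mul', coeff_eulSer]
    by_cases hi : i ∈ d.support
    · rw [if_pos hi]
      have h1 : d - Finsupp.single i 1 + Finsupp.single i 1 = d :=
        Finsupp.sub_add_single_one_cancel (Finsupp.mem_support_iff.mp hi)
      have h2 : (d - Finsupp.single i 1).degree < D := by
        have := congrArg Finsupp.degree h1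
        rw [map_add, Finsupp.degree_single] at this
        omega
      rw [MvPowerSeries.coeff_truncTotal _ h2, coeff_dser, h1]
      have h3 := congrArg (fun e => ((e i : ℕ) : L)) h1
      simp only [Finsupp.add_apply, Finsupp.single_eq_same, Nat.cast_add, Nat.cast_one] at h3
      rw [h3]; ring
    · rw [if_neg hi, Finsupp.notMem_support_iff.mp hi]; simp
  · rw [map_mul, eval_X, norm_mul]
    exact (mul_le_of_le_one_left (norm_nonneg _)
      ((norm_le_pi_norm _ i).trans (norm_coV_lt _).le)).trans (hb z hz)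

/-- The part with exponents divisible by `p` at all `i ∈ J`. -/
def filtSer (p : ℕ) (J : Finset (Fin m)) (G : MvPowerSeries (Fin m) L) : MvPowerSeries (Fin m) L :=
  fun d => if ∀ i ∈ J, p ∣ d i then MvPowerSeries.coeff d G else 0

theorem coeff_filtSer (J : Finset (Fin m)) (G : MvPowerSeries (Fin m) L) (d : Fin m →₀ ℕ) :
    MvPowerSeries.coeff d (filtSer p J G) =
      if ∀ i ∈ J, p ∣ d i then MvPowerSeries.coeff d G else 0 := rfl

theorem natCast_pow_pred (n : ℕ) (hn : ¬ p ∣ n) : (n : L) ^ (p - 1) = 1 := by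
  have h1 : (n : ZMod p) ^ (p - 1) = 1 :=
    ZMod.pow_card_sub_one_eq_one fun e => hn ((ZMod.natCast_eq_zero_iff n p).mp e)
  simpa using congrArg (ZMod.castHom (dvd_refl p) L) h1

protected theorem AV.filtSer (hd : HD p h Γ) {J : Finset (Fin m)}
    (hD : ∀ i ∈ J, ∀ G, AV (p ^ h) (Λ : Set (Fin m → Pt Γ)) G →
      AV (p ^ h) (Λ : Set (Fin m → Pt Γ)) (dser i G))
    {G : MvPowerSeries (Fin m) L} (hG : AV (p ^ h) (Λ : Set (Fin m → Pt Γ)) G) :
    AV (p ^ h) (Λ : Set (Fin m → Pt Γ)) (filtSer p J G) := by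
  classical
  induction J using Finset.induction_on with
  | empty =>
    have : Vale.Agent.P217.filtSer p ∅ G = G := MvPowerSeries.ext fun d => by simp [coeff_filtSer]
    rwa [this]
  | @insert i J hi ih =>
    have hF := ih fun j hj => hD j (Finset.mem_insert_of_mem hj)
    set F := Vale.Agent.P217.filtSer p J G with hFdef
    have hit : ∀ j, AV (p ^ h) (Λ : Set (Fin m → Pt Γ)) ((Vale.Agent.P217.eulSer i)^[j] F) ∧
        ∀ d, MvPowerSeries.coeff d ((Vale.Agent.P217.eulSer i)^[j] F) =
          (d i : L) ^ j * MvPowerSeries.coeff d F := fun j => by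
      induction j with
      | zero => exact ⟨hF, by simp⟩
      | succ j ihj =>
        rw [Function.iterate_succ_apply']
        exact ⟨AV.eulSer hd (hD i (Finset.mem_insert_self i J) _ ihj.1), fun d => by
          rw [coeff_eulSer, ihj.2, pow_succ']; ring⟩
    have : Vale.Agent.P217.filtSer p (insert i J) G =
        F - (Vale.Agent.P217.eulSer i)^[p - 1] F := MvPowerSeries.ext fun d => by
      rw [map_sub, (hit (p - 1)).2, hFdef, coeff_filtSer, coeff_filtSer]
      by_cases hpi : p ∣ d i
      · have h0 : (d i : L) = 0 := (CharP.cast_eq_zero_iff L p (d i)).mpr hpi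
        rw [h0, zero_pow (by have := (Fact.out : p.Prime).two_le; omega)]
        simp [hpi]
      · rw [natCast_pow_pred _ hpi, one_mul, sub_self, if_neg fun hh =>
          hpi (hh i (Finset.mem_insert_self i J))]
    rw [this]
    exact hF.sub hd (hit (p - 1)).1

/-- Multiply exponents in `J` by `p`. -/
def scaleExp (p : ℕ) (J : Finset (Fin m)) (d : Fin m →₀ ℕ) : Fin m →₀ ℕ :=
  Finsupp.equivFunOnFinite.symm fun i => if i ∈ J then p * d i else d i

theorem scaleExp_apply (J : Finset (Fin m)) (d : Fin m →₀ ℕ) (i : Fin m) :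
    scaleExp p J d i = if i ∈ J then p * d i else d i := rfl

/-- The series `G''` with `G''(y_J^p) = G(y)` on exponents divisible by `p` in `J`. -/
def shrinkSer (p : ℕ) (J : Finset (Fin m)) (G : MvPowerSeries (Fin m) L) :
    MvPowerSeries (Fin m) L :=
  fun d => MvPowerSeries.coeff (scaleExp p J d) G

theorem coeff_shrinkSer (J : Finset (Fin m)) (G : MvPowerSeries (Fin m) L) (d : Fin m →₀ ℕ) :
    MvPowerSeries.coeff d (shrinkSer p J G) = MvPowerSeries.coeff (scaleExp p J d) G := rfl

/-- Frobenius in the coordinates in `J`. -/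
def twistHom (hd : HD p h Γ) (J : Finset (Fin m)) : (Fin m → Pt Γ) →+ (Fin m → Pt Γ) :=
  AddMonoidHom.piMap fun i => if i ∈ J then frobHom hd else AddMonoidHom.id _

theorem twistHom_apply (hd : HD p h Γ) (J : Finset (Fin m)) (z : Fin m → Pt Γ) (i : Fin m) :
    twistHom hd J z i = if i ∈ J then frobHom hd (z i) else z i := by
  show (if i ∈ J then frobHom hd else AddMonoidHom.id _) (z i) = _
  split_ifs <;> rfl

protected theorem AV.shrinkSer (hd : HD p h Γ) {J : Finset (Fin m)} {G : MvPowerSeries (Fin m) L}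
    (hG : AV (p ^ h) (Λ : Set (Fin m → Pt Γ)) (filtSer p J G)) :
    AV (p ^ h) (Λ.map (twistHom hd J) : Set (Fin m → Pt Γ)) (shrinkSer p J G) := by
  classical
  refine AV.of_approx hd fun D => ?_
  obtain ⟨k, C, hC, hb⟩ := hG.exists_bound hd (p * D)
  set T := (Vale.Agent.P217.filtSer p J G).truncTotal (p * D) with hT
  set un : (Fin m →₀ ℕ) → (Fin m →₀ ℕ) := fun e =>
    Finsupp.equivFunOnFinite.symm fun i => if i ∈ J then e i / p else e i with hun
  have hdiv : ∀ e ∈ T.support, ∀ i ∈ J, p ∣ e i := fun e he => by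
    by_contra hcon
    apply MvPolynomial.mem_support_iff.mp he
    rw [hT, MvPowerSeries.coeff_truncTotal_eq_ite]
    split_ifs
    · rw [coeff_filtSer, if_neg hcon]
    · rfl
  refine ⟨k, C, ∑ e ∈ T.support, monomial (un e) (T.coeff e), fun d hdd => ?_, fun z' hz' => ?_⟩
  · have hdeg : (scaleExp p J d).degree < p * D := by
      refine lt_of_le_of_lt ?_ (Nat.mul_lt_mul_of_pos_left hdd (Fact.out : p.Prime).pos)
      simp only [Finsupp.degree_eq_sum, Finset.mul_sum]
      refine Finset.sum_le_sum fun i _ => ?_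
      rw [scaleExp_apply]; split_ifs
      · exact le_rfl
      · exact Nat.le_mul_of_pos_left _ (Fact.out : p.Prime).pos
    have hscale : ∀ i ∈ J, p ∣ scaleExp p J d i := fun i hi => by simp [scaleExp_apply, hi]
    have hus : un (scaleExp p J d) = d := Finsupp.ext fun i => by
      by_cases hi : i ∈ J <;>
        simp [hun, scaleExp_apply, hi, (Fact.out : p.Prime).pos]
    rw [coeff_sum, Finset.sum_eq_single (scaleExp p J d)]
    · rw [coeff_monomial, if_pos hus, hT, MvPowerSeries.coeff_truncTotal _ hdeg, coeff_filtSer,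
        if_pos hscale, coeff_shrinkSer]
    · intro e he hne
      rw [coeff_monomial, if_neg]
      intro hue
      refine hne (Finsupp.ext fun i => ?_)
      rw [← hue, scaleExp_apply, hun]
      by_cases hi : i ∈ J
      · simp [hi, Nat.mul_div_cancel' (hdiv e he i hi)]
      · simp [hi]
    · intro hns
      rw [MvPolynomial.notMem_support_iff.mp hns]
      simp
  · obtain ⟨z, hz, rfl⟩ := AddSubmonoid.mem_map.mp hz'
    rw [← map_nsmul]
    set w := p ^ k • z with hw
    have hpt : ∀ e ∈ T.support, (∏ i, coV (twistHom hd J w) i ^ un e i) = ∏ i, coV w i ^ e i :=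
      fun e he => Finset.prod_congr rfl fun i _ => by
        rw [coV_apply, twistHom_apply, hun]
        by_cases hi : i ∈ J
        · simp [hi, coV, ← pow_mul, Nat.mul_div_cancel' (hdiv e he i hi)]
        · simp [hi, coV]
    have hev : eval (coV (twistHom hd J w)) (∑ e ∈ T.support, monomial (un e) (T.coeff e)) =
        eval (coV w) T := by
      rw [map_sum, eval_eq' (coV w) T]
      exact Finset.sum_congr rfl fun e he => by
        rw [eval_monomial, Finsupp.prod_fintype _ _ (by simp), hpt e he]
    rw [hev]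
    refine (hb z hz).trans (mul_le_mul_of_nonneg_left ?_ hC)
    rw [pow_mul]
    refine pow_le_pow_left₀ (by positivity) ?_ D
    rcases isEmpty_or_nonempty (Fin m) with hm | hm
    · have : coV w = 0 := Subsingleton.elim _ _
      rw [← hw, this, norm_zero, zero_pow (Fact.out : p.Prime).ne_zero]
      positivity
    · obtain ⟨i, -, hi⟩ := Finset.univ.exists_max_image (fun i => ‖coV w i‖) Finset.univ_nonempty
      have hn : ‖coV w‖ ≤ ‖coV w i‖ :=
        (pi_norm_le_iff_of_nonneg (norm_nonneg _)).mpr fun j => hi j (Finset.mem_univ j)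
      refine (pow_le_pow_left₀ (norm_nonneg _) hn p).trans ?_
      refine le_trans ?_ (norm_le_pi_norm (coV (twistHom hd J w)) i)
      rw [coV_apply, coV_apply, twistHom_apply]
      split_ifs
      · simp
      · exact pow_le_of_le_one (norm_nonneg _) (w i).norm_lt.le (Fact.out : p.Prime).ne_zero

omit [CompleteSpace L] [IsAlgClosed L] in
/-- A change of variables by series without constant term, and its compatibility with polynomial
truncations. -/
theorem coeff_subst_eq_bind {S : Fin m → MvPowerSeries (Fin m) L}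
    (hS : ∀ i, MvPowerSeries.constantCoeff (S i) = 0) (G : MvPowerSeries (Fin m) L) {D : ℕ}
    {d : Fin m →₀ ℕ} (hd : d.degree < D) :
    MvPowerSeries.coeff d (MvPowerSeries.subst S G) =
      (bind₁ (fun i => (S i).truncTotal D) (G.truncTotal D)).coeff d := by
  classical
  have hsub : MvPowerSeries.HasSubst S := MvPowerSeries.hasSubst_of_constantCoeff_zero hS
  set Q := G.truncTotal D with hQ
  set A : MvPowerSeries (Fin m) L := (Q : MvPowerSeries (Fin m) L) with hA
  have hrest : MvPowerSeries.coeff d (MvPowerSeries.subst S (G - A)) = 0 := by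
    rw [MvPowerSeries.coeff_subst hsub]
    refine finsum_eq_zero_of_forall_eq_zero fun e => ?_
    by_cases he : e.degree < D
    · simp [hA, hQ, MvPolynomial.coeff_coe, MvPowerSeries.coeff_truncTotal _ he]
    · have hord : (e.degree : ℕ∞) ≤ (e.prod fun s n => S s ^ n).order := by
        refine le_trans ?_ (MvPowerSeries.le_order_prod _ _)
        rw [Finsupp.degree_apply, Nat.cast_sum]
        refine Finset.sum_le_sum fun i _ => ?_
        exact MvPowerSeries.le_order_pow_of_constantCoeff_eq_zero _ (hS i)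
      rw [MvPowerSeries.coeff_of_lt_order (lt_of_lt_of_le (by exact_mod_cast (show d.degree < e.degree by omega)) hord),
        smul_zero]
  have hpoly : ∀ R : MvPolynomial (Fin m) L, ∀ e : Fin m →₀ ℕ, e.degree < D →
      MvPowerSeries.coeff e (MvPolynomial.aeval S R) =
        (bind₁ (fun i => (S i).truncTotal D) R).coeff e := by
    intro R
    induction R using MvPolynomial.induction_on with
    | C a =>
      intro e _
      rw [aeval_C, bind₁_C_right, MvPolynomial.coeff_C, ← MvPowerSeries.c_eq_algebraMap,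
        MvPowerSeries.coeff_C]
      simp [eq_comm]
    | add a b ha hb =>
      intro e he
      simp only [map_add, MvPolynomial.coeff_add, ha e he, hb e he]
    | mul_X a i ha =>
      intro e he
      rw [map_mul (MvPolynomial.aeval S), map_mul (bind₁ fun i => (S i).truncTotal D), aeval_X, bind₁_X_right, MvPowerSeries.coeff_mul, MvPolynomial.coeff_mul]
      refine Finset.sum_congr rfl fun q hq => ?_
      rw [Finset.mem_antidiagonal] at hq
      have := congrArg Finsupp.degree hq
      rw [map_add] at this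
      rw [ha q.1 (by omega), MvPowerSeries.coeff_truncTotal _ (show q.2.degree < D by omega)]
  have : MvPowerSeries.subst S G =
      MvPowerSeries.subst S A + MvPowerSeries.subst S (G - A) := by
    rw [← MvPowerSeries.subst_add hsub, add_sub_cancel]
  rw [this, map_add, hrest, add_zero, hA, MvPowerSeries.subst_coe, hpoly Q d hd]

/-- The substituted series, with coefficients in the field. -/
def pullSer (S : Fin m → MvPowerSeries (Fin m) (unitBall L)) (G : MvPowerSeries (Fin m) L) :
    MvPowerSeries (Fin m) L :=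
  MvPowerSeries.subst (fun i => MvPowerSeries.map (unitBall L).subtype (S i)) G

theorem eval_bind_sub_le {T : (Fin m → Pt Γ) → (Fin m → Pt Γ)}
    {S : Fin m → MvPowerSeries (Fin m) (unitBall L)}
    (hS : ∀ i x, (T x i).1 = ev (RingHom.id (unitBall L)) (fun j => (x j).1) (S i))
    {Q : MvPolynomial (Fin m) L} {C : ℝ} (hC : 0 ≤ C) (hQ : ∀ d, ‖Q.coeff d‖ ≤ C) (D : ℕ)
    (w : Fin m → Pt Γ) :
    ‖eval (coV w) (bind₁ (fun i => (MvPowerSeries.map (unitBall L).subtype (S i)).truncTotal D) Q) -
      eval (coV (T w)) Q‖ ≤ C * ‖coV w‖ ^ D := by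
  set a : Fin m → L := fun i =>
    eval (coV w) ((MvPowerSeries.map (unitBall L).subtype (S i)).truncTotal D) with ha
  have hmap : ∀ i, (MvPowerSeries.map (unitBall L).subtype (S i)).truncTotal D =
      MvPolynomial.map (unitBall L).subtype ((S i).truncTotal D) := fun i =>
    MvPolynomial.ext _ _ fun d => by
      rw [MvPolynomial.coeff_map, MvPowerSeries.coeff_truncTotal_eq_ite,
        MvPowerSeries.coeff_truncTotal_eq_ite, MvPowerSeries.coeff_map]
      split_ifs <;> simp
  have hclose : ‖coV (T w) - a‖ ≤ ‖coV w‖ ^ D :=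
    (pi_norm_le_iff_of_nonneg (by positivity)).mpr fun i => by
      rw [Pi.sub_apply, coV_apply, Pt.co, hS, ha]
      simp only [hmap]
      exact norm_ev_sub_trunc_le (S i) (fun j => (w j).2) D
  have ha1 : ‖a‖ ≤ 1 := (pi_norm_le_iff_of_nonneg zero_le_one).mpr fun i => by
    have h1 := ((norm_le_pi_norm (coV (T w) - a) i).trans hclose).trans
      (pow_le_one₀ (norm_nonneg _) (norm_coV_lt w).le)
    have h2 := ultra_sub_le ((norm_le_pi_norm (coV (T w)) i).trans (norm_coV_lt _).le) h1
    simpa using h2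
  have hev : eval (coV w) (bind₁ (fun i =>
      (MvPowerSeries.map (unitBall L).subtype (S i)).truncTotal D) Q) = eval a Q :=
    eval₂Hom_bind₁ (RingHom.id L) (coV w) _ Q
  rw [hev, norm_sub_rev]
  exact (norm_eval_sub_le hC hQ (norm_coV_lt _).le ha1).trans (mul_le_mul_of_nonneg_left hclose hC)

/-- Change of variables inverse to `Nh`. -/
protected theorem AV.pullSer (hd : HD p h Γ) {G : MvPowerSeries (Fin m) L}
    (hG : AV (p ^ h) (Λ : Set (Fin m → Pt Γ)) G) (Nh : (Fin m → Pt Γ) →+ (Fin m → Pt Γ))
    {T : (Fin m → Pt Γ) → (Fin m → Pt Γ)}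
    {S : Fin m → MvPowerSeries (Fin m) (unitBall L)}
    (hS0 : ∀ i, MvPowerSeries.constantCoeff (S i) = 0)
    (hS : ∀ i x, (T x i).1 = ev (RingHom.id (unitBall L)) (fun j => (x j).1) (S i))
    (hTN : ∀ z, T (Nh z) = z) :
    AV (p ^ h) (Λ.map Nh : Set (Fin m → Pt Γ)) (pullSer S G) := by
  refine AV.of_approx hd fun D => ?_
  obtain ⟨k, C, hC, hb⟩ := hG.exists_bound hd D
  obtain ⟨C2, hC2, hQC⟩ := exists_coeff_bound (G.truncTotal D)
  set K := max C C2
  refine ⟨k, K, bind₁ (fun i => (MvPowerSeries.map (unitBall L).subtype (S i)).truncTotal D)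
    (G.truncTotal D), fun d hdd => (coeff_subst_eq_bind (fun i => ?_) G hdd).symm, fun z' hz' => ?_⟩
  · rw [MvPowerSeries.constantCoeff_map, hS0, map_zero]
  · obtain ⟨z, hz, rfl⟩ := AddSubmonoid.mem_map.mp hz'
    rw [← map_nsmul]
    set w := Nh (p ^ k • z) with hw
    have h1 := eval_bind_sub_le hS (zero_le_one.trans hC2) hQC D w
    have h2 := hb z hz
    have hTw : T w = p ^ k • z := hTN _
    rw [hTw] at h1
    have hle : ‖coV (p ^ k • z)‖ ≤ ‖coV w‖ := by
      rw [← hTw]
      refine (pi_norm_le_iff_of_nonneg (norm_nonneg _)).mpr fun i => ?_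
      exact Rep.norm_le ⟨S i, hS0 i, hS i⟩ w
    have h3 := ultra_add_le (h1.trans (mul_le_mul_of_nonneg_right (le_max_right C C2) (by positivity)))
      (h2.trans (mul_le_mul (le_max_left C C2) (pow_le_pow_left₀ (norm_nonneg _) hle D)
        (by positivity) (hC.trans (le_max_left C C2))))
    simpa using h3

end Vale.Agent.P217
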